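import Vale.Agent.P095.MathlibUsed

set_option linter.all false

namespace AFastb3f85cx4a
theorem a0.{u1, u2} {x1 : Type u1} {x2 : Type u2} [x3 : CStarAlgebra x2] : SubringClass (StarSubalgebra ℂ (x1 → x2)) (x1 → x2) := inferInstance
@[reducible] noncomputable def a1.{u1, u2} {x1 : Type u1} {x2 : Type u2} [x3 : CStarAlgebra x2] : SetLike (StarSubalgebra ℂ (x1 → x2)) (x1 → x2) := inferInstance
theorem a2.{u1, u2} {x1 : Type u1} {x2 : Type u2} [x3 : CStarAlgebra x2] : StarModule ℂ (x1 → x2) := inferInstance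
@[reducible] def a3.{u1, u2} {x1 : Type u1} {x2 : Type u2} {x3 : x1} [x4 : CStarAlgebra x2] : StarMul ((fun a => x2) x3) := inferInstance
@[reducible] noncomputable def a4.{u1, u2} {x1 : Type u1} {x2 : Type u2} [x3 : CStarAlgebra x2] {x4 : StarSubalgebra ℂ (x1 → x2)} : Add ↥x4 := inferInstance
@[reducible] noncomputable def a5.{u1, u2} {x1 : Type u1} {x2 : Type u2} [x3 : CStarAlgebra x2] {x4 : StarSubalgebra ℂ (x1 → x2)} : Distrib ↥x4 := inferInstance
@[reducible] noncomputable def a6.{u1, u2} {x1 : Type u1} {x2 : Type u2} [x3 : CStarAlgebra x2] {x4 : StarSubalgebra ℂ (x1 → x2)} : Semiring ↥x4 := inferInstance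
@[reducible] noncomputable def a7.{u1, u2} {x1 : Type u1} {x2 : Type u2} [x3 : CStarAlgebra x2] {x4 : StarSubalgebra ℂ (x1 → x2)} : Mul ↥x4 := inferInstance
theorem a8 {x1 : Type} [x2 : Fintype x1] [x3 : DecidableEq x1] : StarModule ℂ C(↑unitInterval, Matrix x1 x1 ℂ) := inferInstance
@[reducible] noncomputable def a9.{u1, u2} {x1 : Type u1} {x2 : Type u2} [x3 : CStarAlgebra x2] {x4 : StarSubalgebra ℂ (x1 → x2)} : Ring ↥x4 := inferInstance
theorem a10 : IsTopologicalSemiring ℂ := inferInstance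
@[reducible] def a11.{u1, u2} {x1 : Type u1} {x2 : Type u2} {x3 : x1} [x4 : CStarAlgebra x2] : InvolutiveStar ((fun a => x2) x3) := inferInstance
theorem a12.{u1, u2} {x1 : Type u1} {x2 : Type u2} [x3 : CStarAlgebra x2] : StarMemClass (StarSubalgebra ℂ (x1 → x2)) (x1 → x2) := inferInstance
theorem a13 {x1 : Type} [x2 : Fintype x1] [x3 : DecidableEq x1] : SubringClass (StarSubalgebra ℂ C(↑unitInterval, Matrix x1 x1 ℂ)) C(↑unitInterval, Matrix x1 x1 ℂ) := inferInstance
@[reducible] def a14.{u1, u2} {x1 : Type u1} {x2 : Type u2} [x3 : CStarAlgebra x2] : Semiring (x1 → x2) := inferInstance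
@[reducible] def a15.{u1, u2} {x1 : Type u1} {x2 : Type u2} [x3 : CStarAlgebra x2] : Algebra ℂ (x1 → x2) := inferInstance
@[reducible] noncomputable def a16.{u1, u2} {x1 : Type u1} {x2 : Type u2} [x3 : CStarAlgebra x2] : StarRing (x1 → x2) := inferInstance
theorem a17 : IsTopologicalRing ℂ := inferInstance
theorem a18.{u1, u2} {x1 : Type u1} {x2 : Type u2} [x3 : CStarAlgebra x2] : SubsemiringClass (StarSubalgebra ℂ (x1 → x2)) (x1 → x2) := inferInstance
@[reducible] def a19.{u1, u2} {x1 : Type u1} {x2 : Type u2} {x3 : x1} [x4 : CStarAlgebra x2] : NonUnitalSemiring ((fun a => x2) x3) := inferInstance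
@[reducible] noncomputable def a20 {x1 : Type} [x2 : DecidableEq x1] [x3 : Fintype x1] : Semiring C(↑unitInterval, Matrix x1 x1 ℂ) := inferInstance
@[reducible] noncomputable def a21.{u1, u2} {x1 : Type u1} {x2 : Type u2} [x3 : CStarAlgebra x2] {x4 : StarSubalgebra ℂ (x1 → x2)} : NonUnitalNonAssocRing ↥x4 := inferInstance
@[reducible] noncomputable def a22.{u1, u2} {x1 : Type u1} {x2 : Type u2} [x3 : CStarAlgebra x2] {x4 : StarSubalgebra ℂ (x1 → x2)} {x5 : RingCon ↥x4} : NonUnitalNonAssocSemiring x5.Quotient := inferInstance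
@[reducible] def a23.{u1, u2} {x1 : Type u1} {x2 : Type u2} {x3 : x1} [x4 : CStarAlgebra x2] : NonUnitalNonAssocSemiring ((fun a => x2) x3) := inferInstance
@[reducible] noncomputable def a24.{u1, u2} {x1 : Type u1} {x2 : Type u2} [x3 : CStarAlgebra x2] {x4 : StarSubalgebra ℂ (x1 → x2)} : NonAssocRing ↥x4 := inferInstance
@[reducible] noncomputable def a25 {x1 : Type} [x2 : DecidableEq x1] [x3 : Fintype x1] : Ring C(↑unitInterval, Matrix x1 x1 ℂ) := inferInstance
theorem a26 {x1 : Type} [x2 : Fintype x1] : IsTopologicalSemiring (Matrix x1 x1 ℂ) := inferInstance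
theorem a27 {x1 : Type} [x2 : Fintype x1] [x3 : DecidableEq x1] : ContinuousConstSMul ℂ (Matrix x1 x1 ℂ) := inferInstance
@[reducible] def a28.{u1, u2} {x1 : Type u1} {x2 : Type u2} {x3 : x1} [x4 : CStarAlgebra x2] : Distrib ((fun a => x2) x3) := inferInstance
@[reducible] def a29.{u1} {x1 : Type u1} [x2 : CStarAlgebra x1] : MulOne (x1 ≃⋆ₐ[ℂ] x1) := inferInstance
@[reducible] def a30.{u1} {x1 : Type u1} [x2 : CStarAlgebra x1] : MulOneClass (x1 ≃⋆ₐ[ℂ] x1) := inferInstance
@[reducible] def a31.{u1, u2} {x1 : Type u1} {x2 : Type u2} [x3 : CStarAlgebra x2] : Star (x1 → x2) := inferInstance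
@[reducible] def a32.{u1} {x1 : Type u1} [x2 : CStarAlgebra x1] : Monoid (x1 ≃⋆ₐ[ℂ] x1) := inferInstance
theorem a33 : IsTopologicalDivisionRing ℂ := inferInstance
theorem a34.{u1, u2} {x1 : Type u1} {x2 : Type u2} [x3 : CStarAlgebra x2] : AddSubgroupClass (StarSubalgebra ℂ (x1 → x2)) (x1 → x2) := inferInstance
theorem a35 {x1 : Type} [x2 : Fintype x1] : IsTopologicalRing (Matrix x1 x1 ℂ) := inferInstance
theorem a36.{u1, u2} {x1 : Type u1} {x2 : Type u2} [x3 : CStarAlgebra x2] : AddSubmonoidClass (StarSubalgebra ℂ (x1 → x2)) (x1 → x2) := inferInstance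
theorem a37 {x1 : Type} : StarModule ℂ (Matrix x1 x1 ℂ) := inferInstance
@[reducible] noncomputable def a38.{u1, u2} {x1 : Type u1} {x2 : Type u2} [x3 : CStarAlgebra x2] {x4 : StarSubalgebra ℂ (x1 → x2)} {x5 : RingCon ↥x4} : NonUnitalNonAssocRing x5.Quotient := inferInstance
@[reducible] noncomputable def a39.{u1, u2} {x1 : Type u1} {x2 : Type u2} [x3 : CStarAlgebra x2] {x4 : StarSubalgebra ℂ (x1 → x2)} {x5 : RingCon ↥x4} : AddCommMonoid x5.Quotient := inferInstance
end AFastb3f85cx4a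
attribute [local instance] AFastb3f85cx4a.a0 AFastb3f85cx4a.a1 AFastb3f85cx4a.a2 AFastb3f85cx4a.a3
  AFastb3f85cx4a.a4 AFastb3f85cx4a.a5 AFastb3f85cx4a.a6 AFastb3f85cx4a.a7 AFastb3f85cx4a.a8
  AFastb3f85cx4a.a9 AFastb3f85cx4a.a10 AFastb3f85cx4a.a11 AFastb3f85cx4a.a12 AFastb3f85cx4a.a13
  AFastb3f85cx4a.a14 AFastb3f85cx4a.a15 AFastb3f85cx4a.a16 AFastb3f85cx4a.a17 AFastb3f85cx4a.a18
  AFastb3f85cx4a.a19 AFastb3f85cx4a.a20 AFastb3f85cx4a.a21 AFastb3f85cx4a.a22 AFastb3f85cx4a.a23
  AFastb3f85cx4a.a24 AFastb3f85cx4a.a25 AFastb3f85cx4a.a26 AFastb3f85cx4a.a27 AFastb3f85cx4a.a28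
  AFastb3f85cx4a.a29 AFastb3f85cx4a.a30 AFastb3f85cx4a.a31 AFastb3f85cx4a.a32 AFastb3f85cx4a.a33
  AFastb3f85cx4a.a34 AFastb3f85cx4a.a35 AFastb3f85cx4a.a36 AFastb3f85cx4a.a37 AFastb3f85cx4a.a38
  AFastb3f85cx4a.a39
namespace AFastb3f85cx4b
@[reducible] noncomputable def a0.{u1, u2} {x1 : Type u1} {x2 : Type u2} [x3 : CStarAlgebra x2] {x4 : StarSubalgebra ℂ (x1 → x2)} {x5 : RingCon ↥x4} [x6 : StarRing x5.Quotient] : Star x5.Quotient := inferInstance
@[reducible] noncomputable def a1.{u1, u2} {x1 : Type u1} {x2 : Type u2} [x3 : CStarAlgebra x2] {x4 : StarSubalgebra ℂ (x1 → x2)} {x5 : RingCon ↥x4} [x6 : StarRing x5.Quotient] : InvolutiveStar x5.Quotient := inferInstance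
@[reducible] noncomputable def a2.{u1, u2} {x1 : Type u1} {x2 : Type u2} [x3 : CStarAlgebra x2] {x4 : StarSubalgebra ℂ (x1 → x2)} {x5 : RingCon ↥x4} : SMul ℂ x5.Quotient := inferInstance
@[reducible] noncomputable def a3.{u1, u2} {x1 : Type u1} {x2 : Type u2} [x3 : CStarAlgebra x2] {x4 : StarSubalgebra ℂ (x1 → x2)} {x5 : RingCon ↥x4} [x6 : StarRing x5.Quotient] : StarAddMonoid x5.Quotient := inferInstance
@[reducible] def a4.{u1, u2} {x1 : Type u1} {x2 : Type u2} [x3 : CStarAlgebra x2] {x4 : StarSubalgebra ℂ (x1 → x2)} {x5 : RingCon ↥x4} [x6 : StarRing x5.Quotient] : StarMul x5.Quotient := inferInstance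
theorem a5.{u1, u2} {x1 : Type u1} {x2 : Type u2} [x3 : CStarAlgebra x2] : NonUnitalSubsemiringClass (StarSubalgebra ℂ (x1 → x2)) (x1 → x2) := inferInstance
end AFastb3f85cx4b
attribute [local instance] AFastb3f85cx4b.a0 AFastb3f85cx4b.a1 AFastb3f85cx4b.a2 AFastb3f85cx4b.a3
  AFastb3f85cx4b.a4 AFastb3f85cx4b.a5
section

open Filter Topology
open scoped Kronecker

namespace Vale.Agent.P101

universe u v

/-- Bounded functions `x : ι → A` with `‖x i * a - a * x i‖ → 0` along `μ` for every `a : A`. -/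
def centralSeq (A : Type u) [CStarAlgebra A] {ι : Type v} (μ : Filter ι) :
    StarSubalgebra ℂ (ι → A) where
  carrier := {x | (∃ C : ℝ, ∀ i, ‖x i‖ ≤ C) ∧
    ∀ a : A, Tendsto (fun i => ‖x i * a - a * x i‖) μ (𝓝 0)}
  mul_mem' := by
    rintro x y ⟨⟨C, hC⟩, hx⟩ ⟨⟨D, hD⟩, hy⟩
    refine ⟨⟨C * D, fun i => ?_⟩, fun a => ?_⟩
    · exact (norm_mul_le _ _).trans
        (mul_le_mul (hC i) (hD i) (norm_nonneg _) ((norm_nonneg _).trans (hC i)))
    · have h : Tendsto (fun i => C * ‖y i * a - a * y i‖ + ‖x i * a - a * x i‖ * D) μ (𝓝 0) := by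
        simpa using ((hy a).const_mul C).add ((hx a).mul_const D)
      refine squeeze_zero (fun i => norm_nonneg _) (fun i => ?_) h
      have e : (x * y) i * a - a * (x * y) i
          = x i * (y i * a - a * y i) + (x i * a - a * x i) * y i := by
        simp only [Pi.mul_apply]; noncomm_ring
      rw [e]
      refine (norm_add_le _ _).trans (add_le_add ?_ ?_)
      · exact (norm_mul_le _ _).trans (mul_le_mul_of_nonneg_right (hC i) (norm_nonneg _))
      · exact (norm_mul_le _ _).trans (mul_le_mul_of_nonneg_left (hD i) (norm_nonneg _))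
  add_mem' := by
    rintro x y ⟨⟨C, hC⟩, hx⟩ ⟨⟨D, hD⟩, hy⟩
    refine ⟨⟨C + D, fun i => (norm_add_le _ _).trans (add_le_add (hC i) (hD i))⟩, fun a => ?_⟩
    have h : Tendsto (fun i => ‖x i * a - a * x i‖ + ‖y i * a - a * y i‖) μ (𝓝 0) := by
      simpa using (hx a).add (hy a)
    refine squeeze_zero (fun i => norm_nonneg _) (fun i => ?_) h
    have e : (x + y) i * a - a * (x + y) i = (x i * a - a * x i) + (y i * a - a * y i) := by
      simp only [Pi.add_apply]; noncomm_ring
    rw [e]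
    exact norm_add_le _ _
  algebraMap_mem' := by
    intro r
    refine ⟨⟨‖algebraMap ℂ A r‖, fun i => le_rfl⟩, fun a => ?_⟩
    have : (fun i : ι => ‖(algebraMap ℂ (ι → A) r) i * a - a * (algebraMap ℂ (ι → A) r) i‖)
        = fun _ => (0 : ℝ) := by
      funext i
      simp [Pi.algebraMap_apply, Algebra.commutes r a]
    rw [this]
    exact tendsto_const_nhds
  star_mem' := by
    rintro x ⟨⟨C, hC⟩, hx⟩
    refine ⟨⟨C, fun i => by simpa using hC i⟩, fun a => ?_⟩
    refine (hx (star a)).congr (fun i => ?_)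
    have e : (star x) i * a - a * (star x) i = -star (x i * star a - star a * x i) := by
      simp only [Pi.star_apply, star_sub, star_mul, star_star]; noncomm_ring
    rw [e, norm_neg, norm_star]

/-- The congruence on `centralSeq A μ` identifying `x` and `y` when `‖x i - y i‖ → 0` along
`μ`. -/
def nullCon (A : Type u) [CStarAlgebra A] {ι : Type v} (μ : Filter ι) :
    RingCon (centralSeq A μ) where
  r x y := Tendsto (fun i => ‖(x : ι → A) i - (y : ι → A) i‖) μ (𝓝 0)
  iseqv :=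
    { refl := fun x => by
        simp only [sub_self, norm_zero]; exact tendsto_const_nhds
      symm := fun {x y} h => by
        refine h.congr (fun i => ?_)
        rw [norm_sub_rev]
      trans := fun {x y z} h₁ h₂ => by
        have h : Tendsto (fun i => ‖(x : ι → A) i - (y : ι → A) i‖
            + ‖(y : ι → A) i - (z : ι → A) i‖) μ (𝓝 0) := by simpa using h₁.add h₂
        exact squeeze_zero (fun i => norm_nonneg _) (fun i => norm_sub_le_norm_sub_add_norm_sub _ _ _) h }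
  add' := fun {w x y z} h₁ h₂ => by
    have h : Tendsto (fun i => ‖(w : ι → A) i - (x : ι → A) i‖
        + ‖(y : ι → A) i - (z : ι → A) i‖) μ (𝓝 0) := by simpa using h₁.add h₂
    refine squeeze_zero (fun i => norm_nonneg _) (fun i => ?_) h
    have e : ((w + y : centralSeq A μ) : ι → A) i - ((x + z : centralSeq A μ) : ι → A) i
        = ((w : ι → A) i - (x : ι → A) i) + ((y : ι → A) i - (z : ι → A) i) := by
      simp only [AddMemClass.coe_add, Pi.add_apply]; abel
    rw [e]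
    exact norm_add_le _ _
  mul' := fun {w x y z} h₁ h₂ => by
    obtain ⟨C, hC⟩ := x.2.1
    obtain ⟨D, hD⟩ := y.2.1
    have h : Tendsto (fun i => ‖(w : ι → A) i - (x : ι → A) i‖ * D
        + C * ‖(y : ι → A) i - (z : ι → A) i‖) μ (𝓝 0) := by
      simpa using (h₁.mul_const D).add (h₂.const_mul C)
    refine squeeze_zero (fun i => norm_nonneg _) (fun i => ?_) h
    have e : ((w * y : centralSeq A μ) : ι → A) i - ((x * z : centralSeq A μ) : ι → A) i
        = ((w : ι → A) i - (x : ι → A) i) * (y : ι → A) i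
          + (x : ι → A) i * ((y : ι → A) i - (z : ι → A) i) := by
      simp only [MulMemClass.coe_mul, Pi.mul_apply]; noncomm_ring
    rw [e]
    refine (norm_add_le _ _).trans (add_le_add ?_ ?_)
    · exact (norm_mul_le _ _).trans (mul_le_mul_of_nonneg_left (hD i) (norm_nonneg _))
    · exact (norm_mul_le _ _).trans (mul_le_mul_of_nonneg_right (hC i) (norm_nonneg _))

/-- The central sequence algebra `A_μ ∩ A'`. -/
abbrev Fcs (A : Type u) [CStarAlgebra A] {ι : Type v} (μ : Filter ι) : Type (max u v) :=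
  (nullCon A μ).Quotient

/-- Pointwise involution on the central sequence algebra. -/
noncomputable instance (A : Type u) [CStarAlgebra A] {ι : Type v} (μ : Filter ι) : StarRing (Fcs A μ) where
  star := Quotient.map' star (fun x y h => by
    refine Tendsto.congr (fun i => ?_) h
    show _ = ‖((star x : centralSeq A μ) : ι → A) i - ((star y : centralSeq A μ) : ι → A) i‖
    rw [show ((star x : centralSeq A μ) : ι → A) i - ((star y : centralSeq A μ) : ι → A) i
      = star ((x : ι → A) i - (y : ι → A) i) by simp, norm_star])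
  star_involutive := by
    rintro ⟨x⟩
    exact congrArg (Quotient.mk'' (s₁ := (nullCon A μ).toSetoid)) (star_star x)
  star_mul := by
    rintro ⟨x⟩ ⟨y⟩
    exact congrArg (Quotient.mk'' (s₁ := (nullCon A μ).toSetoid)) (star_mul x y)
  star_add := by
    rintro ⟨x⟩ ⟨y⟩
    exact congrArg (Quotient.mk'' (s₁ := (nullCon A μ).toSetoid)) (star_add x y)

/-- The dimension drop algebra `I(p, q)`: continuous `f : [0,1] → M_p ⊗ M_q` with
`f 0 ∈ M_p ⊗ 1` and `f 1 ∈ 1 ⊗ M_q`. -/
def dimDrop (p q : ℕ) :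
    StarSubalgebra ℂ C(unitInterval, Matrix (Fin p × Fin q) (Fin p × Fin q) ℂ) where
  carrier := {f | (∃ x : Matrix (Fin p) (Fin p) ℂ, f 0 = x ⊗ₖ (1 : Matrix (Fin q) (Fin q) ℂ)) ∧
    ∃ y : Matrix (Fin q) (Fin q) ℂ, f 1 = (1 : Matrix (Fin p) (Fin p) ℂ) ⊗ₖ y}
  mul_mem' := by
    rintro f g ⟨⟨x, hx⟩, ⟨y, hy⟩⟩ ⟨⟨x', hx'⟩, ⟨y', hy'⟩⟩
    refine ⟨⟨x * x', ?_⟩, ⟨y * y', ?_⟩⟩
    · simp [hx, hx', ← Matrix.mul_kronecker_mul]
    · simp [hy, hy', ← Matrix.mul_kronecker_mul]
  add_mem' := by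
    rintro f g ⟨⟨x, hx⟩, ⟨y, hy⟩⟩ ⟨⟨x', hx'⟩, ⟨y', hy'⟩⟩
    refine ⟨⟨x + x', ?_⟩, ⟨y + y', ?_⟩⟩
    · simp [hx, hx', Matrix.add_kronecker]
    · simp [hy, hy', Matrix.kronecker_add]
  algebraMap_mem' := by
    intro r
    refine ⟨⟨r • 1, ?_⟩, ⟨r • 1, ?_⟩⟩
    · rw [Matrix.smul_kronecker, Matrix.one_kronecker_one, Algebra.algebraMap_eq_smul_one]
      rfl
    · rw [Matrix.kronecker_smul, Matrix.one_kronecker_one, Algebra.algebraMap_eq_smul_one]
      rfl
  star_mem' := by
    rintro f ⟨⟨x, hx⟩, ⟨y, hy⟩⟩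
    refine ⟨⟨star x, ?_⟩, ⟨star y, ?_⟩⟩
    · simp [hx, Matrix.star_eq_conjTranspose, Matrix.conjTranspose_kronecker]
    · simp [hy, Matrix.star_eq_conjTranspose, Matrix.conjTranspose_kronecker]

end Vale.Agent.P101
end
namespace AFastb3f85cx152a
@[reducible] noncomputable def a0.{u1, u2} {x1 : Type u1} {x2 : Type u2} [x3 : CStarAlgebra x2] {x4 : Filter x1} : Semiring ↥(Vale.Agent.P101.centralSeq x2 x4) := inferInstance
@[reducible] noncomputable def a1.{u1, u2} {x1 : Type u1} {x2 : Type u2} [x3 : CStarAlgebra x2] {x4 : Filter x1} : Ring ↥(Vale.Agent.P101.centralSeq x2 x4) := inferInstance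
@[reducible] noncomputable def a2.{u1, u2} {x1 : Type u1} {x2 : Type u2} [x3 : CStarAlgebra x2] {x4 : Filter x1} : Mul ↥(Vale.Agent.P101.centralSeq x2 x4) := inferInstance
@[reducible] noncomputable def a3.{u1, u2} {x1 : Type u1} {x2 : Type u2} [x3 : CStarAlgebra x2] {x4 : Filter x1} : Distrib ↥(Vale.Agent.P101.centralSeq x2 x4) := inferInstance
@[reducible] noncomputable def a4.{u1, u2} {x1 : Type u1} {x2 : Type u2} [x3 : CStarAlgebra x2] {x4 : Filter x1} : Add ↥(Vale.Agent.P101.centralSeq x2 x4) := inferInstance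
@[reducible] noncomputable def a5.{u1, u2} {x1 : Type u1} {x2 : Type u2} [x3 : CStarAlgebra x2] {x4 : Filter x1} : NonUnitalNonAssocSemiring (Vale.Agent.P101.nullCon x2 x4).Quotient := inferInstance
@[reducible] noncomputable def a6.{u1, u2} {x1 : Type u1} {x2 : Type u2} [x3 : CStarAlgebra x2] {x4 : Filter x1} : NonUnitalNonAssocSemiring ↥(Vale.Agent.P101.centralSeq x2 x4) := inferInstance
@[reducible] noncomputable def a7.{u1, u2} {x1 : Type u1} {x2 : Type u2} [x3 : CStarAlgebra x2] {x4 : Filter x1} : NonAssocSemiring ↥(Vale.Agent.P101.centralSeq x2 x4) := inferInstance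
@[reducible] noncomputable def a8.{u1, u2} {x1 : Type u1} {x2 : Type u2} [x3 : CStarAlgebra x2] {x4 : Filter x1} : Star ↥(Vale.Agent.P101.centralSeq x2 x4) := inferInstance
@[reducible] noncomputable def a9.{u1, u2} {x1 : Type u1} {x2 : Type u2} [x3 : CStarAlgebra x2] {x4 : Filter x1} : NonUnitalNonAssocRing ↥(Vale.Agent.P101.centralSeq x2 x4) := inferInstance
@[reducible] noncomputable def a10.{u1, u2} {x1 : Type u1} {x2 : Type u2} [x3 : CStarAlgebra x2] {x4 : Filter x1} : NonAssocRing ↥(Vale.Agent.P101.centralSeq x2 x4) := inferInstance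
@[reducible] noncomputable def a11.{u1, u2} {x1 : Type u1} {x2 : Type u2} [x3 : CStarAlgebra x2] {x4 : Filter x1} : Algebra ℂ ↥(Vale.Agent.P101.centralSeq x2 x4) := inferInstance
end AFastb3f85cx152a
attribute [local instance] AFastb3f85cx152a.a0 AFastb3f85cx152a.a1 AFastb3f85cx152a.a2
  AFastb3f85cx152a.a3 AFastb3f85cx152a.a4 AFastb3f85cx152a.a5 AFastb3f85cx152a.a6
  AFastb3f85cx152a.a7 AFastb3f85cx152a.a8 AFastb3f85cx152a.a9 AFastb3f85cx152a.a10
  AFastb3f85cx152a.a11
namespace AFastb3f85cx152b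
@[reducible] noncomputable def a0.{u1, u2} {x1 : Type u1} [x2 : CStarAlgebra x1] {x3 : Type u2} {x4 : Filter x3} : StarAddMonoid (Vale.Agent.P101.Fcs x1 x4) := inferInstance
@[reducible] noncomputable def a1.{u1, u2} {x1 : Type u1} [x2 : CStarAlgebra x1] {x3 : Type u2} {x4 : Filter x3} : Star (Vale.Agent.P101.Fcs x1 x4) := inferInstance
@[reducible] noncomputable def a2.{u1, u2} {x1 : Type u1} [x2 : CStarAlgebra x1] {x3 : Type u2} {x4 : Filter x3} : InvolutiveStar (Vale.Agent.P101.Fcs x1 x4) := inferInstance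
@[reducible] noncomputable def a3.{u1, u2} {x1 : Type u1} {x2 : Type u2} [x3 : CStarAlgebra x2] {x4 : Filter x1} : StarAddMonoid (Vale.Agent.P101.nullCon x2 x4).Quotient := inferInstance
@[reducible] noncomputable def a4.{u1, u2} {x1 : Type u1} {x2 : Type u2} [x3 : CStarAlgebra x2] {x4 : Filter x1} : Star (Vale.Agent.P101.nullCon x2 x4).Quotient := inferInstance
@[reducible] noncomputable def a5.{u1, u2} {x1 : Type u1} {x2 : Type u2} [x3 : CStarAlgebra x2] {x4 : Filter x1} : InvolutiveStar (Vale.Agent.P101.nullCon x2 x4).Quotient := inferInstance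
end AFastb3f85cx152b
attribute [local instance] AFastb3f85cx152b.a0 AFastb3f85cx152b.a1 AFastb3f85cx152b.a2
  AFastb3f85cx152b.a3 AFastb3f85cx152b.a4 AFastb3f85cx152b.a5

section

/-! C*-structure on quotients of algebras of bounded functions `ι → B` by the functions that are
null along a filter. -/

open Filter Topology

namespace Vale.Agent.P101

universe u v

namespace SeqQuot

variable {B : Type u} [CStarAlgebra B] {ι : Type v}

/-- Essential supremum of the norm along `μ`. -/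
noncomputable def nrm (μ : Filter ι) (x : ι → B) : ℝ :=
  sInf {r : ℝ | 0 ≤ r ∧ ∀ᶠ i in μ, ‖x i‖ ≤ r}

lemma nrm_nonneg (μ : Filter ι) (x : ι → B) : 0 ≤ nrm μ x :=
  Real.sInf_nonneg fun _ hr => hr.1

lemma nrm_le {μ : Filter ι} {x : ι → B} {r : ℝ} (h0 : 0 ≤ r) (h : ∀ᶠ i in μ, ‖x i‖ ≤ r) :
    nrm μ x ≤ r :=
  csInf_le ⟨0, fun _ hs => hs.1⟩ ⟨h0, h⟩

lemma eventually_lt {μ : Filter ι} {x : ι → B} (hb : ∃ K : ℝ, ∀ i, ‖x i‖ ≤ K) {c : ℝ}
    (h : nrm μ x < c) : ∀ᶠ i in μ, ‖x i‖ < c := by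
  obtain ⟨K, hK⟩ := hb
  obtain ⟨r, ⟨_, hr⟩, hrc⟩ := exists_lt_of_csInf_lt
    (s := {r : ℝ | 0 ≤ r ∧ ∀ᶠ i in μ, ‖x i‖ ≤ r})
    ⟨max K 0, le_max_right _ _, Eventually.of_forall fun i => (hK i).trans (le_max_left _ _)⟩ h
  exact hr.mono fun i hi => hi.trans_lt hrc

lemma nrm_add_le {μ : Filter ι} {x y : ι → B} (hx : ∃ K : ℝ, ∀ i, ‖x i‖ ≤ K)
    (hy : ∃ K : ℝ, ∀ i, ‖y i‖ ≤ K) : nrm μ (x + y) ≤ nrm μ x + nrm μ y := by
  refine le_of_forall_pos_le_add fun ε hε => ?_
  have h1 := eventually_lt hx (μ := μ) (c := nrm μ x + ε / 2) (by linarith only [hε])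
  have h2 := eventually_lt hy (μ := μ) (c := nrm μ y + ε / 2) (by linarith)
  refine nrm_le (by linarith only [hε, nrm_nonneg μ x, nrm_nonneg μ y]) ?_
  filter_upwards [h1, h2] with i hi1 hi2
  exact (norm_add_le _ _).trans (by linarith only [hi1, hi2])

lemma nrm_neg {μ : Filter ι} (x : ι → B) : nrm μ (-x) = nrm μ x := by
  unfold nrm; simp only [Pi.neg_apply, norm_neg]

lemma nrm_mul_le {μ : Filter ι} {x y : ι → B} (hx : ∃ K : ℝ, ∀ i, ‖x i‖ ≤ K)
    (hy : ∃ K : ℝ, ∀ i, ‖y i‖ ≤ K) : nrm μ (x * y) ≤ nrm μ x * nrm μ y := by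
  have key : ∀ ε > 0, nrm μ (x * y) ≤ (nrm μ x + ε) * (nrm μ y + ε) := by
    intro ε hε
    have h1 := eventually_lt hx (μ := μ) (c := nrm μ x + ε) (by linarith)
    have h2 := eventually_lt hy (μ := μ) (c := nrm μ y + ε) (by linarith)
    have h3 := nrm_nonneg μ x
    have h4 := nrm_nonneg μ y
    refine nrm_le (by (clear * - h3 hε h4; positivity)) ?_
    filter_upwards [h1, h2] with i hi1 hi2
    exact (norm_mul_le _ _).trans (mul_le_mul hi1.le hi2.le (norm_nonneg _) (by (clear * - h3 hε; positivity)))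
  have hlim : Tendsto (fun ε : ℝ => (nrm μ x + ε) * (nrm μ y + ε)) (𝓝[>] 0)
      (𝓝 ((nrm μ x + 0) * (nrm μ y + 0))) := by
    apply Tendsto.mono_left _ nhdsWithin_le_nhds
    have : Continuous (fun ε : ℝ => (nrm μ x + ε) * (nrm μ y + ε)) := by fun_prop
    exact this.tendsto 0
  rw [add_zero, add_zero] at hlim
  refine ge_of_tendsto hlim ?_
  filter_upwards [self_mem_nhdsWithin] with ε hε
  exact key ε hε

lemma nrm_smul {μ : Filter ι} (c : ℂ) {x : ι → B} (hx : ∃ K : ℝ, ∀ i, ‖x i‖ ≤ K) :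
    nrm μ (c • x) ≤ ‖c‖ * nrm μ x := by
  have key : ∀ ε > 0, nrm μ (c • x) ≤ ‖c‖ * (nrm μ x + ε) := by
    intro ε hε
    have h1 := eventually_lt hx (μ := μ) (c := nrm μ x + ε) (by linarith)
    have h3 := nrm_nonneg μ x
    refine nrm_le (by positivity) ?_
    filter_upwards [h1] with i hi1
    rw [Pi.smul_apply, norm_smul]
    exact mul_le_mul_of_nonneg_left hi1.le (norm_nonneg _)
  have hlim : Tendsto (fun ε : ℝ => ‖c‖ * (nrm μ x + ε)) (𝓝[>] 0)
      (𝓝 (‖c‖ * (nrm μ x + 0))) := by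
    apply Tendsto.mono_left _ nhdsWithin_le_nhds
    have : Continuous (fun ε : ℝ => ‖c‖ * (nrm μ x + ε)) := by fun_prop
    exact this.tendsto 0
  rw [add_zero] at hlim
  refine ge_of_tendsto hlim ?_
  filter_upwards [self_mem_nhdsWithin] with ε hε
  exact key ε hε

lemma nrm_sq_le {μ : Filter ι} {x : ι → B} (hx : ∃ K : ℝ, ∀ i, ‖x i‖ ≤ K) :
    nrm μ x * nrm μ x ≤ nrm μ (star x * x) := by
  have hb : ∃ K : ℝ, ∀ i, ‖(star x * x) i‖ ≤ K := by
    obtain ⟨K, hK⟩ := hx
    refine ⟨K * K, fun i => ?_⟩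
    rw [Pi.mul_apply, Pi.star_apply, CStarRing.norm_star_mul_self]
    exact mul_le_mul (hK i) (hK i) (norm_nonneg _) ((norm_nonneg _).trans (hK i))
  refine le_of_forall_pos_le_add fun ε hε => ?_
  have h1 := eventually_lt hb (μ := μ) (c := nrm μ (star x * x) + ε) (by linarith only [hε])
  have h0 := nrm_nonneg μ (star x * x)
  have h2 : nrm μ x ≤ Real.sqrt (nrm μ (star x * x) + ε) := by
    refine nrm_le (Real.sqrt_nonneg _) ?_
    filter_upwards [h1] with i hi
    rw [Pi.mul_apply, Pi.star_apply, CStarRing.norm_star_mul_self] at hi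
    exact Real.le_sqrt_of_sq_le (by rw [sq]; exact hi.le)
  calc nrm μ x * nrm μ x ≤ Real.sqrt (nrm μ (star x * x) + ε) *
        Real.sqrt (nrm μ (star x * x) + ε) :=
        mul_le_mul h2 h2 (nrm_nonneg _ _) (Real.sqrt_nonneg _)
    _ = nrm μ (star x * x) + ε := Real.mul_self_sqrt (by linarith)

lemma nrm_eq_zero_iff {μ : Filter ι} {x : ι → B} (hx : ∃ K : ℝ, ∀ i, ‖x i‖ ≤ K) :
    nrm μ x = 0 ↔ Tendsto (fun i => ‖x i‖) μ (𝓝 0) := by
  constructor
  · intro h
    rw [Metric.tendsto_nhds]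
    intro ε hε
    have := eventually_lt hx (μ := μ) (c := ε) (by rw [h]; exact hε)
    filter_upwards [this] with i hi
    rwa [dist_zero_right, norm_norm]
  · intro h
    refine le_antisymm ?_ (nrm_nonneg _ _)
    refine le_of_forall_pos_le_add fun ε hε => ?_
    rw [zero_add]
    refine nrm_le hε.le ?_
    have := (Metric.tendsto_nhds.mp h) ε hε
    filter_upwards [this] with i hi
    rw [dist_zero_right, norm_norm] at hi
    exact hi.le

/-- Conditions on an algebra of functions making its quotient by null functions a C*-algebra. -/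
structure IsSeqAlg (μ : Filter ι) (C : StarSubalgebra ℂ (ι → B)) : Prop where
  bdd : ∀ x ∈ C, ∃ K : ℝ, ∀ i, ‖x i‖ ≤ K
  cut : ∀ x ∈ C, ∀ s ∈ μ, s.indicator x ∈ C
  lim : ∀ x : ι → B, (∀ ε : ℝ, 0 < ε → ∃ y ∈ C, ∀ i, ‖x i - y i‖ ≤ ε) → x ∈ C

/-- The congruence of equality up to null functions. -/
def nullConG (μ : Filter ι) (C : StarSubalgebra ℂ (ι → B)) (hC : IsSeqAlg μ C) : RingCon C where
  r x y := Tendsto (fun i => ‖(x : ι → B) i - (y : ι → B) i‖) μ (𝓝 0)
  iseqv :=
    { refl := fun x => by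
        simp only [sub_self, norm_zero]; exact tendsto_const_nhds
      symm := fun {x y} h => by
        refine h.congr (fun i => ?_)
        rw [norm_sub_rev]
      trans := fun {x y z} h₁ h₂ => by
        have h : Tendsto (fun i => ‖(x : ι → B) i - (y : ι → B) i‖
            + ‖(y : ι → B) i - (z : ι → B) i‖) μ (𝓝 0) := by simpa using h₁.add h₂
        exact squeeze_zero (fun i => norm_nonneg _)
          (fun i => norm_sub_le_norm_sub_add_norm_sub _ _ _) h }
  add' := fun {w x y z} h₁ h₂ => by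
    have h : Tendsto (fun i => ‖(w : ι → B) i - (x : ι → B) i‖
        + ‖(y : ι → B) i - (z : ι → B) i‖) μ (𝓝 0) := by simpa using h₁.add h₂
    refine squeeze_zero (fun i => norm_nonneg _) (fun i => ?_) h
    have e : ((w + y : C) : ι → B) i - ((x + z : C) : ι → B) i
        = ((w : ι → B) i - (x : ι → B) i) + ((y : ι → B) i - (z : ι → B) i) := by
      simp only [AddMemClass.coe_add, Pi.add_apply]; abel
    rw [e]
    exact norm_add_le _ _
  mul' := fun {w x y z} h₁ h₂ => by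
    obtain ⟨K, hK⟩ := hC.bdd x x.2
    obtain ⟨D, hD⟩ := hC.bdd y y.2
    have h : Tendsto (fun i => ‖(w : ι → B) i - (x : ι → B) i‖ * D
        + K * ‖(y : ι → B) i - (z : ι → B) i‖) μ (𝓝 0) := by
      simpa using (h₁.mul_const D).add (h₂.const_mul K)
    refine squeeze_zero (fun i => norm_nonneg _) (fun i => ?_) h
    have e : ((w * y : C) : ι → B) i - ((x * z : C) : ι → B) i
        = ((w : ι → B) i - (x : ι → B) i) * (y : ι → B) i
          + (x : ι → B) i * ((y : ι → B) i - (z : ι → B) i) := by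
      simp only [MulMemClass.coe_mul, Pi.mul_apply]; noncomm_ring
    rw [e]
    refine (norm_add_le _ _).trans (add_le_add ?_ ?_)
    · exact (norm_mul_le _ _).trans (mul_le_mul_of_nonneg_left (hD i) (norm_nonneg _))
    · exact (norm_mul_le _ _).trans (mul_le_mul_of_nonneg_right (hK i) (norm_nonneg _))

section Con

variable {μ : Filter ι} {C : StarSubalgebra ℂ (ι → B)} (hC : IsSeqAlg μ C) (c : RingCon C)
  (hc : ∀ x y : C, c x y ↔ Tendsto (fun i => ‖(x : ι → B) i - (y : ι → B) i‖) μ (𝓝 0))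

include hC in
lemma nrm_congr (x y : C)
    (h : Tendsto (fun i => ‖(x : ι → B) i - (y : ι → B) i‖) μ (𝓝 0)) :
    nrm μ (x : ι → B) = nrm μ (y : ι → B) := by
  have key : ∀ x y : C, Tendsto (fun i => ‖(x : ι → B) i - (y : ι → B) i‖) μ (𝓝 0) →
      nrm μ (x : ι → B) ≤ nrm μ (y : ι → B) := by
    intro x y h
    have e : (x : ι → B) = ((x - y : C) : ι → B) + (y : ι → B) := by
      simp
    have h0 : nrm μ ((x - y : C) : ι → B) = 0 := by
      rw [nrm_eq_zero_iff (hC.bdd _ (x - y).2)]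
      exact h.congr fun i => by simp only [AddSubgroupClass.coe_sub, Pi.sub_apply]
    rw [e]
    refine (nrm_add_le (hC.bdd _ (x - y).2) (hC.bdd _ y.2)).trans ?_
    rw [h0, zero_add]
  refine le_antisymm (key x y h) (key y x (h.congr fun i => norm_sub_rev _ _))

/-- The quotient norm. -/
noncomputable def qnrm (q : c.Quotient) : ℝ := nrm μ ((Quotient.out q : C) : ι → B)

include hC hc in
lemma qnrm_mk (x : C) : qnrm (μ := μ) c (x : c.Quotient) = nrm μ (x : ι → B) := by
  unfold qnrm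
  apply nrm_congr hC
  rw [← hc]
  exact (c.eq).mp (Quotient.out_eq _)

/-- The norm on the quotient as a ring norm. -/
noncomputable def ringNorm : RingNorm c.Quotient where
  toFun := qnrm (μ := μ) c
  map_zero' := by
    change qnrm (μ := μ) c ((0 : C) : c.Quotient) = 0
    rw [qnrm_mk hC c hc, nrm_eq_zero_iff (hC.bdd _ (0 : C).2)]
    simp only [ZeroMemClass.coe_zero, Pi.zero_apply, norm_zero]
    exact tendsto_const_nhds
  add_le' := by
    rintro ⟨x⟩ ⟨y⟩
    change qnrm (μ := μ) c ((x + y : C) : c.Quotient) ≤ qnrm (μ := μ) c (x : c.Quotient) +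
      qnrm (μ := μ) c (y : c.Quotient)
    rw [qnrm_mk hC c hc, qnrm_mk hC c hc, qnrm_mk hC c hc]
    exact nrm_add_le (hC.bdd _ x.2) (hC.bdd _ y.2)
  neg' := by
    rintro ⟨x⟩
    change qnrm (μ := μ) c ((-x : C) : c.Quotient) = qnrm (μ := μ) c (x : c.Quotient)
    rw [qnrm_mk hC c hc, qnrm_mk hC c hc]
    exact nrm_neg _
  mul_le' := by
    rintro ⟨x⟩ ⟨y⟩
    change qnrm (μ := μ) c ((x * y : C) : c.Quotient) ≤ qnrm (μ := μ) c (x : c.Quotient) *
      qnrm (μ := μ) c (y : c.Quotient)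
    rw [qnrm_mk hC c hc, qnrm_mk hC c hc, qnrm_mk hC c hc]
    exact nrm_mul_le (hC.bdd _ x.2) (hC.bdd _ y.2)
  eq_zero_of_map_eq_zero' := by
    rintro ⟨x⟩ h
    change qnrm (μ := μ) c (x : c.Quotient) = 0 at h
    rw [qnrm_mk hC c hc, nrm_eq_zero_iff (hC.bdd _ x.2)] at h
    change (x : c.Quotient) = ((0 : C) : c.Quotient)
    rw [c.eq, hc]
    exact h.congr fun i => by simp

include hC hc in
/-- Completeness of the quotient. -/
lemma complete_aux : @CompleteSpace c.Quotient
    (ringNorm hC c hc).toNormedRing.toPseudoMetricSpace.toUniformSpace := by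
  let _ := (ringNorm hC c hc).toNormedRing
  have hnorm : ∀ x : C, ‖(x : c.Quotient)‖ = nrm μ (x : ι → B) := fun x => qnrm_mk hC c hc x
  refine Metric.complete_of_convergent_controlled_sequences (fun n => (1 / 2) / 2 ^ n)
    (fun n => by positivity) ?_
  intro u hu
  choose x hx using fun n => (Quotient.mk_surjective (s := c.toSetoid) (u n))
  have hx' : ∀ n, ((x n : C) : c.Quotient) = u n := hx
  have hd : ∀ n, nrm μ ((x (n + 1) - x n : C) : ι → B) < (1 / 2) / 2 ^ n := by
    intro n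
    have := hu n (n + 1) n (by omega) le_rfl
    rw [← hx', ← hx', dist_eq_norm] at this
    rw [← hnorm]
    exact this
  have hU : ∀ n, {i | ‖((x (n + 1) - x n : C) : ι → B) i‖ < (1 / 2) / 2 ^ n} ∈ μ := fun n =>
    eventually_lt (hC.bdd _ (x (n + 1) - x n).2) (hd n)
  let e : ℕ → C := fun n => ⟨Set.indicator
    {i | ‖((x (n + 1) - x n : C) : ι → B) i‖ < (1 / 2) / 2 ^ n}
    ((x (n + 1) - x n : C) : ι → B), hC.cut _ (x (n + 1) - x n).2 _ (hU n)⟩
  have he_bound : ∀ n i, ‖(e n : ι → B) i‖ ≤ (1 / 2) / 2 ^ n := by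
    intro n i
    simp only [e]
    by_cases hi : i ∈ {i | ‖((x (n + 1) - x n : C) : ι → B) i‖ < (1 / 2) / 2 ^ n}
    · rw [Set.indicator_of_mem hi]
      exact le_of_lt hi
    · rw [Set.indicator_of_notMem hi, norm_zero]
      positivity
  have he_class : ∀ n, ((e n : C) : c.Quotient) = ((x (n + 1) - x n : C) : c.Quotient) := by
    intro n
    rw [c.eq, hc]
    refine tendsto_const_nhds.congr' ?_
    filter_upwards [hU n] with i hi
    have hi' : i ∈ {i | ‖((x (n + 1) - x n : C) : ι → B) i‖ < (1 / 2) / 2 ^ n} := hi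
    simp only [e]
    rw [Set.indicator_of_mem hi', sub_self, norm_zero]
  let y : ℕ → C := fun n => x 0 + ∑ m ∈ Finset.range n, e m
  have hy_class : ∀ n, ((y n : C) : c.Quotient) = u n := by
    intro n
    rw [← hx']
    induction n with
    | zero => simp [y]
    | succ n ih =>
      have : y (n + 1) = y n + e n := by
        simp only [y]; rw [Finset.sum_range_succ, add_assoc]
      rw [this, RingCon.coe_add, ih, he_class, ← RingCon.coe_add]
      congr 1
      abel
  have hstep : ∀ i n, dist ((y n : ι → B) i) ((y (n + 1) : ι → B) i) ≤ 1 / 2 / 2 ^ n := by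
    intro i n
    have : y (n + 1) = y n + e n := by
      simp only [y]; rw [Finset.sum_range_succ, add_assoc]
    rw [this, dist_comm, dist_eq_norm]
    simpa only [AddMemClass.coe_add, Pi.add_apply, add_sub_cancel_left, one_div, ge_iff_le] using he_bound n i
  choose z hz using fun i => cauchySeq_tendsto_of_complete
    (cauchySeq_of_le_geometric_two (hstep i))
  have hzy : ∀ n i, ‖z i - (y n : ι → B) i‖ ≤ 1 / 2 ^ n := by
    intro n i
    rw [← dist_eq_norm, dist_comm]
    exact dist_le_of_le_geometric_two_of_tendsto (hstep i) (hz i) n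
  have hzC : z ∈ C := by
    refine hC.lim z fun ε hε => ?_
    obtain ⟨n, hn⟩ := exists_pow_lt_of_lt_one hε (by norm_num : (1 / 2 : ℝ) < 1)
    refine ⟨y n, (y n).2, fun i => (hzy n i).trans ?_⟩
    rw [one_div_pow] at hn
    exact hn.le
  refine ⟨((⟨z, hzC⟩ : C) : c.Quotient), ?_⟩
  rw [tendsto_iff_norm_sub_tendsto_zero]
  have hb : ∀ n, ‖u n - ((⟨z, hzC⟩ : C) : c.Quotient)‖ ≤ (1 / 2) ^ n := by
    intro n
    rw [← hy_class n, ← RingCon.coe_sub, hnorm]
    refine nrm_le (by positivity) (Eventually.of_forall fun i => ?_)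
    rw [one_div_pow]
    refine le_trans (le_of_eq ?_) (hzy n i)
    rw [norm_sub_rev]; rfl
  exact squeeze_zero (fun n => norm_nonneg _) hb
    (tendsto_pow_atTop_nhds_zero_of_lt_one (by norm_num) (by norm_num))

/-- The C*-algebra structure on the quotient. -/
@[reducible]
noncomputable def cstar (hs : StarRing c.Quotient)
    (hstar : ∀ x : C, star (x : c.Quotient) = ((star x : C) : c.Quotient)) :
    CStarAlgebra c.Quotient :=
  let N : NormedRing c.Quotient := (ringNorm hC c hc).toNormedRing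
  have hnorm : ∀ x : C, ‖(x : c.Quotient)‖ = nrm μ (x : ι → B) := fun x => qnrm_mk hC c hc x
  { N, hs, (inferInstance : Algebra ℂ c.Quotient) with
    complete := (complete_aux hC c hc).complete
    norm_mul_self_le := by
      rintro ⟨x⟩
      change ‖(x : c.Quotient)‖ * ‖(x : c.Quotient)‖ ≤ ‖star (x : c.Quotient) * (x : c.Quotient)‖
      rw [hstar, ← RingCon.coe_mul, hnorm, hnorm]
      exact nrm_sq_le (hC.bdd _ x.2)
    norm_smul_le := by
      rintro r ⟨x⟩
      change ‖((r • x : C) : c.Quotient)‖ ≤ ‖r‖ * ‖(x : c.Quotient)‖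
      rw [hnorm, hnorm]
      exact nrm_smul r (hC.bdd _ x.2)
    star_smul := by
      rintro r ⟨x⟩
      change star ((r • x : C) : c.Quotient) = star r • star (x : c.Quotient)
      rw [hstar, hstar, star_smul]
      rfl }

end Con

end SeqQuot

open SeqQuot

lemma isSeqAlg_centralSeq (A : Type u) [CStarAlgebra A] {ι : Type v} (μ : Filter ι) :
    IsSeqAlg μ (centralSeq A μ) where
  bdd x hx := hx.1
  cut := by
    rintro x ⟨⟨K, hK⟩, hx⟩ s hs
    refine ⟨⟨K, fun i => ?_⟩, fun a => ?_⟩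
    · by_cases hi : i ∈ s
      · rw [Set.indicator_of_mem hi]; exact hK i
      · rw [Set.indicator_of_notMem hi, norm_zero]
        exact (norm_nonneg _).trans (hK i)
    · refine (hx a).congr' ?_
      filter_upwards [hs] with i hi
      rw [Set.indicator_of_mem hi]
  lim := by
    intro x hx
    refine ⟨?_, fun a => ?_⟩
    · obtain ⟨y, ⟨⟨K, hK⟩, -⟩, hy⟩ := hx 1 one_pos
      refine ⟨1 + K, fun i => ?_⟩
      calc ‖x i‖ = ‖(x i - y i) + y i‖ := by rw [sub_add_cancel]
        _ ≤ 1 + K := (norm_add_le _ _).trans (add_le_add (hy i) (hK i))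
    · rw [Metric.tendsto_nhds]
      intro ε hε
      obtain ⟨y, ⟨-, hyc⟩, hy⟩ := hx (ε / (2 * (2 * ‖a‖ + 1))) (by positivity)
      have h1 := (Metric.tendsto_nhds.mp (hyc a)) (ε / 2) (by positivity)
      filter_upwards [h1] with i hi
      rw [dist_zero_right, norm_norm] at hi ⊢
      have e : x i * a - a * x i = (y i * a - a * y i) +
          ((x i - y i) * a - a * (x i - y i)) := by noncomm_ring
      have h2 : ‖(x i - y i) * a - a * (x i - y i)‖ ≤
          2 * ‖a‖ * (ε / (2 * (2 * ‖a‖ + 1))) := by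
        refine (norm_sub_le _ _).trans ?_
        have h3 : ‖(x i - y i) * a‖ ≤ (ε / (2 * (2 * ‖a‖ + 1))) * ‖a‖ :=
          (norm_mul_le _ _).trans (mul_le_mul_of_nonneg_right (hy i) (norm_nonneg _))
        have h4 : ‖a * (x i - y i)‖ ≤ ‖a‖ * (ε / (2 * (2 * ‖a‖ + 1))) :=
          (norm_mul_le _ _).trans (mul_le_mul_of_nonneg_left (hy i) (norm_nonneg _))
        linarith only [h3, h4]
      have h5 : 2 * ‖a‖ * (ε / (2 * (2 * ‖a‖ + 1))) < ε / 2 := by
        rw [← sub_pos]
        have : ε / 2 - 2 * ‖a‖ * (ε / (2 * (2 * ‖a‖ + 1))) = ε / (2 * (2 * ‖a‖ + 1)) := by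
          field_simp; ring
        rw [this]; (clear * - hε; positivity)
      rw [e]
      exact (norm_add_le _ _).trans_lt (by linarith)

/-- The central sequence algebra is a C*-algebra. -/
noncomputable instance instCStarFcs (A : Type u) [CStarAlgebra A] {ι : Type v} (μ : Filter ι) :
    CStarAlgebra (Fcs A μ) :=
  cstar (isSeqAlg_centralSeq A μ) (nullCon A μ) (fun _ _ => Iff.rfl) inferInstance
    (fun _ => rfl)

end Vale.Agent.P101
end

section

/-! Bounded functions modulo null functions: constants, maps, lifting of unitaries. -/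

open Filter Topology

namespace Vale.Agent.P101

universe u v w

open SeqQuot

/-- If `x` is almost unitary, it is close to a unitary. -/
lemma unitary_correction {B : Type u} [CStarAlgebra B] (x : B) (h1 : ‖star x * x - 1‖ < 1)
    (h2 : ‖x * star x - 1‖ < 1) : ∃ v ∈ unitary B, ‖v - x‖ ≤ ‖star x * x - 1‖ := by
  rcases subsingleton_or_nontrivial B with hB | hB
  · exact ⟨1, one_mem _, by rw [Subsingleton.elim (1 - x) 0, norm_zero]; positivity⟩
  set a : B := star x * x with ha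
  have hsa : IsSelfAdjoint a := IsSelfAdjoint.star_mul_self x
  have hua : IsUnit a := by
    have := (Units.oneSub (1 - a) (by rwa [norm_sub_rev])).isUnit
    simpa only [Units.val_oneSub, sub_sub_cancel] using this
  have hux' : IsUnit (x * star x) := by
    have := (Units.oneSub (1 - x * star x) (by rwa [norm_sub_rev])).isUnit
    simpa only [Units.val_oneSub, sub_sub_cancel] using this
  have hux : IsUnit x := by
    obtain ⟨u, hu⟩ := hua
    obtain ⟨w, hw⟩ := hux'
    have hl : (↑u⁻¹ * star x) * x = 1 := by rw [mul_assoc, ← ha, ← hu]; simp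
    have hr : x * (star x * ↑w⁻¹) = 1 := by rw [← mul_assoc, ← hw]; simp
    exact ⟨⟨x, star x * ↑w⁻¹, hr, by
      have : ↑u⁻¹ * star x = star x * ↑w⁻¹ := by
        calc ↑u⁻¹ * star x = (↑u⁻¹ * star x) * (x * (star x * ↑w⁻¹)) := by rw [hr, mul_one]
          _ = ((↑u⁻¹ * star x) * x) * (star x * ↑w⁻¹) := by simp only [mul_assoc]
          _ = star x * ↑w⁻¹ := by rw [hl, one_mul]
      rw [← this, hl]⟩, rfl⟩
  have hspec : ∀ t ∈ spectrum ℝ a, |t - 1| ≤ ‖a - 1‖ := by
    intro t ht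
    have h3 : t - 1 ∈ spectrum ℝ (a - 1) := by
      have h4 := (spectrum.add_mem_iff (R := ℝ) (a := a) (r := t - 1) (s := 1)).mp
        (by simpa using ht)
      rw [map_one] at h4
      rwa [sub_eq_neg_add a 1]
    have := spectrum.norm_le_norm_of_mem h3
    rwa [Real.norm_eq_abs] at this
  have hpos : ∀ t ∈ spectrum ℝ a, 0 < t := by
    intro t ht
    have := (hspec t ht).trans_lt h1
    rw [abs_lt] at this
    linarith [this.1]
  let g : ℝ → ℝ := fun t => (Real.sqrt t)⁻¹
  have hg : ContinuousOn g (spectrum ℝ a) := by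
    apply ContinuousOn.inv₀ (by fun_prop)
    intro t ht
    exact (Real.sqrt_pos.mpr (hpos t ht)).ne'
  have hpsa : IsSelfAdjoint (cfc g a) := cfc_predicate g a
  have hpap : cfc g a * a * cfc g a = 1 := by
    conv_lhs => rw [show cfc g a * a * cfc g a = cfc g a * cfc (fun t : ℝ => t) a * cfc g a by
      rw [cfc_id' ℝ a]]
    rw [← cfc_mul g (fun t => t) a hg (by fun_prop),
      ← cfc_mul (fun t => g t * t) g a (hg.mul (by fun_prop)) hg, ← cfc_const_one ℝ a]
    apply cfc_congr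
    intro t ht
    have h3 := hpos t ht
    have h4 : Real.sqrt t ≠ 0 := (Real.sqrt_pos.mpr h3).ne'
    have h5 := Real.mul_self_sqrt h3.le
    simp only [g]
    field_simp
    linarith
  have hcomm : a * cfc g a = cfc g a * a := by
    have h := cfc_commute_cfc (fun t : ℝ => t) g a
    rw [cfc_id' ℝ a] at h
    exact h.eq
  have hup : IsUnit (cfc g a) := by
    have h3 : a * cfc g a * cfc g a = 1 := by rw [hcomm]; exact hpap
    exact ⟨⟨cfc g a, a * cfc g a, by rw [← mul_assoc]; exact hpap, h3⟩, rfl⟩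
  set v : B := x * cfc g a with hv
  have hvv : star v * v = 1 := by
    rw [hv, star_mul, hpsa.star_eq]
    calc cfc g a * star x * (x * cfc g a) = cfc g a * (star x * x) * cfc g a := by
          simp only [mul_assoc]
      _ = 1 := hpap
  have huv : IsUnit v := hux.mul hup
  have hvv' : v * star v = 1 := by
    obtain ⟨w, hw⟩ := huv
    have : star v = ↑w⁻¹ := by
      calc star v = star v * (↑w * ↑w⁻¹) := by simp only [Units.mul_inv, mul_one]
        _ = (star v * v) * ↑w⁻¹ := by rw [← hw]; simp only [mul_assoc]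
        _ = ↑w⁻¹ := by rw [hvv, one_mul]
    rw [this, ← hw]; simp
  refine ⟨v, Unitary.mem_iff.mpr ⟨hvv, hvv'⟩, ?_⟩
  have hkey : star (v - x) * (v - x) = cfc (fun t => (1 - Real.sqrt t) ^ 2) a := by
    have e1 : star (v - x) * (v - x) = (cfc g a - 1) * a * (cfc g a - 1) := by
      have : v - x = x * (cfc g a - 1) := by rw [hv, mul_sub, mul_one]
      rw [this, star_mul, star_sub, hpsa.star_eq, star_one]
      simp only [mul_assoc, ha]
    have e2 : cfc g a - 1 = cfc (fun t => g t - 1) a := by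
      rw [cfc_sub g _ a hg (by fun_prop), cfc_const_one ℝ a]
    rw [e1, e2]
    conv_lhs => rw [show cfc (fun t => g t - 1) a * a * cfc (fun t => g t - 1) a =
      cfc (fun t => g t - 1) a * cfc (fun t : ℝ => t) a * cfc (fun t => g t - 1) a by
      rw [cfc_id' ℝ a]]
    have hg1 : ContinuousOn (fun t => g t - 1) (spectrum ℝ a) := hg.sub continuousOn_const
    rw [← cfc_mul (fun t => g t - 1) (fun t => t) a hg1 (by fun_prop),
      ← cfc_mul (fun t => (g t - 1) * t) (fun t => g t - 1) a (hg1.mul (by fun_prop)) hg1]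
    apply cfc_congr
    intro t ht
    have h3 := hpos t ht
    have h4 : Real.sqrt t ≠ 0 := (Real.sqrt_pos.mpr h3).ne'
    have h5 := Real.mul_self_sqrt h3.le
    simp only [g]
    have h6 : ((Real.sqrt t)⁻¹ - 1) * Real.sqrt t = 1 - Real.sqrt t := by
      (clear * - h4; field_simp)
    calc ((Real.sqrt t)⁻¹ - 1) * t * ((Real.sqrt t)⁻¹ - 1)
        = (((Real.sqrt t)⁻¹ - 1) * Real.sqrt t) * (((Real.sqrt t)⁻¹ - 1) * Real.sqrt t) := by
          rw [← h5]; simp only [h5]; ring_nf; rw [← h5]; ring_nf; simp only [sq, h5]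
      _ = _ := by rw [h6]; ring
  have hn : ‖v - x‖ ^ 2 ≤ ‖a - 1‖ ^ 2 := by
    rw [sq, ← CStarRing.norm_star_mul_self, hkey]
    apply norm_cfc_le (by (clear * -; positivity))
    intro t ht
    have h3 := hpos t ht
    have h5 := Real.mul_self_sqrt h3.le
    have h6 := hspec t ht
    rw [Real.norm_of_nonneg (sq_nonneg _)]
    have h7 : |1 - Real.sqrt t| ≤ |t - 1| := by
      have : t - 1 = (Real.sqrt t - 1) * (Real.sqrt t + 1) := by nlinarith only [h5]
      rw [this, abs_mul, abs_sub_comm]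
      have h8 : 1 ≤ |Real.sqrt t + 1| := by
        rw [abs_of_nonneg (by (clear * - h3; positivity))]
        linarith only [Real.sqrt_nonneg t]
      nlinarith only [h8, abs_nonneg (Real.sqrt t - 1)]
    rw [← sq_abs]
    exact pow_le_pow_left₀ (abs_nonneg _) (h7.trans h6) 2
  exact (sq_le_sq₀ (norm_nonneg _) (norm_nonneg _)).mp hn

/-- All bounded functions. -/
def bddSeq (B : Type u) [CStarAlgebra B] (ι : Type v) : StarSubalgebra ℂ (ι → B) where
  carrier := {x | ∃ C : ℝ, ∀ i, ‖x i‖ ≤ C}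
  mul_mem' := by
    rintro x y ⟨C, hC⟩ ⟨D, hD⟩
    exact ⟨C * D, fun i => (norm_mul_le _ _).trans
      (mul_le_mul (hC i) (hD i) (norm_nonneg _) ((norm_nonneg _).trans (hC i)))⟩
  add_mem' := by
    rintro x y ⟨C, hC⟩ ⟨D, hD⟩
    exact ⟨C + D, fun i => (norm_add_le _ _).trans (add_le_add (hC i) (hD i))⟩
  algebraMap_mem' := by
    intro r
    exact ⟨‖algebraMap ℂ B r‖, fun i => le_rfl⟩
  star_mem' := by
    rintro x ⟨C, hC⟩
    exact ⟨C, fun i => by simpa using hC i⟩

lemma isSeqAlg_bddSeq (B : Type u) [CStarAlgebra B] {ι : Type v} (μ : Filter ι) :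
    IsSeqAlg μ (bddSeq B ι) where
  bdd x hx := hx
  cut := by
    rintro x ⟨K, hK⟩ s hs
    refine ⟨K, fun i => ?_⟩
    by_cases hi : i ∈ s
    · rw [Set.indicator_of_mem hi]; exact hK i
    · rw [Set.indicator_of_notMem hi, norm_zero]
      exact (norm_nonneg _).trans (hK i)
  lim := by
    intro x hx
    obtain ⟨y, ⟨K, hK⟩, hy⟩ := hx 1 one_pos
    refine ⟨1 + K, fun i => ?_⟩
    calc ‖x i‖ = ‖(x i - y i) + y i‖ := by rw [sub_add_cancel]
      _ ≤ 1 + K := (norm_add_le _ _).trans (add_le_add (hy i) (hK i))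

/-- Bounded functions modulo null functions. -/
abbrev Bq (B : Type u) [CStarAlgebra B] {ι : Type v} (μ : Filter ι) : Type (max u v) :=
  (nullConG μ (bddSeq B ι) (isSeqAlg_bddSeq B μ)).Quotient

noncomputable instance instStarRingBq (B : Type u) [CStarAlgebra B] {ι : Type v} (μ : Filter ι) :
    StarRing (Bq B μ) where
  star := Quotient.map' star (fun x y h => by
    refine Tendsto.congr (fun i => ?_) h
    show _ = ‖((star x : bddSeq B ι) : ι → B) i - ((star y : bddSeq B ι) : ι → B) i‖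
    rw [show ((star x : bddSeq B ι) : ι → B) i - ((star y : bddSeq B ι) : ι → B) i
      = star ((x : ι → B) i - (y : ι → B) i) by simp, norm_star])
  star_involutive := by
    rintro ⟨x⟩
    exact congrArg (Quotient.mk'' (s₁ := (nullConG μ (bddSeq B ι)
      (isSeqAlg_bddSeq B μ)).toSetoid)) (star_star x)
  star_mul := by
    rintro ⟨x⟩ ⟨y⟩
    exact congrArg (Quotient.mk'' (s₁ := (nullConG μ (bddSeq B ι)
      (isSeqAlg_bddSeq B μ)).toSetoid)) (star_mul x y)
  star_add := by
    rintro ⟨x⟩ ⟨y⟩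
    exact congrArg (Quotient.mk'' (s₁ := (nullConG μ (bddSeq B ι)
      (isSeqAlg_bddSeq B μ)).toSetoid)) (star_add x y)

noncomputable instance instCStarBq (B : Type u) [CStarAlgebra B] {ι : Type v} (μ : Filter ι) :
    CStarAlgebra (Bq B μ) :=
  cstar (isSeqAlg_bddSeq B μ) (nullConG μ (bddSeq B ι) (isSeqAlg_bddSeq B μ))
    (fun _ _ => Iff.rfl) inferInstance (fun _ => rfl)

namespace Bq

variable {B : Type u} [CStarAlgebra B] {ι : Type v} (μ : Filter ι)

/-- The class of a bounded function. -/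
noncomputable def mk (x : bddSeq B ι) : Bq B μ :=
  ((x : bddSeq B ι) : (nullConG μ (bddSeq B ι) (isSeqAlg_bddSeq B μ)).Quotient)

lemma mk_surjective : Function.Surjective (mk (B := B) μ) :=
  (nullConG μ (bddSeq B ι) (isSeqAlg_bddSeq B μ)).mk'_surjective

lemma mk_add (x y : bddSeq B ι) : mk μ (x + y) = mk μ x + mk μ y := rfl
lemma mk_mul (x y : bddSeq B ι) : mk μ (x * y) = mk μ x * mk μ y := rfl
lemma mk_sub (x y : bddSeq B ι) : mk μ (x - y) = mk μ x - mk μ y := rfl
lemma mk_one : mk μ (1 : bddSeq B ι) = 1 := rfl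
lemma mk_zero : mk μ (0 : bddSeq B ι) = 0 := rfl
lemma mk_star (x : bddSeq B ι) : mk μ (star x) = star (mk μ x) := rfl
lemma mk_eq_iff (x y : bddSeq B ι) : mk μ x = mk μ y ↔
    Tendsto (fun i => ‖(x : ι → B) i - (y : ι → B) i‖) μ (𝓝 0) :=
  (nullConG μ (bddSeq B ι) (isSeqAlg_bddSeq B μ)).eq

lemma norm_mk (x : bddSeq B ι) : ‖mk μ x‖ = nrm μ (x : ι → B) :=
  qnrm_mk (isSeqAlg_bddSeq B μ) (nullConG μ (bddSeq B ι) (isSeqAlg_bddSeq B μ))
    (fun _ _ => Iff.rfl) x

lemma eventually_norm_lt (x : bddSeq B ι) {c : ℝ} (h : ‖mk μ x‖ < c) :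
    ∀ᶠ i in μ, ‖(x : ι → B) i‖ < c := by
  rw [norm_mk] at h
  exact eventually_lt x.2 h

/-- Constant functions. -/
def const (b : B) : bddSeq B ι := ⟨fun _ => b, ⟨‖b‖, fun _ => le_rfl⟩⟩

/-- Constant functions, as a homomorphism. -/
noncomputable def constHom : B →⋆ₐ[ℂ] Bq B μ where
  toFun b := mk μ (const b)
  map_one' := rfl
  map_mul' _ _ := rfl
  map_zero' := rfl
  map_add' _ _ := rfl
  commutes' _ := rfl
  map_star' _ := rfl

/-- The map induced by a homomorphism. -/
noncomputable def mapHom {A : Type w} [CStarAlgebra A] (f : A →⋆ₐ[ℂ] B) :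
    Fcs A μ →⋆ₐ[ℂ] Bq B μ where
  toFun := Quotient.map' (fun x : centralSeq A μ => (⟨fun k => f ((x : ι → A) k),
      x.2.1.imp fun C hC k => (NonUnitalStarAlgHom.norm_apply_le f _).trans (hC k)⟩ :
        bddSeq B ι)) (by
    intro x y h
    have h' : Tendsto (fun i => ‖(x : ι → A) i - (y : ι → A) i‖) μ (𝓝 0) := h
    refine squeeze_zero (fun i => norm_nonneg _) (fun i => ?_) h'
    change ‖f ((x : ι → A) i) - f ((y : ι → A) i)‖ ≤ _
    rw [← map_sub]
    exact NonUnitalStarAlgHom.norm_apply_le f _)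
  map_one' := by
    refine congrArg (mk μ) (Subtype.ext (funext fun k => ?_))
    exact map_one f
  map_mul' := by
    rintro ⟨x⟩ ⟨y⟩
    refine congrArg (mk μ) (Subtype.ext (funext fun k => ?_))
    exact map_mul f _ _
  map_zero' := by
    refine congrArg (mk μ) (Subtype.ext (funext fun k => ?_))
    exact map_zero f
  map_add' := by
    rintro ⟨x⟩ ⟨y⟩
    refine congrArg (mk μ) (Subtype.ext (funext fun k => ?_))
    exact map_add f _ _
  commutes' := by
    intro r
    refine congrArg (mk μ) (Subtype.ext (funext fun k => ?_))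
    exact (f : A →ₐ[ℂ] B).commutes r
  map_star' := by
    rintro ⟨x⟩
    refine congrArg (mk μ) (Subtype.ext (funext fun k => ?_))
    exact map_star f _

/-- Lifting of unitaries. -/
lemma exists_unitary_lift (v : Bq B μ) (hv : v ∈ unitary (Bq B μ)) :
    ∃ V : bddSeq B ι, (∀ i, (V : ι → B) i ∈ unitary B) ∧ mk μ V = v := by
  classical
  obtain ⟨x, rfl⟩ := mk_surjective μ v
  rw [Unitary.mem_iff, ← mk_star, ← mk_mul, ← mk_mul, ← mk_one, mk_eq_iff, mk_eq_iff] at hv
  obtain ⟨h1, h2⟩ := hv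
  have h1' : Tendsto (fun i => ‖star ((x : ι → B) i) * (x : ι → B) i - 1‖) μ (𝓝 0) := h1
  have h2' : Tendsto (fun i => ‖(x : ι → B) i * star ((x : ι → B) i) - 1‖) μ (𝓝 0) := h2
  have hex : ∀ i, ∃ v ∈ unitary B, (‖star ((x : ι → B) i) * (x : ι → B) i - 1‖ < 1 ∧
      ‖(x : ι → B) i * star ((x : ι → B) i) - 1‖ < 1) →
      ‖v - (x : ι → B) i‖ ≤ ‖star ((x : ι → B) i) * (x : ι → B) i - 1‖ := by
    intro i
    by_cases h : ‖star ((x : ι → B) i) * (x : ι → B) i - 1‖ < 1 ∧
      ‖(x : ι → B) i * star ((x : ι → B) i) - 1‖ < 1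
    · obtain ⟨v, hv, hvn⟩ := unitary_correction _ h.1 h.2
      exact ⟨v, hv, fun _ => hvn⟩
    · exact ⟨1, one_mem _, fun h' => absurd h' h⟩
  choose V hV hVn using hex
  have hb : ∀ i, ‖V i‖ ≤ 1 := by
    intro i
    rcases subsingleton_or_nontrivial B with hB | hB
    · rw [Subsingleton.elim (V i) 0, norm_zero]; exact zero_le_one
    · exact (CStarRing.norm_of_mem_unitary (hV i)).le
  refine ⟨⟨V, ⟨1, hb⟩⟩, hV, ?_⟩
  rw [mk_eq_iff]
  refine squeeze_zero' (Eventually.of_forall fun i => norm_nonneg _) ?_ h1'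
  filter_upwards [(Metric.tendsto_nhds.mp h1') 1 one_pos,
    (Metric.tendsto_nhds.mp h2') 1 one_pos] with i hi1 hi2
  rw [dist_zero_right, norm_norm] at hi1 hi2
  exact hVn i ⟨hi1, hi2⟩

end Bq

end Vale.Agent.P101
end
namespace AFastb3f85cx866a
@[reducible] noncomputable def a0.{u1, u2} {x1 : Type u1} {x2 : Type u2} [x3 : CStarAlgebra x2] : Semiring ↥(Vale.Agent.P101.bddSeq x2 x1) := inferInstance
@[reducible] noncomputable def a1.{u1, u2} {x1 : Type u1} {x2 : Type u2} [x3 : CStarAlgebra x2] : Ring ↥(Vale.Agent.P101.bddSeq x2 x1) := inferInstance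
@[reducible] noncomputable def a2.{u1, u2} {x1 : Type u1} {x2 : Type u2} [x3 : CStarAlgebra x2] : Distrib ↥(Vale.Agent.P101.bddSeq x2 x1) := inferInstance
@[reducible] noncomputable def a3.{u1, u2} {x1 : Type u1} {x2 : Type u2} [x3 : CStarAlgebra x2] : Mul ↥(Vale.Agent.P101.bddSeq x2 x1) := inferInstance
@[reducible] noncomputable def a4.{u1, u2} {x1 : Type u1} {x2 : Type u2} [x3 : CStarAlgebra x2] : Add ↥(Vale.Agent.P101.bddSeq x2 x1) := inferInstance
@[reducible] noncomputable def a5.{u1, u2} {x1 : Type u1} {x2 : Type u2} [x3 : CStarAlgebra x2] : NonUnitalNonAssocSemiring ↥(Vale.Agent.P101.bddSeq x2 x1) := inferInstance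
@[reducible] noncomputable def a6.{u1, u2} {x1 : Type u1} {x2 : Type u2} [x3 : CStarAlgebra x2] : NonAssocSemiring ↥(Vale.Agent.P101.bddSeq x2 x1) := inferInstance
@[reducible] noncomputable def a7.{u1, u2} {x1 : Type u1} {x2 : Type u2} [x3 : CStarAlgebra x2] : NonUnitalNonAssocRing ↥(Vale.Agent.P101.bddSeq x2 x1) := inferInstance
@[reducible] noncomputable def a8.{u1, u2} {x1 : Type u1} [x2 : CStarAlgebra x1] {x3 : Type u2} {x4 : Filter x3} : AddCommMonoid (Vale.Agent.P101.Bq x1 x4) := inferInstance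
@[reducible] noncomputable def a9.{u1, u2} {x1 : Type u1} [x2 : CStarAlgebra x1] {x3 : Type u2} {x4 : Filter x3} : MulOneClass (Vale.Agent.P101.Bq x1 x4) := inferInstance
@[reducible] noncomputable def a10.{u1, u2} {x1 : Type u1} {x2 : Type u2} [x3 : CStarAlgebra x2] : NonAssocRing ↥(Vale.Agent.P101.bddSeq x2 x1) := inferInstance
@[reducible] noncomputable def a11.{u1, u2} {x1 : Type u1} [x2 : CStarAlgebra x1] {x3 : Type u2} {x4 : Filter x3} : MulOne (Vale.Agent.P101.Bq x1 x4) := inferInstance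
@[reducible] noncomputable def a12.{u1, u2} {x1 : Type u1} {x2 : Type u2} [x3 : CStarAlgebra x2] : Star ↥(Vale.Agent.P101.bddSeq x2 x1) := inferInstance
end AFastb3f85cx866a
attribute [local instance] AFastb3f85cx866a.a0 AFastb3f85cx866a.a1 AFastb3f85cx866a.a2
  AFastb3f85cx866a.a3 AFastb3f85cx866a.a4 AFastb3f85cx866a.a5 AFastb3f85cx866a.a6
  AFastb3f85cx866a.a7 AFastb3f85cx866a.a8 AFastb3f85cx866a.a9 AFastb3f85cx866a.a10
  AFastb3f85cx866a.a11 AFastb3f85cx866a.a12
namespace AFastb3f85cx866b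
@[reducible] noncomputable def a0.{u1, u2} {x1 : Type u1} [x2 : CStarAlgebra x1] {x3 : Type u2} {x4 : Filter x3} : StarAddMonoid (Vale.Agent.P101.Bq x1 x4) := inferInstance
@[reducible] noncomputable def a1.{u1, u2} {x1 : Type u1} [x2 : CStarAlgebra x1] {x3 : Type u2} {x4 : Filter x3} : Star (Vale.Agent.P101.Bq x1 x4) := inferInstance
@[reducible] noncomputable def a2.{u1, u2} {x1 : Type u1} [x2 : CStarAlgebra x1] {x3 : Type u2} {x4 : Filter x3} : InvolutiveStar (Vale.Agent.P101.Bq x1 x4) := inferInstance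
@[reducible] noncomputable def a3.{u1, u2} {x1 : Type u1} [x2 : CStarAlgebra x1] {x3 : Type u2} {x4 : Filter x3} : StarMul (Vale.Agent.P101.Bq x1 x4) := inferInstance
end AFastb3f85cx866b
attribute [local instance] AFastb3f85cx866b.a0 AFastb3f85cx866b.a1 AFastb3f85cx866b.a2
  AFastb3f85cx866b.a3

section

/-! Algebraic tools: fullness of a set, commuting families of homomorphisms (legs). -/

open scoped BigOperators

namespace Vale.Agent.P101

universe u v

section Full

variable {F : Type u} [Ring F]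

/-- `1` lies in the two-sided ideal generated by `S`. -/
def Full (S : Set F) : Prop := (1 : F) ∈ TwoSidedIdeal.span S

theorem Full.of_sum {S : Set F} {κ : Type v} (s : Finset κ) (l x r : κ → F)
    (hx : ∀ i ∈ s, x i ∈ S) (h : ∑ i ∈ s, l i * x i * r i = 1) : Full S := by
  unfold Full
  rw [← h]
  exact sum_mem fun i hi => TwoSidedIdeal.mul_mem_right _ _ _
    (TwoSidedIdeal.mul_mem_left _ _ _ (TwoSidedIdeal.subset_span (hx i hi)))

theorem Full.exists_sum {S : Set F} (h : Full S) :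
    ∃ (n : ℕ) (l x r : Fin n → F), (∀ i, x i ∈ S) ∧ ∑ i, l i * x i * r i = 1 := by
  have key : ∀ y ∈ TwoSidedIdeal.span S,
      ∃ (n : ℕ) (l x r : Fin n → F), (∀ i, x i ∈ S) ∧ ∑ i, l i * x i * r i = y := by
    intro y hy
    rw [TwoSidedIdeal.mem_span_iff_mem_addSubgroup_closure] at hy
    induction hy using AddSubgroup.closure_induction with
    | mem z hz =>
      obtain ⟨a, s, b, hs, rfl⟩ : ∃ a s b, s ∈ S ∧ a * s * b = z := by
        simpa only [exists_and_left, Set.mem_mul, Set.mem_univ, true_and, ↓existsAndEq, and_true] using hz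
      exact ⟨1, fun _ => a, fun _ => s, fun _ => b, fun _ => hs, by simp⟩
    | zero => exact ⟨0, Fin.elim0, Fin.elim0, Fin.elim0, fun i => i.elim0, by simp⟩
    | add z w _ _ hz hw =>
      obtain ⟨n, l, x, r, hx, e⟩ := hz
      obtain ⟨m, l', x', r', hx', e'⟩ := hw
      refine ⟨n + m, Fin.append l l', Fin.append x x', Fin.append r r', ?_, ?_⟩
      · intro i
        refine Fin.addCases (fun i => ?_) (fun i => ?_) i
        · simpa using hx i
        · simpa using hx' i
      · rw [Fin.sum_univ_add]; simp only [Fin.append_left, e, Fin.append_right, e']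
    | neg z _ hz =>
      obtain ⟨n, l, x, r, hx, e⟩ := hz
      exact ⟨n, fun i => - l i, x, r, hx, by simp only [neg_mul, Finset.sum_neg_distrib, ← e]⟩
  exact key 1 h

theorem Full.mem_of {S : Set F} (h : Full S) (I : TwoSidedIdeal F) (hI : ∀ x ∈ S, x ∈ I) :
    (1 : F) ∈ I :=
  TwoSidedIdeal.span_le.2 hI h

theorem Full.of_forall {S : Set F} (h : ∀ I : TwoSidedIdeal F, (∀ x ∈ S, x ∈ I) → (1 : F) ∈ I) :
    Full S :=
  h _ fun _ hx => TwoSidedIdeal.subset_span hx

theorem Full.mono {S T : Set F} (h : Full S) (hST : ∀ x ∈ S, x ∈ TwoSidedIdeal.span T) : Full T :=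
  h.mem_of _ hST

theorem Full.map {S : Set F} (h : Full S) {G : Type v} [Ring G] (f : F →+* G) :
    Full (f '' S) := by
  obtain ⟨n, l, x, r, hx, e⟩ := h.exists_sum
  refine Full.of_sum Finset.univ (fun i => f (l i)) (fun i => f (x i)) (fun i => f (r i))
    (fun i _ => ⟨_, hx i, rfl⟩) ?_
  rw [← map_one f, ← e, map_sum]
  simp only [map_mul]

end Full

section Legs

variable {F : Type u} {G : Type v} [Ring F] [StarRing F] [Algebra ℂ F] [Ring G] [StarRing G]
  [Algebra ℂ G] {κ : Type*} [Fintype κ] [dec : DecidableEq κ]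

/-- Pairwise commuting unital star-homomorphisms `F → G`, indexed by `κ`. -/
structure Legs (κ : Type*) (F : Type u) (G : Type v) [Ring F] [StarRing F] [Algebra ℂ F]
    [Ring G] [StarRing G] [Algebra ℂ G] where
  /-- the homomorphisms -/
  σ : κ → F →⋆ₐ[ℂ] G
  comm : ∀ i j, i ≠ j → ∀ x y, Commute (σ i x) (σ j y)

namespace Legs

variable (L : Legs κ F G)

/-- the ordered-irrelevant product `∏ i, σ i (z i)`, as a monoid hom. -/
noncomputable def prodHom : (κ → F) →* G :=
  MonoidHom.noncommPiCoprod (fun i => ((L.σ i : F →⋆ₐ[ℂ] G) : F →* G))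
    (fun i j h x y => L.comm i j h x y)

theorem prodHom_mulSingle (i : κ) (a : F) : L.prodHom (Pi.mulSingle i a) = L.σ i a :=
  MonoidHom.noncommPiCoprod_mulSingle _ _ _

theorem prodHom_update (i : κ) (z : κ → F) (a : F) :
    L.prodHom (Function.update z i a) = L.σ i a * L.prodHom (Function.update z i 1) := by
  have : Function.update z i a = Pi.mulSingle i a * Function.update z i 1 := by
    ext j
    by_cases h : j = i
    · subst h; simp
    · simp [Function.update_of_ne h, Pi.mulSingle_eq_of_ne h]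
  rw [this, map_mul, prodHom_mulSingle]

theorem prodHom_update' (i : κ) (z : κ → F) (a : F) :
    L.prodHom (Function.update z i a) = L.prodHom (Function.update z i 1) * L.σ i a := by
  have : Function.update z i a = Function.update z i 1 * Pi.mulSingle i a := by
    ext j
    by_cases h : j = i
    · subst h; simp
    · simp [Function.update_of_ne h, Pi.mulSingle_eq_of_ne h]
  rw [this, map_mul, prodHom_mulSingle]

/-- `∏ i, σ i (z i)` as a multilinear map. -/
noncomputable def prodMul : MultilinearMap ℂ (fun _ : κ => F) G where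
  toFun z := L.prodHom z
  map_update_add' := by
    intro inst z i a b
    obtain rfl : inst = dec := Subsingleton.elim _ _
    rw [L.prodHom_update i z (a + b), L.prodHom_update i z a, L.prodHom_update i z b, map_add,
      add_mul]
  map_update_smul' := by
    intro inst z i c a
    obtain rfl : inst = dec := Subsingleton.elim _ _
    rw [L.prodHom_update i z (c • a), L.prodHom_update i z a, map_smul, smul_mul_assoc]

omit dec in
@[simp] theorem prodMul_apply (z : κ → F) : L.prodMul z = L.prodHom z := rfl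

omit dec in
theorem prodHom_eq_zero (z : κ → F) (i : κ) (h : z i = 0) : L.prodHom z = 0 :=
  L.prodMul.map_coord_zero i h

theorem prodHom_sum {α : κ → Type*} [∀ i, Fintype (α i)] (g : ∀ i, α i → F) :
    L.prodHom (fun i => ∑ j, g i j) = ∑ r : (∀ i, α i), L.prodHom (fun i => g i (r i)) :=
  L.prodMul.map_sum g

theorem star_prodHom (z : κ → F) : star (L.prodHom z) = L.prodHom (star z) := by
  classical
  have key : ∀ s : Finset κ, ∀ z : κ → F, (∀ i, i ∉ s → z i = 1) →
      star (L.prodHom z) = L.prodHom (star z) := by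
    intro s
    induction s using Finset.induction_on with
    | empty =>
      intro z hz
      have : z = 1 := funext fun i => hz i (Finset.notMem_empty i)
      subst this
      simp only [map_one, star_one]
    | insert i s hi ih =>
      intro z hz
      have e1 : z = Function.update z i (z i) := (Function.update_eq_self i z).symm
      have e2 : star z = Function.update (star z) i (star (z i)) := by
        ext j; by_cases h : j = i
        · subst h; simp only [Pi.star_apply, Function.update_self]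
        · simp only [Pi.star_apply, Function.update_of_ne h]
      have e3 : star (Function.update z i 1) = Function.update (star z) i 1 := by
        ext j; by_cases h : j = i
        · subst h; simp only [Pi.star_apply, Function.update_self, star_one]
        · simp only [Pi.star_apply, Function.update_of_ne h]
      conv_lhs => rw [e1, L.prodHom_update i z (z i), star_mul]
      conv_rhs => rw [e2, L.prodHom_update' i (star z) (star (z i))]
      rw [ih (Function.update z i 1), e3, map_star]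
      intro j hj
      by_cases h : j = i
      · subst h; simp
      · rw [Function.update_of_ne h]
        exact hz j (by simp [h, hj])
  exact key Finset.univ z (fun i hi => absurd (Finset.mem_univ i) hi)

end Legs

end Legs

end Vale.Agent.P101
end

section

/-! Data structures passed between the steps. -/

open scoped BigOperators

namespace Vale.Agent.P101

universe u

/-- A partition of unity `f_s` (hat functions of one self-adjoint element) such that the elements
`f_s b f_t` with `|s - t| ≥ 7` generate the whole algebra as an ideal. -/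
structure PartData (F : Type u) [Ring F] where
  M : ℕ
  f : Fin M → F
  comm : ∀ s t, Commute (f s) (f t)
  orth : ∀ s t : Fin M, 2 ≤ |((s : ℕ) : ℤ) - ((t : ℕ) : ℤ)| → f s * f t = 0
  sum_eq : ∑ s, f s = 1
  full : Full {x : F | ∃ (s t : Fin M) (b : F),
    7 ≤ |((s : ℕ) : ℤ) - ((t : ℕ) : ℤ)| ∧ x = f s * b * f t}

/-- The data carried by one leg. -/
structure LegData (F : Type u) [Ring F] [StarRing F] where
  V : F
  P : F
  β : F
  E : F
  N : ℕ
  d : Fin N → F
  β_sa : star β = β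
  E_sa : star E = E
  VV : V * V = 0
  VP : V * P = -(P * V)
  VsP : star V * P = -(P * star V)
  PsP : star P * P = β * β
  PPs : P * star P = β * β
  VsV : star V * V + V * star V = 1 - β * β
  βV : Commute β V
  βP : Commute β P
  Eβ : E * β = 0
  EV : E * V = 0
  VE : star V * V * E = E
  full : ∑ r, star (d r) * (E * E) * d r = 1

/-- The relations produced by step 7. -/
structure AbsData (F : Type u) [Ring F] [StarRing F] [PartialOrder F] where
  w : F
  S : F
  b : F
  b_sa : star b = b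
  ww : w * w = 0
  sum_eq : star w * w + w * star w = 1 - b * b
  bw : Commute b w
  bS : b * S = 0
  SS : star S * S = b * b
  le : b ^ 4 ≤ star S * (star w * w) * S

/-- The Rordam-Winter relations `R_2`. -/
structure RelData (F : Type u) [Ring F] [StarRing F] where
  w : F
  s : F
  ww : w * w = 0
  sum_eq : star w * w + w * star w + star s * s = 1
  ws : star w * w * s = s

end Vale.Agent.P101
end

section

/-! Data structures for the general version (`l` modes, gluing). -/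

open scoped BigOperators Kronecker

namespace Vale.Agent.P101

universe u

/-- Block data with `l` commuting modes (`l = 1` is `LegData`). -/
structure ModeData (l : ℕ) (F : Type u) [Ring F] [StarRing F] where
  V : Fin l → F
  P : Fin l → F
  β : F
  E : F
  N : ℕ
  d : Fin N → F
  β_sa : star β = β
  E_sa : star E = E
  VV : ∀ i, V i * V i = 0
  VP : ∀ i, V i * P i = -(P i * V i)
  VsP : ∀ i, star (V i) * P i = -(P i * star (V i))
  PsP : ∀ i, star (P i) * P i = β * β
  PPs : ∀ i, P i * star (P i) = β * β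
  VsV : ∀ i, star (V i) * V i + V i * star (V i) = 1 - β * β
  cVV : ∀ i j, i ≠ j → Commute (V i) (V j)
  cVVs : ∀ i j, i ≠ j → Commute (V i) (star (V j))
  cVP : ∀ i j, i ≠ j → Commute (V i) (P j)
  cVPs : ∀ i j, i ≠ j → Commute (V i) (star (P j))
  cPP : ∀ i j, i ≠ j → Commute (P i) (P j)
  cPPs : ∀ i j, i ≠ j → Commute (P i) (star (P j))
  βV : ∀ i, Commute β (V i)
  βP : ∀ i, Commute β (P i)
  Eβ : E * β = 0
  EV : ∀ i, E * V i = 0
  VE : ∀ i, star (V i) * V i * E = E
  full : ∑ r, star (d r) * (E * E) * d r = 1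

/-- Output of the general step 7. `Q` is the product `w 0 * w 1 * ... * w (l-1)`. -/
structure ModeAbsData (l : ℕ) (F : Type u) [Ring F] [StarRing F] [PartialOrder F] where
  w : Fin l → F
  Q : F
  S : F
  b : F
  b_sa : star b = b
  ww : ∀ i, w i * w i = 0
  sum_eq : ∀ i, star (w i) * w i + w i * star (w i) = 1 - b * b
  comm : ∀ i j, i ≠ j → Commute (w i) (w j)
  comms : ∀ i j, i ≠ j → Commute (w i) (star (w j))
  bw : ∀ i, Commute b (w i)
  Q_eq : Q = (List.ofFn w).prod
  bS : b * S = 0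
  le : b ^ (2 * (l + 1)) ≤ star S * (star Q * Q) * S

/-- An order zero system `g` with leftover `z`, and `z` absorbed into the corner `e`, once for each
index in `γ`. -/
structure GlueData (α γ : Type) [Fintype α] [DecidableEq α] [DecidableEq γ] (F : Type u)
    [Ring F] [StarRing F] where
  g : α → F
  e : F
  z : F
  s : γ → F
  gg : ∀ k l, star (g k) * g l = if k = l then e else 0
  sum_eq : ∑ k, g k * star (g k) = 1 - z
  gz : ∀ k, Commute (g k) z
  ss : ∀ a b, star (s a) * s b = if a = b then z else 0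
  es : ∀ a, e * s a = s a

/-- Continuous `f : [0,1] → M_α ⊗ M_β`, equal to some `x ⊗ 1` on `[0,1/3]` and to some `1 ⊗ y` on
`[2/3,1]`. -/
def glueAlg (α β : Type) [Fintype α] [DecidableEq α] [Fintype β] [DecidableEq β] :
    StarSubalgebra ℂ C(unitInterval, Matrix (α × β) (α × β) ℂ) where
  carrier := {f |
    (∃ x : Matrix α α ℂ, ∀ t : unitInterval, (t : ℝ) ≤ 1 / 3 →
      f t = x ⊗ₖ (1 : Matrix β β ℂ)) ∧
    ∃ y : Matrix β β ℂ, ∀ t : unitInterval, 2 / 3 ≤ (t : ℝ) →
      f t = (1 : Matrix α α ℂ) ⊗ₖ y}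
  mul_mem' := by
    rintro f g ⟨⟨x, hx⟩, ⟨y, hy⟩⟩ ⟨⟨x', hx'⟩, ⟨y', hy'⟩⟩
    refine ⟨⟨x * x', fun t ht => ?_⟩, ⟨y * y', fun t ht => ?_⟩⟩
    · simp [hx t ht, hx' t ht, ← Matrix.mul_kronecker_mul]
    · simp [hy t ht, hy' t ht, ← Matrix.mul_kronecker_mul]
  add_mem' := by
    rintro f g ⟨⟨x, hx⟩, ⟨y, hy⟩⟩ ⟨⟨x', hx'⟩, ⟨y', hy'⟩⟩
    refine ⟨⟨x + x', fun t ht => ?_⟩, ⟨y + y', fun t ht => ?_⟩⟩
    · simp [hx t ht, hx' t ht, Matrix.add_kronecker]
    · simp [hy t ht, hy' t ht, Matrix.kronecker_add]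
  algebraMap_mem' := by
    intro r
    refine ⟨⟨r • 1, fun t ht => ?_⟩, ⟨r • 1, fun t ht => ?_⟩⟩
    · rw [Matrix.smul_kronecker, Matrix.one_kronecker_one, Algebra.algebraMap_eq_smul_one]
      rfl
    · rw [Matrix.kronecker_smul, Matrix.one_kronecker_one, Algebra.algebraMap_eq_smul_one]
      rfl
  star_mem' := by
    rintro f ⟨⟨x, hx⟩, ⟨y, hy⟩⟩
    refine ⟨⟨star x, fun t ht => ?_⟩, ⟨star y, fun t ht => ?_⟩⟩
    · simp [hx t ht, Matrix.star_eq_conjTranspose, Matrix.conjTranspose_kronecker]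
    · simp [hy t ht, Matrix.star_eq_conjTranspose, Matrix.conjTranspose_kronecker]

end Vale.Agent.P101
end

section

/-! Step 4: two orthogonal full elements from a partition of unity. -/

open scoped BigOperators

namespace Vale.Agent.P101

universe u v

/-- A walk with small steps visits every residue window. -/
theorem walk_window (m M T a : ℕ) (S : ℕ → ℕ)
    (hstep : ∀ k < m, S (k + 1) + 1 ≤ S k + M) (hM : 0 < M)
    (htot : S 0 + T ≤ S m) (haM : a + M ≤ T) :
    ∃ k, a ≤ S k % T ∧ S k % T < a + M := by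
  have hT : 0 < T := by omega
  obtain ⟨c, hc1, hc2⟩ : ∃ c, S 0 ≤ T * c + a ∧ T * c + a ≤ S m := by
    refine ⟨(S 0 + (T - 1 - a)) / T, ?_, ?_⟩
    · have h1 := Nat.div_add_mod (S 0 + (T - 1 - a)) T
      have h2 := Nat.mod_lt (S 0 + (T - 1 - a)) hT
      omega
    · have h1 := Nat.mul_div_le (S 0 + (T - 1 - a)) T
      omega
  have hex : ∃ k, T * c + a ≤ S k := ⟨m, hc2⟩
  classical
  let k := Nat.find hex
  have hk : T * c + a ≤ S k := Nat.find_spec hex
  have hkm : k ≤ m := Nat.find_min' hex hc2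
  have hup : S k < T * c + a + M := by
    rcases Nat.eq_zero_or_pos k with h0 | h0
    · rw [h0] at *; omega
    · have h1 : ¬ T * c + a ≤ S (k - 1) := Nat.find_min hex (by omega)
      have h2 := hstep (k - 1) (by omega)
      have h3 : k - 1 + 1 = k := by omega
      rw [h3] at h2
      omega
  refine ⟨k, ?_⟩
  obtain ⟨e, he⟩ := Nat.exists_eq_add_of_le hk
  have he2 : a + e < T := by omega
  have : S k % T = a + e := by
    rw [he, add_assoc, Nat.mul_add_mod, Nat.mod_eq_of_lt he2]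
  omega

/-- Among the vertices of a box one has coordinate sum in a given residue window. -/
theorem box_window {M m T a : ℕ} (s t : Fin m → Fin M)
    (hst : ∀ i, 7 ≤ |((s i : ℕ) : ℤ) - ((t i : ℕ) : ℤ)|) (hM : 0 < M)
    (hT : T ≤ 7 * m) (haM : a + M ≤ T) :
    ∃ v : Fin m → Fin M, (∀ i, v i = s i ∨ v i = t i) ∧
      a ≤ (∑ i, (v i : ℕ)) % T ∧ (∑ i, (v i : ℕ)) % T < a + M := by
  classical
  let lo : Fin m → Fin M := fun i => min (s i) (t i)
  let hi : Fin m → Fin M := fun i => max (s i) (t i)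
  have hlohi : ∀ i, (lo i : ℕ) + 7 ≤ hi i := by
    intro i
    have h := hst i
    simp only [lo, hi]
    rcases le_total (s i) (t i) with h1 | h1
    · rw [min_eq_left h1, max_eq_right h1]
      have h2 : (s i : ℕ) ≤ t i := h1
      rw [abs_of_nonpos (by omega)] at h
      omega
    · rw [min_eq_right h1, max_eq_left h1]
      have h2 : (t i : ℕ) ≤ s i := h1
      rw [abs_of_nonneg (by omega)] at h
      omega
  let v : ℕ → Fin m → Fin M := fun k i => if (i : ℕ) < k then hi i else lo i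
  let S : ℕ → ℕ := fun k => ∑ i, (v k i : ℕ)
  have hstep : ∀ k < m, S (k + 1) + 1 ≤ S k + M := by
    intro k hk
    have h1 : ∀ i : Fin m, (v (k + 1) i : ℕ)
        = (v k i : ℕ) + if i = ⟨k, hk⟩ then (hi i : ℕ) - lo i else 0 := by
      intro i
      have h2 := hlohi i
      simp only [v]
      by_cases h3 : i = ⟨k, hk⟩
      · subst h3
        simp only [lt_add_iff_pos_right, Order.lt_one_iff, ↓reduceIte, lt_self_iff_false]
        omega
      · have h4 : (i : ℕ) ≠ k := fun h => h3 (Fin.ext h)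
        rcases lt_or_gt_of_ne h4 with h5 | h5
        · rw [if_pos (by omega), if_pos h5, if_neg h3]; rfl
        · rw [if_neg (by omega), if_neg (by omega), if_neg h3]; rfl
    have h2 : S (k + 1) = S k + ((hi ⟨k, hk⟩ : ℕ) - lo ⟨k, hk⟩) := by
      simp only [S]
      rw [Finset.sum_congr rfl (fun i _ => h1 i), Finset.sum_add_distrib]
      simp only [Finset.sum_ite_eq', Finset.mem_univ, ↓reduceIte, Nat.add_left_cancel_iff]
    have h3 := (hi ⟨k, hk⟩).isLt
    omega
  have htot : S 0 + T ≤ S m := by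
    have h0 : S 0 = ∑ i, (lo i : ℕ) := by simp only [not_lt_zero, ↓reduceIte, S, v]
    have h1 : S m = ∑ i, (hi i : ℕ) := by simp only [Fin.is_lt, ↓reduceIte, S, v]
    have h2 : ∑ i : Fin m, ((lo i : ℕ) + 7) ≤ ∑ i, (hi i : ℕ) :=
      Finset.sum_le_sum fun i _ => hlohi i
    rw [Finset.sum_add_distrib] at h2
    simp only [Finset.sum_const, Finset.card_univ, Fintype.card_fin, smul_eq_mul] at h2
    omega
  obtain ⟨k, hk1, hk2⟩ := walk_window m M T a S hstep hM htot haM
  refine ⟨v k, fun i => ?_, hk1, hk2⟩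
  simp only [v]
  split_ifs
  · exact max_choice _ _
  · exact min_choice _ _

namespace PartData

variable {F : Type u} {G : Type v} [CStarAlgebra F] [CStarAlgebra G] (D : PartData F)

section

variable {m : ℕ} (L : Legs (Fin m) F G)

/-- The product element attached to a grid point. -/
noncomputable def cell (v : Fin m → Fin D.M) : G := L.prodHom (fun i => D.f (v i))

theorem cell_mul_cell (v w : Fin m → Fin D.M) (i : Fin m)
    (h : 2 ≤ |((v i : ℕ) : ℤ) - ((w i : ℕ) : ℤ)|) : D.cell L v * D.cell L w = 0 := by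
  unfold cell
  rw [← map_mul]
  refine L.prodHom_eq_zero _ i ?_
  simp only [Pi.mul_apply]
  exact D.orth _ _ h

theorem sum_cell : ∑ v : Fin m → Fin D.M, D.cell L v = 1 := by
  unfold cell
  rw [← L.prodHom_sum (α := fun _ => Fin D.M) (fun _ j => D.f j)]
  simp only [D.sum_eq]
  exact map_one _

open Classical in
/-- Grid points near a point with coordinate sum in `Z`. -/
noncomputable def near (D : PartData F) (m : ℕ) (Z : Set ℕ) : Finset (Fin m → Fin D.M) :=
  Finset.univ.filter fun v' => ∃ v : Fin m → Fin D.M,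
    (∀ i, |((v i : ℕ) : ℤ) - ((v' i : ℕ) : ℤ)| ≤ 1) ∧ (∑ i, (v i : ℕ)) ∈ Z

theorem mem_near {Z : Set ℕ} {v' : Fin m → Fin D.M} : v' ∈ D.near m Z ↔
    ∃ v : Fin m → Fin D.M,
    (∀ i, |((v i : ℕ) : ℤ) - ((v' i : ℕ) : ℤ)| ≤ 1) ∧ (∑ i, (v i : ℕ)) ∈ Z := by
  classical
  simp only [near, Finset.mem_filter, Finset.mem_univ, true_and]

/-- The element attached to a set of coordinate sums. -/
noncomputable def xi (Z : Set ℕ) : G := ∑ v ∈ D.near m Z, D.cell L v

theorem cell_mul_xi {Z : Set ℕ} (v : Fin m → Fin D.M) (hv : (∑ i, (v i : ℕ)) ∈ Z) :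
    D.cell L v * D.xi L Z = D.cell L v := by
  classical
  have h1 : D.cell L v * ∑ w : Fin m → Fin D.M, D.cell L w = D.cell L v := by
    rw [D.sum_cell L, mul_one]
  conv_rhs => rw [← h1]
  unfold xi
  rw [Finset.mul_sum, Finset.mul_sum]
  refine Finset.sum_subset (Finset.subset_univ _) fun w _ hw => ?_
  have h2 : ∃ i, ¬ |((v i : ℕ) : ℤ) - ((w i : ℕ) : ℤ)| ≤ 1 := by
    by_contra hcon
    push Not at hcon
    exact hw (D.mem_near.2 ⟨v, hcon, hv⟩)
  obtain ⟨i, hi⟩ := h2
  exact D.cell_mul_cell L v w i (by omega)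

theorem xi_mul_xi {Z W : Set ℕ}
    (hZW : ∀ z ∈ Z, ∀ w ∈ W, 3 * (m : ℤ) < |(z : ℤ) - (w : ℤ)|) :
    D.xi L Z * D.xi L W = 0 := by
  classical
  unfold xi
  rw [Finset.sum_mul_sum]
  refine Finset.sum_eq_zero fun v' hv' => Finset.sum_eq_zero fun w' hw' => ?_
  obtain ⟨v, hv, hvZ⟩ := D.mem_near.1 hv'
  obtain ⟨w, hw, hwW⟩ := D.mem_near.1 hw'
  by_contra hne
  have h1 : ∀ i, |((v' i : ℕ) : ℤ) - ((w' i : ℕ) : ℤ)| ≤ 1 := by
    intro i
    by_contra hcon
    exact hne (D.cell_mul_cell L v' w' i (by omega))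
  have h2 : |((∑ i, (v i : ℕ) : ℕ) : ℤ) - ((∑ i, (w i : ℕ) : ℕ) : ℤ)| ≤ 3 * (m : ℤ) := by
    push_cast
    rw [← Finset.sum_sub_distrib]
    refine (Finset.abs_sum_le_sum_abs _ _).trans ?_
    calc ∑ i : Fin m, |((v i : ℕ) : ℤ) - ((w i : ℕ) : ℤ)| ≤ ∑ _i : Fin m, (3 : ℤ) := by
          refine Finset.sum_le_sum fun i _ => ?_
          have a1 := hv i
          have a2 := hw i
          have a3 := h1 i
          rw [abs_le] at a1 a2 a3 ⊢
          (clear * - a1 a2 a3; omega)
      _ = 3 * (m : ℤ) := by simp only [Finset.sum_const, Finset.card_univ, Fintype.card_fin, Int.nsmul_eq_mul, mul_comm]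
  exact absurd h2 (not_le.2 (hZW _ hvZ _ hwW))

theorem xi_full {Z : Set ℕ}
    (hZ : ∀ s t : Fin m → Fin D.M, (∀ i, 7 ≤ |((s i : ℕ) : ℤ) - ((t i : ℕ) : ℤ)|) →
      ∃ v : Fin m → Fin D.M, (∀ i, v i = s i ∨ v i = t i) ∧ (∑ i, (v i : ℕ)) ∈ Z) :
    Full {D.xi L Z ^ 2} := by
  classical
  obtain ⟨n, l, x, r, hx, e⟩ := D.full.exists_sum
  refine Full.of_forall fun I hI => ?_
  have hI' : D.xi L Z ^ 2 ∈ I := hI _ rfl
  have h1 : (1 : G) = ∑ ρ : Fin m → Fin n, L.prodHom (fun i => l (ρ i) * x (ρ i) * r (ρ i)) := by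
    rw [← L.prodHom_sum (α := fun _ => Fin n) (fun _ j => l j * x j * r j)]
    simp only [e]
    exact (map_one _).symm
  rw [h1]
  refine sum_mem fun ρ _ => ?_
  choose s t b hst hxe using hx
  obtain ⟨v, hv, hvZ⟩ := hZ (fun i => s (ρ i)) (fun i => t (ρ i)) (fun i => hst (ρ i))
  have h2 : ∃ y z : Fin m → F, (fun i => l (ρ i) * x (ρ i) * r (ρ i))
      = y * (fun i => D.f (v i)) * z := by
    have h3 : ∀ i, ∃ y z : F, l (ρ i) * x (ρ i) * r (ρ i) = y * D.f (v i) * z := by
      intro i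
      rcases hv i with h | h
      · refine ⟨l (ρ i), b (ρ i) * D.f (t (ρ i)) * r (ρ i), ?_⟩
        rw [hxe, h]; simp only [mul_assoc]
      · refine ⟨l (ρ i) * D.f (s (ρ i)) * b (ρ i), r (ρ i), ?_⟩
        rw [hxe, h]; simp only [mul_assoc]
    choose y z hyz using h3
    exact ⟨y, z, funext hyz⟩
  obtain ⟨y, z, hyz⟩ := h2
  rw [hyz, map_mul, map_mul]
  refine TwoSidedIdeal.mul_mem_right _ _ _ (TwoSidedIdeal.mul_mem_left _ _ _ ?_)
  have h4 : L.prodHom (fun i => D.f (v i)) = D.cell L v * (D.xi L Z ^ 2) := by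
    rw [sq, ← mul_assoc, D.cell_mul_xi L v hvZ, D.cell_mul_xi L v hvZ]
    rfl
  rw [h4]
  exact TwoSidedIdeal.mul_mem_left _ _ _ hI'

end

end PartData

theorem step4 {F : Type u} {G : Type v} [CStarAlgebra F] [CStarAlgebra G] (D : PartData F)
    (L : Legs (Fin (3 * D.M + 2)) F G) :
    ∃ ξ : Bool → G, (∀ i j, i ≠ j → ξ i * ξ j = 0) ∧ ∀ i, Full {ξ i ^ 2} := by
  set m := 3 * D.M + 2 with hm
  set T := 2 * D.M + 6 * m + 2 with hT
  rcases Nat.eq_zero_or_pos D.M with hM | hM
  · -- trivial algebra: `1 = 0`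
    have h1 : (1 : F) = 0 := by
      rw [← D.sum_eq]
      refine Finset.sum_eq_zero fun s _ => ?_
      exact absurd s.isLt (by omega)
    have h2 : (1 : G) = 0 := by
      have := congrArg (L.σ 0) h1
      simpa only [map_one, map_zero] using this
    refine ⟨fun _ => 0, fun i j _ => by simp, fun i => ?_⟩
    refine Full.of_forall fun I _ => ?_
    rw [h2]; exact zero_mem _
  · let Zp : Set ℕ := {z | 0 ≤ z % T ∧ z % T < 0 + D.M}
    let Zm : Set ℕ := {z | D.M + 3 * m + 1 ≤ z % T ∧ z % T < D.M + 3 * m + 1 + D.M}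
    have hsep : ∀ z ∈ Zp, ∀ w ∈ Zm, 3 * (m : ℤ) < |(z : ℤ) - (w : ℤ)| := by
      rintro z ⟨_, hz⟩ w ⟨hw1, hw2⟩
      have ez := Nat.div_add_mod z T
      have ew := Nat.div_add_mod w T
      set c := z / T
      set d := w / T
      have ez' : (z : ℤ) = T * c + (z % T : ℕ) := by exact_mod_cast ez.symm
      have ew' : (w : ℤ) = T * d + (w % T : ℕ) := by exact_mod_cast ew.symm
      have hT' : (T : ℤ) = 2 * D.M + 6 * m + 2 := by rw [hT]; push_cast; ring
      rw [lt_abs]
      rcases le_or_gt c d with h | h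
      · right
        have h1 : (T : ℤ) * c ≤ T * d := by
          have : (c : ℤ) ≤ d := by exact_mod_cast h
          nlinarith only [h]
        omega
      · left
        have h1 : (T : ℤ) * d + T ≤ T * c := by
          have : (d : ℤ) + 1 ≤ c := by exact_mod_cast h
          nlinarith only [h]
        omega
    have hsep' : ∀ z ∈ Zm, ∀ w ∈ Zp, 3 * (m : ℤ) < |(z : ℤ) - (w : ℤ)| := by
      intro z hz w hw
      rw [abs_sub_comm]
      exact hsep w hw z hz
    refine ⟨fun i => if i then D.xi L Zp else D.xi L Zm, ?_, ?_⟩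
    · intro i j hij
      cases i <;> cases j
      · exact absurd rfl hij
      · simpa only [Bool.false_eq_true, ↓reduceIte] using D.xi_mul_xi L hsep'
      · simpa only [↓reduceIte, Bool.false_eq_true] using D.xi_mul_xi L hsep
      · exact absurd rfl hij
    · intro i
      cases i
      · simp only [Bool.false_eq_true, if_false]
        refine D.xi_full L fun s t hst => ?_
        obtain ⟨v, hv, h1, h2⟩ := box_window (T := T) (a := D.M + 3 * m + 1) s t hst hM
          (by omega) (by (clear * - hM; omega))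
        exact ⟨v, hv, h1, h2⟩
      · simp only [if_true]
        refine D.xi_full L fun s t hst => ?_
        obtain ⟨v, hv, h1, h2⟩ := box_window (T := T) (a := 0) s t hst hM
          (by omega) (by omega)
        exact ⟨v, hv, h1, h2⟩

end Vale.Agent.P101
end

section

/-! Auxiliary definitions for the gluing theorem. -/

open scoped BigOperators Kronecker

namespace Vale.Agent.P101

universe u

/-- Continuous `F : [0,1] → M_α` which are scalar on `[2/3,1]`. -/
def coneAlg (α : Type) [Fintype α] [DecidableEq α] :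
    StarSubalgebra ℂ C(unitInterval, Matrix α α ℂ) where
  carrier := {F | ∃ c : ℂ, ∀ t : unitInterval, 2 / 3 ≤ (t : ℝ) → F t = c • (1 : Matrix α α ℂ)}
  mul_mem' := by
    rintro F G ⟨c, hc⟩ ⟨d, hd⟩
    exact ⟨c * d, fun t ht => by simp [hc t ht, hd t ht, smul_smul, mul_comm]⟩
  add_mem' := by
    rintro F G ⟨c, hc⟩ ⟨d, hd⟩
    exact ⟨c + d, fun t ht => by simp [hc t ht, hd t ht, add_smul]⟩
  algebraMap_mem' := by
    intro r
    exact ⟨r, fun t _ => by rw [Algebra.algebraMap_eq_smul_one]; rfl⟩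
  star_mem' := by
    rintro F ⟨c, hc⟩
    exact ⟨star c, fun t ht => by simp [hc t ht]⟩

/-- Output of stage 1. -/
structure ConeData (α : Type) [Fintype α] [DecidableEq α] (G : Type u) [CStarAlgebra G] where
  Γ : coneAlg α →⋆ₐ[ℂ] G
  u : α → G
  m : coneAlg α
  m_eq : ∀ t : unitInterval, 1 / 3 ≤ (t : ℝ) → (m : C(unitInterval, Matrix α α ℂ)) t = 1
  uu : ∀ k l, star (u k) * u l = if k = l then Γ m else 0
  Γu : ∀ (F : coneAlg α) k, Γ F * u k = ∑ l, ((F : C(unitInterval, Matrix α α ℂ)) 0) l k • u l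

/-- `x` acting on the inner index for `none` and on the outer index for `some`. -/
def flipMat {α : Type} [DecidableEq α] (x : Matrix α α ℂ) :
    Matrix (α × Option α) (α × Option α) ℂ :=
  Matrix.of fun i j =>
    Option.elim i.2 (Option.elim j.2 (x i.1 j.1) fun _ => 0)
      fun k' => Option.elim j.2 0 fun l' => if i.1 = j.1 then x k' l' else 0

/-- Continuous `F` equal to some `flipMat x` on `[0,1/3]` and to some `1 ⊗ y` on `[2/3,1]`. -/
def IsFlip {α : Type} [Fintype α] [DecidableEq α]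
    (F : C(unitInterval, Matrix (α × Option α) (α × Option α) ℂ)) : Prop :=
  (∃ x : Matrix α α ℂ, ∀ t : unitInterval, (t : ℝ) ≤ 1 / 3 → F t = flipMat x) ∧
    ∃ y : Matrix (Option α) (Option α) ℂ, ∀ t : unitInterval, 2 / 3 ≤ (t : ℝ) →
      F t = (1 : Matrix α α ℂ) ⊗ₖ y

/-- the flip permutation -/
def flipEquiv (α : Type) : (α × Option α) ≃ (α × Option α) where
  toFun i := Option.elim i.2 (i.1, none) fun l => (l, some i.1)
  invFun i := Option.elim i.2 (i.1, none) fun l => (l, some i.1)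
  left_inv := by rintro ⟨k, _ | l⟩ <;> rfl
  right_inv := by rintro ⟨k, _ | l⟩ <;> rfl

theorem flipMat_eq {α : Type} [Fintype α] [DecidableEq α] (x : Matrix α α ℂ) :
    flipMat x = Matrix.reindex (flipEquiv α) (flipEquiv α)
      (x ⊗ₖ (1 : Matrix (Option α) (Option α) ℂ)) := by
  ext ⟨k, _ | k'⟩ ⟨l, _ | l'⟩ <;>
    simp [flipMat, flipEquiv, Matrix.one_apply]

theorem flipMat_mul {α : Type} [Fintype α] [DecidableEq α] (x y : Matrix α α ℂ) :
    flipMat (x * y) = flipMat x * flipMat y := by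
  rw [flipMat_eq, flipMat_eq, flipMat_eq, ← Matrix.reindexAlgEquiv_apply ℂ ℂ,
    ← Matrix.reindexAlgEquiv_apply ℂ ℂ, ← Matrix.reindexAlgEquiv_apply ℂ ℂ, ← map_mul,
    ← Matrix.mul_kronecker_mul, one_mul]

theorem flipMat_star {α : Type} [Fintype α] [DecidableEq α] (x : Matrix α α ℂ) :
    flipMat (star x) = star (flipMat x) := by
  ext ⟨k, _ | k'⟩ ⟨l, _ | l'⟩ <;>
    simp [flipMat, Matrix.star_apply]
  split_ifs with h1 h2 h3 <;> simp_all

theorem flipMat_one {α : Type} [Fintype α] [DecidableEq α] :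
    flipMat (1 : Matrix α α ℂ) = 1 := by
  ext ⟨k, _ | k'⟩ ⟨l, _ | l'⟩ <;>
    simp [flipMat, Matrix.one_apply]
  split_ifs with h1 h2 h3 <;> simp_all

theorem flipMat_add {α : Type} [DecidableEq α] (x y : Matrix α α ℂ) :
    flipMat (x + y) = flipMat x + flipMat y := by
  ext ⟨k, _ | k'⟩ ⟨l, _ | l'⟩ <;>
    simp [flipMat]
  split_ifs with h1 <;> simp

theorem flipMat_smul {α : Type} [DecidableEq α] (c : ℂ) (x : Matrix α α ℂ) :
    flipMat (c • x) = c • flipMat x := by
  ext ⟨k, _ | k'⟩ ⟨l, _ | l'⟩ <;>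
    simp [flipMat]

/-- The algebra of all `F` with `IsFlip F`. -/
def flipAlg (α : Type) [Fintype α] [DecidableEq α] :
    StarSubalgebra ℂ C(unitInterval, Matrix (α × Option α) (α × Option α) ℂ) where
  carrier := {F | IsFlip F}
  mul_mem' := by
    rintro f g ⟨⟨x, hx⟩, ⟨y, hy⟩⟩ ⟨⟨x', hx'⟩, ⟨y', hy'⟩⟩
    refine ⟨⟨x * x', fun t ht => ?_⟩, ⟨y * y', fun t ht => ?_⟩⟩
    · rw [flipMat_mul, ← hx t ht, ← hx' t ht]; rfl
    · simp [hy t ht, hy' t ht, ← Matrix.mul_kronecker_mul]
  add_mem' := by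
    rintro f g ⟨⟨x, hx⟩, ⟨y, hy⟩⟩ ⟨⟨x', hx'⟩, ⟨y', hy'⟩⟩
    refine ⟨⟨x + x', fun t ht => ?_⟩, ⟨y + y', fun t ht => ?_⟩⟩
    · rw [flipMat_add, ← hx t ht, ← hx' t ht]; rfl
    · simp [hy t ht, hy' t ht, Matrix.kronecker_add]
  algebraMap_mem' := by
    intro r
    refine ⟨⟨r • 1, fun t ht => ?_⟩, ⟨r • 1, fun t ht => ?_⟩⟩
    · rw [flipMat_smul, flipMat_one, Algebra.algebraMap_eq_smul_one]
      rfl
    · rw [Matrix.kronecker_smul, Matrix.one_kronecker_one, Algebra.algebraMap_eq_smul_one]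
      rfl
  star_mem' := by
    rintro f ⟨⟨x, hx⟩, ⟨y, hy⟩⟩
    refine ⟨⟨star x, fun t ht => ?_⟩, ⟨star y, fun t ht => ?_⟩⟩
    · rw [flipMat_star, ← hx t ht]; rfl
    · simp [hy t ht, Matrix.star_eq_conjTranspose, Matrix.conjTranspose_kronecker]

end Vale.Agent.P101
end
namespace AFastb3f85cx1630a
@[reducible] noncomputable def a0 {x1 : Type} [x2 : Fintype x1] [x3 : DecidableEq x1] : Ring ↥(Vale.Agent.P101.coneAlg x1) := inferInstance
@[reducible] noncomputable def a1 {x1 : Type} [x2 : Fintype x1] [x3 : DecidableEq x1] : Star ↥(Vale.Agent.P101.coneAlg x1) := inferInstance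
end AFastb3f85cx1630a
attribute [local instance] AFastb3f85cx1630a.a0 AFastb3f85cx1630a.a1
namespace AFastb3f85cx1630b
@[reducible] noncomputable def a0 {x1 : Type} [x2 : Fintype x1] [x3 : DecidableEq x1] : Semiring ↥(Vale.Agent.P101.coneAlg x1) := inferInstance
end AFastb3f85cx1630b
attribute [local instance] AFastb3f85cx1630b.a0

section

/-! The algebra of asymptotically central and asymptotically fixed bounded functions, modulo null
functions: the fixed point algebra of the central sequence algebra. -/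

open Filter Topology

namespace Vale.Agent.P095.ZS

universe u v w

open Vale.Agent.P101 Vale.Agent.P101.SeqQuot

section Defs

variable {A : Type u} [CStarAlgebra A] {G : Type w} [Group G] (α : G →* (A ≃⋆ₐ[ℂ] A))
  {ι : Type v} (μ : Filter ι)

theorem norm_act (g : G) (x : A) : ‖α g x‖ ≤ ‖x‖ :=
  NonUnitalStarAlgHom.norm_apply_le ((α g : A ≃⋆ₐ[ℂ] A) : A →⋆ₐ[ℂ] A) x

attribute [-instance] AFastb3f85cx4a.a0 AFastb3f85cx4a.a1 AFastb3f85cx4a.a2 AFastb3f85cx4a.a3 AFastb3f85cx4a.a4 AFastb3f85cx4a.a5 AFastb3f85cx4a.a6 AFastb3f85cx4a.a7 AFastb3f85cx4a.a8 AFastb3f85cx4a.a9 AFastb3f85cx4a.a10 AFastb3f85cx4a.a11 AFastb3f85cx4a.a12 AFastb3f85cx4a.a13 AFastb3f85cx4a.a14 AFastb3f85cx4a.a15 AFastb3f85cx4a.a16 AFastb3f85cx4a.a17 AFastb3f85cx4a.a18 AFastb3f85cx4a.a19 AFastb3f85cx4a.a20 AFastb3f85cx4a.a21 AFastb3f85cx4a.a22 AFastb3f85cx4a.a23 AFastb3f85cx4a.a24 AFastb3f85cx4a.a25 AFastb3f85cx4a.a26 AFastb3f85cx4a.a27 AFastb3f85cx4a.a28 AFastb3f85cx4a.a29 AFastb3f85cx4a.a30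 AFastb3f85cx4a.a31 AFastb3f85cx4a.a32 AFastb3f85cx4a.a33 AFastb3f85cx4a.a34 AFastb3f85cx4a.a35 AFastb3f85cx4a.a36 AFastb3f85cx4a.a37 AFastb3f85cx4a.a38 AFastb3f85cx4a.a39 AFastb3f85cx4b.a0 AFastb3f85cx4b.a1 AFastb3f85cx4b.a2 AFastb3f85cx4b.a3 AFastb3f85cx4b.a4 AFastb3f85cx4b.a5 AFastb3f85cx152a.a0 AFastb3f85cx152a.a1 AFastb3f85cx152a.a2 AFastb3f85cx152a.a3 AFastb3f85cx152a.a4 AFastb3f85cx152a.a5 AFastb3f85cx152a.a6 AFastb3f85cx152a.a7 AFastb3f85cx152a.a8 AFastb3f85cx152a.a9 AFastb3f85cx152a.a10 AFastb3f85cx152a.a11 AFastb3f85cx152b.a0 AFastb3f85cx152b.a1 AFastb3f85cx152b.a2 AFastb3f85cx152b.a3 AFastb3f85cx152b.a4 AFastb3f85cx152b.a5 AFastb3f85cx866a.a0 AFastb3f85cx866a.a1 AFastb3f85cx866a.a2 AFastb3f85cx866a.a3 AFastb3f85cx866a.a4 AFastb3f85cx866a.a5 AFastb3f85cx866a.a6 AFastb3f85cx866a.a7 AFastb3f85cx866a.a8 AFastb3f85cx866a.a9 AFastb3f85cx866a.a10 AFastb3f85cx866a.a11 AFastb3f85cx866a.a12 AFastb3f85cx866b.a0 AFastb3f85cx866b.a1 AFastb3f85cx866b.a2 AFastb3f85cx866b.a3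 AFastb3f85cx1630a.a0 AFastb3f85cx1630a.a1 AFastb3f85cx1630b.a0 in
/-- Bounded functions `x : ι → A` with `‖α g (x i) - x i‖ → 0` along `μ` for every `g`. -/
noncomputable def invSeq : StarSubalgebra ℂ (ι → A) where
  carrier := {x | (∃ C : ℝ, ∀ i, ‖x i‖ ≤ C) ∧
    ∀ g : G, Tendsto (fun i => ‖α g (x i) - x i‖) μ (𝓝 0)}
  mul_mem' := by
    rintro x y ⟨⟨C, hC⟩, hx⟩ ⟨⟨D, hD⟩, hy⟩
    refine ⟨⟨C * D, fun i => ?_⟩, fun g => ?_⟩
    · exact (norm_mul_le _ _).trans
        (mul_le_mul (hC i) (hD i) (norm_nonneg _) ((norm_nonneg _).trans (hC i)))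
    · have h : Tendsto (fun i => ‖α g (x i) - x i‖ * D + C * ‖α g (y i) - y i‖) μ (𝓝 0) := by
        simpa using ((hx g).mul_const D).add ((hy g).const_mul C)
      refine squeeze_zero (fun i => norm_nonneg _) (fun i => ?_) h
      have e : α g ((x * y) i) - (x * y) i
          = (α g (x i) - x i) * α g (y i) + x i * (α g (y i) - y i) := by
        simp only [Pi.mul_apply, map_mul]; noncomm_ring
      rw [e]
      refine (norm_add_le _ _).trans (add_le_add ?_ ?_)
      · exact (norm_mul_le _ _).trans (mul_le_mul_of_nonneg_left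
          ((norm_act α g _).trans (hD i)) (norm_nonneg _))
      · exact (norm_mul_le _ _).trans (mul_le_mul_of_nonneg_right (hC i) (norm_nonneg _))
  add_mem' := by
    rintro x y ⟨⟨C, hC⟩, hx⟩ ⟨⟨D, hD⟩, hy⟩
    refine ⟨⟨C + D, fun i => (norm_add_le _ _).trans (add_le_add (hC i) (hD i))⟩, fun g => ?_⟩
    have h : Tendsto (fun i => ‖α g (x i) - x i‖ + ‖α g (y i) - y i‖) μ (𝓝 0) := by
      simpa using (hx g).add (hy g)
    refine squeeze_zero (fun i => norm_nonneg _) (fun i => ?_) h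
    have e : α g ((x + y) i) - (x + y) i = (α g (x i) - x i) + (α g (y i) - y i) := by
      simp only [Pi.add_apply, map_add]; abel
    rw [e]
    exact norm_add_le _ _
  algebraMap_mem' := by
    intro r
    refine ⟨⟨‖algebraMap ℂ A r‖, fun i => le_rfl⟩, fun g => ?_⟩
    have : (fun i : ι => ‖α g ((algebraMap ℂ (ι → A) r) i) - (algebraMap ℂ (ι → A) r) i‖)
        = fun _ => (0 : ℝ) := by
      funext i
      rw [Pi.algebraMap_apply]
      have h1 : α g (algebraMap ℂ A r) = algebraMap ℂ A r := AlgHomClass.commutes (α g) r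
      rw [h1, sub_self, norm_zero]
    rw [this]
    exact tendsto_const_nhds
  star_mem' := by
    rintro x ⟨⟨C, hC⟩, hx⟩
    refine ⟨⟨C, fun i => by simpa using hC i⟩, fun g => ?_⟩
    refine (hx g).congr (fun i => ?_)
    have e : α g ((star x) i) - (star x) i = star (α g (x i) - x i) := by
      simp only [Pi.star_apply, star_sub, map_star]
    rw [e, norm_star]

/-- Bounded functions `x : ι → A` that are asymptotically central and asymptotically fixed by
`α`. -/
noncomputable def fixSeq : StarSubalgebra ℂ (ι → A) := centralSeq A μ ⊓ invSeq α μ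

theorem mem_fixSeq (x : ι → A) : x ∈ fixSeq α μ ↔ x ∈ centralSeq A μ ∧
    ∀ g : G, Tendsto (fun i => ‖α g (x i) - x i‖) μ (𝓝 0) :=
  ⟨fun h => ⟨h.1, h.2.2⟩, fun h => ⟨h.1, h.1.1, h.2⟩⟩

lemma isSeqAlg_fixSeq : IsSeqAlg μ (fixSeq α μ) where
  bdd x hx := hx.1.1
  cut := by
    rintro x hx s hs
    rw [mem_fixSeq] at hx ⊢
    refine ⟨(isSeqAlg_centralSeq A μ).cut x hx.1 s hs, fun g => ?_⟩
    refine (hx.2 g).congr' ?_
    filter_upwards [hs] with i hi
    rw [Set.indicator_of_mem hi]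
  lim := by
    intro x hx
    rw [mem_fixSeq]
    refine ⟨(isSeqAlg_centralSeq A μ).lim x fun ε hε => ?_, fun g => ?_⟩
    · obtain ⟨y, hy, h⟩ := hx ε hε
      exact ⟨y, hy.1, h⟩
    · rw [Metric.tendsto_nhds]
      intro ε hε
      obtain ⟨y, hyc, hy⟩ := hx (ε / 4) (by (clear * - hε; positivity))
      rw [mem_fixSeq] at hyc
      have h1 := (Metric.tendsto_nhds.mp (hyc.2 g)) (ε / 2) (by positivity)
      filter_upwards [h1] with i hi
      rw [dist_zero_right, norm_norm] at hi ⊢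
      have e : α g (x i) - x i = α g (x i - y i) + (α g (y i) - y i) - (x i - y i) := by
        rw [map_sub]; abel
      have h2 := norm_sub_le (α g (x i - y i) + (α g (y i) - y i)) (x i - y i)
      have h3 := norm_add_le (α g (x i - y i)) (α g (y i) - y i)
      have h4 := (norm_act α g (x i - y i)).trans (hy i)
      have h5 := hy i
      rw [e]
      linarith

/-- The fixed point algebra of the central sequence algebra `A_μ ∩ A'`. -/
abbrev Fa : Type (max u v) :=
  (nullConG μ (fixSeq α μ) (isSeqAlg_fixSeq α μ)).Quotient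

noncomputable instance instStarRingFa : StarRing (Fa α μ) where
  star := Quotient.map' star (fun x y h => by
    refine Tendsto.congr (fun i => ?_) h
    show _ = ‖((star x : fixSeq α μ) : ι → A) i - ((star y : fixSeq α μ) : ι → A) i‖
    rw [show ((star x : fixSeq α μ) : ι → A) i - ((star y : fixSeq α μ) : ι → A) i
      = star ((x : ι → A) i - (y : ι → A) i) by simp, norm_star])
  star_involutive := by
    rintro ⟨x⟩
    exact congrArg (Quotient.mk'' (s₁ := (nullConG μ (fixSeq α μ)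
      (isSeqAlg_fixSeq α μ)).toSetoid)) (star_star x)
  star_mul := by
    rintro ⟨x⟩ ⟨y⟩
    exact congrArg (Quotient.mk'' (s₁ := (nullConG μ (fixSeq α μ)
      (isSeqAlg_fixSeq α μ)).toSetoid)) (star_mul x y)
  star_add := by
    rintro ⟨x⟩ ⟨y⟩
    exact congrArg (Quotient.mk'' (s₁ := (nullConG μ (fixSeq α μ)
      (isSeqAlg_fixSeq α μ)).toSetoid)) (star_add x y)

noncomputable instance instCStarFa : CStarAlgebra (Fa α μ) :=
  cstar (isSeqAlg_fixSeq α μ) (nullConG μ (fixSeq α μ) (isSeqAlg_fixSeq α μ))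
    (fun _ _ => Iff.rfl) inferInstance (fun _ => rfl)

/-- The class of a function. -/
noncomputable def Fa.mk (x : fixSeq α μ) : Fa α μ :=
  ((x : fixSeq α μ) : (nullConG μ (fixSeq α μ) (isSeqAlg_fixSeq α μ)).Quotient)

theorem Fa.mk_eq_iff (x y : fixSeq α μ) : Fa.mk α μ x = Fa.mk α μ y ↔
    Tendsto (fun i => ‖(x : ι → A) i - (y : ι → A) i‖) μ (𝓝 0) :=
  (nullConG μ (fixSeq α μ) (isSeqAlg_fixSeq α μ)).eq

/-- The inclusion of fixed functions in central functions. -/
noncomputable def inclSeq : fixSeq α μ →⋆ₐ[ℂ] centralSeq A μ where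
  toFun x := ⟨x, x.2.1⟩
  map_one' := rfl
  map_mul' _ _ := rfl
  map_zero' := rfl
  map_add' _ _ := rfl
  commutes' _ := rfl
  map_star' _ := rfl

/-- The inclusion of the fixed point algebra in the central sequence algebra. -/
noncomputable def incl : Fa α μ →⋆ₐ[ℂ] Fcs A μ :=
  { (nullConG μ (fixSeq α μ) (isSeqAlg_fixSeq α μ)).liftₐ (((nullCon A μ).mkₐ ℂ).comp
      (inclSeq α μ : fixSeq α μ →ₐ[ℂ] centralSeq A μ)) (by
      intro x y hxy
      have h : Tendsto (fun i => ‖(x : ι → A) i - (y : ι → A) i‖) μ (𝓝 0) := hxy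
      refine Quotient.sound (?_ : (nullCon A μ) _ _)
      exact h) with
    map_star' := by
      rintro ⟨x⟩
      rfl }

end Defs

end Vale.Agent.P095.ZS
end
namespace AFastb3f85cx1801a
@[reducible] noncomputable def a0.{u1, u2, u3} {x1 : Type u1} {x2 : Type u2} [x3 : CStarAlgebra x2] {x4 : Type u3} [x5 : Group x4] {x6 : x4 →* x2 ≃⋆ₐ[ℂ] x2} {x7 : Filter x1} : Semiring ↥(Vale.Agent.P095.ZS.fixSeq x6 x7) := inferInstance
@[reducible] noncomputable def a1.{u1, u2, u3} {x1 : Type u1} {x2 : Type u2} [x3 : CStarAlgebra x2] {x4 : Type u3} [x5 : Group x4] {x6 : x4 →* x2 ≃⋆ₐ[ℂ] x2} {x7 : Filter x1} : Ring ↥(Vale.Agent.P095.ZS.fixSeq x6 x7) := inferInstance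
@[reducible] noncomputable def a2.{u1, u2, u3} {x1 : Type u1} {x2 : Type u2} [x3 : CStarAlgebra x2] {x4 : Type u3} [x5 : Group x4] {x6 : x4 →* x2 ≃⋆ₐ[ℂ] x2} {x7 : Filter x1} : Mul ↥(Vale.Agent.P095.ZS.fixSeq x6 x7) := inferInstance
@[reducible] noncomputable def a3.{u1, u2, u3} {x1 : Type u1} {x2 : Type u2} [x3 : CStarAlgebra x2] {x4 : Type u3} [x5 : Group x4] {x6 : x4 →* x2 ≃⋆ₐ[ℂ] x2} {x7 : Filter x1} : Add ↥(Vale.Agent.P095.ZS.fixSeq x6 x7) := inferInstance
@[reducible] noncomputable def a4.{u1, u2, u3} {x1 : Type u1} {x2 : Type u2} [x3 : CStarAlgebra x2] {x4 : Type u3} [x5 : Group x4] {x6 : x4 →* x2 ≃⋆ₐ[ℂ] x2} {x7 : Filter x1} : Distrib ↥(Vale.Agent.P095.ZS.fixSeq x6 x7) := inferInstance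
@[reducible] noncomputable def a5.{u1, u2, u3} {x1 : Type u1} {x2 : Type u2} [x3 : CStarAlgebra x2] {x4 : Type u3} [x5 : Group x4] {x6 : x4 →* x2 ≃⋆ₐ[ℂ] x2} {x7 : Filter x1} : NonAssocSemiring ↥(Vale.Agent.P095.ZS.fixSeq x6 x7) := inferInstance
@[reducible] noncomputable def a6.{u1, u2, u3} {x1 : Type u1} {x2 : Type u2} [x3 : CStarAlgebra x2] {x4 : Type u3} [x5 : Group x4] {x6 : x4 →* x2 ≃⋆ₐ[ℂ] x2} {x7 : Filter x1} : Star ↥(Vale.Agent.P095.ZS.fixSeq x6 x7) := inferInstance
@[reducible] noncomputable def a7.{u1, u2, u3} {x1 : Type u1} {x2 : Type u2} [x3 : CStarAlgebra x2] {x4 : Type u3} [x5 : Group x4] {x6 : x4 →* x2 ≃⋆ₐ[ℂ] x2} {x7 : Filter x1} : NonUnitalNonAssocSemiring ↥(Vale.Agent.P095.ZS.fixSeq x6 x7) := inferInstance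
@[reducible] noncomputable def a8.{u1, u2, u3} {x1 : Type u1} {x2 : Type u2} [x3 : CStarAlgebra x2] {x4 : Type u3} [x5 : Group x4] {x6 : x4 →* x2 ≃⋆ₐ[ℂ] x2} {x7 : Filter x1} : NonUnitalNonAssocRing ↥(Vale.Agent.P095.ZS.fixSeq x6 x7) := inferInstance
@[reducible] noncomputable def a9.{u1, u2, u3} {x1 : Type u1} {x2 : Type u2} [x3 : CStarAlgebra x2] {x4 : Type u3} [x5 : Group x4] {x6 : x4 →* x2 ≃⋆ₐ[ℂ] x2} {x7 : Filter x1} : Algebra ℂ ↥(Vale.Agent.P095.ZS.fixSeq x6 x7) := inferInstance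
@[reducible] noncomputable def a10.{u1, u2, u3} {x1 : Type u1} {x2 : Type u2} [x3 : CStarAlgebra x2] {x4 : Type u3} [x5 : Group x4] {x6 : x4 →* x2 ≃⋆ₐ[ℂ] x2} {x7 : Filter x1} : NonAssocRing ↥(Vale.Agent.P095.ZS.fixSeq x6 x7) := inferInstance
@[reducible] noncomputable def a11.{u1, u2, u3} {x1 : Type u1} {x2 : Type u2} [x3 : CStarAlgebra x2] {x4 : Type u3} [x5 : Group x4] {x6 : x4 →* x2 ≃⋆ₐ[ℂ] x2} {x7 : Filter x1} : AddMonoid ↥(Vale.Agent.P095.ZS.fixSeq x6 x7) := inferInstance
end AFastb3f85cx1801a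
attribute [local instance] AFastb3f85cx1801a.a0 AFastb3f85cx1801a.a1 AFastb3f85cx1801a.a2
  AFastb3f85cx1801a.a3 AFastb3f85cx1801a.a4 AFastb3f85cx1801a.a5 AFastb3f85cx1801a.a6
  AFastb3f85cx1801a.a7 AFastb3f85cx1801a.a8 AFastb3f85cx1801a.a9 AFastb3f85cx1801a.a10
  AFastb3f85cx1801a.a11
namespace AFastb3f85cx1801b
@[reducible] noncomputable def a0.{u1, u2, u3} {x1 : Type u1} [x2 : CStarAlgebra x1] {x3 : Type u2} [x4 : Group x3] {x5 : x3 →* x1 ≃⋆ₐ[ℂ] x1} {x6 : Type u3} {x7 : Filter x6} : Star (Vale.Agent.P095.ZS.Fa x5 x7) := inferInstance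
@[reducible] noncomputable def a1.{u1, u2, u3} {x1 : Type u1} [x2 : CStarAlgebra x1] {x3 : Type u2} [x4 : Group x3] {x5 : x3 →* x1 ≃⋆ₐ[ℂ] x1} {x6 : Type u3} {x7 : Filter x6} : InvolutiveStar (Vale.Agent.P095.ZS.Fa x5 x7) := inferInstance
@[reducible] noncomputable def a2.{u1, u2, u3} {x1 : Type u1} [x2 : CStarAlgebra x1] {x3 : Type u2} [x4 : Group x3] {x5 : x3 →* x1 ≃⋆ₐ[ℂ] x1} {x6 : Type u3} {x7 : Filter x6} : StarAddMonoid (Vale.Agent.P095.ZS.Fa x5 x7) := inferInstance
end AFastb3f85cx1801b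
attribute [local instance] AFastb3f85cx1801b.a0 AFastb3f85cx1801b.a1 AFastb3f85cx1801b.a2
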