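import Vale.Agent.P095.MathlibUsed
import Vale.Agent.P095.Defs

set_option linter.all false

namespace AFast03a46ax5a
theorem a0.{u1} {x1 : Type u1} [x2 : CStarAlgebra x1] : SubringClass (StarSubalgebra ℂ (ℕ → x1)) (ℕ → x1) := inferInstance
@[reducible] noncomputable def a1.{u1} {x1 : Type u1} [x2 : CStarAlgebra x1] : SetLike (StarSubalgebra ℂ (ℕ → x1)) (ℕ → x1) := inferInstance
theorem a2.{u1} {x1 : Type u1} [x2 : CStarAlgebra x1] : AddSubgroupClass (StarSubalgebra ℂ (ℕ → x1)) (ℕ → x1) := inferInstance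
theorem a3.{u1} {x1 : Type u1} [x2 : CStarAlgebra x1] : StarModule ℂ (ℕ → x1) := inferInstance
@[reducible] def a4.{u1} {x1 : Type u1} {x2 : ℕ} [x3 : CStarAlgebra x1] : StarMul ((fun a => x1) x2) := inferInstance
theorem a5.{u1} {x1 : Type u1} [x2 : CStarAlgebra x1] : StarMemClass (StarSubalgebra ℂ (ℕ → x1)) (ℕ → x1) := inferInstance
@[reducible] def a6.{u1} {x1 : Type u1} {x2 : ℕ} [x3 : CStarAlgebra x1] : InvolutiveStar ((fun a => x1) x2) := inferInstance
theorem a7.{u1} {x1 : Type u1} [x2 : Ring x1] [x3 : Algebra ℂ x1] : AddMonoidHomClass (x1 →ₗ[ℂ] ℂ) x1 ℂ := inferInstance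
theorem a8.{u1} {x1 : Type u1} [x2 : Ring x1] [x3 : Algebra ℂ x1] : DistribMulActionSemiHomClass (x1 →ₗ[ℂ] ℂ) (⇑(RingHom.id ℂ)) x1 ℂ := inferInstance
theorem a9.{u1} {x1 : Type u1} [x2 : CStarAlgebra x1] : SubsemiringClass (StarSubalgebra ℂ (ℕ → x1)) (ℕ → x1) := inferInstance
theorem a10.{u1} {x1 : Type u1} [x2 : CStarAlgebra x1] : AddSubmonoidWithOneClass (StarSubalgebra ℂ (ℕ → x1)) (ℕ → x1) := inferInstance
@[reducible] noncomputable def a11.{u1} {x1 : Type u1} [x2 : CStarAlgebra x1] : StarRing (ℕ → x1) := inferInstance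
theorem a12.{u1} {x1 : Type u1} [x2 : CStarAlgebra x1] : OneMemClass (StarSubalgebra ℂ (ℕ → x1)) (ℕ → x1) := inferInstance
@[reducible] def a13.{u1} {x1 : Type u1} {x2 : ℕ} [x3 : CStarAlgebra x1] : NonUnitalSemiring ((fun a => x1) x2) := inferInstance
@[reducible] def a14.{u1} {x1 : Type u1} [x2 : CStarAlgebra x1] : Algebra ℂ (ℕ → x1) := inferInstance
@[reducible] def a15.{u1} {x1 : Type u1} [x2 : CStarAlgebra x1] : Semiring (ℕ → x1) := inferInstance
@[reducible] def a16.{u1} {x1 : Type u1} {x2 : ℕ} [x3 : CStarAlgebra x1] : NonUnitalNonAssocSemiring ((fun a => x1) x2) := inferInstance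
@[reducible] def a17.{u1} {x1 : Type u1} [x2 : CStarAlgebra x1] : Star (ℕ → x1) := inferInstance
@[reducible] def a18.{u1} {x1 : Type u1} {x2 : ℕ} [x3 : CStarAlgebra x1] : Distrib ((fun a => x1) x2) := inferInstance
theorem a19.{u1} {x1 : Type u1} [x2 : CStarAlgebra x1] : NonUnitalAlgHomClass (x1 ≃⋆ₐ[ℂ] x1) ℂ x1 x1 := inferInstance
@[reducible] def a20.{u1} {x1 : Type u1} [x2 : CStarAlgebra x1] : MulOne (x1 ≃⋆ₐ[ℂ] x1) := inferInstance
@[reducible] def a21.{u1} {x1 : Type u1} [x2 : CStarAlgebra x1] : MulOneClass (x1 ≃⋆ₐ[ℂ] x1) := inferInstance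
theorem a22.{u1} {x1 : Type u1} [x2 : CStarAlgebra x1] : MulHomClass (x1 ≃⋆ₐ[ℂ] x1) x1 x1 := inferInstance
theorem a23 : IsScalarTower ℚ≥0 ℚ ℝ := inferInstance
@[reducible] def a24.{u1} {x1 : Type u1} [x2 : NormedAddCommGroup x1] [x3 : InnerProductSpace ℂ x1] : AddCommMonoid (x1 →L[ℂ] x1) := inferInstance
@[reducible] def a25.{u1} {x1 : Type u1} [x2 : CStarAlgebra x1] : Monoid (x1 ≃⋆ₐ[ℂ] x1) := inferInstance
theorem a26.{u1} {x1 : Type u1} [x2 : CStarAlgebra x1] : ZeroMemClass (StarSubalgebra ℂ (ℕ → x1)) (ℕ → x1) := inferInstance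
theorem a27 : AddRightReflectLE ℝ := inferInstance
theorem a28 : CharZero ℝ := inferInstance
theorem a29 : IsTopologicalRing ℂ := inferInstance
theorem a30.{u1} {x1 : Type u1} [x2 : NormedAddCommGroup x1] [x3 : InnerProductSpace ℂ x1] : AddMonoidHomClass (x1 →L[ℂ] x1) x1 x1 := inferInstance
theorem a31.{u1} {x1 : Type u1} [x2 : CStarAlgebra x1] : OneHomClass (x1 ≃⋆ₐ[ℂ] x1) x1 x1 := inferInstance
theorem a32.{u1} {x1 : Type u1} [x2 : CStarAlgebra x1] : AlgHomClass (x1 ≃⋆ₐ[ℂ] x1) ℂ x1 x1 := inferInstance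
theorem a33.{u1} {x1 : Type u1} [x2 : NormedAddCommGroup x1] [x3 : InnerProductSpace ℂ x1] : DistribMulActionSemiHomClass (x1 →L[ℂ] x1) (⇑(RingHom.id ℂ)) x1 x1 := inferInstance
theorem a34.{u1} {x1 : Type u1} [x2 : Ring x1] [x3 : Algebra ℂ x1] : ZeroHomClass (x1 →ₗ[ℂ] ℂ) x1 ℂ := inferInstance
theorem a35.{u1} {x1 : Type u1} [x2 : CStarAlgebra x1] : MonoidHomClass (x1 ≃⋆ₐ[ℂ] x1) x1 x1 := inferInstance
theorem a36.{u1} {x1 : Type u1} [x2 : CStarAlgebra x1] : AlgEquivClass (x1 ≃⋆ₐ[ℂ] x1) ℂ x1 x1 := inferInstance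
@[reducible] noncomputable def a37.{u1} {x1 : Type u1} [x2 : NormedAddCommGroup x1] [x3 : InnerProductSpace ℂ x1] : SeminormedAddCommGroup (x1 →L[ℂ] x1) := inferInstance
theorem a38.{u1} {x1 : Type u1} [x2 : CStarAlgebra x1] : MonoidWithZeroHomClass (x1 ≃⋆ₐ[ℂ] x1) x1 x1 := inferInstance
theorem a39.{u1} {x1 : Type u1} [x2 : CStarAlgebra x1] : AddSubmonoidClass (StarSubalgebra ℂ (ℕ → x1)) (ℕ → x1) := inferInstance
theorem a40 : CovariantClass ℝ ℝ (Function.swap fun x1 x2 => x1 + x2) fun x1 x2 => x1 ≤ x2 := inferInstance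
theorem a41 : OrderClosedTopology ℝ := inferInstance
@[reducible] noncomputable def a42 : MulAction ℚ ℝ := inferInstance
theorem a43.{u1} {x1 : Type u1} [x2 : Ring x1] [x3 : Algebra ℂ x1] : MulActionSemiHomClass (x1 →ₗ[ℂ] ℂ) (⇑(RingHom.id ℂ)) x1 ℂ := inferInstance
theorem a44 : SeparatelyContinuousMul ℂ := inferInstance
@[reducible] noncomputable def a45 : DistribMulAction ℚ ℝ := inferInstance
theorem a46 : IsRightCancelAdd ℝ := inferInstance
theorem a47 : PosMulReflectLT ℝ := inferInstance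
theorem a48 : IsSemitopologicalSemiring ℂ := inferInstance
theorem a49.{u1} {x1 : Type u1} [x2 : CStarAlgebra x1] : RingHomClass (x1 ≃⋆ₐ[ℂ] x1) x1 x1 := inferInstance
theorem a50 : IsSemitopologicalRing ℂ := inferInstance
@[reducible] noncomputable def a51 : MulAction ℚ≥0 ℝ := inferInstance
theorem a52 : ContinuousSub ℂ := inferInstance
@[reducible] noncomputable def a53 : Module ℚ ℝ := inferInstance
@[reducible] noncomputable def a54 : DistribMulAction ℚ≥0 ℝ := inferInstance
end AFast03a46ax5a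
attribute [local instance] AFast03a46ax5a.a0 AFast03a46ax5a.a1 AFast03a46ax5a.a2 AFast03a46ax5a.a3
  AFast03a46ax5a.a4 AFast03a46ax5a.a5 AFast03a46ax5a.a6 AFast03a46ax5a.a7 AFast03a46ax5a.a8
  AFast03a46ax5a.a9 AFast03a46ax5a.a10 AFast03a46ax5a.a11 AFast03a46ax5a.a12 AFast03a46ax5a.a13
  AFast03a46ax5a.a14 AFast03a46ax5a.a15 AFast03a46ax5a.a16 AFast03a46ax5a.a17 AFast03a46ax5a.a18
  AFast03a46ax5a.a19 AFast03a46ax5a.a20 AFast03a46ax5a.a21 AFast03a46ax5a.a22 AFast03a46ax5a.a23
  AFast03a46ax5a.a24 AFast03a46ax5a.a25 AFast03a46ax5a.a26 AFast03a46ax5a.a27 AFast03a46ax5a.a28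
  AFast03a46ax5a.a29 AFast03a46ax5a.a30 AFast03a46ax5a.a31 AFast03a46ax5a.a32 AFast03a46ax5a.a33
  AFast03a46ax5a.a34 AFast03a46ax5a.a35 AFast03a46ax5a.a36 AFast03a46ax5a.a37 AFast03a46ax5a.a38
  AFast03a46ax5a.a39 AFast03a46ax5a.a40 AFast03a46ax5a.a41 AFast03a46ax5a.a42 AFast03a46ax5a.a43
  AFast03a46ax5a.a44 AFast03a46ax5a.a45 AFast03a46ax5a.a46 AFast03a46ax5a.a47 AFast03a46ax5a.a48
  AFast03a46ax5a.a49 AFast03a46ax5a.a50 AFast03a46ax5a.a51 AFast03a46ax5a.a52 AFast03a46ax5a.a53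
  AFast03a46ax5a.a54
namespace AFast03a46ax5b
@[reducible] def a0.{u1} {x1 : Type u1} [x2 : NormedAddCommGroup x1] [x3 : InnerProductSpace ℂ x1] : Module ℂ (x1 →L[ℂ] x1) := inferInstance
theorem a1 : ContinuousSMul ℚ≥0 ℝ := inferInstance
theorem a2.{u1} {x1 : Type u1} [x2 : NormedAddCommGroup x1] [x3 : InnerProductSpace ℂ x1] : ZeroHomClass (x1 →L[ℂ] x1) x1 x1 := inferInstance
end AFast03a46ax5b
attribute [local instance] AFast03a46ax5b.a0 AFast03a46ax5b.a1 AFast03a46ax5b.a2
section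

namespace Vale.Agent.P095

/-- a continuous nonnegative function of a self-adjoint element is of the form `b* b` -/
theorem clamp_exists_cfc {A : Type*} [CStarAlgebra A] (y : A) (_hy : IsSelfAdjoint y)
    (g : ℝ → ℝ) (hg : Continuous g) (h0 : ∀ t ∈ spectrum ℝ y, 0 ≤ g t) :
    ∃ b : A, cfc g y = star b * b := by
  refine ⟨cfc (fun t => Real.sqrt (g t)) y, ?_⟩
  have hs : IsSelfAdjoint (cfc (fun t => Real.sqrt (g t)) y) := cfc_predicate _ _
  rw [hs.star_eq, ← cfc_mul (fun t => Real.sqrt (g t)) (fun t => Real.sqrt (g t)) y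
    (hg.sqrt.continuousOn) (hg.sqrt.continuousOn)]
  refine cfc_congr fun t ht => ?_
  exact (Real.mul_self_sqrt (h0 t ht)).symm

/-- A self-adjoint element that is nearly idempotent in 2-norm is near a positive contraction. -/
theorem exists_clamp {A : Type*} [CStarAlgebra A] (y : A) (hy : IsSelfAdjoint y) :
    ∃ e : A, IsSelfAdjoint e ∧ (∃ b, e = star b * b) ∧ (∃ b, 1 - e = star b * b) ∧ ‖e‖ ≤ 1 ∧
      ∀ τ : A →ₗ[ℂ] ℂ, IsTracialState τ →
        (τ (star (e - y) * (e - y))).re ≤ (τ (star (y * y - y) * (y * y - y))).re := by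
  set c : ℝ → ℝ := fun t => max 0 (min t 1) with hc
  have hcc : Continuous c := by fun_prop
  have hc0 : ∀ t, 0 ≤ c t := fun t => le_max_left _ _
  have hc1 : ∀ t, c t ≤ 1 := fun t => max_le zero_le_one (min_le_right _ _)
  have hid : cfc (fun t : ℝ => t) y = y := cfc_id' ℝ y
  refine ⟨cfc c y, cfc_predicate _ _, ?_, ?_, ?_, ?_⟩
  · exact clamp_exists_cfc y hy c hcc fun t _ => hc0 t
  · have h1 : 1 - cfc c y = cfc (fun t => 1 - c t) y := by
      rw [cfc_sub (fun _ => (1 : ℝ)) c y (continuous_const.continuousOn) hcc.continuousOn,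
        cfc_const_one ℝ y]
    rw [h1]
    exact clamp_exists_cfc y hy _ (by (clear * - hcc; fun_prop)) fun t _ => by (clear * - hc1; linarith [hc1 t])
  · refine norm_cfc_le zero_le_one fun t _ => ?_
    rw [Real.norm_eq_abs, abs_of_nonneg (hc0 t)]
    exact hc1 t
  · intro τ hτ
    have h1 : cfc c y - y = cfc (fun t => c t - t) y := by
      rw [cfc_sub c (fun t => t) y hcc.continuousOn (continuous_id.continuousOn), hid]
    have h2 : y * y - y = cfc (fun t : ℝ => t * t - t) y := by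
      rw [cfc_sub (fun t : ℝ => t * t) (fun t => t) y (by fun_prop) (by fun_prop),
        cfc_mul (fun t : ℝ => t) (fun t => t) y (by fun_prop) (by fun_prop), hid]
    have hs1 : IsSelfAdjoint (cfc (fun t => c t - t) y) := cfc_predicate _ _
    have hs2 : IsSelfAdjoint (cfc (fun t : ℝ => t * t - t) y) := cfc_predicate _ _
    rw [h1, h2, hs1.star_eq, hs2.star_eq,
      ← cfc_mul (fun t => c t - t) (fun t => c t - t) y (by fun_prop) (by fun_prop),
      ← cfc_mul (fun t : ℝ => t * t - t) (fun t : ℝ => t * t - t) y (by fun_prop) (by fun_prop)]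
    obtain ⟨b, hb⟩ := clamp_exists_cfc y hy
      (fun t => (t * t - t) * (t * t - t) - (c t - t) * (c t - t)) (by (clear * - hcc; (clear * - hcc; fun_prop))) (by
        intro t _
        have h3 : |c t - t| ≤ |t * t - t| := by
          rcases le_total t 0 with h | h
          · have : c t = 0 := by
              simp only [hc]; rw [min_eq_left (by linarith only [h]), max_eq_left h]
            rw [this, zero_sub, abs_neg, abs_of_nonpos h, abs_of_nonneg (by nlinarith only [h])]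
            nlinarith only []
          · rcases le_total t 1 with h' | h'
            · have : c t = t := by
                simp only [hc]; rw [min_eq_left h', max_eq_right h]
              rw [this, sub_self, abs_zero]; exact abs_nonneg _
            · have : c t = 1 := by
                simp only [hc]; rw [min_eq_right h', max_eq_right zero_le_one]
              rw [this, abs_of_nonpos (by linarith only [h']), abs_of_nonneg (by nlinarith only [h'])]
              nlinarith only [h']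
        have h4 := sq_le_sq.2 h3
        linarith)
    rw [cfc_sub (fun t : ℝ => (t * t - t) * (t * t - t)) (fun t => (c t - t) * (c t - t)) y
      (by (clear * -; fun_prop)) (by fun_prop), sub_eq_iff_eq_add] at hb
    rw [hb, map_add, Complex.add_re]
    have := hτ.re_nonneg b
    linarith only [this]

theorem clamp_norm_sq {A : Type*} [CStarAlgebra A] (x : A) :
    ∃ b : A, ((‖x‖ ^ 2 : ℝ) : ℂ) • (1 : A) - star x * x = star b * b := by
  have hz : IsSelfAdjoint (star x * x) := IsSelfAdjoint.star_mul_self x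
  set z := star x * x with hzdef
  obtain ⟨b, hb⟩ := clamp_exists_cfc z hz (fun t => ‖x‖ ^ 2 - t) (by (clear * -; (clear * -; fun_prop))) (by
    intro t ht
    have h1 : ‖t‖ ≤ ‖z‖ := by
      rcases subsingleton_or_nontrivial A with h | h
      · exact absurd ht (by simp)
      · exact spectrum.norm_le_norm_of_mem ht
    have h2 : ‖z‖ = ‖x‖ * ‖x‖ := CStarRing.norm_star_mul_self
    rw [Real.norm_eq_abs] at h1
    have := le_abs_self t
    linarith only [h1, h2, this])
  refine ⟨b, ?_⟩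
  rw [← hb, cfc_sub (fun _ : ℝ => ‖x‖ ^ 2) (fun t => t) z (by fun_prop) (by fun_prop),
    cfc_id' ℝ z, cfc_const (‖x‖ ^ 2) z, Algebra.algebraMap_eq_smul_one]
  congr 1

theorem IsTracialState.map_star {A : Type*} [CStarAlgebra A] {τ : A →ₗ[ℂ] ℂ}
    (h : IsTracialState τ) (x : A) : τ (star x) = star (τ x) := by
  have h1 := h.im_eq (x + 1)
  have h2 := h.im_eq (x + Complex.I • (1 : A))
  have h0 := h.im_eq x
  have e1 : star (x + 1) * (x + 1) = star x * x + star x + x + 1 := by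
    rw [star_add, star_one]; noncomm_ring
  have e2 : star (x + Complex.I • (1 : A)) * (x + Complex.I • (1 : A)) =
      star x * x + Complex.I • star x - Complex.I • x + 1 := by
    rw [star_add, star_smul, star_one]
    simp only [add_mul, mul_add, mul_smul_comm, mul_one, RCLike.star_def, Complex.conj_I,
      neg_smul]
    simp only [neg_mul, smul_mul_assoc, one_mul, smul_add, smul_neg, smul_smul,
      Complex.I_mul_I, neg_smul, one_smul, neg_neg]
    abel
  rw [e1] at h1
  rw [e2] at h2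
  simp only [map_add, h.map_one, Complex.add_im, h0, zero_add, Complex.one_im, map_sub, map_smul, smul_eq_mul, Complex.sub_im, Complex.mul_im, Complex.I_re, zero_mul, Complex.I_im, one_mul] at h1 h2
  apply Complex.ext
  · rw [RCLike.star_def, Complex.conj_re]; linarith only [h2]
  · rw [RCLike.star_def, Complex.conj_im]; linarith only [h1]

/-- Tracial states are contractive. -/
theorem IsTracialState.norm_le {A : Type*} [CStarAlgebra A] {τ : A →ₗ[ℂ] ℂ}
    (h : IsTracialState τ) (x : A) : ‖τ x‖ ≤ ‖x‖ := by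
  have hcs : ‖τ x‖ ^ 2 ≤ (τ (star x * x)).re := by
    have h1 := h.re_nonneg (x - (τ x) • (1 : A))
    have e1 : star (x - (τ x) • (1 : A)) * (x - (τ x) • (1 : A)) =
        star x * x - (τ x) • star x - (star (τ x)) • x + (star (τ x) * τ x) • (1 : A) := by
      rw [star_sub, star_smul, star_one]
      simp only [sub_mul, mul_sub, smul_mul_assoc, mul_smul_comm, one_mul, mul_one]
      rw [smul_sub, smul_smul, mul_comm (τ x)]
      abel
    rw [e1] at h1
    simp only [map_add, map_sub, map_smul, h.map_one, h.map_star, smul_eq_mul, mul_one] at h1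
    have e2 : ‖τ x‖ ^ 2 = (τ x * star (τ x)).re := by
      rw [RCLike.star_def, Complex.mul_conj, Complex.ofReal_re, Complex.normSq_eq_norm_sq]
    have e3 : star (τ x) * τ x = τ x * star (τ x) := mul_comm _ _
    rw [e3] at h1
    simp only [Complex.add_re, Complex.sub_re] at h1
    rw [e2]
    linarith only [h1]
  obtain ⟨b, hb⟩ := clamp_norm_sq x
  have h2 := h.re_nonneg b
  rw [← hb, map_sub, map_smul, h.map_one, smul_eq_mul, mul_one, Complex.sub_re,
    Complex.ofReal_re] at h2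
  have h3 : ‖τ x‖ ^ 2 ≤ ‖x‖ ^ 2 := by linarith only [hcs, h2]
  exact (pow_le_pow_iff_left₀ (norm_nonneg _) (norm_nonneg _) two_ne_zero).1 h3

/-- left multiplication by `x` is bounded by the norm of `x` in the 2-norm -/
theorem IsTracialState.mul_le {A : Type*} [CStarAlgebra A] {τ : A →ₗ[ℂ] ℂ}
    (h : IsTracialState τ) (x y : A) :
    (τ (star (x * y) * (x * y))).re ≤ ‖x‖ ^ 2 * (τ (star y * y)).re := by
  obtain ⟨b, hb⟩ := clamp_norm_sq x
  have h2 := h.re_nonneg (b * y)
  have e1 : star (b * y) * (b * y) = ((‖x‖ ^ 2 : ℝ) : ℂ) • (star y * y) -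
      star (x * y) * (x * y) := by
    rw [star_mul, star_mul]
    have e2 : star y * star b * (b * y) = star y * (star b * b) * y := by noncomm_ring
    have e3 : star y * star x * (x * y) = star y * (star x * x) * y := by noncomm_ring
    rw [e2, e3, ← hb, mul_sub, sub_mul, mul_smul_comm, smul_mul_assoc, mul_one]
  rw [e1, map_sub, map_smul, smul_eq_mul, Complex.sub_re, Complex.re_ofReal_mul] at h2
  linarith only [h2]

end Vale.Agent.P095
end

section

set_option linter.unusedSectionVars false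
set_option linter.unusedVariables false
set_option linter.unusedSimpArgs false
set_option linter.style.haveILetI false

namespace Vale.Agent.P095

open ComplexConjugate

section
variable {B : Type*} [Ring B] [StarRing B] [Algebra ℂ B] [StarModule ℂ B] {σ : B →ₗ[ℂ] ℂ}

theorem IsTracialState.star_map (h : IsTracialState σ) (x : B) :
    σ (star x) = conj (σ x) := by
  have h1 := h.im_eq (1 + x)
  have h2 := h.im_eq (1 + Complex.I • x)
  have h0 := h.im_eq x
  simp only [star_add, star_one, star_smul, mul_add, add_mul, one_mul, mul_one, map_add,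
    smul_mul_assoc, mul_smul_comm, map_smul, h.map_one, smul_eq_mul, Complex.add_im,
    Complex.mul_im, Complex.mul_re, Complex.I_re, Complex.I_im, RCLike.star_def,
    Complex.conj_I, Complex.neg_re, Complex.neg_im, Complex.one_im, h0] at h1 h2
  apply Complex.ext
  · simp only [Complex.conj_re]; linarith only [h2]
  · simp only [Complex.conj_im]; linarith only [h1]

/-- the semi-inner product attached to a tracial state -/
@[reducible] noncomputable def core (h : IsTracialState σ) : PreInnerProductSpace.Core ℂ B where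
  inner x y := σ (star x * y)
  conj_inner_symm x y := by
    rw [← h.star_map, star_mul, star_star]
  re_inner_nonneg x := h.re_nonneg x
  add_left x y z := by simp [add_mul]
  smul_left x y r := by simp [smul_mul_assoc]

/-- the `2`-norm -/
noncomputable def nrm (σ : B →ₗ[ℂ] ℂ) (x : B) : ℝ := Real.sqrt (σ (star x * x)).re

theorem nrm_nonneg (x : B) : 0 ≤ nrm σ x := Real.sqrt_nonneg _

theorem nrm_sq (h : IsTracialState σ) (x : B) : nrm σ x ^ 2 = (σ (star x * x)).re :=
  Real.sq_sqrt (h.re_nonneg x)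

theorem nrm_sq' (h : IsTracialState σ) (x : B) : σ (star x * x) = ((nrm σ x ^ 2 : ℝ) : ℂ) := by
  apply Complex.ext
  · rw [nrm_sq h, Complex.ofReal_re]
  · rw [h.im_eq, Complex.ofReal_im]

theorem nrm_add_le (h : IsTracialState σ) (x y : B) : nrm σ (x + y) ≤ nrm σ x + nrm σ y := by
  letI := core h
  letI := InnerProductSpace.Core.toSeminormedAddCommGroup (𝕜 := ℂ) (F := B)
  exact norm_add_le x y

theorem nrm_neg (x : B) : nrm σ (-x) = nrm σ x := by simp only [nrm, star_neg, mul_neg, neg_mul, neg_neg]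

theorem nrm_sub_le (h : IsTracialState σ) (x y : B) : nrm σ (x - y) ≤ nrm σ x + nrm σ y := by
  rw [sub_eq_add_neg]; exact (nrm_add_le h _ _).trans (by rw [nrm_neg])

theorem nrm_sub_comm (x y : B) : nrm σ (x - y) = nrm σ (y - x) := by
  rw [← nrm_neg, neg_sub]

theorem nrm_zero : nrm σ (0 : B) = 0 := by simp [nrm]

theorem nrm_star (h : IsTracialState σ) (x : B) : nrm σ (star x) = nrm σ x := by
  unfold nrm; rw [star_star, h.map_mul_comm]

theorem nrm_smul (h : IsTracialState σ) (c : ℂ) (x : B) : nrm σ (c • x) = ‖c‖ * nrm σ x := by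
  have : (σ (star (c • x) * (c • x))) = ((‖c‖ ^ 2 : ℝ) : ℂ) * σ (star x * x) := by
    rw [star_smul, smul_mul_assoc, mul_smul_comm, smul_smul, map_smul, smul_eq_mul,
      RCLike.star_def, Complex.conj_mul']
    push_cast; ring
  unfold nrm
  rw [this, Complex.re_ofReal_mul, Real.sqrt_mul (by (clear * -; (clear * -; positivity))), Real.sqrt_sq (norm_nonneg _)]

theorem nrm_one (h : IsTracialState σ) : nrm σ (1 : B) = 1 := by simp [nrm, h.map_one]

theorem norm_map_star_mul_le (h : IsTracialState σ) (x y : B) :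
    ‖σ (star x * y)‖ ≤ nrm σ x * nrm σ y := by
  letI := core h
  exact InnerProductSpace.Core.norm_inner_le_norm (𝕜 := ℂ) (F := B) x y

theorem norm_map_mul_le (h : IsTracialState σ) (x y : B) :
    ‖σ (x * y)‖ ≤ nrm σ x * nrm σ y := by
  have := norm_map_star_mul_le h (star x) y
  rwa [star_star, nrm_star h] at this

theorem norm_map_le (h : IsTracialState σ) (x : B) : ‖σ x‖ ≤ nrm σ x := by
  have := norm_map_mul_le h 1 x
  rwa [one_mul, nrm_one h, one_mul] at this

theorem nrm_sum_le (h : IsTracialState σ) {ι : Type*} (s : Finset ι) (f : ι → B) :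
    nrm σ (∑ i ∈ s, f i) ≤ ∑ i ∈ s, nrm σ (f i) := by
  classical
  induction s using Finset.induction_on with
  | empty => simp [nrm_zero]
  | insert a s ha ih =>
    rw [Finset.sum_insert ha, Finset.sum_insert ha]
    exact (nrm_add_le h _ _).trans (by linarith)

theorem nrm_unitary_mul {u : B} (hu : star u * u = 1) (x : B) : nrm σ (u * x) = nrm σ x := by
  unfold nrm
  rw [star_mul, mul_assoc, ← mul_assoc (star u), hu, one_mul]

theorem nrm_mul_unitary (h : IsTracialState σ) {u : B} (hu : u * star u = 1) (x : B) :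
    nrm σ (x * u) = nrm σ x := by
  unfold nrm
  rw [star_mul, h.map_mul_comm, mul_assoc, ← mul_assoc u, hu, one_mul, h.map_mul_comm]

theorem nrm_eq_zero_iff (h : IsTracialState σ) (x : B) :
    nrm σ x = 0 ↔ ∀ w : B, σ (w * x) = 0 := by
  constructor
  · intro hx w
    have := norm_map_mul_le h w x
    rw [hx, mul_zero] at this
    exact norm_le_zero_iff.mp this
  · intro hx
    simp only [nrm, hx, Complex.zero_re, Real.sqrt_zero]

/-- the null congruence of a tracial state -/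
def nullCon (h : IsTracialState σ) : RingCon B where
  r x y := ∀ w : B, σ (w * (x - y)) = 0
  iseqv :=
    { refl := fun x w => by simp
      symm := fun {x y} hxy w => by
        have := hxy w
        rw [← neg_sub x y, mul_neg, map_neg, this, neg_zero]
      trans := fun {x y z} hxy hyz w => by
        have := hxy w
        have h2 := hyz w
        rw [← sub_add_sub_cancel x y z, mul_add, map_add, this, h2, add_zero] }
  add' := by
    intro a b c d hab hcd w
    have : a + c - (b + d) = (a - b) + (c - d) := by abel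
    rw [this, mul_add, map_add, hab, hcd, add_zero]
  mul' := by
    intro a b c d hab hcd w
    have : a * c - b * d = (a - b) * c + b * (c - d) := by noncomm_ring
    rw [this, mul_add, map_add, ← mul_assoc, h.map_mul_comm, ← mul_assoc, hab, ← mul_assoc, hcd,
      add_zero]

/-- the quotient by the null congruence -/
abbrev Qt (h : IsTracialState σ) : Type _ := (nullCon h).Quotient

/-- the class of an element -/
def cls (h : IsTracialState σ) : B →+* Qt h := (nullCon h).mk'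

theorem cls_surj (h : IsTracialState σ) : Function.Surjective (cls h) := by
  intro x
  obtain ⟨y, rfl⟩ := Quotient.exists_rep x
  exact ⟨y, rfl⟩

theorem cls_eq_iff (h : IsTracialState σ) {x y : B} :
    cls h x = cls h y ↔ ∀ w : B, σ (w * (x - y)) = 0 := by
  exact (nullCon h).eq

theorem cls_eq_iff_nrm (h : IsTracialState σ) {x y : B} :
    cls h x = cls h y ↔ nrm σ (x - y) = 0 := by
  rw [cls_eq_iff, nrm_eq_zero_iff h]

theorem cls_smul (h : IsTracialState σ) (c : ℂ) (x : B) : cls h (c • x) = c • cls h x := rfl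

instance (h : IsTracialState σ) : Star (Qt h) where
  star := Quotient.map star (by
    intro a b hab
    have h1 : nrm σ (a - b) = 0 := (nrm_eq_zero_iff h _).mpr hab
    have h2 : nrm σ (star a - star b) = 0 := by rw [← star_sub, nrm_star h, h1]
    exact (nrm_eq_zero_iff h _).mp h2)

theorem cls_star (h : IsTracialState σ) (x : B) : cls h (star x) = star (cls h x) := rfl

instance (h : IsTracialState σ) : StarRing (Qt h) where
  star_involutive := by
    intro x
    obtain ⟨y, rfl⟩ := cls_surj h x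
    rw [← cls_star, ← cls_star, star_star]
  star_mul := by
    intro x y
    obtain ⟨x, rfl⟩ := cls_surj h x
    obtain ⟨y, rfl⟩ := cls_surj h y
    rw [← map_mul, ← cls_star, star_mul, map_mul, cls_star, cls_star]
  star_add := by
    intro x y
    obtain ⟨x, rfl⟩ := cls_surj h x
    obtain ⟨y, rfl⟩ := cls_surj h y
    rw [← map_add, ← cls_star, star_add, map_add, cls_star, cls_star]

instance (h : IsTracialState σ) : StarModule ℂ (Qt h) where
  star_smul := by
    intro c x
    obtain ⟨x, rfl⟩ := cls_surj h x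
    rw [← cls_smul, ← cls_star, star_smul, cls_smul, cls_star]

/-- the induced functional on the quotient -/
noncomputable def qtr (h : IsTracialState σ) : Qt h →ₗ[ℂ] ℂ where
  toFun := Quotient.lift σ (by
    intro a b hab
    have := hab 1
    rw [one_mul, map_sub, sub_eq_zero] at this
    exact this)
  map_add' := by
    intro x y
    obtain ⟨x, rfl⟩ := cls_surj h x
    obtain ⟨y, rfl⟩ := cls_surj h y
    exact map_add σ x y
  map_smul' := by
    intro c x
    obtain ⟨x, rfl⟩ := cls_surj h x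
    exact map_smul σ c x

theorem qtr_cls (h : IsTracialState σ) (x : B) : qtr h (cls h x) = σ x := rfl

theorem qtr_tracial (h : IsTracialState σ) : IsTracialState (qtr h) where
  map_one := by rw [← map_one (cls h), qtr_cls, h.map_one]
  im_eq := by
    intro x
    obtain ⟨x, rfl⟩ := cls_surj h x
    rw [← cls_star, ← map_mul, qtr_cls, h.im_eq]
  re_nonneg := by
    intro x
    obtain ⟨x, rfl⟩ := cls_surj h x
    rw [← cls_star, ← map_mul, qtr_cls]; exact h.re_nonneg _
  map_mul_comm := by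
    intro x y
    obtain ⟨x, rfl⟩ := cls_surj h x
    obtain ⟨y, rfl⟩ := cls_surj h y
    rw [← map_mul, ← map_mul, qtr_cls, qtr_cls, h.map_mul_comm]

theorem nrm_cls (h : IsTracialState σ) (x : B) : nrm (qtr h) (cls h x) = nrm σ x := by
  unfold nrm; rw [← cls_star, ← map_mul, qtr_cls]

theorem qt_faithful (h : IsTracialState σ) (x : Qt h) (hx : nrm (qtr h) x = 0) : x = 0 := by
  obtain ⟨x, rfl⟩ := cls_surj h x
  rw [← map_zero (cls h), cls_eq_iff_nrm, sub_zero, ← nrm_cls h, hx]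

end

end Vale.Agent.P095
end
namespace AFast03a46ax401a
@[reducible] def a0.{u1} {x1 : Type u1} [x2 : Ring x1] [x3 : StarRing x1] [x4 : Algebra ℂ x1] {x5 : x1 →ₗ[ℂ] ℂ} {x6 : Vale.Agent.P095.IsTracialState x5} : Module ℂ (Vale.Agent.P095.Qt x6) := inferInstance
theorem a1.{u1} {x1 : Type u1} [x2 : Ring x1] [x3 : StarRing x1] [x4 : Algebra ℂ x1] {x5 : x1 →ₗ[ℂ] ℂ} {x6 : Vale.Agent.P095.IsTracialState x5} : MulHomClass (x1 →+* Vale.Agent.P095.Qt x6) x1 (Vale.Agent.P095.Qt x6) := inferInstance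
theorem a2.{u1} {x1 : Type u1} [x2 : Ring x1] [x3 : StarRing x1] [x4 : Algebra ℂ x1] {x5 : x1 →ₗ[ℂ] ℂ} {x6 : Vale.Agent.P095.IsTracialState x5} : NonUnitalRingHomClass (x1 →+* Vale.Agent.P095.Qt x6) x1 (Vale.Agent.P095.Qt x6) := inferInstance
@[reducible] def a3.{u1} {x1 : Type u1} [x2 : Ring x1] [x3 : StarRing x1] [x4 : Algebra ℂ x1] {x5 : x1 →ₗ[ℂ] ℂ} {x6 : Vale.Agent.P095.IsTracialState x5} : NonAssocSemiring (Vale.Agent.P095.nullCon x6).Quotient := inferInstance
end AFast03a46ax401a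
attribute [local instance] AFast03a46ax401a.a0 AFast03a46ax401a.a1 AFast03a46ax401a.a2
  AFast03a46ax401a.a3

section

set_option linter.unusedSectionVars false
set_option linter.unusedVariables false
set_option linter.unusedSimpArgs false

namespace Vale.Agent.P095

open Filter Topology ComplexConjugate

variable {A : Type*} [CStarAlgebra A]

/-- the star-algebra of bounded sequences -/
def BSeq (A : Type*) [CStarAlgebra A] : StarSubalgebra ℂ (ℕ → A) where
  carrier := {x | ∃ C : ℝ, ∀ n, ‖x n‖ ≤ C}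
  mul_mem' := by
    rintro x y ⟨C, hC⟩ ⟨D, hD⟩
    refine ⟨C * D, fun n => ?_⟩
    have h1 := hC n
    have h2 := hD n
    have h3 := norm_nonneg (x n)
    have h4 := norm_nonneg (y n)
    exact (norm_mul_le _ _).trans (mul_le_mul h1 h2 h4 (h3.trans h1))
  one_mem' := ⟨‖(1 : A)‖, fun n => le_rfl⟩
  add_mem' := by
    rintro x y ⟨C, hC⟩ ⟨D, hD⟩
    exact ⟨C + D, fun n => (norm_add_le _ _).trans (add_le_add (hC n) (hD n))⟩
  zero_mem' := ⟨0, fun n => by simp⟩
  algebraMap_mem' := by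
    intro r
    refine ⟨‖algebraMap ℂ A r‖, fun n => ?_⟩
    rfl
  star_mem' := by
    rintro x ⟨C, hC⟩
    exact ⟨C, fun n => by simpa using hC n⟩

/-- the data of a limit trace -/
structure LimTr (A : Type*) [CStarAlgebra A] where
  U : Ultrafilter ℕ
  hU : (U : Filter ℕ) ≤ atTop
  τ : ℕ → A →ₗ[ℂ] ℂ
  hτ : ∀ n, IsTracialState (τ n)

theorem LimTr.exists_lim (t : LimTr A) (x : BSeq A) :
    ∃ c : ℂ, Tendsto (fun n => t.τ n (x.1 n)) t.U (𝓝 c) := by
  obtain ⟨C, hC⟩ := x.2
  have h1 : ∀ n, t.τ n (x.1 n) ∈ Metric.closedBall (0 : ℂ) C := by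
    intro n
    rw [mem_closedBall_zero_iff]
    exact ((t.hτ n).norm_le _).trans (hC n)
  obtain ⟨c, _, hc⟩ := (isCompact_closedBall (0 : ℂ) C).ultrafilter_le_nhds
    (t.U.map (fun n => t.τ n (x.1 n))) (by
      rw [le_principal_iff]
      rw [Ultrafilter.coe_map, Filter.mem_map]
      exact Filter.Eventually.of_forall (p := fun n => t.τ n (x.1 n) ∈ Metric.closedBall (0 : ℂ) C) h1)
  exact ⟨c, hc⟩

/-- the limit trace -/
noncomputable def LimTr.val (t : LimTr A) : BSeq A →ₗ[ℂ] ℂ where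
  toFun x := Classical.choose (t.exists_lim x)
  map_add' x y := by
    apply tendsto_nhds_unique (Classical.choose_spec (t.exists_lim (x + y)))
    have h1 := Classical.choose_spec (t.exists_lim x)
    have h2 := Classical.choose_spec (t.exists_lim y)
    refine (h1.add h2).congr (fun n => ?_)
    show t.τ n (x.1 n) + t.τ n (y.1 n) = t.τ n (x.1 n + y.1 n)
    rw [map_add]
  map_smul' c x := by
    apply tendsto_nhds_unique (Classical.choose_spec (t.exists_lim (c • x)))
    have h1 := Classical.choose_spec (t.exists_lim x)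
    refine (h1.const_mul c).congr (fun n => ?_)
    show c * t.τ n (x.1 n) = t.τ n (c • x.1 n)
    rw [map_smul, smul_eq_mul]

theorem LimTr.tendsto (t : LimTr A) (x : BSeq A) :
    Tendsto (fun n => t.τ n (x.1 n)) t.U (𝓝 (t.val x)) :=
  Classical.choose_spec (t.exists_lim x)

theorem LimTr.val_eq (t : LimTr A) (x : BSeq A) {c : ℂ}
    (h : Tendsto (fun n => t.τ n (x.1 n)) t.U (𝓝 c)) : t.val x = c :=
  tendsto_nhds_unique (t.tendsto x) h

theorem LimTr.isTracial (t : LimTr A) : IsTracialState t.val where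
  map_one := t.val_eq 1 (by
    refine tendsto_const_nhds.congr (fun n => ?_)
    exact ((t.hτ n).map_one).symm)
  im_eq x := by
    have h1 := (Complex.continuous_im.tendsto _).comp (t.tendsto (star x * x))
    refine tendsto_nhds_unique h1 (tendsto_const_nhds.congr (fun n => ?_))
    exact ((t.hτ n).im_eq (x.1 n)).symm
  re_nonneg x := by
    have h1 := (Complex.continuous_re.tendsto _).comp (t.tendsto (star x * x))
    refine ge_of_tendsto' h1 (fun n => ?_)
    exact (t.hτ n).re_nonneg (x.1 n)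
  map_mul_comm x y := by
    apply t.val_eq
    refine (t.tendsto (y * x)).congr (fun n => ?_)
    exact (t.hτ n).map_mul_comm (y.1 n) (x.1 n)

theorem LimTr.tendsto_nrm (t : LimTr A) (x : BSeq A) :
    Tendsto (fun n => nrm (t.τ n) (x.1 n)) t.U (𝓝 (nrm t.val x)) := by
  have h1 := (Complex.continuous_re.tendsto _).comp (t.tendsto (star x * x))
  exact (Real.continuous_sqrt.tendsto _).comp h1

/-- transfer principle -/
theorem transfer (P : ℕ → (A →ₗ[ℂ] ℂ) → Prop)
    (h : ∀ t : LimTr A, ∀ᶠ n in (t.U : Filter ℕ), P n (t.τ n)) :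
    ∀ᶠ n in atTop, ∀ τ : A →ₗ[ℂ] ℂ, IsTracialState τ → P n τ := by
  by_contra hcon
  rw [Filter.not_eventually] at hcon
  have hne : ∃ τ : A →ₗ[ℂ] ℂ, IsTracialState τ := by
    obtain ⟨n, hn⟩ := hcon.exists
    push Not at hn
    obtain ⟨τ, hτ, _⟩ := hn
    exact ⟨τ, hτ⟩
  obtain ⟨τ0, hτ0⟩ := hne
  classical
  have hch : ∀ n, ∃ τ : A →ₗ[ℂ] ℂ, IsTracialState τ ∧
      ((¬ ∀ τ : A →ₗ[ℂ] ℂ, IsTracialState τ → P n τ) → ¬ P n τ) := by
    intro n
    by_cases hn : ∀ τ : A →ₗ[ℂ] ℂ, IsTracialState τ → P n τ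
    · exact ⟨τ0, hτ0, fun h => absurd hn h⟩
    · push Not at hn
      obtain ⟨τ, h1, h2⟩ := hn
      exact ⟨τ, h1, fun _ => h2⟩
  choose τ hτ hτP using hch
  have hnb : (atTop ⊓ 𝓟 {n | ¬ ∀ τ : A →ₗ[ℂ] ℂ, IsTracialState τ → P n τ}).NeBot :=
    frequently_mem_iff_neBot.mp hcon
  let U : Ultrafilter ℕ := Ultrafilter.of
    (atTop ⊓ 𝓟 {n | ¬ ∀ τ : A →ₗ[ℂ] ℂ, IsTracialState τ → P n τ})
  have hU : (U : Filter ℕ) ≤ atTop ⊓ 𝓟 {n | ¬ ∀ τ : A →ₗ[ℂ] ℂ, IsTracialState τ → P n τ} :=
    Ultrafilter.of_le _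
  let t : LimTr A := ⟨U, hU.trans inf_le_left, τ, hτ⟩
  have h1 := h t
  have h2 : ∀ᶠ n in (t.U : Filter ℕ), ¬ ∀ τ : A →ₗ[ℂ] ℂ, IsTracialState τ → P n τ := by
    have := hU.trans inf_le_right
    rwa [le_principal_iff] at this
  obtain ⟨n, hn1, hn2⟩ := (h1.and h2).exists
  exact hτP n hn2 hn1

theorem transfer_nrm (z : BSeq A) {ε ε' : ℝ} (hε : ε < ε') (h : ∀ t : LimTr A, nrm t.val z ≤ ε) :
    ∀ᶠ n in atTop, ∀ τ : A →ₗ[ℂ] ℂ, IsTracialState τ → nrm τ (z.1 n) ≤ ε' := by
  apply transfer (fun n τ => nrm τ (z.1 n) ≤ ε')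
  intro t
  have h1 := t.tendsto_nrm z
  exact (h1.eventually (eventually_lt_nhds (lt_of_le_of_lt (h t) hε))).mono (fun n hn => hn.le)

theorem transfer_val (z : BSeq A) {ε ε' : ℝ} (hε : ε < ε') (h : ∀ t : LimTr A, ‖t.val z‖ ≤ ε) :
    ∀ᶠ n in atTop, ∀ τ : A →ₗ[ℂ] ℂ, IsTracialState τ → ‖τ (z.1 n)‖ ≤ ε' := by
  apply transfer (fun n τ => ‖τ (z.1 n)‖ ≤ ε')
  intro t
  have h1 := (t.tendsto z).norm
  exact (h1.eventually (eventually_lt_nhds (lt_of_le_of_lt (h t) hε))).mono (fun n hn => hn.le)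

/-- constant sequences -/
def cst (A : Type*) [CStarAlgebra A] : A →⋆ₐ[ℂ] BSeq A where
  toFun a := ⟨fun _ => a, ‖a‖, fun _ => le_rfl⟩
  map_one' := rfl
  map_mul' _ _ := rfl
  map_zero' := rfl
  map_add' _ _ := rfl
  commutes' _ := rfl
  map_star' _ := rfl

attribute [-instance] AFast03a46ax5a.a0 AFast03a46ax5a.a1 AFast03a46ax5a.a2 AFast03a46ax5a.a3 AFast03a46ax5a.a4 AFast03a46ax5a.a5 AFast03a46ax5a.a6 AFast03a46ax5a.a7 AFast03a46ax5a.a8 AFast03a46ax5a.a9 AFast03a46ax5a.a10 AFast03a46ax5a.a11 AFast03a46ax5a.a12 AFast03a46ax5a.a13 AFast03a46ax5a.a14 AFast03a46ax5a.a15 AFast03a46ax5a.a16 AFast03a46ax5a.a17 AFast03a46ax5a.a18 AFast03a46ax5a.a19 AFast03a46ax5a.a20 AFast03a46ax5a.a21 AFast03a46ax5a.a22 AFast03a46ax5a.a23 AFast03a46ax5a.a24 AFast03a46ax5a.a25 AFast03a46ax5a.a26 AFast03a46ax5a.a27 AFast03a46ax5a.a28 AFast03a46ax5a.a29 AFast03a46ax5a.a30 AFast03a46ax5a.a31 AFast03a46ax5a.a32 AFast03a46ax5a.a33 AFast03a46ax5a.a34 AFast03a46ax5a.a35 AFast03a46ax5a.a36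 AFast03a46ax5a.a37 AFast03a46ax5a.a38 AFast03a46ax5a.a39 AFast03a46ax5a.a40 AFast03a46ax5a.a41 AFast03a46ax5a.a42 AFast03a46ax5a.a43 AFast03a46ax5a.a44 AFast03a46ax5a.a45 AFast03a46ax5a.a46 AFast03a46ax5a.a47 AFast03a46ax5a.a48 AFast03a46ax5a.a49 AFast03a46ax5a.a50 AFast03a46ax5a.a51 AFast03a46ax5a.a52 AFast03a46ax5a.a53 AFast03a46ax5a.a54 AFast03a46ax5b.a0 AFast03a46ax5b.a1 AFast03a46ax5b.a2 AFast03a46ax401a.a0 AFast03a46ax401a.a1 AFast03a46ax401a.a2 AFast03a46ax401a.a3 in
/-- the action of an automorphism on bounded sequences -/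
def actB (β : A ≃⋆ₐ[ℂ] A) : BSeq A →⋆ₐ[ℂ] BSeq A where
  toFun x := ⟨fun n => β (x.1 n), by
    obtain ⟨C, hC⟩ := x.2
    refine ⟨C, fun n => le_trans ?_ (hC n)⟩
    exact NonUnitalStarAlgHom.norm_apply_le (β : A →⋆ₐ[ℂ] A) (x.1 n)⟩
  map_one' := Subtype.ext (funext fun n => map_one β)
  map_mul' _ _ := Subtype.ext (funext fun n => map_mul β _ _)
  map_zero' := Subtype.ext (funext fun n => map_zero β)
  map_add' _ _ := Subtype.ext (funext fun n => map_add β _ _)
  commutes' r := Subtype.ext (funext fun n => AlgHomClass.commutes β r)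
  map_star' _ := Subtype.ext (funext fun n => map_star β _)

theorem actB_val (β : A ≃⋆ₐ[ℂ] A) (x : BSeq A) (n : ℕ) : (actB β x).1 n = β (x.1 n) := rfl

attribute [-instance] AFast03a46ax5a.a0 AFast03a46ax5a.a1 AFast03a46ax5a.a2 AFast03a46ax5a.a3 AFast03a46ax5a.a4 AFast03a46ax5a.a5 AFast03a46ax5a.a6 AFast03a46ax5a.a7 AFast03a46ax5a.a8 AFast03a46ax5a.a9 AFast03a46ax5a.a10 AFast03a46ax5a.a11 AFast03a46ax5a.a12 AFast03a46ax5a.a13 AFast03a46ax5a.a14 AFast03a46ax5a.a15 AFast03a46ax5a.a16 AFast03a46ax5a.a17 AFast03a46ax5a.a18 AFast03a46ax5a.a19 AFast03a46ax5a.a20 AFast03a46ax5a.a21 AFast03a46ax5a.a22 AFast03a46ax5a.a23 AFast03a46ax5a.a24 AFast03a46ax5a.a25 AFast03a46ax5a.a26 AFast03a46ax5a.a27 AFast03a46ax5a.a28 AFast03a46ax5a.a29 AFast03a46ax5a.a30 AFast03a46ax5a.a31 AFast03a46ax5a.a32 AFast03a46ax5a.a33 AFast03a46ax5a.a34 AFast03a46ax5a.a35 AFast03a46ax5a.a36 AFast03a46ax5a.a37 AFast03a46ax5a.a38 AFast03a46ax5a.a39 AFast03a46ax5a.a40 AFast03a46ax5a.a41 AFast03a46ax5a.a42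 AFast03a46ax5a.a43 AFast03a46ax5a.a44 AFast03a46ax5a.a45 AFast03a46ax5a.a46 AFast03a46ax5a.a47 AFast03a46ax5a.a48 AFast03a46ax5a.a49 AFast03a46ax5a.a50 AFast03a46ax5a.a51 AFast03a46ax5a.a52 AFast03a46ax5a.a53 AFast03a46ax5a.a54 AFast03a46ax5b.a0 AFast03a46ax5b.a1 AFast03a46ax5b.a2 AFast03a46ax401a.a0 AFast03a46ax401a.a1 AFast03a46ax401a.a2 AFast03a46ax401a.a3 in
/-- composing a tracial state with an automorphism -/
theorem IsTracialState.comp {τ : A →ₗ[ℂ] ℂ} (h : IsTracialState τ) (β : A ≃⋆ₐ[ℂ] A) :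
    IsTracialState (τ ∘ₗ (β.toAlgEquiv.toLinearMap : A →ₗ[ℂ] A)) where
  map_one := by
    show τ (β 1) = 1
    rw [_root_.map_one β, h.map_one]
  im_eq a := by
    show (τ (β (star a * a))).im = 0
    rw [map_mul β, StarHomClass.map_star β]; exact h.im_eq _
  re_nonneg a := by
    show 0 ≤ (τ (β (star a * a))).re
    rw [map_mul β, StarHomClass.map_star β]; exact h.re_nonneg _
  map_mul_comm a b := by
    show τ (β (a * b)) = τ (β (b * a))
    rw [map_mul β, map_mul β]; exact h.map_mul_comm _ _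

/-- translated limit trace -/
noncomputable def LimTr.comp (t : LimTr A) (β : A ≃⋆ₐ[ℂ] A) : LimTr A where
  U := t.U
  hU := t.hU
  τ n := t.τ n ∘ₗ (β.toAlgEquiv.toLinearMap : A →ₗ[ℂ] A)
  hτ n := (t.hτ n).comp β

theorem LimTr.comp_val (t : LimTr A) (β : A ≃⋆ₐ[ℂ] A) (x : BSeq A) :
    (t.comp β).val x = t.val (actB β x) := by
  apply LimTr.val_eq
  exact t.tendsto (actB β x)

theorem LimTr.comp_nrm (t : LimTr A) (β : A ≃⋆ₐ[ℂ] A) (x : BSeq A) :
    nrm (t.comp β).val x = nrm t.val (actB β x) := by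
  unfold nrm; rw [t.comp_val, map_mul, map_star]

section Good
variable {G : Type*} [Group G] (α : G →* (A ≃⋆ₐ[ℂ] A))

/-- approximately central, approximately independent projection with mean `μ` -/
def Good (μ : ℝ) (K : Finset G) (F : Finset A) (ε : ℝ) (p : A) : Prop :=
  star p = p ∧ ‖p‖ ≤ 1 ∧ ∀ τ : A →ₗ[ℂ] ℂ, IsTracialState τ →
    nrm τ (p * p - p) ≤ ε ∧
    (∀ a ∈ F, nrm τ (p * a - a * p) ≤ ε ∧ ‖τ (a * p) - μ * τ a‖ ≤ ε) ∧
    (∀ g ∈ K, nrm τ (p * α g p - α g p * p) ≤ ε)

/-- the exact version in the algebra of bounded sequences -/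
def GoodB (μ : ℝ) (K : Finset G) (F : Finset (BSeq A)) (p : BSeq A) : Prop :=
  star p = p ∧ (∀ n, ‖p.1 n‖ ≤ 1) ∧ ∀ t : LimTr A,
    nrm t.val (p * p - p) = 0 ∧
    (∀ b ∈ F, nrm t.val (p * b - b * p) = 0 ∧ t.val (b * p) = μ * t.val b) ∧
    (∀ g ∈ K, nrm t.val (p * actB (α g) p - actB (α g) p * p) = 0)

theorem lift_good (μ : ℝ) (K : Finset G)
    (h : ∀ (F : Finset A) (ε : ℝ), 0 < ε → ∃ p, Good α μ K F ε p)
    (F : Finset (BSeq A)) : ∃ p, GoodB α μ K F p := by
  classical
  have h1 : ∀ n : ℕ, ∃ p, Good α μ K (F.image (fun b => b.1 n)) (1 / ((n : ℝ) + 1)) p :=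
    fun n => h _ _ (by positivity)
  choose p hp using h1
  have hlim : ∀ t : LimTr A, Tendsto (fun n : ℕ => 1 / ((n : ℝ) + 1)) (t.U : Filter ℕ) (𝓝 0) :=
    fun t => tendsto_one_div_add_atTop_nhds_zero_nat.mono_left t.hU
  let P : BSeq A := ⟨p, 1, fun n => (hp n).2.1⟩
  have key : ∀ (t : LimTr A) (z : BSeq A),
      (∀ n, nrm (t.τ n) (z.1 n) ≤ 1 / ((n : ℝ) + 1)) → nrm t.val z = 0 := by
    intro t z hz
    apply le_antisymm _ (nrm_nonneg _)
    exact le_of_tendsto_of_tendsto' (t.tendsto_nrm z) (hlim t) hz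
  refine ⟨P, Subtype.ext (funext fun n => (hp n).1), fun n => (hp n).2.1, fun t => ⟨?_, ?_, ?_⟩⟩
  · exact key t _ (fun n => ((hp n).2.2 _ (t.hτ n)).1)
  · intro b hb
    have hb' : ∀ n, b.1 n ∈ F.image (fun b => b.1 n) := fun n => Finset.mem_image_of_mem _ hb
    refine ⟨key t _ (fun n => (((hp n).2.2 _ (t.hτ n)).2.1 _ (hb' n)).1), ?_⟩
    have h2 : Tendsto (fun n => t.τ n ((b * P).1 n) - μ * t.τ n (b.1 n)) t.U
        (𝓝 (t.val (b * P) - μ * t.val b)) := (t.tendsto _).sub ((t.tendsto b).const_mul _)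
    have h3 : Tendsto (fun n => t.τ n ((b * P).1 n) - μ * t.τ n (b.1 n)) t.U (𝓝 0) := by
      apply squeeze_zero_norm _ (hlim t)
      intro n
      exact (((hp n).2.2 _ (t.hτ n)).2.1 _ (hb' n)).2
    have := tendsto_nhds_unique h2 h3
    linear_combination this
  · intro g hg
    exact key t _ (fun n => (((hp n).2.2 _ (t.hτ n)).2.2 g hg))

end Good

end Vale.Agent.P095
end
namespace AFast03a46ax665a
@[reducible] noncomputable def a0.{u1} {x1 : Type u1} [x2 : CStarAlgebra x1] : Semiring ↥(Vale.Agent.P095.BSeq x1) := inferInstance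
@[reducible] noncomputable def a1.{u1} {x1 : Type u1} [x2 : CStarAlgebra x1] : Ring ↥(Vale.Agent.P095.BSeq x1) := inferInstance
@[reducible] noncomputable def a2.{u1} {x1 : Type u1} [x2 : CStarAlgebra x1] : Sub ↥(Vale.Agent.P095.BSeq x1) := inferInstance
@[reducible] noncomputable def a3.{u1} {x1 : Type u1} [x2 : CStarAlgebra x1] : AddCommMonoid ↥(Vale.Agent.P095.BSeq x1) := inferInstance
@[reducible] noncomputable def a4.{u1} {x1 : Type u1} [x2 : CStarAlgebra x1] : Mul ↥(Vale.Agent.P095.BSeq x1) := inferInstance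
@[reducible] noncomputable def a5.{u1} {x1 : Type u1} [x2 : CStarAlgebra x1] : Distrib ↥(Vale.Agent.P095.BSeq x1) := inferInstance
@[reducible] noncomputable def a6.{u1} {x1 : Type u1} [x2 : CStarAlgebra x1] : Star ↥(Vale.Agent.P095.BSeq x1) := inferInstance
@[reducible] noncomputable def a7.{u1} {x1 : Type u1} [x2 : CStarAlgebra x1] : One ↥(Vale.Agent.P095.BSeq x1) := inferInstance
@[reducible] noncomputable def a8.{u1} {x1 : Type u1} [x2 : CStarAlgebra x1] : Algebra ℂ ↥(Vale.Agent.P095.BSeq x1) := inferInstance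
@[reducible] noncomputable def a9.{u1} {x1 : Type u1} [x2 : CStarAlgebra x1] : Zero ↥(Vale.Agent.P095.BSeq x1) := inferInstance
@[reducible] noncomputable def a10.{u1} {x1 : Type u1} [x2 : CStarAlgebra x1] : Add ↥(Vale.Agent.P095.BSeq x1) := inferInstance
@[reducible] noncomputable def a11.{u1} {x1 : Type u1} [x2 : CStarAlgebra x1] : NonAssocSemiring ↥(Vale.Agent.P095.BSeq x1) := inferInstance
@[reducible] noncomputable def a12.{u1} {x1 : Type u1} [x2 : CStarAlgebra x1] : AddZeroClass ↥(Vale.Agent.P095.BSeq x1) := inferInstance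
@[reducible] noncomputable def a13.{u1} {x1 : Type u1} [x2 : CStarAlgebra x1] : AddMonoid ↥(Vale.Agent.P095.BSeq x1) := inferInstance
@[reducible] noncomputable def a14.{u1} {x1 : Type u1} [x2 : CStarAlgebra x1] : StarRing ↥(Vale.Agent.P095.BSeq x1) := inferInstance
@[reducible] noncomputable def a15.{u1} {x1 : Type u1} [x2 : CStarAlgebra x1] : MulOneClass ↥(Vale.Agent.P095.BSeq x1) := inferInstance
@[reducible] noncomputable def a16.{u1} {x1 : Type u1} [x2 : CStarAlgebra x1] : MulZeroOneClass ↥(Vale.Agent.P095.BSeq x1) := inferInstance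
@[reducible] noncomputable def a17.{u1} {x1 : Type u1} [x2 : CStarAlgebra x1] : MulOne ↥(Vale.Agent.P095.BSeq x1) := inferInstance
@[reducible] noncomputable def a18.{u1} {x1 : Type u1} [x2 : CStarAlgebra x1] : AddMonoidWithOne ↥(Vale.Agent.P095.BSeq x1) := inferInstance
@[reducible] noncomputable def a19.{u1} {x1 : Type u1} [x2 : CStarAlgebra x1] : AddZero ↥(Vale.Agent.P095.BSeq x1) := inferInstance
@[reducible] noncomputable def a20.{u1} {x1 : Type u1} [x2 : CStarAlgebra x1] : SubNegMonoid ↥(Vale.Agent.P095.BSeq x1) := inferInstance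
@[reducible] noncomputable def a21.{u1} {x1 : Type u1} [x2 : CStarAlgebra x1] : AddGroup ↥(Vale.Agent.P095.BSeq x1) := inferInstance
@[reducible] noncomputable def a22.{u1} {x1 : Type u1} [x2 : CStarAlgebra x1] : AddGroupWithOne ↥(Vale.Agent.P095.BSeq x1) := inferInstance
@[reducible] noncomputable def a23.{u1} {x1 : Type u1} [x2 : CStarAlgebra x1] : NonUnitalNonAssocSemiring ↥(Vale.Agent.P095.BSeq x1) := inferInstance
@[reducible] noncomputable def a24.{u1} {x1 : Type u1} [x2 : CStarAlgebra x1] : NonUnitalNonAssocRing ↥(Vale.Agent.P095.BSeq x1) := inferInstance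
@[reducible] noncomputable def a25.{u1} {x1 : Type u1} [x2 : CStarAlgebra x1] : StarAddMonoid ↥(Vale.Agent.P095.BSeq x1) := inferInstance
@[reducible] noncomputable def a26.{u1} {x1 : Type u1} [x2 : CStarAlgebra x1] : NonAssocRing ↥(Vale.Agent.P095.BSeq x1) := inferInstance
theorem a27.{u1} {x1 : Type u1} [x2 : CStarAlgebra x1] : StarModule ℂ ↥(Vale.Agent.P095.BSeq x1) := inferInstance
@[reducible] noncomputable def a28.{u1} {x1 : Type u1} [x2 : CStarAlgebra x1] : AddCommGroup ↥(Vale.Agent.P095.BSeq x1) := inferInstance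
@[reducible] noncomputable def a29.{u1} {x1 : Type u1} [x2 : CStarAlgebra x1] : InvolutiveStar ↥(Vale.Agent.P095.BSeq x1) := inferInstance
@[reducible] noncomputable def a30.{u1} {x1 : Type u1} [x2 : CStarAlgebra x1] : AddCommMonoidWithOne ↥(Vale.Agent.P095.BSeq x1) := inferInstance
@[reducible] noncomputable def a31.{u1} {x1 : Type u1} [x2 : CStarAlgebra x1] {x3 : Vale.Agent.P095.LimTr x1} {x4 : Vale.Agent.P095.IsTracialState x3.val} : Semigroup (Vale.Agent.P095.nullCon x4).Quotient := inferInstance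
@[reducible] noncomputable def a32.{u1} {x1 : Type u1} [x2 : CStarAlgebra x1] : SMul ℂ ↥(Vale.Agent.P095.BSeq x1) := inferInstance
end AFast03a46ax665a
attribute [local instance] AFast03a46ax665a.a0 AFast03a46ax665a.a1 AFast03a46ax665a.a2
  AFast03a46ax665a.a3 AFast03a46ax665a.a4 AFast03a46ax665a.a5 AFast03a46ax665a.a6
  AFast03a46ax665a.a7 AFast03a46ax665a.a8 AFast03a46ax665a.a9 AFast03a46ax665a.a10
  AFast03a46ax665a.a11 AFast03a46ax665a.a12 AFast03a46ax665a.a13 AFast03a46ax665a.a14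
  AFast03a46ax665a.a15 AFast03a46ax665a.a16 AFast03a46ax665a.a17 AFast03a46ax665a.a18
  AFast03a46ax665a.a19 AFast03a46ax665a.a20 AFast03a46ax665a.a21 AFast03a46ax665a.a22
  AFast03a46ax665a.a23 AFast03a46ax665a.a24 AFast03a46ax665a.a25 AFast03a46ax665a.a26
  AFast03a46ax665a.a27 AFast03a46ax665a.a28 AFast03a46ax665a.a29 AFast03a46ax665a.a30
  AFast03a46ax665a.a31 AFast03a46ax665a.a32
namespace AFast03a46ax665b
@[reducible] noncomputable def a0.{u1} {x1 : Type u1} [x2 : CStarAlgebra x1] : Module ℂ ↥(Vale.Agent.P095.BSeq x1) := inferInstance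
theorem a1.{u1} {x1 : Type u1} [x2 : CStarAlgebra x1] : AddMonoidHomClass (↥(Vale.Agent.P095.BSeq x1) →ₗ[ℂ] ℂ) ↥(Vale.Agent.P095.BSeq x1) ℂ := inferInstance
theorem a2.{u1} {x1 : Type u1} [x2 : CStarAlgebra x1] : DistribMulActionSemiHomClass (↥(Vale.Agent.P095.BSeq x1) →ₗ[ℂ] ℂ) ⇑(RingHom.id ℂ) ↥(Vale.Agent.P095.BSeq x1) ℂ := inferInstance
end AFast03a46ax665b
attribute [local instance] AFast03a46ax665b.a0 AFast03a46ax665b.a1 AFast03a46ax665b.a2

section

set_option linter.unusedSectionVars false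
set_option linter.unusedVariables false
set_option linter.unusedSimpArgs false

namespace Vale.Agent.P095

open Filter Topology ComplexConjugate

section
variable {A : Type*} [CStarAlgebra A] {G : Type*} [Group G] (α : G →* (A ≃⋆ₐ[ℂ] A))

/-- approximately central, approximately fixed, approximately independent projection of
trace `c` -/
def GoodE (c : ℝ) (S : Finset G) (F : Finset A) (ε : ℝ) (e : A) : Prop :=
  (∃ b, e = star b * b) ∧ ‖e‖ ≤ 1 ∧ ∀ τ : A →ₗ[ℂ] ℂ, IsTracialState τ →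
    nrm τ (e * e - e) ≤ ε ∧
    (∀ a ∈ F, nrm τ (e * a - a * e) ≤ ε ∧ ‖τ (a * e) - c * τ a‖ ≤ ε) ∧
    (∀ s ∈ S, nrm τ (α s e - e) ≤ ε)

theorem norm_le_one_of_star_mul_self {b : A} (h : ‖star b * b‖ ≤ 1) : ‖b‖ ≤ 1 := by
  rw [CStarRing.norm_star_mul_self] at h
  nlinarith [norm_nonneg b]

theorem norm_one_sub_le_one {b : A} (h : ‖b‖ ≤ 1) : ‖1 - star b * b‖ ≤ 1 := by
  have hs : IsSelfAdjoint (star b * b) := IsSelfAdjoint.star_mul_self b
  have h1 : 1 - star b * b = cfc (fun t : ℝ => 1 - t) (star b * b) := by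
    rw [cfc_sub (fun _ : ℝ => (1 : ℝ)) (fun t => t) (star b * b) (by fun_prop) (by fun_prop),
      cfc_const_one ℝ (star b * b), cfc_id' ℝ (star b * b)]
  rw [h1]
  refine norm_cfc_le zero_le_one fun t ht => ?_
  have h2 : 0 ≤ t := spectrum_star_mul_self_nonneg t ht
  have h3 : ‖t‖ ≤ ‖star b * b‖ := by
    rcases subsingleton_or_nontrivial A with h | h
    · exact absurd ht (by simp only [spectrum.of_subsingleton, Set.mem_empty_iff_false, not_false_eq_true])
    · exact spectrum.norm_le_norm_of_mem ht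
  rw [CStarRing.norm_star_mul_self, Real.norm_eq_abs, abs_of_nonneg h2] at h3
  have h4 : t ≤ 1 := h3.trans (by nlinarith [norm_nonneg b])
  rw [Real.norm_eq_abs, abs_le]
  constructor <;> linarith only [h2, h4]

/-- the exact version of `GoodE` in the algebra of bounded sequences -/
def GoodEB (c : ℝ) (S : Finset G) (F : Finset (BSeq A)) (w : BSeq A) : Prop :=
  (∀ n, ‖w.1 n‖ ≤ 1) ∧ ∀ t : LimTr A,
    nrm t.val ((star w * w) * (star w * w) - star w * w) = 0 ∧
    (∀ b ∈ F, nrm t.val ((star w * w) * b - b * (star w * w)) = 0 ∧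
      t.val (b * (star w * w)) = c * t.val b) ∧
    (∀ s ∈ S, nrm t.val (actB (α s) (star w * w) - star w * w) = 0)

theorem lift_goodE (c : ℝ) (S : Finset G)
    (h : ∀ (F : Finset A) (ε : ℝ), 0 < ε → ∃ e, GoodE α c S F ε e)
    (F : Finset (BSeq A)) : ∃ w, GoodEB α c S F w := by
  classical
  have h1 : ∀ n : ℕ, ∃ e, GoodE α c S (F.image (fun b => b.1 n)) (1 / ((n : ℝ) + 1)) e :=
    fun n => h _ _ (by (clear * -; positivity))
  choose e he using h1
  choose b hb using fun n => (he n).1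
  have hlim : ∀ t : LimTr A, Tendsto (fun n : ℕ => 1 / ((n : ℝ) + 1)) (t.U : Filter ℕ) (𝓝 0) :=
    fun t => tendsto_one_div_add_atTop_nhds_zero_nat.mono_left t.hU
  have hb1 : ∀ n, ‖b n‖ ≤ 1 := by
    intro n
    apply norm_le_one_of_star_mul_self
    rw [← hb n]
    exact (he n).2.1
  let W : BSeq A := ⟨b, 1, hb1⟩
  have hW : ∀ n, (star W * W).1 n = e n := fun n => (hb n).symm
  have key : ∀ (t : LimTr A) (z : BSeq A),
      (∀ n, nrm (t.τ n) (z.1 n) ≤ 1 / ((n : ℝ) + 1)) → nrm t.val z = 0 := by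
    intro t z hz
    apply le_antisymm _ (nrm_nonneg _)
    exact le_of_tendsto_of_tendsto' (t.tendsto_nrm z) (hlim t) hz
  refine ⟨W, hb1, fun t => ⟨?_, ?_, ?_⟩⟩
  · refine key t _ (fun n => ?_)
    have h2 := ((he n).2.2 _ (t.hτ n)).1
    rw [← hW n] at h2
    exact h2
  · intro y hy
    have hy' : ∀ n, y.1 n ∈ F.image (fun b => b.1 n) := fun n => Finset.mem_image_of_mem _ hy
    refine ⟨key t _ (fun n => ?_), ?_⟩
    · have h2 := (((he n).2.2 _ (t.hτ n)).2.1 _ (hy' n)).1
      rw [← hW n] at h2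
      exact h2
    have h2 : Tendsto (fun n => t.τ n ((y * (star W * W)).1 n) - c * t.τ n (y.1 n)) t.U
        (𝓝 (t.val (y * (star W * W)) - c * t.val y)) :=
      (t.tendsto _).sub ((t.tendsto y).const_mul _)
    have h3 : Tendsto (fun n => t.τ n ((y * (star W * W)).1 n) - c * t.τ n (y.1 n)) t.U (𝓝 0) := by
      apply squeeze_zero_norm _ (hlim t)
      intro n
      have h4 := (((he n).2.2 _ (t.hτ n)).2.1 _ (hy' n)).2
      rw [← hW n] at h4
      exact h4
    have := tendsto_nhds_unique h2 h3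
    linear_combination this
  · intro s hs
    refine key t _ (fun n => ?_)
    have h2 := ((he n).2.2 _ (t.hτ n)).2.2 s hs
    rw [← hW n] at h2
    exact h2

/-- exact orthogonal families -/
def ExactG (k : ℕ) (S : Finset G) (F : Finset (BSeq A)) (w : Fin k → BSeq A) : Prop :=
  (∀ i n, ‖(w i).1 n‖ ≤ 1) ∧ ∀ t : LimTr A,
    (∀ i j, nrm t.val ((star (w i) * w i) * (star (w j) * w j) -
      if i = j then star (w i) * w i else 0) = 0) ∧
    (∀ i, ∀ b ∈ F, nrm t.val ((star (w i) * w i) * b - b * (star (w i) * w i)) = 0 ∧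
      t.val (b * (star (w i) * w i)) = (1 / (k : ℝ) : ℝ) * t.val b) ∧
    (∀ i, ∀ s ∈ S, nrm t.val (actB (α s) (star (w i) * w i) - star (w i) * w i) = 0)

theorem alg_cut {R : Type*} [Ring R] {e W : R} (he : e * e = e) (hc : W * e = e * W) :
    (1 - e) * W * (1 - e) = W - e * W := by
  have h1 : (1 - e) * W * (1 - e) = W - e * W - W * e + e * (W * e) := by noncomm_ring
  rw [h1, hc, ← mul_assoc, he]
  abel

theorem actB_cut (β : A ≃⋆ₐ[ℂ] A) (x y : BSeq A) :
    actB β ((1 - x) * y * (1 - x)) = (1 - actB β x) * actB β y * (1 - actB β x) := by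
  apply Subtype.ext
  funext n
  show β ((1 - x.1 n) * y.1 n * (1 - x.1 n)) = (1 - β (x.1 n)) * β (y.1 n) * (1 - β (x.1 n))
  rw [map_mul, map_mul, map_sub, map_one]

theorem cls_cut {τ : BSeq A →ₗ[ℂ] ℂ} (hT : IsTracialState τ) (x y : BSeq A) :
    cls hT ((1 - x) * y * (1 - x)) = (1 - cls hT x) * cls hT y * (1 - cls hT x) := by
  rw [map_mul, map_mul, map_sub, map_one]

theorem exact_succ (k : ℕ) (hk : 1 ≤ k) (S : Finset G)
    (hsingle : ∀ F : Finset (BSeq A), ∃ w, GoodEB α (1 / ((k + 1 : ℕ) : ℝ)) S F w)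
    (hfam : ∀ F : Finset (BSeq A), ∃ w : Fin k → BSeq A, ExactG α k S F w)
    (F : Finset (BSeq A)) : ∃ w : Fin (k + 1) → BSeq A, ExactG α (k + 1) S F w := by
  classical
  obtain ⟨v, hv1, hv⟩ := hsingle F
  obtain ⟨e, he⟩ : ∃ e, e = star v * v := ⟨_, rfl⟩
  obtain ⟨w, hw1, hw⟩ := hfam (insert e (F ∪ F.image (fun b => b * (1 - e))))
  rw [← he] at hv
  have hes : star e = e := by rw [he, star_mul, star_star]
  have hE' : ∀ i, star (w i * (1 - e)) * (w i * (1 - e)) =
      (1 - e) * (star (w i) * w i) * (1 - e) := by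
    intro i
    rw [star_mul, star_sub, star_one, hes]
    noncomm_ring
  refine ⟨Fin.cons v (fun i => w i * (1 - e)), ?_, fun t => ?_⟩
  · intro i n
    refine Fin.cases ?_ (fun i => ?_) i
    · exact hv1 n
    · show ‖(w i).1 n * (1 - e.1 n)‖ ≤ 1
      have h1 : e.1 n = star (v.1 n) * v.1 n := by rw [he]; rfl
      rw [h1]
      refine (norm_mul_le _ _).trans ?_
      exact mul_le_one₀ (hw1 i n) (norm_nonneg _) (norm_one_sub_le_one (hv1 n))
  have hT := t.isTracial
  have nz : ∀ x y : BSeq A, nrm t.val (x - y) = 0 ↔ cls hT x = cls hT y :=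
    fun x y => (cls_eq_iff_nrm hT).symm
  obtain ⟨hv2, hv3, hv4⟩ := hv t
  obtain ⟨hw2, hw3, hw4⟩ := hw t
  rw [nz, map_mul] at hv2
  have hWe : ∀ i, cls hT (star (w i) * w i) * cls hT e = cls hT e * cls hT (star (w i) * w i) := by
    intro i
    have h1 := (hw3 i e (Finset.mem_insert_self _ _)).1
    rwa [nz, map_mul (cls hT) (star (w i) * w i), map_mul (cls hT) e] at h1
  have hcut : ∀ i, cls hT (star (w i * (1 - e)) * (w i * (1 - e))) =
      cls hT (star (w i) * w i) - cls hT e * cls hT (star (w i) * w i) := by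
    intro i
    rw [hE', map_mul (cls hT) _ (1 - e), map_mul (cls hT) (1 - e), map_sub, map_one,
      alg_cut hv2 (hWe i)]
  have hWb : ∀ i, ∀ b ∈ F, cls hT (star (w i) * w i) * cls hT b =
      cls hT b * cls hT (star (w i) * w i) := by
    intro i b hb
    have h1 := (hw3 i b (Finset.mem_insert_of_mem (Finset.mem_union_left _ hb))).1
    rwa [nz, map_mul (cls hT) (star (w i) * w i), map_mul (cls hT) b] at h1
  have heb : ∀ b ∈ F, cls hT e * cls hT b = cls hT b * cls hT e := by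
    intro b hb
    have h1 := (hv3 b hb).1
    rwa [nz, map_mul, map_mul] at h1
  have hWW : ∀ i j, cls hT (star (w i) * w i) * cls hT (star (w j) * w j) =
      if i = j then cls hT (star (w i) * w i) else 0 := by
    intro i j
    have h1 := hw2 i j
    rw [nz, map_mul (cls hT) (star (w i) * w i)] at h1
    rw [h1]
    split_ifs
    · rfl
    · exact map_zero _
  generalize hE : cls hT e = E at *
  obtain ⟨W, hWi⟩ : ∃ W : Fin k → Qt hT, ∀ i, cls hT (star (w i) * w i) = W i :=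
    ⟨_, fun _ => rfl⟩
  simp only [hWi] at hcut hWb hWW hWe
  refine ⟨?_, ?_, ?_⟩
  · intro i j
    rw [nz, map_mul]
    refine Fin.cases ?_ (fun i => ?_) i <;> refine Fin.cases ?_ (fun j => ?_) j
    · simp only [Fin.cons_zero, if_true]
      rw [← he, hE, hv2]
    · simp only [Fin.cons_zero, Fin.cons_succ]
      rw [if_neg (Fin.succ_ne_zero j).symm, map_zero, hcut, ← he, hE, mul_sub, ← mul_assoc, hv2,
        sub_self]
    · simp only [Fin.cons_succ, Fin.cons_zero]
      rw [if_neg (Fin.succ_ne_zero i), map_zero, hcut, ← he, hE, sub_mul, mul_assoc, hWe,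
        ← mul_assoc, hv2, sub_self]
    · simp only [Fin.cons_succ, Fin.succ_inj]
      have h1 : (W i - E * W i) * (W j - E * W j) = W i * W j - E * (W i * W j) := by
        have h2 : (W i - E * W i) * (W j - E * W j) =
            W i * W j - W i * E * W j - E * (W i * W j) + E * (W i * E) * W j := by noncomm_ring
        rw [h2, hWe, ← mul_assoc E E, hv2]
        abel
      rw [hcut, hcut, h1, hWW]
      split_ifs
      · rw [hcut]
      · rw [map_zero, mul_zero, sub_zero]
  · intro i b hb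
    refine Fin.cases ?_ (fun i => ?_) i
    · simp only [Fin.cons_zero]
      refine ⟨(by rw [← he, nz, map_mul, map_mul, hE, heb b hb]), ?_⟩
      rw [← he, (hv3 b hb).2]
    · simp only [Fin.cons_succ]
      refine ⟨?_, ?_⟩
      · rw [nz, map_mul (cls hT) _ b, map_mul (cls hT) b, hcut, sub_mul, mul_sub, hWb i b hb,
          mul_assoc, hWb i b hb, ← mul_assoc, heb b hb, mul_assoc]
      · have h1 := (hw3 i (b * (1 - e)) (Finset.mem_insert_of_mem (Finset.mem_union_right _
          (Finset.mem_image_of_mem _ hb)))).2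
        have h2 : t.val (b * (star (w i * (1 - e)) * (w i * (1 - e)))) =
            t.val (b * (1 - e) * (star (w i) * w i)) := by
          rw [← qtr_cls hT, ← qtr_cls hT (b * (1 - e) * (star (w i) * w i)), map_mul (cls hT) b,
            hcut, map_mul (cls hT) (b * (1 - e)), map_mul (cls hT) b, map_sub, map_one, hWi, hE]
          congr 1
          noncomm_ring
        rw [h2, h1, mul_sub, mul_one, map_sub, (hv3 b hb).2]
        have hk0 : (k : ℂ) ≠ 0 := by exact_mod_cast (by omega : k ≠ 0)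
        have hk1 : (k : ℂ) + 1 ≠ 0 := by exact_mod_cast (by omega : k + 1 ≠ 0)
        push_cast
        field_simp
        ring
  · intro i s hs
    have hve := hv4 s hs
    rw [nz, hE] at hve
    refine Fin.cases ?_ (fun i => ?_) i
    · simp only [Fin.cons_zero]
      rw [nz, ← he, hve, hE]
    · simp only [Fin.cons_succ]
      have h1 := hw4 i s hs
      rw [nz, hWi] at h1
      rw [nz, hE', actB_cut, cls_cut hT, cls_cut hT, hve, h1, hE, hWi]

theorem exact_all (S : Finset G)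
    (hsingle : ∀ c : ℝ, 0 < c → c ≤ 1 → ∀ F : Finset (BSeq A), ∃ w, GoodEB α c S F w)
    (k : ℕ) (hk : 1 ≤ k) :
    ∀ F : Finset (BSeq A), ∃ w : Fin k → BSeq A, ExactG α k S F w := by
  induction k, hk using Nat.le_induction with
  | base =>
    intro F
    have h1 : ‖(1 : A)‖ ≤ 1 := by
      rcases subsingleton_or_nontrivial A with h | h
      · rw [Subsingleton.elim (1 : A) 0, norm_zero]
        exact zero_le_one
      · exact CStarRing.norm_one.le
    refine ⟨fun _ => 1, fun _ _ => h1, fun t => ⟨fun i j => ?_, fun i b hb => ⟨?_, ?_⟩,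
      fun i s hs => ?_⟩⟩
    · rw [if_pos (Subsingleton.elim i j), star_one, mul_one, mul_one, sub_self, nrm_zero]
    · rw [star_one, mul_one, one_mul, mul_one, sub_self, nrm_zero]
    · rw [star_one, mul_one, mul_one]
      simp only [Nat.cast_one, ne_eq, one_ne_zero, not_false_eq_true, div_self, Complex.ofReal_one, one_mul]
    · rw [star_one, mul_one, map_one, sub_self, nrm_zero]
  | succ k hk ih =>
    refine exact_succ α k hk S (hsingle _ (by (clear * - hk; (clear * - hk; positivity))) ?_) ih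
    rw [div_le_one (by positivity)]
    exact_mod_cast Nat.le_add_left 1 k

theorem twoNormLE_of_nrm {x : A} {ε : ℝ}
    (h : ∀ τ : A →ₗ[ℂ] ℂ, IsTracialState τ → nrm τ x ≤ ε) : TwoNormLE x ε := by
  intro τ hτ
  rw [← nrm_sq hτ]
  exact pow_le_pow_left₀ (nrm_nonneg _) (h τ hτ) 2

/-- From single projections of every trace to orthogonal families. -/
theorem gamma_of_single
    (h : ∀ c : ℝ, 0 < c → c ≤ 1 → ∀ (F : Finset A) (S : Finset G) (ε : ℝ), 0 < ε →
      ∃ e, GoodE α c S F ε e) :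
    EquivariantUniformGamma α := by
  classical
  intro k hk F S ε hε
  obtain ⟨w, hw1, hw⟩ := exact_all α S (fun c hc hc1 F' =>
    lift_goodE α c S (fun F ε hε => h c hc hc1 F S ε hε) F') k hk (F.image (cst A))
  have ev1 : ∀ᶠ n in atTop, ∀ i j, ∀ τ : A →ₗ[ℂ] ℂ, IsTracialState τ →
      nrm τ (((star (w i) * w i) * (star (w j) * w j) -
        if i = j then star (w i) * w i else 0 : BSeq A).1 n) ≤ ε := by
    rw [eventually_all]
    intro i
    rw [eventually_all]
    intro j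
    exact transfer_nrm _ hε (fun t => ((hw t).1 i j).le)
  have ev2 : ∀ᶠ n in atTop, ∀ i, ∀ a ∈ F, ∀ τ : A →ₗ[ℂ] ℂ, IsTracialState τ →
      nrm τ (((star (w i) * w i) * cst A a - cst A a * (star (w i) * w i) : BSeq A).1 n) ≤ ε := by
    rw [eventually_all]
    intro i
    rw [eventually_all_finset]
    intro a ha
    exact transfer_nrm _ hε (fun t => ((hw t).2.1 i _ (Finset.mem_image_of_mem _ ha)).1.le)
  have ev3 : ∀ᶠ n in atTop, ∀ i, ∀ a ∈ F, ∀ τ : A →ₗ[ℂ] ℂ, IsTracialState τ →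
      ‖τ ((cst A a * (star (w i) * w i) - ((1 / (k : ℝ) : ℝ) : ℂ) • cst A a : BSeq A).1 n)‖ ≤ ε := by
    rw [eventually_all]
    intro i
    rw [eventually_all_finset]
    intro a ha
    refine transfer_val _ hε (fun t => ?_)
    rw [map_sub, map_smul, ((hw t).2.1 i _ (Finset.mem_image_of_mem _ ha)).2, smul_eq_mul, sub_self,
      norm_zero]
  have ev4 : ∀ᶠ n in atTop, ∀ i, ∀ s ∈ S, ∀ τ : A →ₗ[ℂ] ℂ, IsTracialState τ →
      nrm τ ((actB (α s) (star (w i) * w i) - star (w i) * w i : BSeq A).1 n) ≤ ε := by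
    rw [eventually_all]
    intro i
    rw [eventually_all_finset]
    intro s hs
    exact transfer_nrm _ hε (fun t => ((hw t).2.2 i s hs).le)
  obtain ⟨n, h1, h2, h3, h4⟩ := (ev1.and (ev2.and (ev3.and ev4))).exists
  refine ⟨fun i => star ((w i).1 n) * (w i).1 n, fun i => ⟨⟨_, rfl⟩, ?_, ?_⟩, fun i j hij => ?_,
    fun i a ha => ?_, fun i s hs => ?_, fun i a ha τ hτ => ?_⟩
  · show ‖star ((w i).1 n) * (w i).1 n‖ ≤ 1
    rw [CStarRing.norm_star_mul_self]
    exact mul_le_one₀ (hw1 i n) (norm_nonneg _) (hw1 i n)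
  · refine twoNormLE_of_nrm fun τ hτ => ?_
    have h5 := h1 i i τ hτ
    rw [if_pos rfl] at h5
    exact h5
  · refine twoNormLE_of_nrm fun τ hτ => ?_
    have h5 := h1 i j τ hτ
    rw [if_neg hij, sub_zero] at h5
    exact h5
  · exact twoNormLE_of_nrm fun τ hτ => h2 i a ha τ hτ
  · exact twoNormLE_of_nrm fun τ hτ => h4 i s hs τ hτ
  · have h5 := h3 i a ha τ hτ
    have h6 : τ ((cst A a * (star (w i) * w i) - ((1 / (k : ℝ) : ℝ) : ℂ) • cst A a : BSeq A).1 n) =
        τ (a * (star ((w i).1 n) * (w i).1 n)) - τ a / k := by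
      show τ (a * (star ((w i).1 n) * (w i).1 n) - ((1 / (k : ℝ) : ℝ) : ℂ) • a) = _
      rw [map_sub, map_smul, smul_eq_mul]
      push_cast
      ring
    rw [h6] at h5
    exact h5

end

end Vale.Agent.P095
end

section

set_option linter.unusedSectionVars false
set_option linter.unusedVariables false
set_option linter.unusedSimpArgs false

namespace Vale.Agent.P095

open Filter Topology ComplexConjugate

/-- Uniform McDuff property of a unital C*-algebra. -/
def UniformMcDuff (A : Type*) [CStarAlgebra A] : Prop :=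
  ∀ (F : Finset A) (ε : ℝ), 0 < ε → ∃ v : A, ‖v‖ ≤ 1 ∧ TwoNormLE (v * v) ε ∧
    TwoNormLE (star v * v + v * star v - 1) ε ∧ ∀ a ∈ F, TwoNormLE (v * a - a * v) ε

/-- Equivariant uniform McDuff property of an action on a unital C*-algebra. -/
def EquivariantUniformMcDuff {A G : Type*} [CStarAlgebra A] [Group G]
    (α : G →* (A ≃⋆ₐ[ℂ] A)) : Prop :=
  ∀ (F : Finset A) (S : Finset G) (ε : ℝ), 0 < ε → ∃ v : A, ‖v‖ ≤ 1 ∧ TwoNormLE (v * v) ε ∧
    TwoNormLE (star v * v + v * star v - 1) ε ∧ (∀ a ∈ F, TwoNormLE (v * a - a * v) ε) ∧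
    ∀ s ∈ S, TwoNormLE (α s v - v) ε

end Vale.Agent.P095
end

section

/-! Elements that are small in every trace are small modulo commutators: Hahn-Banach. -/

set_option linter.unusedSectionVars false

open scoped ComplexOrder
open Vale.Agent.P095

namespace Vale.Agent.P095C

variable {A : Type*} [CStarAlgebra A] [PartialOrder A] [StarOrderedRing A]

/-- sums of self-commutators -/
private def hbN (A : Type*) [CStarAlgebra A] : AddSubmonoid A :=
  AddSubmonoid.closure {c | ∃ x : A, c = x * star x - star x * x}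

private theorem hbN_exists {c : A} (hc : c ∈ hbN A) :
    ∃ (n : ℕ) (x : Fin n → A), c = ∑ i, (x i * star (x i) - star (x i) * x i) := by
  unfold hbN at hc
  induction hc using AddSubmonoid.closure_induction with
  | mem c hc =>
    obtain ⟨x, rfl⟩ := hc
    exact ⟨1, fun _ => x, by simp only [Finset.univ_unique, Fin.default_eq_zero, Fin.isValue, Finset.sum_sub_distrib, Finset.sum_const, Finset.card_singleton, one_smul]⟩
  | zero => exact ⟨0, Fin.elim0, by simp only [Finset.univ_eq_empty, Finset.sum_sub_distrib, Finset.sum_empty, sub_self]⟩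
  | add a b _ _ ha hb =>
    obtain ⟨n, x, rfl⟩ := ha
    obtain ⟨m, y, rfl⟩ := hb
    refine ⟨n + m, Fin.append x y, ?_⟩
    rw [Fin.sum_univ_add]
    simp only [Finset.sum_sub_distrib, Fin.append_left, Fin.append_right]

private theorem hbN_smul {c : A} (hc : c ∈ hbN A) {r : ℝ} (hr : 0 ≤ r) : r • c ∈ hbN A := by
  unfold hbN at hc ⊢
  induction hc using AddSubmonoid.closure_induction with
  | mem c hc =>
    obtain ⟨x, rfl⟩ := hc
    refine AddSubmonoid.subset_closure ⟨(√r : ℝ) • x, ?_⟩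
    simp only [star_smul, star_trivial, smul_mul_assoc, mul_smul_comm, smul_smul,
      Real.mul_self_sqrt hr, smul_sub]
  | zero => simp only [smul_zero, zero_mem]
  | add a b _ _ ha hb =>
    rw [smul_add]
    exact add_mem ha hb

private theorem hbN_neg {x : A} : -(x * star x - star x * x) ∈ hbN A :=
  AddSubmonoid.subset_closure ⟨star x, by rw [star_star]; abel⟩

private theorem hbN_selfAdjoint {c : A} (hc : c ∈ hbN A) : IsSelfAdjoint c := by
  unfold hbN at hc
  induction hc using AddSubmonoid.closure_induction with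
  | mem c hc =>
    obtain ⟨x, rfl⟩ := hc
    exact (IsSelfAdjoint.mul_star_self x).sub (IsSelfAdjoint.star_mul_self x)
  | zero => exact IsSelfAdjoint.zero _
  | add a b _ _ ha hb => exact ha.add hb

/-- the cone -/
private def hbK (A : Type*) [CStarAlgebra A] [PartialOrder A] : Set A :=
  {y | ∃ c ∈ hbN A, 0 ≤ y + c}

private theorem hbK_smul {y : A} (hy : y ∈ hbK A) {r : ℝ} (hr : 0 ≤ r) : r • y ∈ hbK A := by
  obtain ⟨c, hc, h⟩ := hy
  refine ⟨r • c, hbN_smul hc hr, ?_⟩
  rw [← smul_add]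
  exact smul_nonneg hr h

private theorem hbK_add {y z : A} (hy : y ∈ hbK A) (hz : z ∈ hbK A) : y + z ∈ hbK A := by
  obtain ⟨c, hc, h⟩ := hy
  obtain ⟨d, hd, h'⟩ := hz
  refine ⟨c + d, add_mem hc hd, ?_⟩
  have : y + z + (c + d) = (y + c) + (z + d) := by abel
  rw [this]
  exact add_nonneg h h'

private theorem hbK_convex : Convex ℝ (hbK A) := by
  intro y hy z hz a b ha hb _
  exact hbK_add (hbK_smul hy ha) (hbK_smul hz hb)

private theorem hbK_nonneg {y : A} (hy : 0 ≤ y) : y ∈ hbK A :=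
  ⟨0, zero_mem _, by simpa only [add_zero] using hy⟩

private theorem hbK_comm (x : A) : x * star x - star x * x ∈ hbK A :=
  ⟨-(x * star x - star x * x), hbN_neg, by simp only [neg_sub, sub_add_sub_cancel, sub_self, Std.le_refl]⟩

private theorem hbK_comm' (x : A) : -(x * star x - star x * x) ∈ hbK A :=
  ⟨x * star x - star x * x, AddSubmonoid.subset_closure ⟨x, rfl⟩, by simp only [neg_sub, sub_add_sub_cancel, sub_self, Std.le_refl]⟩

/-- the real part as a real linear map -/
private noncomputable def hbRe (A : Type*) [CStarAlgebra A] : A →ₗ[ℝ] A where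
  toFun a := (2 : ℝ)⁻¹ • (a + star a)
  map_add' a b := by simp only [star_add, smul_add]; abel
  map_smul' r a := by
    simp only [star_smul, star_trivial, smul_add, RingHom.id_apply, smul_comm r]

private theorem hbRe_apply (a : A) : hbRe A a = (2 : ℝ)⁻¹ • (a + star a) := rfl

private theorem hbRe_of_sa {a : A} (ha : IsSelfAdjoint a) : hbRe A a = a := by
  rw [hbRe_apply, ha.star_eq, ← two_smul ℝ a, smul_smul]
  (clear * -; norm_num)

private theorem hbRe_I_of_sa {a : A} (ha : IsSelfAdjoint a) : hbRe A (Complex.I • a) = 0 := by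
  rw [hbRe_apply, star_smul, ha.star_eq]
  simp only [RCLike.star_def, Complex.conj_I, neg_smul, add_neg_cancel, smul_zero]

/-- polarization: a linear functional with `τ (x x*) = τ (x* x)` is tracial -/
private theorem trace_of_sq {τ : A →ₗ[ℂ] ℂ} (h : ∀ x : A, τ (x * star x) = τ (star x * x))
    (a b : A) : τ (a * b) = τ (b * a) := by
  have h1 := h (a + star b)
  have h2 := h (a + Complex.I • star b)
  have ha := h a
  have hb := h (star b)
  simp only [star_add, star_star, mul_add, add_mul, map_add, star_smul, RCLike.star_def, Complex.conj_I, smul_mul_assoc, mul_smul_comm, map_smul, smul_eq_mul] at h1 h2 hb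
  have e1 : τ (a * b) + τ (star b * star a) = τ (star a * star b) + τ (b * a) := by
    linear_combination h1 - ha - hb
  have e2 : -Complex.I * τ (a * b) + Complex.I * τ (star b * star a)
      = Complex.I * τ (star a * star b) - Complex.I * τ (b * a) := by
    linear_combination h2 - ha - (-(Complex.I * Complex.I)) * hb
  have e3 : Complex.I * (τ (a * b) - τ (b * a)) = 0 := by
    linear_combination (Complex.I * e1 - e2) / 2
  rcases mul_eq_zero.mp e3 with h | h
  · exact absurd h Complex.I_ne_zero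
  · exact sub_eq_zero.mp h

/-- Hahn-Banach for the cone `A_+ + span {x x* - x* x}`. -/
theorem exists_commutator_sum {e : A} (he : IsSelfAdjoint e) {δ : ℝ}
    (h : ∀ τ : A →ₗ[ℂ] ℂ, IsTracialState τ → (τ e).re ≤ δ) {ε : ℝ} (hε : 0 < ε) :
    ∃ (n : ℕ) (x : Fin n → A),
      e ≤ (δ + ε) • (1 : A) + ∑ i, (x i * star (x i) - star (x i) * x i) := by
  have hdsa : IsSelfAdjoint (δ • (1 : A) - e) :=
    (IsSelfAdjoint.smul (IsSelfAdjoint.all δ) (.one A)).sub he
  by_cases hd : δ • (1 : A) - e ∈ closure (hbK A)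
  · -- approximate
    rw [Metric.mem_closure_iff] at hd
    obtain ⟨k, ⟨c, hc, hk⟩, hdk⟩ := hd ε hε
    obtain ⟨n, x, hx⟩ := hbN_exists hc
    refine ⟨n, x, ?_⟩
    rw [← hx]
    have hksa : IsSelfAdjoint k := by
      have h1 : IsSelfAdjoint (k + c) := IsSelfAdjoint.of_nonneg hk
      have := h1.sub (hbN_selfAdjoint hc)
      rwa [add_sub_cancel_right] at this
    have hsa : IsSelfAdjoint (k - (δ • (1 : A) - e)) := hksa.sub hdsa
    have h2 := hsa.le_algebraMap_norm_self
    have h3 : algebraMap ℝ A ‖k - (δ • (1 : A) - e)‖ ≤ algebraMap ℝ A ε := by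
      apply algebraMap_mono
      rw [← dist_eq_norm, dist_comm]
      exact hdk.le
    have h4 := h2.trans h3
    rw [Algebra.algebraMap_eq_smul_one] at h4
    have h5 : 0 ≤ (k + c) + (ε • (1 : A) - (k - (δ • (1 : A) - e))) :=
      add_nonneg hk (sub_nonneg.mpr h4)
    rw [← sub_nonneg]
    have h6 : (δ + ε) • (1 : A) + c - e = (k + c) + (ε • (1 : A) - (k - (δ • (1 : A) - e))) := by
      rw [add_smul]; abel
    rw [h6]; exact h5
  · exfalso
    obtain ⟨g, u, hgu, hug⟩ := geometric_hahn_banach_closed_point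
      (hbK_convex (A := A)).closure isClosed_closure hd
    have hK : ∀ k ∈ hbK A, g k ≤ 0 := by
      intro k hk
      by_contra hlt
      push Not at hlt
      have hr : 0 ≤ |u| / g k := by (clear * - hlt; (clear * - hlt; positivity))
      have h1 := hgu _ (subset_closure (hbK_smul hk hr))
      rw [map_smul, smul_eq_mul, div_mul_cancel₀ _ hlt.ne'] at h1
      exact absurd (le_abs_self u) (not_le.mpr h1)
    have hu : 0 < u := by
      have := hgu 0 (subset_closure (hbK_nonneg le_rfl))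
      simpa only [gt_iff_lt, map_zero] using this
    have hgd : 0 < g (δ • (1 : A) - e) := hu.trans hug
    -- the functional
    set φ : A →ₗ[ℝ] ℝ := -(g.toLinearMap ∘ₗ hbRe A) with hφ
    have hφa : ∀ a : A, φ a = -g (hbRe A a) := fun a => rfl
    set τ₀ : A →ₗ[ℂ] ℂ := Module.Dual.extendRCLike (𝕜 := ℂ) φ with hτ₀
    have hτsa : ∀ a : A, IsSelfAdjoint a → τ₀ a = ((-g a : ℝ) : ℂ) := by
      intro a ha
      rw [hτ₀, Module.Dual.extendRCLike_apply]
      have h1 : φ a = -g a := by rw [hφa, hbRe_of_sa ha]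
      have h2 : φ ((RCLike.I : ℂ) • a) = 0 := by
        rw [hφa]
        have : hbRe A ((RCLike.I : ℂ) • a) = 0 := hbRe_I_of_sa ha
        rw [this, map_zero, neg_zero]
      rw [h1, h2]
      simp only [Complex.coe_algebraMap, Complex.ofReal_neg, RCLike.I_to_complex, Complex.ofReal_zero, mul_zero, sub_zero]
    have hnn : ∀ a : A, 0 ≤ a → 0 ≤ -g a := fun a ha => by
      have := hK a (hbK_nonneg ha); linarith only [this]
    have hg1 : 0 < -g 1 := by
      rcases (hnn 1 zero_le_one).lt_or_eq with h1 | h1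
      · exact h1
      · exfalso
        have h2 := hdsa.le_algebraMap_norm_self
        have h3 := hnn _ (sub_nonneg.mpr h2)
        rw [map_sub, Algebra.algebraMap_eq_smul_one, map_smul, smul_eq_mul] at h3
        have h4 := hdsa.neg_algebraMap_norm_le_self
        have h5 := hnn _ (sub_nonneg.mpr h4)
        rw [map_sub, map_neg, Algebra.algebraMap_eq_smul_one, map_smul, smul_eq_mul] at h5
        have h6 : g 1 = 0 := by linarith only [h1]
        rw [h6] at h3 h5
        linarith only [hug, hu, h5]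
    have hcomm : ∀ x : A, τ₀ (x * star x) = τ₀ (star x * x) := by
      intro x
      rw [hτsa _ (IsSelfAdjoint.mul_star_self x), hτsa _ (IsSelfAdjoint.star_mul_self x)]
      have h1 := hK _ (hbK_comm x)
      have h2 := hK _ (hbK_comm' x)
      rw [map_neg] at h2
      rw [map_sub] at h1 h2
      have : g (x * star x) = g (star x * x) := by linarith only [h2, h1]
      rw [this]
    set t : ℝ := -g 1 with ht
    have hτ1 : τ₀ 1 = (t : ℂ) := hτsa 1 (.one A)
    have htr : IsTracialState (((t⁻¹ : ℝ) : ℂ) • τ₀) := by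
      refine ⟨?_, ?_, ?_, ?_⟩
      · rw [LinearMap.smul_apply, hτ1, smul_eq_mul, ← Complex.ofReal_mul,
          inv_mul_cancel₀ hg1.ne', Complex.ofReal_one]
      · intro a
        rw [LinearMap.smul_apply, hτsa _ (IsSelfAdjoint.star_mul_self a), smul_eq_mul,
          ← Complex.ofReal_mul, Complex.ofReal_im]
      · intro a
        rw [LinearMap.smul_apply, hτsa _ (IsSelfAdjoint.star_mul_self a), smul_eq_mul,
          ← Complex.ofReal_mul, Complex.ofReal_re]
        exact mul_nonneg (inv_nonneg.mpr hg1.le) (hnn _ (star_mul_self_nonneg a))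
      · intro a b
        rw [LinearMap.smul_apply, LinearMap.smul_apply, trace_of_sq hcomm]
    have h1 := h _ htr
    rw [LinearMap.smul_apply, hτsa e he, smul_eq_mul, ← Complex.ofReal_mul,
      Complex.ofReal_re, inv_mul_le_iff₀ hg1] at h1
    rw [map_sub, map_smul, smul_eq_mul] at hgd
    have h2 : t * δ = -(δ * g 1) := by rw [ht]; ring
    linarith only [hgd, h1]

end Vale.Agent.P095C
end

section

/-! The quadratic form of `Y Y* - e ⊗ 1`, where `Y = ∑ z i ⊗ λ(g_{l,i})` for a free group. -/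

open scoped InnerProductSpace

namespace Vale.Agent.P095C

open FreeGroup

section ops

variable {H : Type*} [NormedAddCommGroup H] [InnerProductSpace ℂ H] [CompleteSpace H]

theorem sum_norm_sq_apply {ι : Type*} (s : Finset ι) (z : ι → H →L[ℂ] H) (y : H) :
    ∑ i ∈ s, ‖z i y‖ ^ 2 = (⟪(∑ i ∈ s, star (z i) * z i) y, y⟫_ℂ).re := by
  rw [sum_apply, sum_inner, Complex.re_sum]
  refine Finset.sum_congr rfl fun i _ => ?_
  have h : (star (z i) * z i) y = ContinuousLinearMap.adjoint (z i) (z i y) := rfl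
  rw [h, ContinuousLinearMap.adjoint_inner_left, inner_self_eq_norm_sq_to_K]
  norm_cast

theorem sum_norm_sq_star_apply {ι : Type*} (s : Finset ι) (z : ι → H →L[ℂ] H) (y : H) :
    ∑ i ∈ s, ‖star (z i) y‖ ^ 2 = (⟪y, (∑ i ∈ s, z i * star (z i)) y⟫_ℂ).re := by
  rw [sum_apply, inner_sum, Complex.re_sum]
  refine Finset.sum_congr rfl fun i _ => ?_
  have h : (z i * star (z i)) y = z i (star (z i) y) := rfl
  have h2 : ⟪y, z i (star (z i) y)⟫_ℂ = ⟪star (z i) y, star (z i) y⟫_ℂ := by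
    have h3 : star (z i) = ContinuousLinearMap.adjoint (z i) := rfl
    conv_rhs => rw [h3, ContinuousLinearMap.adjoint_inner_left, ← h3]
  rw [h, h2, inner_self_eq_norm_sq_to_K]
  norm_cast

omit [CompleteSpace H] in
theorem re_inner_apply_le (T : H →L[ℂ] H) (y : H) : |(⟪y, T y⟫_ℂ).re| ≤ ‖T‖ * ‖y‖ ^ 2 := by
  refine (Complex.abs_re_le_norm _).trans ((norm_inner_le_norm _ _).trans ?_)
  have := T.le_opNorm y
  nlinarith only [this, norm_nonneg y]

omit [CompleteSpace H] in
theorem re_inner_apply_le' (T : H →L[ℂ] H) (y : H) : |(⟪T y, y⟫_ℂ).re| ≤ ‖T‖ * ‖y‖ ^ 2 := by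
  refine (Complex.abs_re_le_norm _).trans ((norm_inner_le_norm _ _).trans ?_)
  have := T.le_opNorm y
  (clear * - this; nlinarith [norm_nonneg y])

/-- the row estimate -/
theorem row_bound {H : Type*} [NormedAddCommGroup H] [InnerProductSpace ℂ H] [CompleteSpace H]
    {ι : Type*} (s : Finset ι) (z : ι → H →L[ℂ] H) {M : ℝ} (hM : 0 ≤ M)
    (h : ‖∑ i ∈ s, star (z i) * z i‖ ≤ M) (η : ι → H) :
    ‖∑ i ∈ s, (star (z i)) (η i)‖ ^ 2 ≤ M * ∑ i ∈ s, ‖η i‖ ^ 2 := by
  set y : H := ∑ i ∈ s, (star (z i)) (η i) with hy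
  have h1 : ‖y‖ ^ 2 = ∑ i ∈ s, (⟪z i y, η i⟫_ℂ).re := by
    have h2 : ((‖y‖ ^ 2 : ℝ) : ℂ) = ⟪y, y⟫_ℂ := by
      rw [inner_self_eq_norm_sq_to_K]
      norm_cast
    have h3 : ⟪y, y⟫_ℂ = ∑ i ∈ s, ⟪z i y, η i⟫_ℂ := by
      conv_lhs => rw [hy, inner_sum]
      refine Finset.sum_congr rfl fun i _ => ?_
      have h4 : star (z i) = ContinuousLinearMap.adjoint (z i) := rfl
      rw [h4, ContinuousLinearMap.adjoint_inner_right]
    rw [← Complex.re_sum, ← h3, ← h2, Complex.ofReal_re]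
  have h2 : ∑ i ∈ s, (⟪z i y, η i⟫_ℂ).re ≤ ∑ i ∈ s, ‖z i y‖ * ‖η i‖ :=
    Finset.sum_le_sum fun i _ => (Complex.re_le_norm _).trans (norm_inner_le_norm _ _)
  have h3 : (∑ i ∈ s, ‖z i y‖ * ‖η i‖) ^ 2 ≤ (∑ i ∈ s, ‖z i y‖ ^ 2) * ∑ i ∈ s, ‖η i‖ ^ 2 :=
    Finset.sum_mul_sq_le_sq_mul_sq _ _ _
  have h4 : ∑ i ∈ s, ‖z i y‖ ^ 2 ≤ M * ‖y‖ ^ 2 := by
    rw [sum_norm_sq_apply]
    refine (le_abs_self _).trans ((re_inner_apply_le' _ _).trans ?_)
    gcongr
  have h5 : (‖y‖ ^ 2) ^ 2 ≤ (M * ‖y‖ ^ 2) * ∑ i ∈ s, ‖η i‖ ^ 2 := by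
    calc (‖y‖ ^ 2) ^ 2 ≤ (∑ i ∈ s, ‖z i y‖ * ‖η i‖) ^ 2 := by
          rw [h1]
          have : 0 ≤ ∑ i ∈ s, (⟪z i y, η i⟫_ℂ).re := by rw [← h1]; (clear * -; positivity)
          (clear * - this h2; gcongr)
      _ ≤ _ := h3
      _ ≤ _ := by (clear * - h4; gcongr)
  rcases eq_or_lt_of_le (norm_nonneg y) with h6 | h6
  · rw [← h6]
    have : 0 ≤ M * ∑ i ∈ s, ‖η i‖ ^ 2 := mul_nonneg hM (Finset.sum_nonneg fun _ _ => by (clear * -; positivity))
    simpa only [ne_eq, OfNat.ofNat_ne_zero, not_false_eq_true, zero_pow, ge_iff_le] using this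
  · have h7 : 0 < ‖y‖ ^ 2 := by (clear * - h6; positivity)
    have h8 : ‖y‖ ^ 2 * ‖y‖ ^ 2 ≤ (M * ∑ i ∈ s, ‖η i‖ ^ 2) * ‖y‖ ^ 2 := by linarith
    exact le_of_mul_le_mul_right h8 h7

end ops

section words

variable {α : Type*} [DecidableEq α]

/-- multiplication by the generator `c` makes the word longer -/
def child (c : α) (w : FreeGroup α) : Prop := toWord (of c * w) = (c, true) :: toWord w

instance (c : α) (w : FreeGroup α) : Decidable (child c w) := by
  unfold child; infer_instance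

theorem head_of_not_child {c : α} {w : FreeGroup α} (h : ¬ child c w) :
    (toWord w).head? = some (c, false) := by
  unfold child at h
  rw [toWord_mul, toWord_of, List.singleton_append, reduce.cons, reduce_toWord] at h
  cases hw : toWord w with
  | nil => rw [hw] at h; exact absurd rfl h
  | cons hd tl =>
    rw [hw] at h
    simp only at h
    by_cases h2 : c = hd.1 ∧ true = !hd.2
    · have h3 : hd = (c, false) := by
        refine Prod.ext h2.1.symm ?_
        have := h2.2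
        cases hh : hd.2 with
        | true => rw [hh] at this; exact absurd this (by decide)
        | false => rfl
      rw [h3]
      rfl
    · rw [if_neg h2] at h
      exact absurd rfl h

theorem not_child_unique {c d : α} {w : FreeGroup α} (h : ¬ child c w) (h' : ¬ child d w) :
    c = d := by
  have h1 := head_of_not_child h
  have h2 := head_of_not_child h'
  rw [h1] at h2
  have := Option.some.inj h2
  exact congrArg Prod.fst this

theorem child_unique {c d : α} {w : FreeGroup α} (h : child c ((of c)⁻¹ * w))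
    (h' : child d ((of d)⁻¹ * w)) : c = d := by
  unfold child at h h'
  rw [mul_inv_cancel_left] at h h'
  rw [h] at h'
  have := (List.cons.inj h').1
  exact congrArg Prod.fst this

end words

section sums

variable {L N : ℕ} {M : Type*} [AddCommMonoid M]

/-- the set of all `g⁻¹ w`, `w ∈ B` -/
def Wset (B : Finset (FreeGroup (Fin L × Fin N))) : Finset (FreeGroup (Fin L × Fin N)) :=
  (Finset.univ ×ˢ B).image fun p : (Fin L × Fin N) × FreeGroup (Fin L × Fin N) =>
    (of p.1)⁻¹ * p.2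

theorem mem_Wset {B : Finset (FreeGroup (Fin L × Fin N))} {p : Fin L × FreeGroup (Fin L × Fin N)}
    (hp : p ∈ (Finset.univ : Finset (Fin L)) ×ˢ B) (i : Fin N) :
    (of (p.1, i))⁻¹ * p.2 ∈ Wset B := by
  unfold Wset
  rw [Finset.mem_image]
  exact ⟨((p.1, i), p.2), Finset.mem_product.mpr ⟨Finset.mem_univ _, (Finset.mem_product.mp hp).2⟩,
    rfl⟩

theorem sum_S (B : Finset (FreeGroup (Fin L × Fin N))) (w : FreeGroup (Fin L × Fin N))
    (Ψ : Fin L × Fin N → FreeGroup (Fin L × Fin N) → M) :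
    ∑ d : Fin L × Fin N, (if of d * w ∈ B then Ψ d (of d * w) else 0) =
      ∑ q ∈ Finset.univ ×ˢ B, ∑ j : Fin N,
        if w = (of (q.1, j))⁻¹ * q.2 then Ψ (q.1, j) q.2 else 0 := by
  rw [Finset.sum_product, Fintype.sum_prod_type]
  refine Finset.sum_congr rfl fun l _ => ?_
  rw [Finset.sum_comm]
  refine Finset.sum_congr rfl fun j _ => ?_
  have h : ∀ v : FreeGroup (Fin L × Fin N), (w = (of (l, j))⁻¹ * v) ↔ (of (l, j) * w = v) := by
    intro v
    constructor
    · rintro rfl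
      rw [mul_inv_cancel_left]
    · rintro rfl
      rw [inv_mul_cancel_left]
  simp_rw [h]
  rw [Finset.sum_ite_eq]

theorem sum_R (B : Finset (FreeGroup (Fin L × Fin N)))
    (Φ : Fin L × Fin N → FreeGroup (Fin L × Fin N) → M) :
    ∑ w ∈ Wset B, ∑ c : Fin L × Fin N, (if of c * w ∈ B then Φ c w else 0) =
      ∑ p ∈ Finset.univ ×ˢ B, ∑ i : Fin N, Φ (p.1, i) ((of (p.1, i))⁻¹ * p.2) := by
  have h : ∀ w : FreeGroup (Fin L × Fin N),
      ∑ c : Fin L × Fin N, (if of c * w ∈ B then Φ c w else 0) =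
      ∑ q ∈ Finset.univ ×ˢ B, ∑ j : Fin N,
        if w = (of (q.1, j))⁻¹ * q.2 then Φ (q.1, j) w else 0 :=
    fun w => sum_S B w (fun d _ => Φ d w)
  simp_rw [h]
  rw [Finset.sum_comm]
  refine Finset.sum_congr rfl fun p hp => ?_
  rw [Finset.sum_comm]
  refine Finset.sum_congr rfl fun i _ => ?_
  rw [Finset.sum_ite_eq', if_pos (mem_Wset hp i)]

theorem norm_sum_sq_of_unique {H : Type*} [NormedAddCommGroup H] {ι : Type*} [Fintype ι]
    (v : ι → H) (hv : ∀ c d, v c ≠ 0 → v d ≠ 0 → c = d) :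
    ‖∑ c, v c‖ ^ 2 = ∑ c, ‖v c‖ ^ 2 := by
  by_cases h : ∃ c, v c ≠ 0
  · obtain ⟨c, hc⟩ := h
    have h1 : ∀ d, d ≠ c → v d = 0 := by
      intro d hd
      by_contra h2
      exact hd (hv d c h2 hc)
    rw [Finset.sum_eq_single c (fun d _ hd => h1 d hd) (fun h => absurd (Finset.mem_univ _) h),
      Finset.sum_eq_single c (fun d _ hd => by rw [h1 d hd, norm_zero]; norm_num)
        (fun h => absurd (Finset.mem_univ _) h)]
  · push Not at h
    simp only [h, Finset.sum_const_zero, norm_zero, ne_eq, OfNat.ofNat_ne_zero, not_false_eq_true, zero_pow]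

theorem sum_ite_le_of_unique {ι : Type*} [Fintype ι] (P : ι → Prop) [DecidablePred P]
    (hP : ∀ c d, P c → P d → c = d) {a : ι → ℝ} {b : ℝ} (hb : 0 ≤ b) (ha : ∀ c, a c ≤ b) :
    ∑ c, (if P c then a c else 0) ≤ b := by
  by_cases h : ∃ c, P c
  · obtain ⟨c, hc⟩ := h
    rw [Finset.sum_eq_single c (fun d _ hd => if_neg fun h2 => hd (hP d c h2 hc))
      (fun h => absurd (Finset.mem_univ _) h), if_pos hc]
    exact ha c
  · push Not at h
    simp only [h, ↓reduceIte, Finset.sum_const_zero, hb]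

end sums

section form

variable {H : Type*} [NormedAddCommGroup H] [InnerProductSpace ℂ H] [CompleteSpace H] {L N : ℕ}

/-- the restriction of `η` to `B`, in the variables `(c, w)` -/
noncomputable def zet (B : Finset (FreeGroup (Fin L × Fin N)))
    (η : Fin L × FreeGroup (Fin L × Fin N) → H) (c : Fin L × Fin N)
    (w : FreeGroup (Fin L × Fin N)) : H :=
  if of c * w ∈ B then η (c.1, of c * w) else 0

theorem double_sum (z : Fin N → H →L[ℂ] H) (B : Finset (FreeGroup (Fin L × Fin N)))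
    (η : Fin L × FreeGroup (Fin L × Fin N) → H) :
    (∑ p ∈ Finset.univ ×ˢ B, ∑ q ∈ Finset.univ ×ˢ B, ∑ i, ∑ j,
        if (of (p.1, i))⁻¹ * p.2 = (of (q.1, j))⁻¹ * q.2 then
          (⟪(star (z i)) (η p), (star (z j)) (η q)⟫_ℂ).re else 0) =
      ∑ w ∈ Wset B, ‖∑ c : Fin L × Fin N, (star (z c.2)) (zet B η c w)‖ ^ 2 := by
  have h1 : ∀ w : FreeGroup (Fin L × Fin N),
      ‖∑ c : Fin L × Fin N, (star (z c.2)) (zet B η c w)‖ ^ 2 =
      ∑ c : Fin L × Fin N, (if of c * w ∈ B then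
        ∑ d : Fin L × Fin N, (if of d * w ∈ B then
          (⟪(star (z c.2)) (η (c.1, of c * w)), (star (z d.2)) (η (d.1, of d * w))⟫_ℂ).re
          else 0) else 0) := by
    intro w
    have h2 : ((‖∑ c : Fin L × Fin N, (star (z c.2)) (zet B η c w)‖ ^ 2 : ℝ) : ℂ) =
        ⟪∑ c : Fin L × Fin N, (star (z c.2)) (zet B η c w),
          ∑ c : Fin L × Fin N, (star (z c.2)) (zet B η c w)⟫_ℂ := by
      rw [inner_self_eq_norm_sq_to_K]
      norm_cast
    have h3 := congrArg Complex.re h2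
    rw [Complex.ofReal_re] at h3
    rw [h3, sum_inner, Complex.re_sum]
    refine Finset.sum_congr rfl fun c _ => ?_
    rw [inner_sum, Complex.re_sum]
    by_cases hc : of c * w ∈ B
    · rw [if_pos hc]
      refine Finset.sum_congr rfl fun d _ => ?_
      by_cases hd : of d * w ∈ B
      · rw [if_pos hd, zet, zet, if_pos hc, if_pos hd]
      · rw [if_neg hd, zet, zet, if_pos hc, if_neg hd, map_zero, inner_zero_right, Complex.zero_re]
    · rw [if_neg hc]
      refine Finset.sum_eq_zero fun d _ => ?_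
      rw [zet, if_neg hc, map_zero, inner_zero_left, Complex.zero_re]
  simp_rw [h1]
  rw [sum_R]
  refine Finset.sum_congr rfl fun p _ => ?_
  rw [Finset.sum_comm]
  refine Finset.sum_congr rfl fun i _ => ?_
  have h4 : of (p.1, i) * ((of (p.1, i))⁻¹ * p.2) = p.2 := mul_inv_cancel_left _ _
  rw [h4]
  exact (sum_S B ((of (p.1, i))⁻¹ * p.2) (fun d v =>
    (⟪(star (z i)) (η p), (star (z d.2)) (η (d.1, v))⟫_ℂ).re)).symm

omit [CompleteSpace H] in
theorem assemble {β : Type*} (W : Finset β) (P Q : β → H) {δ S EE L : ℝ} (hδ0 : 0 ≤ δ)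
    (hδ1 : δ ≤ 1) (hS0 : 0 ≤ S) (hL0 : 0 ≤ L) (hPP : ∑ w ∈ W, ‖P w‖ ^ 2 ≤ L * δ * S)
    (hQE : |∑ w ∈ W, ‖Q w‖ ^ 2 - EE| ≤ 2 * δ * S) (hE : EE ≤ S) :
    |∑ w ∈ W, ‖P w + Q w‖ ^ 2 - EE| ≤ 8 * (L + 1) * Real.sqrt δ * S := by
  set QQ : ℝ := ∑ w ∈ W, ‖Q w‖ ^ 2 with hQQdef
  set PP : ℝ := ∑ w ∈ W, ‖P w‖ ^ 2 with hPPdef
  set X : ℝ := ∑ w ∈ W, ‖P w‖ * ‖Q w‖ with hX
  have hX0 : 0 ≤ X := Finset.sum_nonneg fun _ _ => by (clear * -; positivity)
  have hQQ0 : 0 ≤ QQ := Finset.sum_nonneg fun _ _ => by (clear * -; positivity)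
  have hPP0 : 0 ≤ PP := Finset.sum_nonneg fun _ _ => by (clear * -; positivity)
  have hXX : X ^ 2 ≤ PP * QQ := Finset.sum_mul_sq_le_sq_mul_sq _ _ _
  have hexp : |∑ w ∈ W, ‖P w + Q w‖ ^ 2 - QQ| ≤ PP + 2 * X := by
    rw [hQQdef, ← Finset.sum_sub_distrib]
    refine (Finset.abs_sum_le_sum_abs _ _).trans ?_
    rw [hPPdef, hX, Finset.mul_sum, ← Finset.sum_add_distrib]
    refine Finset.sum_le_sum fun w _ => ?_
    have h4 : ‖P w + Q w‖ ^ 2 = ‖P w‖ ^ 2 + 2 * (⟪P w, Q w⟫_ℂ).re + ‖Q w‖ ^ 2 :=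
      norm_add_sq (𝕜 := ℂ) (P w) (Q w)
    have h5 : |(⟪P w, Q w⟫_ℂ).re| ≤ ‖P w‖ * ‖Q w‖ :=
      (Complex.abs_re_le_norm _).trans (norm_inner_le_norm _ _)
    rw [h4]
    rw [abs_le] at h5 ⊢
    constructor <;> nlinarith [h5.1, h5.2, sq_nonneg ‖P w‖]
  set r : ℝ := Real.sqrt δ with hr
  have hr0 : 0 ≤ r := Real.sqrt_nonneg _
  have hr2 : r ^ 2 = δ := Real.sq_sqrt hδ0
  have hr1 : r ≤ 1 := by
    rw [hr]
    exact Real.sqrt_le_one.mpr hδ1
  have hδr : δ ≤ r := by
    rw [← hr2]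
    nlinarith only [hr0, hr1]
  have hQQ3 : QQ ≤ 3 * S := by
    have h4 := (abs_le.mp hQE).2
    nlinarith only [hE, h4, hδ1, hS0]
  have hX2 : X ≤ (L + 1) * r * S := by
    have h4 : X ^ 2 ≤ ((L + 1) * r * S) ^ 2 := by
      calc X ^ 2 ≤ PP * QQ := hXX
        _ ≤ (L * δ * S) * (3 * S) := by (clear * - hPP hQQ3 hL0 hδ0 hS0; gcongr)
        _ = 3 * L * (r ^ 2 * S ^ 2) := by rw [hr2]; ring
        _ ≤ (L + 1) ^ 2 * (r ^ 2 * S ^ 2) := by
            gcongr
            nlinarith only [sq_nonneg ((L : ℝ) - 1 / 2)]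
        _ = _ := by ring
    exact le_of_sq_le_sq h4 (by (clear * - hL0 hS0; (clear * - hL0 hS0; positivity)))
  have hPP2 : PP ≤ L * r * S := hPP.trans (by (clear * - hδr hL0 hS0; gcongr))
  have h4 : |∑ w ∈ W, ‖P w + Q w‖ ^ 2 - EE| ≤ (PP + 2 * X) + 2 * δ * S := by
    calc |∑ w ∈ W, ‖P w + Q w‖ ^ 2 - EE| =
        |(∑ w ∈ W, ‖P w + Q w‖ ^ 2 - QQ) + (QQ - EE)| := by ring_nf
      _ ≤ _ := (abs_add_le _ _).trans (add_le_add hexp hQE)
  refine h4.trans ?_
  have h5 : δ * S ≤ r * S := by (clear * - hδr hS0; gcongr)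
  have h6 : 0 ≤ r * S := by (clear * - hS0; positivity)
  linarith only [hX0, hPP0, hX2, hPP2, h5]

/-- The quadratic form of `Y Y* - e ⊗ 1` on vectors supported in a finite set `B` of the free
group is small. -/
theorem free_form_bound {H : Type*} [NormedAddCommGroup H] [InnerProductSpace ℂ H]
    [CompleteSpace H] {L N : ℕ} (z : Fin N → H →L[ℂ] H) (e : H →L[ℂ] H) {δ : ℝ} (hδ0 : 0 ≤ δ)
    (hδ1 : δ ≤ 1) (he : ‖e‖ ≤ 1) (h1 : ‖e - ∑ i, z i * star (z i)‖ ≤ δ)
    (h2 : ‖∑ i, star (z i) * z i‖ ≤ δ) (B : Finset (FreeGroup (Fin L × Fin N)))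
    (η : Fin L × FreeGroup (Fin L × Fin N) → H) :
    |(∑ p ∈ Finset.univ ×ˢ B, ∑ q ∈ Finset.univ ×ˢ B, ∑ i, ∑ j,
        if (of (p.1, i))⁻¹ * p.2 = (of (q.1, j))⁻¹ * q.2 then
          (⟪(star (z i)) (η p), (star (z j)) (η q)⟫_ℂ).re else 0) -
      ∑ p ∈ Finset.univ ×ˢ B, (⟪η p, e (η p)⟫_ℂ).re| ≤
    8 * (L + 1) * Real.sqrt δ * ∑ p ∈ Finset.univ ×ˢ B, ‖η p‖ ^ 2 := by
  rw [double_sum]
  set S : ℝ := ∑ p ∈ Finset.univ ×ˢ B, ‖η p‖ ^ 2 with hS
  have hS0 : 0 ≤ S := Finset.sum_nonneg fun _ _ => by (clear * -; positivity)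
  -- the two parts
  set P : FreeGroup (Fin L × Fin N) → H := fun w =>
    ∑ c : Fin L × Fin N, (star (z c.2)) (if child c w then zet B η c w else 0) with hP
  set Q : FreeGroup (Fin L × Fin N) → H := fun w =>
    ∑ c : Fin L × Fin N, (star (z c.2)) (if child c w then 0 else zet B η c w) with hQ
  have hPQ : ∀ w, ∑ c : Fin L × Fin N, (star (z c.2)) (zet B η c w) = P w + Q w := by
    intro w
    rw [hP, hQ]
    simp only
    rw [← Finset.sum_add_distrib]
    refine Finset.sum_congr rfl fun c _ => ?_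
    rw [← map_add]
    congr 1
    split_ifs <;> simp
  -- norms of the `z i`
  have hz : ∀ (i : Fin N) (y : H), ‖star (z i) y‖ ^ 2 ≤ δ * ‖y‖ ^ 2 := by
    intro i y
    have h3 : ∀ x : H, ‖z i x‖ ^ 2 ≤ δ * ‖x‖ ^ 2 := by
      intro x
      calc ‖z i x‖ ^ 2 ≤ ∑ j, ‖z j x‖ ^ 2 :=
            Finset.single_le_sum (f := fun j => ‖z j x‖ ^ 2) (fun _ _ => by (clear * -; positivity))
              (Finset.mem_univ i)
        _ ≤ δ * ‖x‖ ^ 2 := by
            rw [sum_norm_sq_apply]
            refine (le_abs_self _).trans ((re_inner_apply_le' _ _).trans ?_)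
            (clear L e hδ0 hδ1 he h1 B η S hS hS0 P hP Q hQ hPQ i y; gcongr)
    have h4 : ‖z i‖ ≤ Real.sqrt δ := by
      refine ContinuousLinearMap.opNorm_le_bound _ (Real.sqrt_nonneg _) fun x => ?_
      have h5 := Real.sqrt_le_sqrt (h3 x)
      rw [Real.sqrt_sq (norm_nonneg _), Real.sqrt_mul hδ0, Real.sqrt_sq (norm_nonneg _)] at h5
      exact h5
    have h5 : ‖star (z i)‖ ≤ Real.sqrt δ := by rw [norm_star]; exact h4
    calc ‖star (z i) y‖ ^ 2 ≤ (Real.sqrt δ * ‖y‖) ^ 2 := by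
          have := (star (z i)).le_of_opNorm_le h5 y
          (clear L e hδ1 he h1 B η S hS hS0 P hP Q hQ hPQ; gcongr)
      _ = δ * ‖y‖ ^ 2 := by rw [mul_pow, Real.sq_sqrt hδ0]
  -- the child part
  have hPP : ∑ w ∈ Wset B, ‖P w‖ ^ 2 ≤ L * δ * S := by
    have hLz : ‖∑ c : Fin L × Fin N, star (z c.2) * z c.2‖ ≤ L * δ := by
      have h3 : ∑ c : Fin L × Fin N, star (z c.2) * z c.2 = (L : ℂ) • ∑ i, star (z i) * z i := by
        rw [Fintype.sum_prod_type]
        simp only
        rw [Finset.sum_const, Finset.card_univ, Fintype.card_fin, Nat.cast_smul_eq_nsmul]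
      rw [h3, norm_smul, Complex.norm_natCast]
      (clear e hδ0 hδ1 he h1 B η S hS hS0 P hP Q hQ hPQ hz h3; gcongr)
    have h3 : ∀ w, ‖P w‖ ^ 2 ≤ L * δ * ∑ c : Fin L × Fin N, (if of c * w ∈ B then
        (if child c w then ‖η (c.1, of c * w)‖ ^ 2 else 0) else 0) := by
      intro w
      have h4 := row_bound (Finset.univ : Finset (Fin L × Fin N)) (fun c => z c.2)
        (M := L * δ) (by (clear * - hδ0; positivity)) hLz (fun c => if child c w then zet B η c w else 0)
      refine h4.trans (le_of_eq ?_)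
      congr 1
      refine Finset.sum_congr rfl fun c _ => ?_
      unfold zet
      split_ifs <;> simp
    refine (Finset.sum_le_sum fun w _ => h3 w).trans ?_
    rw [← Finset.mul_sum, sum_R (M := ℝ) B (fun c w => if child c w then
      ‖η (c.1, of c * w)‖ ^ 2 else 0)]
    refine mul_le_mul_of_nonneg_left ?_ (by (clear * - hδ0; positivity))
    refine Finset.sum_le_sum fun p _ => ?_
    refine sum_ite_le_of_unique _ (fun i j hi hj => ?_) (by (clear * -; positivity)) (fun i => ?_)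
    · exact congrArg Prod.snd (child_unique hi hj)
    · rw [mul_inv_cancel_left]
  -- the parent part
  have hQQ : ∑ w ∈ Wset B, ‖Q w‖ ^ 2 = ∑ p ∈ Finset.univ ×ˢ B, ∑ i : Fin N,
      (if child (p.1, i) ((of (p.1, i))⁻¹ * p.2) then 0 else ‖star (z i) (η p)‖ ^ 2) := by
    have h3 : ∀ w, ‖Q w‖ ^ 2 = ∑ c : Fin L × Fin N, (if of c * w ∈ B then
        (if child c w then 0 else ‖star (z c.2) (η (c.1, of c * w))‖ ^ 2) else 0) := by
      intro w
      rw [hQ]
      simp only
      rw [norm_sum_sq_of_unique]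
      · refine Finset.sum_congr rfl fun c _ => ?_
        unfold zet
        split_ifs <;> simp
      · intro c d hc hd
        have hc' : ¬ child c w := fun h => hc (by rw [if_pos h, map_zero])
        have hd' : ¬ child d w := fun h => hd (by rw [if_pos h, map_zero])
        exact not_child_unique hc' hd'
    simp_rw [h3]
    rw [sum_R (M := ℝ) B (fun c w => if child c w then 0 else
      ‖star (z c.2) (η (c.1, of c * w))‖ ^ 2)]
    refine Finset.sum_congr rfl fun p _ => Finset.sum_congr rfl fun i _ => ?_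
    rw [mul_inv_cancel_left]
  have hp1 : ∀ p : Fin L × FreeGroup (Fin L × Fin N),
      |∑ i : Fin N, ‖star (z i) (η p)‖ ^ 2 - (⟪η p, e (η p)⟫_ℂ).re| ≤ δ * ‖η p‖ ^ 2 := by
    intro p
    rw [sum_norm_sq_star_apply]
    have h3 : (⟪η p, (∑ i, z i * star (z i)) (η p)⟫_ℂ).re - (⟪η p, e (η p)⟫_ℂ).re =
        -(⟪η p, (e - ∑ i, z i * star (z i)) (η p)⟫_ℂ).re := by
      rw [sub_apply, inner_sub_right, Complex.sub_re]
      ring
    rw [h3, abs_neg]
    refine (re_inner_apply_le _ _).trans ?_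
    (clear hδ0 hδ1 he h2 B S hS hS0 P hP Q hQ hPQ hz hPP hQQ h3; gcongr)
  have hp2 : ∀ p : Fin L × FreeGroup (Fin L × Fin N),
      |∑ i : Fin N, (if child (p.1, i) ((of (p.1, i))⁻¹ * p.2) then 0 else
        ‖star (z i) (η p)‖ ^ 2) - (⟪η p, e (η p)⟫_ℂ).re| ≤ 2 * δ * ‖η p‖ ^ 2 := by
    intro p
    have h3 := hp1 p
    have h4 : ∑ i : Fin N, (if child (p.1, i) ((of (p.1, i))⁻¹ * p.2) then 0 else
        ‖star (z i) (η p)‖ ^ 2) = ∑ i : Fin N, ‖star (z i) (η p)‖ ^ 2 -
        ∑ i : Fin N, (if child (p.1, i) ((of (p.1, i))⁻¹ * p.2) then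
          ‖star (z i) (η p)‖ ^ 2 else 0) := by
      rw [← Finset.sum_sub_distrib]
      refine Finset.sum_congr rfl fun i _ => ?_
      split_ifs <;> simp
    have h5 : ∑ i : Fin N, (if child (p.1, i) ((of (p.1, i))⁻¹ * p.2) then
          ‖star (z i) (η p)‖ ^ 2 else 0) ≤ δ * ‖η p‖ ^ 2 := by
      refine sum_ite_le_of_unique _ (fun i j hi hj => ?_) (by (clear * - hδ0; positivity)) (fun i => hz i (η p))
      exact congrArg Prod.snd (child_unique hi hj)
    have h6 : 0 ≤ ∑ i : Fin N, (if child (p.1, i) ((of (p.1, i))⁻¹ * p.2) then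
          ‖star (z i) (η p)‖ ^ 2 else 0) := by
      refine Finset.sum_nonneg fun i _ => ?_
      split_ifs <;> positivity
    rw [h4]
    rw [abs_le] at h3 ⊢
    constructor <;> linarith [h3.1, h3.2]
  have hQE : |∑ w ∈ Wset B, ‖Q w‖ ^ 2 - ∑ p ∈ Finset.univ ×ˢ B, (⟪η p, e (η p)⟫_ℂ).re| ≤
      2 * δ * S := by
    rw [hQQ, ← Finset.sum_sub_distrib, hS, Finset.mul_sum]
    refine (Finset.abs_sum_le_sum_abs _ _).trans (Finset.sum_le_sum fun p _ => hp2 p)
  have hE : ∑ p ∈ Finset.univ ×ˢ B, (⟪η p, e (η p)⟫_ℂ).re ≤ S := by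
    refine Finset.sum_le_sum fun p _ => ?_
    refine (le_abs_self _).trans ((re_inner_apply_le _ _).trans ?_)
    calc ‖e‖ * ‖η p‖ ^ 2 ≤ 1 * ‖η p‖ ^ 2 := by (clear * - he; gcongr)
      _ = _ := one_mul _
  have hend := assemble (Wset B) P Q hδ0 hδ1 hS0 (Nat.cast_nonneg L) hPP hQE hE
  simp_rw [hPQ]
  exact hend

end form

end Vale.Agent.P095C
end

section

/-! Spectral counting for hermitian complex matrices. -/

open scoped Matrix ComplexOrder

namespace Vale.Agent.P095C

/-- Unitary diagonalization, in explicit form. -/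
theorem exists_diag {n : Type*} [Fintype n] [DecidableEq n] (M : Matrix n n ℂ)
    (hM : M.IsHermitian) :
    ∃ U : Matrix n n ℂ, Uᴴ * U = 1 ∧ U * Uᴴ = 1 ∧
      M = U * Matrix.diagonal (fun x => (hM.eigenvalues x : ℂ)) * Uᴴ ∧
      ∀ i j, U i j = hM.eigenvectorBasis j i := by
  refine ⟨(hM.eigenvectorUnitary : Matrix n n ℂ), ?_, ?_, ?_, ?_⟩
  · rw [← Matrix.star_eq_conjTranspose]
    exact Unitary.coe_star_mul_self _
  · rw [← Matrix.star_eq_conjTranspose]
    exact Unitary.coe_mul_star_self _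
  · conv_lhs => rw [hM.spectral_theorem]
    rw [Unitary.conjStarAlgAut_apply, Matrix.star_eq_conjTranspose]
    rfl
  · intro i j
    rfl

/-- Powers of a unitarily diagonalized matrix. -/
theorem pow_diag {n : Type*} [Fintype n] [DecidableEq n] (U : Matrix n n ℂ)
    (hU : Uᴴ * U = 1) (hU' : U * Uᴴ = 1) (d : n → ℂ) (k : ℕ) :
    (U * Matrix.diagonal d * Uᴴ) ^ k = U * Matrix.diagonal (fun x => d x ^ k) * Uᴴ := by
  induction k with
  | zero => simp [hU']
  | succ k ih =>
    rw [pow_succ, ih]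
    calc U * Matrix.diagonal (fun x => d x ^ k) * Uᴴ * (U * Matrix.diagonal d * Uᴴ)
        = U * Matrix.diagonal (fun x => d x ^ k) * (Uᴴ * U) * Matrix.diagonal d * Uᴴ := by
          simp only [Matrix.mul_assoc]
      _ = U * (Matrix.diagonal (fun x => d x ^ k) * Matrix.diagonal d) * Uᴴ := by
          rw [hU]; simp only [Matrix.mul_assoc, Matrix.mul_one]
      _ = _ := by
          rw [Matrix.diagonal_mul_diagonal]
          simp only [pow_succ]

/-- A hermitian matrix with a small power trace is, up to finite rank, bounded below. -/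
theorem spectral_count {n : Type*} [Fintype n] [DecidableEq n] (M : Matrix n n ℂ)
    (hM : M.IsHermitian) {θ : ℝ} (hθ : 0 < θ) (p r : ℕ)
    (h : (M ^ (2 * p)).trace.re < (r + 1) * θ ^ (2 * p)) :
    ∃ (V : Matrix n (Fin r) ℂ) (C : Matrix n n ℂ),
      M + (θ : ℂ) • (1 : Matrix n n ℂ) + V * Vᴴ = Cᴴ * C := by
  classical
  obtain ⟨U, hU, hU', hMU, -⟩ := exists_diag M hM
  set l : n → ℝ := hM.eigenvalues with hl
  -- the power trace
  have htr : (M ^ (2 * p)).trace.re = ∑ x, l x ^ (2 * p) := by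
    rw [hMU, pow_diag U hU hU', Matrix.mul_assoc, Matrix.trace_mul_comm, Matrix.mul_assoc, hU,
      Matrix.mul_one, Matrix.trace_diagonal, Complex.re_sum]
    refine Finset.sum_congr rfl fun x _ => ?_
    rw [← Complex.ofReal_pow, Complex.ofReal_re]
  rw [htr] at h
  -- the set of very negative eigenvalues
  let S : Finset n := Finset.univ.filter fun x => l x < -θ
  have hS : S.card ≤ r := by
    have h1 : (S.card : ℝ) * θ ^ (2 * p) < (r + 1) * θ ^ (2 * p) := by
      calc (S.card : ℝ) * θ ^ (2 * p) = ∑ x ∈ S, θ ^ (2 * p) := by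
            rw [Finset.sum_const, nsmul_eq_mul]
        _ ≤ ∑ x ∈ S, l x ^ (2 * p) := by
            refine Finset.sum_le_sum fun x hx => ?_
            have hx' : l x < -θ := (Finset.mem_filter.mp hx).2
            rw [pow_mul, pow_mul]
            exact pow_le_pow_left₀ (by positivity) (by nlinarith only [hθ, hx']) p
        _ ≤ ∑ x, l x ^ (2 * p) := by
            refine Finset.sum_le_sum_of_subset_of_nonneg (Finset.subset_univ _) fun x _ _ => ?_
            rw [pow_mul]; (clear * -; positivity)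
        _ < _ := h
    have h2 : (S.card : ℝ) < r + 1 := lt_of_mul_lt_mul_right h1 (by positivity)
    exact Nat.lt_succ_iff.mp (by exact_mod_cast h2)
  obtain ⟨e⟩ : Nonempty (S ↪ Fin r) := by
    rw [Function.Embedding.nonempty_iff_card_le]
    simpa only [Fintype.card_coe, Fintype.card_fin] using hS
  let W : Matrix n (Fin r) ℂ := fun x j =>
    if hx : x ∈ S then (if e ⟨x, hx⟩ = j then ((Real.sqrt (-l x) : ℝ) : ℂ) else 0) else 0
  have hW : W * Wᴴ = Matrix.diagonal (fun x => ((if x ∈ S then -l x else 0 : ℝ) : ℂ)) := by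
    ext x y
    rw [Matrix.mul_apply, Matrix.diagonal_apply]
    by_cases hx : x ∈ S
    · rw [Finset.sum_eq_single (e ⟨x, hx⟩)]
      · rw [Matrix.conjTranspose_apply]
        simp only [W, hx, dif_pos, if_true]
        by_cases hy : y ∈ S
        · simp only [hy, dif_pos]
          by_cases hxy : x = y
          · subst hxy
            have hx' : l x < -θ := (Finset.mem_filter.mp hx).2
            have h0 : 0 ≤ -l x := by linarith only [hθ, hx']
            simp only [if_true]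
            rw [Complex.star_def, Complex.conj_ofReal, ← Complex.ofReal_mul,
              Real.mul_self_sqrt h0]
          · have : e ⟨y, hy⟩ ≠ e ⟨x, hx⟩ := by
              intro hh
              exact hxy (congrArg Subtype.val (e.injective hh)).symm
            simp only [this, ↓reduceIte, star_zero, mul_zero, hxy]
        · have hxy : x ≠ y := fun hh => hy (hh ▸ hx)
          simp [hy, hxy]
      · intro j _ hj
        simp only [W, hx, dif_pos]
        rw [if_neg (fun hh => hj hh.symm), zero_mul]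
      · intro hh
        exact absurd (Finset.mem_univ _) hh
    · rw [Finset.sum_eq_zero]
      · simp [hx]
      · intro j _
        simp only [hx, ↓reduceDIte, zero_mul, W]
  let d : n → ℝ := fun x => l x + θ + (if x ∈ S then -l x else 0)
  have hd : ∀ x, 0 ≤ d x := by
    intro x
    by_cases hx : x ∈ S
    · simp only [d, hx, if_true]; linarith only [hθ]
    · have hx' : ¬ l x < -θ := fun hh => hx (Finset.mem_filter.mpr ⟨Finset.mem_univ _, hh⟩)
      simp only [d, hx, if_false]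
      linarith only [hx']
  refine ⟨U * W, Matrix.diagonal (fun x => ((Real.sqrt (d x) : ℝ) : ℂ)) * Uᴴ, ?_⟩
  have h1 : (U * W) * (U * W)ᴴ = U * (W * Wᴴ) * Uᴴ := by
    rw [Matrix.conjTranspose_mul]
    simp only [Matrix.mul_assoc]
  have h2 : (θ : ℂ) • (1 : Matrix n n ℂ) = U * Matrix.diagonal (fun _ => (θ : ℂ)) * Uᴴ := by
    have : Matrix.diagonal (fun _ : n => (θ : ℂ)) = (θ : ℂ) • (1 : Matrix n n ℂ) := by
      ext i j
      simp [Matrix.diagonal_apply, Matrix.one_apply]
    rw [this, Matrix.mul_smul, Matrix.mul_one, Matrix.smul_mul, hU']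
  have h3 : (Matrix.diagonal (fun x => ((Real.sqrt (d x) : ℝ) : ℂ)) * Uᴴ)ᴴ *
      (Matrix.diagonal (fun x => ((Real.sqrt (d x) : ℝ) : ℂ)) * Uᴴ) =
      U * Matrix.diagonal (fun x => ((d x : ℝ) : ℂ)) * Uᴴ := by
    rw [Matrix.conjTranspose_mul, Matrix.conjTranspose_conjTranspose,
      Matrix.diagonal_conjTranspose]
    calc U * Matrix.diagonal (star fun x => ((Real.sqrt (d x) : ℝ) : ℂ)) *
          (Matrix.diagonal (fun x => ((Real.sqrt (d x) : ℝ) : ℂ)) * Uᴴ)
        = U * (Matrix.diagonal (star fun x => ((Real.sqrt (d x) : ℝ) : ℂ)) *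
          Matrix.diagonal (fun x => ((Real.sqrt (d x) : ℝ) : ℂ))) * Uᴴ := by
          simp only [Matrix.mul_assoc]
      _ = _ := by
          rw [Matrix.diagonal_mul_diagonal]
          congr 3
          ext x
          rw [Pi.star_apply, Complex.star_def, Complex.conj_ofReal, ← Complex.ofReal_mul,
            Real.mul_self_sqrt (hd x)]
  rw [h3, h1, hW, h2]
  conv_lhs => rw [hMU]
  rw [← Matrix.add_mul, ← Matrix.mul_add, ← Matrix.add_mul, ← Matrix.mul_add,
    Matrix.diagonal_add, Matrix.diagonal_add]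
  congr 3
  ext x
  simp only [d]
  push_cast
  rfl

/-- Diagonal entries of even powers of a hermitian matrix whose quadratic form is small. -/
theorem diag_pow_le {n : Type*} [Fintype n] [DecidableEq n] (M : Matrix n n ℂ)
    (hM : M.IsHermitian) {θ : ℝ} (hθ : 0 ≤ θ)
    (h : ∀ x : n → ℂ, |(star x ⬝ᵥ (M *ᵥ x)).re| ≤ θ * ∑ i, ‖x i‖ ^ 2) (p : ℕ) (i : n) :
    ((M ^ (2 * p)) i i).re ≤ θ ^ (2 * p) := by
  obtain ⟨U, hU, hU', hMU, hUb⟩ := exists_diag M hM
  set l : n → ℝ := hM.eigenvalues with hl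
  have hlam : ∀ x, |l x| ≤ θ := by
    intro x
    have h1 := hM.eigenvalues_eq x
    have h2 := h (fun i => hM.eigenvectorBasis x i)
    have h3 : ∑ i, ‖(fun i => hM.eigenvectorBasis x i) i‖ ^ 2 = 1 := by
      have := hM.eigenvectorBasis.orthonormal.1 x
      rw [EuclideanSpace.norm_eq] at this
      have h4 : ∑ i, ‖hM.eigenvectorBasis x i‖ ^ 2 = 1 := by
        rwa [Real.sqrt_eq_one] at this
      exact h4
    rw [h3, mul_one] at h2
    rw [hl, h1]
    exact h2
  have hentry : ((M ^ (2 * p)) i i).re = ∑ x, ‖U i x‖ ^ 2 * l x ^ (2 * p) := by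
    rw [hMU, pow_diag U hU hU', Matrix.mul_apply, Complex.re_sum]
    refine Finset.sum_congr rfl fun x _ => ?_
    rw [Matrix.mul_diagonal, Matrix.conjTranspose_apply, ← Complex.ofReal_pow]
    have : U i x * ((l x ^ (2 * p) : ℝ) : ℂ) * star (U i x)
        = ((‖U i x‖ ^ 2 * l x ^ (2 * p) : ℝ) : ℂ) := by
      rw [mul_right_comm, Complex.star_def, Complex.mul_conj, Complex.normSq_eq_norm_sq]
      push_cast
      ring
    rw [this, Complex.ofReal_re]
  have hrow : ∑ x, ‖U i x‖ ^ 2 = 1 := by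
    have h1 := congrFun (congrFun hU' i) i
    rw [Matrix.mul_apply, Matrix.one_apply_eq] at h1
    have h2 := congrArg Complex.re h1
    rw [Complex.re_sum, Complex.one_re] at h2
    rw [← h2]
    refine Finset.sum_congr rfl fun x _ => ?_
    rw [Matrix.conjTranspose_apply, Complex.star_def, Complex.mul_conj, Complex.ofReal_re,
      Complex.normSq_eq_norm_sq]
  rw [hentry]
  calc ∑ x, ‖U i x‖ ^ 2 * l x ^ (2 * p) ≤ ∑ x, ‖U i x‖ ^ 2 * θ ^ (2 * p) := by
        refine Finset.sum_le_sum fun x _ => ?_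
        refine mul_le_mul_of_nonneg_left ?_ (by (clear * -; positivity))
        calc l x ^ (2 * p) = |l x| ^ (2 * p) := by
              rw [pow_mul, pow_mul, sq_abs]
          _ ≤ θ ^ (2 * p) := pow_le_pow_left₀ (abs_nonneg _) (hlam x) _
    _ = θ ^ (2 * p) := by rw [← Finset.sum_mul, hrow, one_mul]

end Vale.Agent.P095C
end

section

set_option linter.unusedSectionVars false
set_option linter.unusedVariables false
set_option linter.unusedSimpArgs false

namespace Vale.Agent.P095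

open Filter Topology ComplexConjugate

section
variable {A : Type*} [CStarAlgebra A] {G : Type*} [Group G] (α : G →* (A ≃⋆ₐ[ℂ] A))

/-- a good pair: bit `p` and partial isometry `v` such that the bit sees the translates of `v` -/
def GoodPair (μ C κ : ℝ) (K : Finset G) (F : Finset A) (ε : ℝ) (p v : A) : Prop :=
  star p = p ∧ ‖p‖ ≤ 1 ∧ ‖v‖ ≤ 1 ∧ ∀ τ : A →ₗ[ℂ] ℂ, IsTracialState τ →
    nrm τ (p * p - p) ≤ ε ∧ nrm τ (v * v) ≤ ε ∧ nrm τ (star v * v + v * star v - 1) ≤ ε ∧
    (∀ a ∈ F, nrm τ (p * a - a * p) ≤ ε ∧ nrm τ (v * a - a * v) ≤ ε ∧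
      ‖τ (a * p) - μ * τ a‖ ≤ ε) ∧
    (∀ g ∈ K, nrm τ (p * α g p - α g p * p) ≤ ε ∧ nrm τ (α g v * p - p * α g v) ≤ ε ∧
      ∀ a ∈ F, nrm τ ((α g v - v) * a) ^ 2 ≤
        C * nrm τ ((α g p - p) * a) ^ 2 + κ * nrm τ a ^ 2 + ε)

/-- the exact version in the algebra of bounded sequences -/
def GoodPairB (μ C κ : ℝ) (K : Finset G) (F : Set (BSeq A)) (w : BSeq A × BSeq A) : Prop :=
  star w.1 = w.1 ∧ (∀ n, ‖w.1.1 n‖ ≤ 1) ∧ (∀ n, ‖w.2.1 n‖ ≤ 1) ∧ ∀ t : LimTr A,
    nrm t.val (w.1 * w.1 - w.1) = 0 ∧ nrm t.val (w.2 * w.2) = 0 ∧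
    nrm t.val (star w.2 * w.2 + w.2 * star w.2 - 1) = 0 ∧
    (∀ b ∈ F, nrm t.val (w.1 * b - b * w.1) = 0 ∧ nrm t.val (w.2 * b - b * w.2) = 0 ∧
      t.val (b * w.1) = μ * t.val b) ∧
    (∀ g ∈ K, nrm t.val (w.1 * actB (α g) w.1 - actB (α g) w.1 * w.1) = 0 ∧
      nrm t.val (actB (α g) w.2 * w.1 - w.1 * actB (α g) w.2) = 0 ∧
      ∀ b ∈ F, nrm t.val ((actB (α g) w.2 - w.2) * b) ^ 2 ≤
        C * nrm t.val ((actB (α g) w.1 - w.1) * b) ^ 2 + κ * nrm t.val b ^ 2)

theorem lift_pair (μ C κ : ℝ) (K : Finset G)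
    (h : ∀ (F : Finset A) (ε : ℝ), 0 < ε → ∃ p v, GoodPair α μ C κ K F ε p v)
    (F : Set (BSeq A)) (hF : F.Countable) : ∃ w, GoodPairB α μ C κ K F w := by
  classical
  obtain ⟨f, hf⟩ : ∃ f : ℕ → BSeq A, F ⊆ Set.range f := by
    rcases F.eq_empty_or_nonempty with h0 | h0
    · exact ⟨fun _ => 0, by rw [h0]; exact Set.empty_subset _⟩
    · obtain ⟨f, hf⟩ := hF.exists_eq_range h0
      exact ⟨f, hf.le⟩
  have h1 : ∀ n : ℕ, ∃ p v, GoodPair α μ C κ K
      ((Finset.range (n + 1)).image (fun i => (f i).1 n)) (1 / ((n : ℝ) + 1)) p v :=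
    fun n => h _ _ (by (clear * -; (clear * -; positivity)))
  choose p v hp using h1
  have hlim : ∀ t : LimTr A, Tendsto (fun n : ℕ => 1 / ((n : ℝ) + 1)) (t.U : Filter ℕ) (𝓝 0) :=
    fun t => tendsto_one_div_add_atTop_nhds_zero_nat.mono_left t.hU
  let P : BSeq A := ⟨p, 1, fun n => (hp n).2.1⟩
  let V : BSeq A := ⟨v, 1, fun n => (hp n).2.2.1⟩
  have key : ∀ (t : LimTr A) (z : BSeq A),
      (∀ᶠ n in (t.U : Filter ℕ), nrm (t.τ n) (z.1 n) ≤ 1 / ((n : ℝ) + 1)) → nrm t.val z = 0 := by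
    intro t z hz
    apply le_antisymm _ (nrm_nonneg _)
    exact le_of_tendsto_of_tendsto (t.tendsto_nrm z) (hlim t) hz
  have hmem : ∀ (t : LimTr A), ∀ b ∈ F, ∀ᶠ n in (t.U : Filter ℕ),
      b.1 n ∈ (Finset.range (n + 1)).image (fun i => (f i).1 n) := by
    intro t b hb
    obtain ⟨i, rfl⟩ := hf hb
    have h2 : ∀ᶠ n in (t.U : Filter ℕ), i ≤ n := t.hU (eventually_ge_atTop i)
    refine h2.mono (fun n hn => ?_)
    exact Finset.mem_image_of_mem (fun i => (f i).1 n)
      (Finset.mem_range.mpr (Nat.lt_succ_of_le hn))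
  refine ⟨(P, V), Subtype.ext (funext fun n => (hp n).1), fun n => (hp n).2.1,
    fun n => (hp n).2.2.1, fun t => ⟨?_, ?_, ?_, ?_, ?_⟩⟩
  · exact key t _ (Eventually.of_forall (fun n => ((hp n).2.2.2 _ (t.hτ n)).1))
  · exact key t _ (Eventually.of_forall (fun n => ((hp n).2.2.2 _ (t.hτ n)).2.1))
  · exact key t _ (Eventually.of_forall (fun n => ((hp n).2.2.2 _ (t.hτ n)).2.2.1))
  · intro b hb
    refine ⟨key t _ ((hmem t b hb).mono (fun n hn => (((hp n).2.2.2 _ (t.hτ n)).2.2.2.1 _ hn).1)),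
      key t _ ((hmem t b hb).mono (fun n hn => (((hp n).2.2.2 _ (t.hτ n)).2.2.2.1 _ hn).2.1)), ?_⟩
    have h2 : Tendsto (fun n => t.τ n ((b * P).1 n) - μ * t.τ n (b.1 n)) t.U
        (𝓝 (t.val (b * P) - μ * t.val b)) := (t.tendsto _).sub ((t.tendsto b).const_mul _)
    have h3 : Tendsto (fun n => t.τ n ((b * P).1 n) - μ * t.τ n (b.1 n)) t.U (𝓝 0) := by
      apply squeeze_zero_norm' _ (hlim t)
      exact (hmem t b hb).mono (fun n hn => (((hp n).2.2.2 _ (t.hτ n)).2.2.2.1 _ hn).2.2)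
    have := tendsto_nhds_unique h2 h3
    show t.val (b * P) = μ * t.val b
    linear_combination this
  · intro g hg
    refine ⟨key t _ (Eventually.of_forall (fun n => ((hp n).2.2.2 _ (t.hτ n)).2.2.2.2 g hg |>.1)),
      key t _ (Eventually.of_forall (fun n => ((hp n).2.2.2 _ (t.hτ n)).2.2.2.2 g hg |>.2.1)), ?_⟩
    intro b hb
    have l1 := (t.tendsto_nrm ((actB (α g) V - V) * b)).pow 2
    have l2 := (((t.tendsto_nrm ((actB (α g) P - P) * b)).pow 2).const_mul C).add
      (((t.tendsto_nrm b).pow 2).const_mul κ)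
    have l3 := l2.add (hlim t)
    rw [add_zero] at l3
    exact le_of_tendsto_of_tendsto l1 l3
      ((hmem t b hb).mono (fun n hn => ((hp n).2.2.2 _ (t.hτ n)).2.2.2.2 g hg |>.2.2 _ hn))

/-- successive choice against countable sets -/
theorem exists_seq {X : Type*} (Gd : Set (BSeq A) → X → Prop)
    (good : ∀ F : Set (BSeq A), F.Countable → ∃ p : X, Gd F p)
    (W : List X → Set (BSeq A)) (hW : ∀ l, (W l).Countable) :
    ∃ p : ℕ → X, ∀ n, Gd (W ((List.range n).map p)) (p n) := by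
  classical
  choose f hf using good
  let Ls : ℕ → List X := fun n => Nat.rec [] (fun _ l => l ++ [f (W l) (hW l)]) n
  let p : ℕ → X := fun n => f (W (Ls n)) (hW _)
  have hLs : ∀ n, Ls n = (List.range n).map p := by
    intro n
    induction n with
    | zero => rfl
    | succ n ih =>
      have h1 : Ls (n + 1) = Ls n ++ [p n] := rfl
      rw [h1, ih, List.range_succ, List.map_append]
      rfl
  refine ⟨p, fun n => ?_⟩
  have := hf (W (Ls n)) (hW _)
  rw [← hLs]
  exact this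

theorem countable_closure {M : Type*} [Monoid M] {s : Set M} (hs : s.Countable) :
    ((Submonoid.closure s : Submonoid M) : Set M).Countable := by
  have h1 : ((Submonoid.closure s : Submonoid M) : Set M) ⊆
      Set.range (fun l : List {x // x ∈ s} => (List.map Subtype.val l).prod) := by
    intro x hx
    obtain ⟨l, hl, rfl⟩ := Submonoid.exists_list_of_mem_closure hx
    clear hx
    induction l with
    | nil => exact ⟨[], rfl⟩
    | cons a l ih =>
      obtain ⟨l', hl'⟩ := ih (fun y hy => hl y (List.mem_cons_of_mem _ hy))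
      refine ⟨⟨a, hl a List.mem_cons_self⟩ :: l', ?_⟩
      simp only [List.map_cons, List.prod_cons] at hl' ⊢
      rw [hl']
  haveI : Countable {x // x ∈ s} := hs
  exact (Set.countable_range _).mono h1

end

end Vale.Agent.P095
end
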