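import Vale.Agent.P095.MathlibUsed

set_option linter.all false

section

/-! P133: purely infinite C*-algebras are strongly purely infinite.
Framework: a UNITAL C*-algebra `M` with a closed two-sided star-closed ideal `A`;
the functional calculus is the unital `cfc` over `ℝ` in `M`. -/

open scoped ComplexOrder NNReal

namespace Vale.Agent.P133

universe u

/-- Closed two-sided star-closed ideals of a unital C*-algebra. -/
structure CIdeal (M : Type u) [CStarAlgebra M] where
  toSub : Submodule ℂ M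
  mul_left' : ∀ (a x : M), x ∈ toSub → a * x ∈ toSub
  mul_right' : ∀ (a x : M), x ∈ toSub → x * a ∈ toSub
  star_mem' : ∀ x : M, x ∈ toSub → star x ∈ toSub
  closed' : IsClosed (toSub : Set M)

instance (M : Type u) [CStarAlgebra M] : Membership M (CIdeal M) :=
  ⟨fun A x => x ∈ A.toSub⟩

variable {M : Type u} [CStarAlgebra M]

/-- `g` is supported (as a left unit) on the level set `[s, ∞)` of `h`. -/
def Level (h : M) (s : ℝ) (g : M) : Prop :=
  ∀ w : ℝ → ℝ, Continuous w → (∀ u, s ≤ u → w u = 1) → cfc w h * g = g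

variable [PartialOrder M] [StarOrderedRing M]

/-- Positive contraction in `A`. -/
structure PC (A : CIdeal M) (a : M) : Prop where
  mem : a ∈ A
  nonneg : 0 ≤ a
  le_one : a ≤ 1

end Vale.Agent.P133
end

section

/-!
Basic functional calculus lemmas for P133 (unital framework: `M` unital C*-algebra).
-/

open scoped ComplexOrder CStarAlgebra

namespace Vale.Agent.P133

universe u

variable {M : Type u} [CStarAlgebra M]

namespace CIdeal

variable (A : CIdeal M)

lemma zero_mem : (0 : M) ∈ A := A.toSub.zero_mem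
lemma add_mem {a b : M} (ha : a ∈ A) (hb : b ∈ A) : a + b ∈ A := A.toSub.add_mem ha hb
lemma sub_mem {a b : M} (ha : a ∈ A) (hb : b ∈ A) : a - b ∈ A := A.toSub.sub_mem ha hb
lemma neg_mem {a : M} (ha : a ∈ A) : -a ∈ A := A.toSub.neg_mem ha
lemma csmul_mem (c : ℂ) {a : M} (ha : a ∈ A) : c • a ∈ A := A.toSub.smul_mem c ha
lemma left_mem (m : M) {a : M} (ha : a ∈ A) : m * a ∈ A := A.mul_left' m a ha
lemma right_mem {a : M} (ha : a ∈ A) (m : M) : a * m ∈ A := A.mul_right' m a ha
lemma star_mem {a : M} (ha : a ∈ A) : star a ∈ A := A.star_mem' a ha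

lemma smul_mem (c : ℝ) {a : M} (ha : a ∈ A) : c • a ∈ A := by
  have h := A.left_mem (algebraMap ℝ M c) ha
  rwa [← Algebra.smul_def] at h

end CIdeal

variable [PartialOrder M] [StarOrderedRing M]

/-! ### spectrum and functional calculus -/

lemma spec_nonneg {a : M} (ha : 0 ≤ a) {s : ℝ} (hs : s ∈ spectrum ℝ a) : 0 ≤ s :=
  spectrum_nonneg_of_nonneg ha hs

omit [PartialOrder M] [StarOrderedRing M] in
lemma spec_le_norm {a : M} {s : ℝ} (hs : s ∈ spectrum ℝ a) : s ≤ ‖a‖ := by
  by_cases hn : Nontrivial M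
  · exact le_trans (le_abs_self s) (by
      have := spectrum.norm_le_norm_of_mem hs
      simpa using this)
  · rw [not_nontrivial_iff_subsingleton] at hn
    rw [spectrum.of_subsingleton] at hs
    exact absurd hs (Set.notMem_empty s)

lemma norm_cfc_le' {g : ℝ → ℝ} {a : M} (ha : 0 ≤ a) {c : ℝ} (hc : 0 ≤ c)
    (h : ∀ s, 0 ≤ s → s ≤ ‖a‖ → |g s| ≤ c) : ‖cfc g a‖ ≤ c :=
  norm_cfc_le hc (fun s hs => by
    simpa only [Real.norm_eq_abs] using h s (spec_nonneg ha hs) (spec_le_norm hs))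

lemma cfc_nonneg' {g : ℝ → ℝ} {a : M} (ha : 0 ≤ a)
    (h : ∀ s, 0 ≤ s → 0 ≤ g s) : 0 ≤ cfc g a :=
  cfc_nonneg (fun s hs => h s (spec_nonneg ha hs))

lemma cfc_le_one' {g : ℝ → ℝ} {a : M} (ha : 0 ≤ a)
    (h : ∀ s, 0 ≤ s → g s ≤ 1) : cfc g a ≤ 1 :=
  cfc_le_one g a (fun s hs => h s (spec_nonneg ha hs))

omit [PartialOrder M] [StarOrderedRing M] in
lemma cfc_mul' {g h : ℝ → ℝ} (hg : Continuous g) (hh : Continuous h) (a : M) :
    cfc g a * cfc h a = cfc (fun s => g s * h s) a :=
  (cfc_mul g h a hg.continuousOn hh.continuousOn).symm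

omit [PartialOrder M] [StarOrderedRing M] in
lemma star_cfc (g : ℝ → ℝ) (a : M) : star (cfc g a) = cfc g a :=
  (cfc_predicate g a : IsSelfAdjoint _).star_eq

lemma mul_cfc {g : ℝ → ℝ} (hg : Continuous g) {a : M} (ha : 0 ≤ a) :
    a * cfc g a = cfc (fun s => s * g s) a := by
  conv_lhs => rw [show a * cfc g a = cfc (fun s : ℝ => s) a * cfc g a by
    rw [cfc_id' ℝ a (IsSelfAdjoint.of_nonneg ha)]]
  exact cfc_mul' continuous_id hg a

omit [PartialOrder M] [StarOrderedRing M] in
lemma map_cfc' {C : Type u} [CStarAlgebra C] (π : M →⋆ₐ[ℂ] C) {g : ℝ → ℝ} (hg : Continuous g)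
    {a : M} (ha : IsSelfAdjoint a) : π (cfc g a) = cfc g (π a) :=
  StarAlgHomClass.map_cfc π g a hg.continuousOn (map_continuous π) ha (ha.map π)

lemma map_nonneg' {C : Type u} [CStarAlgebra C] [PartialOrder C] [StarOrderedRing C]
    (π : M →⋆ₐ[ℂ] C) {a : M} (ha : 0 ≤ a) : 0 ≤ π a := by
  exact map_nonneg π ha

omit [PartialOrder M] [StarOrderedRing M] in
lemma norm_map_le {C : Type u} [CStarAlgebra C] (π : M →⋆ₐ[ℂ] C) (a : M) : ‖π a‖ ≤ ‖a‖ :=
  NonUnitalStarAlgHom.norm_apply_le π a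

/-- the cut function `min 1 (u / σ)` -/
noncomputable def cut (σ : ℝ) (u : ℝ) : ℝ := min 1 (u / σ)

lemma cut_continuous (σ : ℝ) : Continuous (cut σ) := by
  unfold cut; fun_prop

lemma cut_le_one (σ u : ℝ) : cut σ u ≤ 1 := min_le_left _ _

lemma cut_nonneg {σ u : ℝ} (hσ : 0 < σ) (hu : 0 ≤ u) : 0 ≤ cut σ u :=
  le_min zero_le_one (div_nonneg hu hσ.le)

lemma cut_eq_one {σ u : ℝ} (hσ : 0 < σ) (hu : σ ≤ u) : cut σ u = 1 :=
  min_eq_left (by rw [le_div_iff₀ hσ]; linarith only [hu])

/-- `s (1 - cut σ s) ≤ σ / 4`. -/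
lemma mul_one_sub_cut_le {σ s : ℝ} (hσ : 0 < σ) (_hs : 0 ≤ s) : s * (1 - cut σ s) ≤ σ / 4 := by
  by_cases h : σ ≤ s
  · rw [cut_eq_one hσ h]; linarith only [hσ]
  · push Not at h
    have h1 : cut σ s = s / σ := min_eq_right (by rw [div_le_one hσ]; exact h.le)
    rw [h1]
    have : s * (1 - s / σ) = σ / 4 - (s - σ / 2) ^ 2 / σ := by
      field_simp; ring
    rw [this]
    have : 0 ≤ (s - σ / 2) ^ 2 / σ := by (clear * - hσ; positivity)
    linarith only [this]

lemma mul_one_sub_cut_sq_le {σ s : ℝ} (hσ : 0 < σ) (hs : 0 ≤ s) :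
    s * (1 - cut σ s) ^ 2 ≤ σ / 4 := by
  have h1 := cut_nonneg hσ hs
  have h2 := cut_le_one σ s
  have h3 := mul_one_sub_cut_le hσ hs
  have h4 : s * (1 - cut σ s) ^ 2 ≤ s * (1 - cut σ s) := by
    have : (1 - cut σ s) ^ 2 ≤ 1 - cut σ s := by nlinarith only [h1, h2]
    exact mul_le_mul_of_nonneg_left this hs
  linarith only [h3, h4]

end Vale.Agent.P133
end

section

/-! P133: further tools: ramp functions, right ideals `RI b`, membership of `cfc f a` in ideals,
levels, the cutting lemma and approximate units. -/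

open scoped ComplexOrder CStarAlgebra
open Filter Topology

namespace Vale.Agent.P133.K

open Vale.Agent.P133

universe u
variable {M : Type u} [CStarAlgebra M]

/-! ### Ramp functions -/

/-! ### Norms -/

lemma norm_sq_eq (x : M) : ‖x‖ ^ 2 = ‖star x * x‖ := by
  rw [CStarRing.norm_star_mul_self, sq]

lemma norm_sq_eq' (x : M) : ‖x‖ ^ 2 = ‖x * star x‖ := by
  rw [CStarRing.norm_self_mul_star, sq]

/-! ### Right ideals -/

/-- The closed right ideal generated by `b`. -/
def RI (b : M) : Set M := closure (Set.range fun z => b * z)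

lemma RI_subset_ideal (A : CIdeal M) {b : M} (hb : b ∈ A) {x : M} (hx : x ∈ RI b) : x ∈ A := by
  have h : closure (Set.range fun z => b * z) ⊆ (A.toSub : Set M) := by
    refine closure_minimal ?_ A.closed'
    rintro _ ⟨z, rfl⟩
    exact A.right_mem hb z
  exact h hx

/-- `f(a)` is in the closed right ideal generated by `a` if `f 0 = 0`. -/
lemma cfc_mem_RI {f : ℝ → ℝ} (hf : Continuous f) (h0 : f 0 = 0) {a : M}
    (ha : IsSelfAdjoint a) : cfc f a ∈ RI a := by
  rw [RI, Metric.mem_closure_iff]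
  intro ε hε
  -- bound for `f` on the spectrum
  obtain ⟨B, hB⟩ : ∃ B : ℝ, ∀ u ∈ spectrum ℝ a, |f u| ≤ B := by
    have hc : IsCompact (spectrum ℝ a) := by
      exact spectrum.isCompact a
    obtain ⟨B, hB⟩ := hc.exists_bound_of_continuousOn hf.continuousOn
    exact ⟨B, fun u hu => by simpa only [Real.norm_eq_abs] using hB u hu⟩
  obtain ⟨d, hd, hd'⟩ : ∃ d > 0, ∀ u, |u| < d → |f u| < ε / 2 := by
    have := (Metric.continuous_iff.mp hf) 0 (ε / 2) (by (clear * - hε; positivity))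
    obtain ⟨d, hd, h⟩ := this
    refine ⟨d, hd, fun u hu => ?_⟩
    have := h u (by simpa using hu)
    simpa [h0] using this
  set B' : ℝ := max B 0 with hB'
  -- error `f(u) * κ / (u^2 + κ)`
  set κ : ℝ := ε * d ^ 2 / (2 * (B' + 1)) with hκ
  have hB'0 : 0 ≤ B' := le_max_right _ _
  have hκ0 : 0 < κ := by (clear * - hε hd; positivity)
  let v : ℝ → ℝ := fun u => f u * u / (u ^ 2 + κ)
  have hv : Continuous v := by
    refine (hf.mul continuous_id).div (by fun_prop) (fun u => ?_)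
    (clear * - hε hd; positivity)
  have hb : a * cfc v a = cfc (fun u => u * v u) a := by
    conv_lhs => rw [show a * cfc v a = cfc (fun s : ℝ => s) a * cfc v a by
      rw [cfc_id' ℝ a ha]]
    exact cfc_mul' continuous_id hv a
  refine ⟨a * cfc v a, ⟨cfc v a, rfl⟩, ?_⟩
  have hidv : Continuous (fun u => u * v u) := continuous_id.mul hv
  rw [dist_eq_norm, hb, ← cfc_sub f (fun u => u * v u) a hf.continuousOn hidv.continuousOn]
  refine lt_of_le_of_lt (norm_cfc_le (c := ε / 2) (by positivity) ?_) (by linarith only [hε])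
  intro u hu
  have e1 : f u - u * v u = f u * (κ / (u ^ 2 + κ)) := by
    simp only [v]
    have : u ^ 2 + κ ≠ 0 := by (clear * - hε hd; positivity)
    field_simp
    ring
  rw [e1, Real.norm_eq_abs, abs_mul, abs_of_nonneg (by (clear * - hε hd; positivity) : 0 ≤ κ / (u ^ 2 + κ))]
  rcases lt_or_ge (|u|) d with hud | hud
  · have h1 : κ / (u ^ 2 + κ) ≤ 1 := by
      rw [div_le_one (by (clear * - hε hd; positivity))]; nlinarith only []
    have h2 := hd' u hud
    calc |f u| * (κ / (u ^ 2 + κ)) ≤ |f u| * 1 :=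
          mul_le_mul_of_nonneg_left h1 (abs_nonneg _)
      _ ≤ ε / 2 := by linarith only [h2]
  · have h1 : |f u| ≤ B' := (hB u hu).trans (le_max_left _ _)
    have h2 : d ^ 2 ≤ u ^ 2 := by rw [← sq_abs u]; exact pow_le_pow_left₀ hd.le hud 2
    have h3 : κ / (u ^ 2 + κ) ≤ κ / d ^ 2 :=
      div_le_div_of_nonneg_left hκ0.le (by positivity) (by linarith only [hκ0, h2])
    calc |f u| * (κ / (u ^ 2 + κ)) ≤ B' * (κ / d ^ 2) :=
          mul_le_mul h1 h3 (by (clear * - hε hd; positivity)) hB'0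
      _ = (B' / (B' + 1)) * (ε / 2) := by rw [hκ]; (clear * - hd hB'0 hε; field_simp)
      _ ≤ 1 * (ε / 2) := by
          apply mul_le_mul_of_nonneg_right _ (by positivity)
          rw [div_le_one (by (clear * -; positivity))]; linarith only []
      _ = ε / 2 := one_mul _

/-- `f(a) ∈ A` if `a ∈ A` and `f 0 = 0`. -/
lemma cfc_mem_ideal (A : CIdeal M) {f : ℝ → ℝ} (hf : Continuous f) (h0 : f 0 = 0) {a : M}
    (ha : IsSelfAdjoint a) (haA : a ∈ A) : cfc f a ∈ A :=
  RI_subset_ideal A haA (cfc_mem_RI hf h0 ha)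


/-! ### Order lemmas -/

section order
variable [PartialOrder M] [StarOrderedRing M]

lemma conj_le {x y : M} (h : x ≤ y) (z : M) : star z * x * z ≤ star z * y * z :=
  star_left_conjugate_le_conjugate h z

lemma conj_nonneg {x : M} (h : 0 ≤ x) (z : M) : 0 ≤ star z * x * z :=
  star_left_conjugate_nonneg h z

lemma sa_conj_le {x y z : M} (hz : IsSelfAdjoint z) (h : x ≤ y) : z * x * z ≤ z * y * z := by
  have := conj_le h z
  rwa [hz.star_eq] at this

lemma sa_conj_nonneg {x z : M} (hz : IsSelfAdjoint z) (h : 0 ≤ x) : 0 ≤ z * x * z := by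
  have := conj_nonneg h z
  rwa [hz.star_eq] at this

lemma norm_mono {x y : M} (hx : 0 ≤ x) (h : x ≤ y) : ‖x‖ ≤ ‖y‖ :=
  CStarAlgebra.norm_le_norm_of_nonneg_of_le hx h

/-! ### Positive contractions -/

lemma PC.of_cfc (A : CIdeal M) {a : M} (h0 : 0 ≤ a) (ha : a ∈ A) {f : ℝ → ℝ} (hf : Continuous f)
    (hf0 : f 0 = 0) (h1 : ∀ u, 0 ≤ u → 0 ≤ f u) (h2 : ∀ u, 0 ≤ u → f u ≤ 1) : PC A (cfc f a) :=
  ⟨cfc_mem_ideal A hf hf0 (IsSelfAdjoint.of_nonneg h0) ha, cfc_nonneg' h0 h1, cfc_le_one' h0 h2⟩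

/-! ### Levels -/

/-! ### Cutting -/

lemma cont_id_mul {g : ℝ → ℝ} (hg : Continuous g) : Continuous (fun s => s * g s) :=
  continuous_id.mul hg

/-- For finitely many (two) elements of a closed ideal there is an approximate unit. -/
lemma exists_nu (I : CIdeal M) {x y : M} (hx : x ∈ I) (hy : y ∈ I) {ε : ℝ} (hε : 0 < ε) :
    ∃ ν : M, PC I ν ∧ ‖(1 - ν) * x‖ < ε ∧ ‖(1 - ν) * y‖ < ε := by
  set h : M := x * star x + y * star y with hh
  have h0 : 0 ≤ h := add_nonneg (mul_star_self_nonneg x) (mul_star_self_nonneg y)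
  have hI : h ∈ I := I.add_mem (I.right_mem hx _) (I.right_mem hy _)
  set η : ℝ := ε ^ 2 with hη
  have hη0 : 0 < η := by positivity
  have hsa : IsSelfAdjoint h := IsSelfAdjoint.of_nonneg h0
  refine ⟨cfc (cut η) h, PC.of_cfc I h0 hI (cut_continuous η) (by simp only [cut, zero_div, zero_le_one, inf_of_le_right])
    (fun u hu => cut_nonneg hη0 hu) (fun u _ => cut_le_one η u), ?_, ?_⟩
  all_goals
    have hc : Continuous (fun u => 1 - cut η u) := continuous_const.sub (cut_continuous η)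
    have h1 : (1 : M) - cfc (cut η) h = cfc (fun u => 1 - cut η u) h := by
      rw [cfc_sub (fun _ => (1 : ℝ)) (cut η) h continuousOn_const
        (cut_continuous η).continuousOn, cfc_const_one ℝ h]
    have h2 : ‖cfc (fun u => 1 - cut η u) h * h * cfc (fun u => 1 - cut η u) h‖ ≤ η / 4 := by
      rw [mul_assoc, mul_cfc hc h0, cfc_mul' hc (cont_id_mul hc)]
      refine norm_cfc_le' h0 (by positivity) (fun u hu _ => ?_)
      have h3 := mul_one_sub_cut_sq_le hη0 hu
      have h4 : 0 ≤ u * (1 - cut η u) ^ 2 := by (clear * - hu; positivity)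
      rw [abs_of_nonneg (by nlinarith)]
      linarith
    refine lt_of_pow_lt_pow_left₀ 2 hε.le ?_
    rw [h1, norm_sq_eq', star_mul, star_cfc]
  · have h3 : cfc (fun u => 1 - cut η u) h * x * (star x * cfc (fun u => 1 - cut η u) h) =
        cfc (fun u => 1 - cut η u) h * (x * star x) * cfc (fun u => 1 - cut η u) h := by
      noncomm_ring
    rw [h3]
    have h4 : cfc (fun u => 1 - cut η u) h * (x * star x) * cfc (fun u => 1 - cut η u) h ≤
        cfc (fun u => 1 - cut η u) h * h * cfc (fun u => 1 - cut η u) h :=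
      sa_conj_le (cfc_predicate _ _) (hh ▸ le_add_of_nonneg_right (mul_star_self_nonneg y))
    have h5 := norm_mono (sa_conj_nonneg (cfc_predicate _ _) (mul_star_self_nonneg x)) h4
    have h6 : η / 4 < ε ^ 2 := by rw [hη]; nlinarith only [hη0]
    linarith only [hη0, h2, h5]
  · have h3 : cfc (fun u => 1 - cut η u) h * y * (star y * cfc (fun u => 1 - cut η u) h) =
        cfc (fun u => 1 - cut η u) h * (y * star y) * cfc (fun u => 1 - cut η u) h := by
      noncomm_ring
    rw [h3]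
    have h4 : cfc (fun u => 1 - cut η u) h * (y * star y) * cfc (fun u => 1 - cut η u) h ≤
        cfc (fun u => 1 - cut η u) h * h * cfc (fun u => 1 - cut η u) h :=
      sa_conj_le (cfc_predicate _ _) (hh ▸ le_add_of_nonneg_left (mul_star_self_nonneg x))
    have h5 := norm_mono (sa_conj_nonneg (cfc_predicate _ _) (mul_star_self_nonneg y)) h4
    have h6 : η / 4 < ε ^ 2 := by rw [hη]; nlinarith only [hη0]
    linarith only [hη0, h2, h5]

end order

end Vale.Agent.P133.K
end

section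

/-! Relative (non-unital) notions: `M` is a unital C*-algebra and `I` a closed ideal of `M`. -/

set_option linter.unusedSectionVars false

open scoped CStarAlgebra ComplexOrder

namespace Vale.Agent.P095N

open Vale.Agent.P133

universe u w

variable {M : Type u} [CStarAlgebra M] (I : CIdeal M)

/-- Every element of `I` is approximately in the ideal algebraically generated by a non-zero
element of `I`. -/
def SimpleI : Prop :=
  ∀ a ∈ I, a ≠ 0 → ∀ b ∈ I, ∀ ε : ℝ, 0 < ε → ∃ (n : ℕ) (l r : Fin n → M),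
    (∀ i, l i ∈ I) ∧ (∀ i, r i ∈ I) ∧ ‖∑ i, l i * a * r i - b‖ ≤ ε

/-- Positive functionals of norm at most one which are tracial on the hereditary subalgebra
generated by `u`. -/
structure LocTr (u : M) (τ : M →ₗ[ℂ] ℂ) : Prop where
  im_eq : ∀ a : M, (τ (star a * a)).im = 0
  re_nonneg : ∀ a : M, 0 ≤ (τ (star a * a)).re
  one_le : (τ 1).re ≤ 1
  tr : ∀ x y : M, τ ((u * x * u) * (u * y * u)) = τ ((u * y * u) * (u * x * u))

/-- `u e u` is uniformly small on all functionals which are tracial on the hereditary subalgebra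
generated by `u`. -/
def Small (u e : M) (η : ℝ) : Prop := ∀ τ : M →ₗ[ℂ] ℂ, LocTr u τ → (τ (u * e * u)).re ≤ η

section order

variable [PartialOrder M]

/-- A positive contraction which almost commutes with `F` and is almost of norm one at `b₀`. -/
def AlmCentR (b₀ : M) (F : Finset M) (ε : ℝ) (y : M) : Prop :=
  0 ≤ y ∧ ‖y‖ ≤ 1 ∧ 1 - ε ≤ ‖y * b₀‖ ∧ ∀ a ∈ F, ‖y * a - a * y‖ ≤ ε

/-- Comparison for small compressions by `u`. -/
def CmpR (u : M) : Prop :=
  ∀ d ∈ I, 0 ≤ d → d ≠ 0 → ∀ ε : ℝ, 0 < ε → ∃ η : ℝ, 0 < η ∧ ∀ e : M, 0 ≤ e → ‖e‖ ≤ 1 →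
    Small u e η → ∃ z ∈ I, ‖star (d * z) * (d * z) - u * e * u‖ ≤ ε

/-- There are sufficiently many `u` with comparison. -/
def CmpI : Prop :=
  ∀ (X : Finset M) (ε : ℝ), (∀ x ∈ X, x ∈ I) → 0 < ε → ∃ u ∈ I, 0 ≤ u ∧ ‖u‖ ≤ 1 ∧ CmpR I u ∧
    ∀ x ∈ X, ‖x * u - x‖ ≤ ε ∧ ‖u * x - x‖ ≤ ε

/-- Relative property (SI), local form. -/
def SIR (b₀ : M) : Prop :=
  ∀ (X : Finset M) (ε : ℝ), (∀ x ∈ X, x ∈ I) → 0 < ε → ∃ (F : Finset M) (δ : ℝ),
    (∀ x ∈ F, x ∈ I) ∧ 0 < δ ∧ ∀ y : M, AlmCentR b₀ F δ y →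
      ∃ (F2 U : Finset M) (η : ℝ), (∀ x ∈ F2, x ∈ I) ∧ (∀ u ∈ U, u ∈ I ∧ 0 ≤ u) ∧ 0 < η ∧
        ∀ e : M, 0 ≤ e → ‖e‖ ≤ 1 → (∀ b ∈ F2, ‖e * b - b * e‖ ≤ η) → (∀ u ∈ U, Small u e η) →
          ∃ s ∈ I, ‖s‖ ≤ 2 ∧ ‖y * s - s‖ ≤ ε ∧ ∀ x ∈ X, ‖star s * x * s - x * e‖ ≤ ε ∧
            ‖s * x - x * s‖ ≤ ε ∧ ‖(star s * s - e) * x‖ ≤ ε

end order

variable {G : Type w} [Group G] (β : G →* (M ≃⋆ₐ[ℂ] M))

/-- The ideal is invariant. -/
def InvI : Prop := ∀ g, ∀ b ∈ I, β g b ∈ I

/-- The element whose vanishing under a character is contradictory. -/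
noncomputable def defectN (w : M) : M :=
  (1 / 2 : ℂ) • (star (w * w) * (w * w) +
    (1 - star w * w - w * star w) * (1 - star w * w - w * star w))

/-- The local form of: the fixed point algebra of the central sequence algebra of `I` has no
characters. -/
def LocalNoCharR : Prop :=
  ∀ (F : Finset M) (S : Finset G) (ε : ℝ), (∀ x ∈ F, x ∈ I) → 0 < ε → ∃ w s t : M,
    (‖w‖ ≤ 1 ∧ ∀ a ∈ F, ‖w * a - a * w‖ ≤ ε ∧ ∀ g ∈ S, ‖(β g w - w) * a‖ ≤ ε) ∧
    (‖s‖ ≤ 2 ∧ ∀ a ∈ F, ‖s * a - a * s‖ ≤ ε ∧ ∀ g ∈ S, ‖(β g s - s) * a‖ ≤ ε) ∧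
    (‖t‖ ≤ 2 ∧ ∀ a ∈ F, ‖t * a - a * t‖ ≤ ε ∧ ∀ g ∈ S, ‖(β g t - t) * a‖ ≤ ε) ∧
    ∀ a ∈ F, ‖(star s * s - defectN w) * a‖ ≤ ε ∧ ‖(star t * t - defectN w) * a‖ ≤ ε ∧
      ‖(star s * t) * a‖ ≤ ε

end Vale.Agent.P095N
end

section

namespace Vale.Agent.P095

open Finset

/-- the normalized sum of signs -/
noncomputable def signSum {R : ℕ} (ω : Fin R → Bool) : ℝ :=
  ∑ r, (if ω r then 1 else -1) * (Real.sqrt R)⁻¹

theorem sum_cos_signSum (R : ℕ) :
    ∑ ω : Fin R → Bool, Real.cos (2 * signSum ω) =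
      (2 * Real.cos (2 * (Real.sqrt R)⁻¹)) ^ R := by
  have key : ∑ ω : Fin R → Bool, Complex.exp (((2 * signSum ω : ℝ) : ℂ) * Complex.I) =
      (((2 * Real.cos (2 * (Real.sqrt R)⁻¹)) ^ R : ℝ) : ℂ) := by
    have h1 : ∀ ω : Fin R → Bool,
        Complex.exp (((2 * signSum ω : ℝ) : ℂ) * Complex.I) =
          ∏ r : Fin R, Complex.exp
            (((2 * ((if ω r then (1 : ℝ) else -1) * (Real.sqrt R)⁻¹) : ℝ) : ℂ) * Complex.I) := by
      intro ω
      rw [← Complex.exp_sum]
      congr 1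
      unfold signSum
      push_cast
      rw [Finset.mul_sum, Finset.sum_mul]
    rw [Finset.sum_congr rfl (fun ω _ => h1 ω)]
    have h2 := Finset.prod_univ_sum (fun _ : Fin R => (Finset.univ : Finset Bool))
      (fun (_ : Fin R) (b : Bool) => Complex.exp
            (((2 * ((if b then (1 : ℝ) else -1) * (Real.sqrt R)⁻¹) : ℝ) : ℂ) * Complex.I))
    rw [Fintype.piFinset_univ] at h2
    rw [← h2]
    simp only [Fintype.sum_bool, Finset.prod_const, Finset.card_univ, Fintype.card_fin]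
    push_cast
    congr 1
    have h3 := Complex.two_cos ((2 * ((Real.sqrt R : ℝ) : ℂ)⁻¹))
    rw [h3]
    simp only [one_mul, neg_mul, mul_neg]
  have h4 := congrArg Complex.re key
  rw [Complex.re_sum, Complex.ofReal_re] at h4
  rw [← h4]
  refine Finset.sum_congr rfl (fun ω _ => ?_)
  rw [Complex.exp_ofReal_mul_I_re]

theorem cos_pow_le (R : ℕ) (hR : 1 ≤ R) :
    (Real.cos (2 * (Real.sqrt R)⁻¹)) ^ R ≤ 2 / 5 := by
  have hRr : (1 : ℝ) ≤ R := by exact_mod_cast hR
  have hsq : (1 : ℝ) ≤ Real.sqrt R := by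
    rw [Real.one_le_sqrt]; exact hRr
  have hy0 : 0 < (Real.sqrt R)⁻¹ := by (clear * - hR; positivity)
  have hy1 : (Real.sqrt R)⁻¹ ≤ 1 := inv_le_one_of_one_le₀ hsq
  have hy2 : ((Real.sqrt R)⁻¹) ^ 2 = (R : ℝ)⁻¹ := by
    rw [inv_pow, Real.sq_sqrt (by positivity)]
  set y := (Real.sqrt R)⁻¹ with hy
  have hsin : y - y ^ 3 / 6 < Real.sin y := Real.sin_gt_sub_cube hy0
  have hcos : Real.cos (2 * y) ≤ 1 - (R : ℝ)⁻¹ := by
    rw [Real.cos_two_mul, Real.cos_sq']
    have h1 : (3 / 4 * y) < Real.sin y := by nlinarith only [hy0, hsin, hy1, mul_pos hy0 hy0]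
    have h2 : (3 / 4 * y) ^ 2 < Real.sin y ^ 2 := by
      apply pow_lt_pow_left₀ h1 (by positivity) (by norm_num)
    nlinarith only [hy2, h2]
  rcases Nat.lt_or_ge R 2 with h | h
  · have : R = 1 := by omega
    rw [this] at hcos ⊢
    rw [Nat.cast_one, inv_one, sub_self] at hcos
    rw [pow_one]
    linarith only [hcos]
  · have hR2 : (2 : ℝ) ≤ R := by exact_mod_cast h
    have hy3 : y ^ 2 ≤ 1 / 2 := by
      rw [hy2]
      rw [inv_le_comm₀ (by linarith only [hR2]) (by norm_num)]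
      simpa only [one_div, inv_inv, Nat.ofNat_le_cast] using hR2
    have hcos0 : 0 ≤ Real.cos (2 * y) := by
      apply Real.cos_nonneg_of_neg_pi_div_two_le_of_le
      · have := Real.pi_pos; linarith only [hy0, this]
      · have := Real.pi_gt_three
        nlinarith only [hy3, this]
    have h5 : Real.cos (2 * y) ≤ Real.exp (-(R : ℝ)⁻¹) := by
      have := Real.add_one_le_exp (-(R : ℝ)⁻¹)
      linarith only [hcos, this]
    calc (Real.cos (2 * y)) ^ R ≤ (Real.exp (-(R : ℝ)⁻¹)) ^ R := pow_le_pow_left₀ hcos0 h5 R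
      _ = Real.exp (-1) := by
          rw [← Real.exp_nat_mul]
          congr 1
          (clear * - hR; field_simp)
      _ ≤ 2 / 5 := by
          have := Real.exp_one_gt_d9
          rw [Real.exp_neg]
          rw [inv_le_comm₀ (by positivity) (by norm_num)]
          linarith only [this]


theorem signSum_not {R : ℕ} (ω : Fin R → Bool) :
    signSum (fun r => !(ω r)) = -signSum ω := by
  unfold signSum
  rw [← Finset.sum_neg_distrib]
  refine Finset.sum_congr rfl (fun r _ => ?_)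
  cases h : ω r <;> simp [h]

theorem card_symm (R : ℕ) :
    ((univ : Finset (Fin R → Bool)).filter (fun ω => Real.sin (signSum ω) ≤ -(1 / 2))).card =
    ((univ : Finset (Fin R → Bool)).filter (fun ω => 1 / 2 ≤ Real.sin (signSum ω))).card := by
  refine Finset.card_bij' (fun ω _ => fun r => !(ω r)) (fun ω _ => fun r => !(ω r)) ?_ ?_ ?_ ?_
  · intro ω hω
    simp only [Finset.mem_filter, Finset.mem_univ, true_and] at hω ⊢
    rw [signSum_not, Real.sin_neg]
    linarith
  · intro ω hω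
    simp only [Finset.mem_filter, Finset.mem_univ, true_and] at hω ⊢
    rw [signSum_not, Real.sin_neg]
    linarith only [hω]
  · intro ω _
    funext r
    simp
  · intro ω _
    funext r
    simp

theorem card_large (R : ℕ) (hR : 1 ≤ R) :
    (2 : ℝ) ^ R / 40 ≤
      (((univ : Finset (Fin R → Bool)).filter
        (fun ω => 1 / 2 ≤ Real.sin (signSum ω))).card : ℝ) := by
  set P := (univ : Finset (Fin R → Bool)).filter (fun ω => 1 / 2 ≤ Real.sin (signSum ω)) with hP
  set N := (univ : Finset (Fin R → Bool)).filter (fun ω => Real.sin (signSum ω) ≤ -(1 / 2))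
    with hN
  have hcard : (Finset.card (univ : Finset (Fin R → Bool)) : ℝ) = 2 ^ R := by
    simp only [card_univ, Fintype.card_pi, Fintype.card_bool, prod_const, Fintype.card_fin, Nat.cast_pow, Nat.cast_ofNat]
  have h1 : ∑ ω : Fin R → Bool, Real.sin (signSum ω) ^ 2 =
      (2 ^ R - ∑ ω : Fin R → Bool, Real.cos (2 * signSum ω)) / 2 := by
    rw [← hcard, Finset.card_eq_sum_ones]
    push_cast
    rw [← Finset.sum_sub_distrib, Finset.sum_div]
    refine Finset.sum_congr rfl (fun ω _ => ?_)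
    rw [Real.cos_two_mul, Real.cos_sq']
    ring
  have h2 : ∑ ω : Fin R → Bool, Real.cos (2 * signSum ω) ≤ 2 ^ R * (2 / 5) := by
    rw [sum_cos_signSum, mul_pow]
    exact mul_le_mul_of_nonneg_left (cos_pow_le R hR) (by positivity)
  have h3 : ∑ ω : Fin R → Bool, Real.sin (signSum ω) ^ 2 ≤
      ∑ ω : Fin R → Bool, (1 / 4 + ((if ω ∈ P then 1 else 0) + (if ω ∈ N then 1 else 0))) := by
    refine Finset.sum_le_sum (fun ω _ => ?_)
    have hs := Real.sin_sq_le_one (signSum ω)
    by_cases hp : ω ∈ P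
    · rw [if_pos hp]
      split_ifs <;> linarith only [hs]
    · by_cases hn : ω ∈ N
      · rw [if_neg hp, if_pos hn]; linarith only [hs]
      · rw [if_neg hp, if_neg hn]
        simp only [hP, hN, Finset.mem_filter, Finset.mem_univ, true_and, not_le] at hp hn
        nlinarith only [hp, hn]
  have h4 : ∑ ω : Fin R → Bool, (1 / 4 + ((if ω ∈ P then (1 : ℝ) else 0) +
      (if ω ∈ N then 1 else 0))) = 2 ^ R / 4 + (P.card + N.card) := by
    rw [Finset.sum_add_distrib, Finset.sum_add_distrib]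
    simp only [Finset.sum_ite_mem, Finset.univ_inter, Finset.sum_const, nsmul_eq_mul, mul_one]
    rw [hcard]
    ring
  have h5 : N.card = P.card := card_symm R
  have h6 : (N.card : ℝ) = P.card := by exact_mod_cast h5
  rw [h4, h6] at h3
  linarith only [h1, h2, h3]

/-- There are finitely many polynomials such that for every cube some set of density bounded
away from `0` and `1` is approximated in mean square by one of the polynomials
evaluated at the sine of the normalized sum. -/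
theorem cube_window (ε : ℝ) (hε : 0 < ε) :
    ∃ (M : ℕ) (Q : Fin M → Polynomial ℝ),
      (∀ i, ∀ x ∈ Set.Icc (-1 : ℝ) 1, |(Q i).eval x| ≤ 2) ∧
      ∀ R : ℕ, 1 ≤ R → ∃ (i : Fin M) (Φ : Finset (Fin R → Bool)),
        (1 / 40 : ℝ) ≤ (Φ.card : ℝ) / 2 ^ R ∧ (Φ.card : ℝ) / 2 ^ R ≤ 39 / 40 ∧
        (∑ ω, ((if ω ∈ Φ then (1 : ℝ) else 0) - (Q i).eval (Real.sin (signSum ω))) ^ 2) / 2 ^ R
          ≤ ε := by
  obtain ⟨M, hM⟩ := exists_nat_ge (4 / ε + 1)
  have hM1 : (1 : ℝ) ≤ M := by
    have : 0 < 4 / ε := by positivity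
    linarith
  have hM0 : (0 : ℝ) < M := by linarith only [hM1]
  have hM2 : 4 / ε ≤ M := by linarith only [hM]
  have hMnat : 0 < M := by exact_mod_cast hM0
  set t : ℕ → ℝ := fun i => -(1 / 2) + (i : ℝ) / M with ht
  set f : ℕ → ℝ → ℝ := fun i x => max 0 (min 1 ((x - t i) * M)) with hf
  have hfc : ∀ i, Continuous (f i) := by
    intro i
    simp only [hf]
    fun_prop
  have hδ : 0 < min (Real.sqrt ε / 2) 1 := by positivity
  have hpoly : ∀ i : Fin M, ∃ p : Polynomial ℝ, ∀ x ∈ Set.Icc (-1 : ℝ) 1,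
      |p.eval x - f i x| < min (Real.sqrt ε / 2) 1 := fun i =>
    exists_polynomial_near_of_continuousOn (-1) 1 (f i) (hfc i).continuousOn _ hδ
  choose Q hQ using hpoly
  refine ⟨M, Q, fun i x hx => ?_, fun R hR => ?_⟩
  · have h1 := (hQ i x hx).le.trans (min_le_right _ _)
    have hf0 : 0 ≤ f i x := le_max_left _ _
    have hf1 : f i x ≤ 1 := max_le zero_le_one (min_le_left _ _)
    rw [abs_le] at h1 ⊢
    constructor <;> linarith only [h1, hf0, hf1]
  have hcard : (Finset.card (univ : Finset (Fin R → Bool)) : ℝ) = 2 ^ R := by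
    simp only [card_univ, Fintype.card_pi, Fintype.card_bool, prod_const, Fintype.card_fin, Nat.cast_pow, Nat.cast_ofNat]
  have h2R : (0 : ℝ) < 2 ^ R := by positivity
  set W : Fin M → Finset (Fin R → Bool) := fun i =>
    univ.filter (fun ω => t i ≤ Real.sin (signSum ω) ∧ Real.sin (signSum ω) < t (i + 1)) with hW
  have htmono : ∀ i j : ℕ, i ≤ j → t i ≤ t j := by
    intro i j hij
    simp only [ht]
    have : (i : ℝ) ≤ j := by exact_mod_cast hij
    have := div_le_div_of_nonneg_right this hM0.le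
    linarith only [this]
  have hdisj : ∀ i ∈ (univ : Finset (Fin M)), ∀ j ∈ (univ : Finset (Fin M)), i ≠ j →
      Disjoint (W i) (W j) := by
    intro i _ j _ hij
    rw [Finset.disjoint_left]
    intro ω hi hj
    simp only [hW, Finset.mem_filter, Finset.mem_univ, true_and] at hi hj
    rcases lt_or_gt_of_ne hij with h | h
    · have h1 : (i : ℕ) + 1 ≤ j := h
      have h2 := htmono _ _ h1
      linarith only [hi, hj, h2]
    · have h1 : (j : ℕ) + 1 ≤ i := h
      have h2 := htmono _ _ h1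
      linarith only [hi, hj, h2]
  have hpig : ∃ i : Fin M, ((W i).card : ℝ) ≤ 2 ^ R / M := by
    by_contra hcon
    push Not at hcon
    have h1 : ∑ i : Fin M, ((W i).card : ℝ) ≤ 2 ^ R := by
      rw [← hcard]
      have := Finset.card_biUnion hdisj
      have h3 : (univ.biUnion W).card ≤ (univ : Finset (Fin R → Bool)).card :=
        Finset.card_le_card (Finset.subset_univ _)
      rw [this] at h3
      exact_mod_cast h3
    have h2 : ∑ _i : Fin M, (2 : ℝ) ^ R / M < ∑ i : Fin M, ((W i).card : ℝ) := by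
      apply Finset.sum_lt_sum_of_nonempty
      · exact ⟨⟨0, hMnat⟩, Finset.mem_univ _⟩
      · intro i _
        exact hcon i
    rw [Finset.sum_const, Finset.card_univ, Fintype.card_fin, nsmul_eq_mul] at h2
    rw [mul_div_cancel₀ _ hM0.ne'] at h2
    linarith only [h1, h2]
  obtain ⟨i, hi⟩ := hpig
  set Φ : Finset (Fin R → Bool) :=
    univ.filter (fun ω => t (i + 1) ≤ Real.sin (signSum ω)) with hΦ
  have ht1 : -(1 / 2) < t (i + 1) := by
    simp only [ht]
    have : (0 : ℝ) < ((i : ℕ) + 1 : ℕ) / M := by (clear * - hMnat; positivity)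
    linarith only [this]
  have ht2 : t (i + 1) ≤ 1 / 2 := by
    simp only [ht]
    have h1 : (((i : ℕ) + 1 : ℕ) : ℝ) ≤ M := by
      have := i.2
      exact_mod_cast this
    have : (((i : ℕ) + 1 : ℕ) : ℝ) / M ≤ 1 := by
      rw [div_le_one hM0]; exact h1
    linarith only [this]
  refine ⟨i, Φ, ?_, ?_, ?_⟩
  · rw [le_div_iff₀ h2R]
    have h1 := card_large R hR
    have h2 : ((univ : Finset (Fin R → Bool)).filter
        (fun ω => 1 / 2 ≤ Real.sin (signSum ω))).card ≤ Φ.card := by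
      apply Finset.card_le_card
      intro ω hω
      simp only [hΦ, Finset.mem_filter, Finset.mem_univ, true_and] at hω ⊢
      linarith only [ht2, hω]
    have h3 : (((univ : Finset (Fin R → Bool)).filter
        (fun ω => 1 / 2 ≤ Real.sin (signSum ω))).card : ℝ) ≤ Φ.card := by exact_mod_cast h2
    linarith only [h1, h3]
  · rw [div_le_iff₀ h2R]
    have h1 := card_large R hR
    rw [← card_symm R] at h1
    have h2 : ((univ : Finset (Fin R → Bool)).filter
        (fun ω => Real.sin (signSum ω) ≤ -(1 / 2))).card + Φ.card ≤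
        (univ : Finset (Fin R → Bool)).card := by
      rw [← Finset.card_union_of_disjoint]
      · exact Finset.card_le_card (Finset.subset_univ _)
      · rw [Finset.disjoint_left]
        intro ω h1 h2
        simp only [hΦ, Finset.mem_filter, Finset.mem_univ, true_and] at h1 h2
        linarith only [ht1, h1, h2]
    have h3 : (((univ : Finset (Fin R → Bool)).filter
        (fun ω => Real.sin (signSum ω) ≤ -(1 / 2))).card : ℝ) + Φ.card ≤ 2 ^ R := by
      rw [← hcard]
      exact_mod_cast h2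
    linarith only [h1, h3]
  · rw [div_le_iff₀ h2R]
    have hpt : ∀ ω : Fin R → Bool,
        ((if ω ∈ Φ then (1 : ℝ) else 0) - (Q i).eval (Real.sin (signSum ω))) ^ 2 ≤
          2 * (if ω ∈ W i then 1 else 0) + ε / 2 := by
      intro ω
      have hx : Real.sin (signSum ω) ∈ Set.Icc (-1 : ℝ) 1 :=
        ⟨Real.neg_one_le_sin _, Real.sin_le_one _⟩
      have hq := (hQ i _ hx).trans_le (min_le_left _ _)
      set x := Real.sin (signSum ω) with hxdef
      set q := (Q i).eval x with hqdef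
      have hq2 : (q - f i x) ^ 2 ≤ ε / 4 := by
        have h1 : (q - f i x) ^ 2 = |q - f i x| ^ 2 := (sq_abs _).symm
        rw [h1]
        have h2 : |q - f i x| ^ 2 ≤ (Real.sqrt ε / 2) ^ 2 :=
          pow_le_pow_left₀ (abs_nonneg _) hq.le 2
        have h3 : (Real.sqrt ε / 2) ^ 2 = ε / 4 := by
          rw [div_pow, Real.sq_sqrt hε.le]; norm_num
        linarith only [h2, h3]
      have hf0 : 0 ≤ f i x := le_max_left _ _
      have hf1 : f i x ≤ 1 := max_le zero_le_one (min_le_left _ _)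
      have hgap : t (i + 1) - t i = 1 / M := by
        simp only [ht]
        push_cast
        ring
      have hmain : ((if ω ∈ Φ then (1 : ℝ) else 0) - f i x) ^ 2 ≤
          (if ω ∈ W i then 1 else 0) := by
        by_cases hw : ω ∈ W i
        · rw [if_pos hw]
          split_ifs <;> nlinarith only [hf0, hf1]
        · rw [if_neg hw]
          simp only [hW, Finset.mem_filter, Finset.mem_univ, true_and, not_and, not_lt] at hw
          by_cases hφ : ω ∈ Φ
          · rw [if_pos hφ]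
            simp only [hΦ, Finset.mem_filter, Finset.mem_univ, true_and] at hφ
            have h1 : 1 ≤ (x - t i) * M := by
              have : 1 / (M : ℝ) ≤ x - t i := by linarith only [hgap, hφ]
              calc (1 : ℝ) = 1 / M * M := by field_simp
                _ ≤ (x - t i) * M := mul_le_mul_of_nonneg_right this hM0.le
            have h2 : f i x = 1 := by
              simp only [hf]
              rw [min_eq_left h1, max_eq_right zero_le_one]
            rw [h2]; norm_num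
          · rw [if_neg hφ]
            simp only [hΦ, Finset.mem_filter, Finset.mem_univ, true_and, not_le] at hφ
            have h0 : x < t i := by
              by_contra hc
              push Not at hc
              exact absurd (hw hc) (not_le.mpr hφ)
            have h1 : (x - t i) * M ≤ 0 := by
              apply mul_nonpos_of_nonpos_of_nonneg <;> linarith only [h0]
            have h2 : f i x = 0 := by
              simp only [hf]
              rw [min_eq_right (by linarith only [h1]), max_eq_left h1]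
            rw [h2]; norm_num
      nlinarith only [hq2, hmain, sq_nonneg (((if ω ∈ Φ then (1 : ℝ) else 0) - f i x) + (q - f i x))]
    calc ∑ ω, ((if ω ∈ Φ then (1 : ℝ) else 0) - (Q i).eval (Real.sin (signSum ω))) ^ 2
        ≤ ∑ ω : Fin R → Bool, (2 * (if ω ∈ W i then (1 : ℝ) else 0) + ε / 2) :=
          Finset.sum_le_sum (fun ω _ => hpt ω)
      _ = 2 * (W i).card + ε / 2 * 2 ^ R := by
          rw [Finset.sum_add_distrib, ← Finset.mul_sum]
          simp only [Finset.sum_ite_mem, Finset.univ_inter, Finset.sum_const, nsmul_eq_mul,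
            mul_one]
          rw [hcard]
          ring
      _ ≤ ε * 2 ^ R := by
          have h1 : (2 : ℝ) ^ R / M ≤ 2 ^ R * (ε / 4) := by
            rw [div_le_iff₀ hM0]
            have : 4 ≤ ε * M := by
              rw [div_le_iff₀ hε] at hM2
              linarith only [hM2]
            nlinarith only [this, hcard]
          linarith only [hi, h1]

end Vale.Agent.P095
end

section

open MeasureTheory

namespace Vale.Agent.P135

variable {B : Type*} [CStarAlgebra B] [PartialOrder B] [StarOrderedRing B]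

/-- `(a - t)_+` -/
noncomputable def cut (a : B) (t : ℝ) : B := cfc (fun s : ℝ => max (s - t) 0) a

end Vale.Agent.P135
end

section

/-! The Cuntz-Pedersen relation. -/

namespace Vale.Agent.P095C

variable {A : Type*} [CStarAlgebra A] [PartialOrder A] [StarOrderedRing A]

/-- `a` is, up to `ε`, below `∑ y y*` with `∑ y* y` below `b`, up to `ε`. -/
def TRel (a b : A) : Prop :=
  ∀ ε : ℝ, 0 < ε → ∃ (n : ℕ) (y : Fin n → A),
    a ≤ ∑ i, y i * star (y i) + ε • (1 : A) ∧ ∑ i, star (y i) * y i ≤ b + ε • (1 : A)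

theorem TRel.of_fintype {a b : A} (h : ∀ ε : ℝ, 0 < ε → ∃ (ι : Type) (_ : Fintype ι) (y : ι → A),
    a ≤ ∑ i, y i * star (y i) + ε • (1 : A) ∧ ∑ i, star (y i) * y i ≤ b + ε • (1 : A)) :
    TRel a b := by
  intro ε hε
  obtain ⟨ι, _, y, h1, h2⟩ := h ε hε
  let e := (Fintype.equivFin ι).symm
  refine ⟨Fintype.card ι, fun i => y (e i), ?_, ?_⟩
  · rw [Equiv.sum_comp e (fun i => y i * star (y i))]; exact h1
  · rw [Equiv.sum_comp e (fun i => star (y i) * y i)]; exact h2

theorem TRel.refl {a : A} (ha : 0 ≤ a) : TRel a a := by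
  have h1 : CFC.sqrt a * CFC.sqrt a = a := CFC.sqrt_mul_sqrt_self a ha
  have h2 : star (CFC.sqrt a) = CFC.sqrt a := ((CFC.sqrt_nonneg a).isSelfAdjoint).star_eq
  refine TRel.of_fintype fun ε hε => ⟨Unit, inferInstance, fun _ => CFC.sqrt a, ?_, ?_⟩
  · simp only [h2, h1, Finset.univ_unique, Finset.sum_const, Finset.card_singleton, one_smul]
    exact le_add_of_nonneg_right (smul_nonneg hε.le zero_le_one)
  · simp only [h2, h1, Finset.univ_unique, Finset.sum_const, Finset.card_singleton, one_smul]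
    exact le_add_of_nonneg_right (smul_nonneg hε.le zero_le_one)

theorem TRel.of_family {n : ℕ} (x : Fin n → A) :
    TRel (∑ i, x i * star (x i)) (∑ i, star (x i) * x i) := fun ε hε =>
  ⟨n, x, le_add_of_nonneg_right (smul_nonneg hε.le zero_le_one),
    le_add_of_nonneg_right (smul_nonneg hε.le zero_le_one)⟩

theorem TRel.add {a b a' b' : A} (h : TRel a b) (h' : TRel a' b') : TRel (a + a') (b + b') := by
  refine TRel.of_fintype fun ε hε => ?_
  obtain ⟨n, y, h1, h2⟩ := h (ε / 2) (by (clear * - hε; positivity))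
  obtain ⟨m, z, h3, h4⟩ := h' (ε / 2) (by positivity)
  have e : ε • (1 : A) = (ε / 2) • (1 : A) + (ε / 2) • (1 : A) := by
    rw [← add_smul]; congr 1; ring
  refine ⟨Fin n ⊕ Fin m, inferInstance, Sum.elim y z, ?_, ?_⟩
  · simp only [Fintype.sum_sum_type, Sum.elim_inl, Sum.elim_inr]
    rw [e]
    calc a + a' ≤ (∑ i, y i * star (y i) + (ε / 2) • (1 : A)) +
        (∑ i, z i * star (z i) + (ε / 2) • (1 : A)) := add_le_add h1 h3
      _ = _ := by abel
  · simp only [Fintype.sum_sum_type, Sum.elim_inl, Sum.elim_inr]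
    rw [e]
    calc _ ≤ (b + (ε / 2) • (1 : A)) + (b' + (ε / 2) • (1 : A)) := add_le_add h2 h4
      _ = _ := by abel

theorem TRel.mono {a b a' b' : A} (h : TRel a b) (ha : a' ≤ a) (hb : b ≤ b') : TRel a' b' := by
  intro ε hε
  obtain ⟨n, y, h1, h2⟩ := h ε hε
  exact ⟨n, y, ha.trans h1, h2.trans (by (clear a a' h ha hε n y h1 h2; gcongr))⟩

/-- invertible square root of a strictly positive element -/
theorem trel_exists_root (g : A) (ε : ℝ) (hε : 0 < ε) (h : ε • (1 : A) ≤ g) :
    ∃ s t : A, star s = s ∧ star t = t ∧ s * s = g ∧ s * t = 1 ∧ t * s = 1 := by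
  have hε1 : (0 : A) ≤ ε • (1 : A) := smul_nonneg hε.le zero_le_one
  have hg0 : 0 ≤ g := hε1.trans h
  have hunit : IsUnit g := by
    refine CStarAlgebra.isUnit_of_le (ε • (1 : A)) h ?_
    rw [IsStrictlyPositive.iff_of_unital]
    exact ⟨hε1, IsUnit.smul (Units.mk0 ε hε.ne') isUnit_one⟩
  have hss : CFC.sqrt g * CFC.sqrt g = g := CFC.sqrt_mul_sqrt_self g hg0
  have hsa : star (CFC.sqrt g) = CFC.sqrt g := ((CFC.sqrt_nonneg g).isSelfAdjoint).star_eq
  have hus : IsUnit (CFC.sqrt g) := by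
    have : IsUnit (CFC.sqrt g ^ 2) := by rw [pow_two, hss]; exact hunit
    exact (isUnit_pow_iff two_ne_zero).1 this
  obtain ⟨v, hv⟩ := hus
  have h2 : CFC.sqrt g * (↑v⁻¹ : A) = 1 := by rw [← hv]; exact Units.mul_inv v
  have h3 : (↑v⁻¹ : A) * CFC.sqrt g = 1 := by rw [← hv]; exact Units.inv_mul v
  refine ⟨CFC.sqrt g, ↑v⁻¹, hsa, ?_, hss, h2, h3⟩
  have h1 : star (↑v⁻¹ : A) * CFC.sqrt g = 1 := by
    have := congrArg star h2
    rwa [star_mul, star_one, hsa] at this
  calc star (↑v⁻¹ : A) = star (↑v⁻¹ : A) * (CFC.sqrt g * (↑v⁻¹ : A)) := by rw [h2, mul_one]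
    _ = ↑v⁻¹ := by rw [← mul_assoc, h1, one_mul]

theorem trel_conj_le {a b : A} (h : a ≤ b) {t : A} (ht : star t = t) : t * a * t ≤ t * b * t := by
  have := star_left_conjugate_le_conjugate h t
  rwa [ht] at this

theorem TRel.trans {a b c : A} (h : TRel a b) (h' : TRel b c) : TRel a c := by
  refine TRel.of_fintype fun ε hε => ?_
  obtain ⟨n, y, h1, h2⟩ := h (ε / 3) (by positivity)
  obtain ⟨m, z, h3, h4⟩ := h' (ε / 3) (by (clear * - hε; positivity))
  set s : ℝ := 2 * (ε / 3) with hs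
  have hs0 : 0 < s := by positivity
  set C : A := ∑ k, z k * star (z k) + s • (1 : A) with hC
  have hzz : 0 ≤ ∑ k, z k * star (z k) := Finset.sum_nonneg fun k _ => mul_star_self_nonneg _
  have hCs : s • (1 : A) ≤ C := by rw [hC]; exact le_add_of_nonneg_left hzz
  have hYC : ∑ j, star (y j) * y j ≤ C := by
    calc ∑ j, star (y j) * y j ≤ b + (ε / 3) • (1 : A) := h2
      _ ≤ (∑ k, z k * star (z k) + (ε / 3) • (1 : A)) + (ε / 3) • (1 : A) := by (clear a c h h' hε n y h1 h2 h4 s hs hs0 C hC hzz hCs; gcongr)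
      _ = C := by rw [hC, hs, add_assoc, ← add_smul]; congr 2; ring
  obtain ⟨r, t, hr, ht, hrr, hrt, htr⟩ := trel_exists_root C s hs0 hCs
  have htC : t * C * t = 1 := by
    rw [← hrr]
    calc t * (r * r) * t = (t * r) * (r * t) := by simp only [mul_assoc]
      _ = 1 := by rw [hrt, htr, mul_one]
  have hY1 : t * (∑ j, star (y j) * y j) * t ≤ 1 := by
    rw [← htC]; exact trel_conj_le hYC ht
  have hss : √s * √s = s := Real.mul_self_sqrt hs0.le
  refine ⟨(Fin n × Fin m) ⊕ Fin n, inferInstance,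
    Sum.elim (fun p => y p.1 * t * z p.2) (fun j => √s • (y j * t)), ?_, ?_⟩
  · simp only [Fintype.sum_sum_type, Sum.elim_inl, Fintype.sum_prod_type, Sum.elim_inr]
    have e1 : ∀ j k, (y j * t * z k) * star (y j * t * z k) =
        (y j * t) * (z k * star (z k)) * (t * star (y j)) := by
      intro j k
      simp only [star_mul, ht, mul_assoc]
    have e2 : ∀ j, (√s • (y j * t)) * star (√s • (y j * t)) =
        (y j * t) * (s • (1 : A)) * (t * star (y j)) := by
      intro j
      rw [star_smul, star_trivial, smul_mul_smul_comm, hss, star_mul, ht, mul_smul_comm, mul_one,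
        smul_mul_assoc]
    simp only [e1, e2]
    rw [← Finset.sum_add_distrib]
    have e3 : ∀ j, ∑ k, (y j * t) * (z k * star (z k)) * (t * star (y j)) +
        (y j * t) * (s • (1 : A)) * (t * star (y j)) = y j * star (y j) := by
      intro j
      rw [← Finset.sum_mul, ← Finset.mul_sum, ← add_mul, ← mul_add, ← hC]
      calc y j * t * C * (t * star (y j)) = y j * (t * C * t) * star (y j) := by
            simp only [mul_assoc]
        _ = _ := by rw [htC, mul_one]
    simp only [e3]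
    refine h1.trans ?_
    gcongr
    linarith only [hε]
  · simp only [Fintype.sum_sum_type, Sum.elim_inl, Sum.elim_inr, Fintype.sum_prod_type]
    have e1 : ∀ j k, star (y j * t * z k) * (y j * t * z k) =
        star (z k) * (t * (star (y j) * y j) * t) * z k := by
      intro j k
      simp only [star_mul, ht, mul_assoc]
    have e2 : ∀ j, star (√s • (y j * t)) * (√s • (y j * t)) =
        s • (t * (star (y j) * y j) * t) := by
      intro j
      rw [star_smul, star_trivial, smul_mul_smul_comm, hss, star_mul, ht]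
      simp only [mul_assoc]
    simp only [e1, e2]
    rw [Finset.sum_comm]
    have e3 : ∀ k, ∑ j, star (z k) * (t * (star (y j) * y j) * t) * z k ≤ star (z k) * z k := by
      intro k
      rw [← Finset.sum_mul, ← Finset.mul_sum, ← Finset.sum_mul, ← Finset.mul_sum]
      have := star_left_conjugate_le_conjugate hY1 (z k)
      rwa [mul_one] at this
    have e4 : ∑ j, s • (t * (star (y j) * y j) * t) ≤ s • (1 : A) := by
      rw [← Finset.smul_sum, ← Finset.sum_mul, ← Finset.mul_sum]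
      exact smul_le_smul_of_nonneg_left hY1 hs0.le
    calc _ ≤ ∑ k, star (z k) * z k + s • (1 : A) :=
          add_le_add (Finset.sum_le_sum fun k _ => e3 k) e4
      _ ≤ (c + (ε / 3) • (1 : A)) + s • (1 : A) := by (clear a b h h' hε n y h1 h2 h3 hs hs0 C hC hzz hCs hYC r t hr ht hrr hrt htr htC hY1 hss e1 e2 e3 e4; gcongr)
      _ = c + ε • (1 : A) := by rw [add_assoc, ← add_smul, hs]; congr 2; ring

theorem TRel.smul {a b : A} (h : TRel a b) {r : ℝ} (hr : 0 < r) : TRel (r • a) (r • b) := by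
  intro ε hε
  obtain ⟨n, y, h1, h2⟩ := h (ε / r) (by positivity)
  have hrr : √r * √r = r := Real.mul_self_sqrt hr.le
  have e : ε • (1 : A) = r • ((ε / r) • (1 : A)) := by
    rw [smul_smul]; congr 1; field_simp
  refine ⟨n, fun i => √r • y i, ?_, ?_⟩
  · simp only [star_smul, star_trivial, smul_mul_smul_comm, hrr]
    rw [e, ← Finset.smul_sum, ← smul_add]
    exact smul_le_smul_of_nonneg_left h1 hr.le
  · simp only [star_smul, star_trivial, smul_mul_smul_comm, hrr]
    rw [e, ← Finset.smul_sum, ← smul_add]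
    exact smul_le_smul_of_nonneg_left h2 hr.le

theorem trel_le_norm {X : A} (hX : 0 ≤ X) : X ≤ ‖X‖ • (1 : A) := by
  have := (IsSelfAdjoint.of_nonneg hX).le_algebraMap_norm_self
  rwa [Algebra.algebraMap_eq_smul_one] at this

theorem TRel.of_commutator {e : A} (he : 0 ≤ e) {δ : ℝ} {n : ℕ} (x : Fin n → A)
    (h : e ≤ δ • (1 : A) + ∑ i, (x i * star (x i) - star (x i) * x i)) (hδ : 0 ≤ δ) {δ' : ℝ}
    (hδ' : δ < δ') : TRel e (δ' • (1 : A)) := by
  set X : A := ∑ i, star (x i) * x i with hX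
  set X' : A := ∑ i, x i * star (x i) with hX'
  have hX0 : 0 ≤ X := Finset.sum_nonneg fun i _ => star_mul_self_nonneg _
  have hX0' : 0 ≤ X' := Finset.sum_nonneg fun i _ => mul_star_self_nonneg _
  have h1 : e + X ≤ δ • (1 : A) + X' := by
    rw [Finset.sum_sub_distrib, ← hX, ← hX', ← add_sub_assoc, le_sub_iff_add_le] at h
    exact h
  have hXX : TRel X' X := TRel.of_family x
  have hδ1 : (0 : A) ≤ δ • (1 : A) := smul_nonneg hδ zero_le_one
  have h2 : TRel (e + X) (δ • (1 : A) + X) :=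
    ((TRel.refl hδ1).add hXX).mono h1 le_rfl
  have h3 : ∀ j : ℕ, TRel ((j : ℝ) • e + X) ((j : ℝ) • (δ • (1 : A)) + X) := by
    intro j
    induction j with
    | zero => simpa using TRel.refl hX0
    | succ j ih =>
      have h4 : TRel ((j : ℝ) • e + (e + X)) ((j : ℝ) • e + (δ • (1 : A) + X)) :=
        (TRel.refl (smul_nonneg (Nat.cast_nonneg j) he)).add h2
      have h5 : TRel (δ • (1 : A) + ((j : ℝ) • e + X))
          (δ • (1 : A) + ((j : ℝ) • (δ • (1 : A)) + X)) := (TRel.refl hδ1).add ih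
      have e1 : (((j + 1 : ℕ) : ℝ)) • e + X = (j : ℝ) • e + (e + X) := by
        push_cast; rw [add_smul, one_smul, add_assoc]
      have e2 : (((j + 1 : ℕ) : ℝ)) • (δ • (1 : A)) + X =
          δ • (1 : A) + ((j : ℝ) • (δ • (1 : A)) + X) := by
        push_cast; rw [add_smul, one_smul]; abel
      have e3 : (j : ℝ) • e + (δ • (1 : A) + X) = δ • (1 : A) + ((j : ℝ) • e + X) := by abel
      rw [e1, e2]
      rw [e3] at h4
      exact h4.trans h5
  obtain ⟨j, hj⟩ := exists_nat_gt (‖X‖ / (δ' - δ))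
  have hd : 0 < δ' - δ := by linarith only [hδ']
  have hj0 : (0 : ℝ) < j := lt_of_le_of_lt (by (clear * - hδ'; positivity)) hj
  have h4 : TRel ((j : ℝ) • e) (((j : ℝ) * δ + ‖X‖) • (1 : A)) := by
    refine (h3 j).mono (le_add_of_nonneg_right hX0) ?_
    rw [add_smul, mul_smul]
    gcongr
    exact trel_le_norm hX0
  have h5 := h4.smul (inv_pos.2 hj0)
  rw [smul_smul, inv_mul_cancel₀ hj0.ne', one_smul, smul_smul] at h5
  refine h5.mono le_rfl ?_
  have h6 : (j : ℝ)⁻¹ * ((j : ℝ) * δ + ‖X‖) ≤ δ' := by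
    rw [inv_mul_le_iff₀ hj0]
    rw [div_lt_iff₀ hd] at hj
    nlinarith only [hj]
  rw [← sub_nonneg, ← sub_smul]
  exact smul_nonneg (by linarith) zero_le_one

theorem trel_norm_le {X : A} (hX : 0 ≤ X) {r : ℝ} (hr : 0 ≤ r) (h : X ≤ r • (1 : A)) :
    ‖X‖ ≤ r := by
  rw [← Algebra.algebraMap_eq_smul_one] at h
  exact (CStarAlgebra.norm_le_iff_le_algebraMap X hr hX).2 h

/-- normalization -/
theorem TRel.exists_norm {e : A} (he : 0 ≤ e) {δ : ℝ} (hδ : 0 ≤ δ) (h : TRel e (δ • (1 : A)))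
    {ε : ℝ} (hε : 0 < ε) : ∃ (n : ℕ) (z : Fin n → A),
      ‖e - ∑ i, z i * star (z i)‖ ≤ ε ∧ ‖∑ i, star (z i) * z i‖ ≤ δ + ε := by
  obtain ⟨n, y, h1, h2⟩ := h ε hε
  set C : A := ∑ i, y i * star (y i) + ε • (1 : A) with hC
  have hCε : ε • (1 : A) ≤ C := by
    rw [hC]; exact le_add_of_nonneg_left (Finset.sum_nonneg fun k _ => mul_star_self_nonneg _)
  obtain ⟨r, t, hr, ht, hrr, hrt, htr⟩ := trel_exists_root C ε hε hCε
  have htC : t * C * t = 1 := by
    rw [← hrr]
    calc t * (r * r) * t = (t * r) * (r * t) := by simp only [mul_assoc]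
      _ = 1 := by rw [hrt, htr, mul_one]
  have hqq : CFC.sqrt e * CFC.sqrt e = e := CFC.sqrt_mul_sqrt_self e he
  have hq : star (CFC.sqrt e) = CFC.sqrt e := ((CFC.sqrt_nonneg e).isSelfAdjoint).star_eq
  set q := CFC.sqrt e with hqdef
  have hte : t * e * t ≤ 1 := by
    rw [← htC]; exact trel_conj_le h1 ht
  have hte0 : 0 ≤ t * e * t := by
    have := star_left_conjugate_nonneg he t
    rwa [ht] at this
  have hnte : ‖t * e * t‖ ≤ 1 := trel_norm_le hte0 zero_le_one (by rwa [one_smul])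
  refine ⟨n, fun i => q * t * y i, ?_, ?_⟩
  · have e1 : ∑ i, (q * t * y i) * star (q * t * y i) = e - ε • (q * t * (t * q)) := by
      have e2 : ∀ i, (q * t * y i) * star (q * t * y i) =
          (q * t) * (y i * star (y i)) * (t * q) := by
        intro i; simp only [star_mul, ht, hq, mul_assoc]
      simp only [e2]
      rw [← Finset.sum_mul, ← Finset.mul_sum]
      have e3 : ∑ i, y i * star (y i) = C - ε • (1 : A) := by rw [hC]; abel
      rw [e3, mul_sub, sub_mul]
      congr 1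
      · calc q * t * C * (t * q) = q * (t * C * t) * q := by simp only [mul_assoc]
          _ = e := by rw [htC, mul_one, hqq]
      · rw [mul_smul_comm, mul_one, smul_mul_assoc]
    rw [e1, sub_sub_cancel, norm_smul, Real.norm_of_nonneg hε.le]
    have e4 : ‖q * t * (t * q)‖ = ‖t * e * t‖ := by
      have e5 : q * t * (t * q) = star (t * q) * (t * q) := by rw [star_mul, ht, hq]
      have e6 : t * e * t = (t * q) * star (t * q) := by
        rw [star_mul, ht, hq, ← hqq]; simp only [mul_assoc]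
      rw [e5, e6, CStarRing.norm_star_mul_self, CStarRing.norm_self_mul_star]
    rw [e4]
    calc ε * ‖t * e * t‖ ≤ ε * 1 := mul_le_mul_of_nonneg_left hnte hε.le
      _ = ε := mul_one ε
  · have e2 : ∀ i, star (q * t * y i) * (q * t * y i) = star (y i) * (t * e * t) * y i := by
      intro i
      rw [← hqq]
      simp only [mul_assoc, star_mul, ht, hq]
    simp only [e2]
    refine trel_norm_le (Finset.sum_nonneg fun i _ => star_left_conjugate_nonneg hte0 _)
      (by linarith only [hδ, hε]) ?_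
    calc ∑ i, star (y i) * (t * e * t) * y i ≤ ∑ i, star (y i) * y i := by
          refine Finset.sum_le_sum fun i _ => ?_
          have := star_left_conjugate_le_conjugate hte (y i)
          rwa [mul_one] at this
      _ ≤ δ • (1 : A) + ε • (1 : A) := h2
      _ = (δ + ε) • (1 : A) := (add_smul _ _ _).symm

end Vale.Agent.P095C
end

section

/-! Transfer matrices on groups and coverings. -/

namespace Vale.Agent.P095C

open FreeGroup

section defs
variable {S : Type*} [Ring S] {L N : ℕ}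

/-- The matrix of `Y Y* - d ⊗ 1`, `Y = (∑ i, z i ⊗ λ(s (l, i)))_l`, where `c i j` stands for
`z i * star (z j)`. -/
def TM {Γ : Type*} [Group Γ] [DecidableEq Γ] (s : Fin L × Fin N → Γ) (c : Fin N → Fin N → S)
    (d : S) (p q : Fin L × Γ) : S :=
  (∑ i, ∑ j, if (s (p.1, i))⁻¹ * p.2 = (s (q.1, j))⁻¹ * q.2 then c i j else 0) -
    if p = q then d else 0

/-- the transfer matrix of a finite group -/
def TMQ {Q : Type*} [Group Q] [DecidableEq Q] (s : Fin L × Fin N → Q) (c : Fin N → Fin N → S)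
    (d : S) : Matrix (Fin L × Q) (Fin L × Q) S :=
  Matrix.of fun p q => TM s c d p q

/-- the transfer matrix of the free group, compressed to a finite set -/
def TMB (c : Fin N → Fin N → S) (d : S) (B : Finset (FreeGroup (Fin L × Fin N))) :
    Matrix (Fin L × B) (Fin L × B) S :=
  Matrix.of fun p q => TM (fun i => of i) c d (p.1, (p.2 : FreeGroup _)) (q.1, (q.2 : FreeGroup _))

end defs

section
variable {S : Type*} [Ring S] {L N : ℕ}

theorem TM_mul_right {Γ : Type*} [Group Γ] [DecidableEq Γ] (s : Fin L × Fin N → Γ)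
    (c : Fin N → Fin N → S) (d : S) (l m : Fin L) (g h x : Γ) :
    TM s c d (l, g * x) (m, h * x) = TM s c d (l, g) (m, h) := by
  unfold TM
  simp only [← mul_assoc, mul_left_inj, Prod.mk.injEq]

theorem TMQ_pow_right {Q : Type*} [Group Q] [Fintype Q] [DecidableEq Q] (s : Fin L × Fin N → Q)
    (c : Fin N → Fin N → S) (d : S) (x : Q) (n : ℕ) : ∀ (l m : Fin L) (g h : Q),
    (TMQ s c d ^ n) (l, g * x) (m, h * x) = (TMQ s c d ^ n) (l, g) (m, h) := by
  induction n with
  | zero => intro l m g h; simp only [pow_zero, Matrix.one_apply, Prod.mk.injEq, mul_left_inj]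
  | succ n ih =>
    intro l m g h
    rw [pow_succ', Matrix.mul_apply, Matrix.mul_apply]
    refine Fintype.sum_equiv (Equiv.prodCongr (Equiv.refl _) (Equiv.mulRight x⁻¹)) _ _ ?_
    rintro ⟨l', g'⟩
    show TMQ s c d (l, g * x) (l', g') * (TMQ s c d ^ n) (l', g') (m, h * x) =
      TMQ s c d (l, g) (l', g' * x⁻¹) * (TMQ s c d ^ n) (l', g' * x⁻¹) (m, h)
    rw [← ih l' m (g' * x⁻¹) h, inv_mul_cancel_right]
    congr 1
    have := TM_mul_right s c d l l' g (g' * x⁻¹) x
    rw [inv_mul_cancel_right] at this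
    exact this

/-- homogeneity -/
theorem TMQ_pow_diag {Q : Type*} [Group Q] [Fintype Q] [DecidableEq Q] (s : Fin L × Fin N → Q)
    (c : Fin N → Fin N → S) (d : S) (n : ℕ) (l : Fin L) (q : Q) :
    (TMQ s c d ^ n) (l, q) (l, q) = (TMQ s c d ^ n) (l, 1) (l, 1) := by
  have := TMQ_pow_right s c d q n l l 1 1
  rwa [one_mul] at this

theorem TM_support (c : Fin N → Fin N → S) (d : S) (l l' : Fin L)
    (w w' : FreeGroup (Fin L × Fin N)) (h : TM (fun i => of i) c d (l, w) (l', w') ≠ 0) :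
    w'.norm ≤ w.norm + 2 := by
  by_contra hn
  apply h
  unfold TM
  rw [Finset.sum_eq_zero, if_neg, sub_zero]
  · intro e
    rw [Prod.mk.injEq] at e
    rw [e.2] at hn
    omega
  · intro i _
    refine Finset.sum_eq_zero fun j _ => if_neg fun e => hn ?_
    simp only at e
    have e' : w' = of (l', j) * ((of (l, i))⁻¹ * w) := by rw [e]; group
    rw [e']
    refine (FreeGroup.norm_mul_le _ _).trans ?_
    have h1 := FreeGroup.norm_mul_le (of (l, i))⁻¹ w
    rw [norm_inv_eq, norm_of] at h1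
    rw [norm_of]
    omega

/-- the covering property -/
theorem TM_push {Q : Type*} [Group Q] [DecidableEq Q]
    (π : FreeGroup (Fin L × Fin N) →* Q) (R : ℕ) (B : Finset (FreeGroup (Fin L × Fin N)))
    (hB : ∀ w, w ∈ B ↔ w.norm ≤ R)
    (c : Fin N → Fin N → S) (d : S) (l l' : Fin L) (w : FreeGroup (Fin L × Fin N))
    (hw : w.norm + 2 ≤ R) (q' : Q) :
    TM (fun i => π (of i)) c d (l, π w) (l', q') =
      ∑ w' : B, if π w' = q' then TM (fun i => of i) c d (l, w) (l', (w' : FreeGroup _)) else 0 := by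
  have key : ∀ (u : FreeGroup (Fin L × Fin N)) (hu : u.norm ≤ R) (a : S),
      (∑ w' : B, if π w' = q' then (if (w' : FreeGroup _) = u then a else 0) else 0) =
        if π u = q' then a else 0 := by
    intro u hu a
    rw [Finset.sum_eq_single ⟨u, (hB u).2 hu⟩]
    · simp
    · intro b _ hb
      rw [if_neg (fun e => hb (Subtype.ext e)), ite_self]
    · intro h; exact absurd (Finset.mem_univ _) h
  unfold TM
  simp only [Prod.mk.injEq]
  have h1 : ∀ w' : B, (if π w' = q' then
      ((∑ i, ∑ j, if (of (l, i))⁻¹ * w = (of (l', j))⁻¹ * (w' : FreeGroup _) then c i j else 0) -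
        if l = l' ∧ w = w' then d else 0) else 0) =
      (∑ i, ∑ j, if π w' = q' then
        (if (w' : FreeGroup _) = of (l', j) * ((of (l, i))⁻¹ * w) then c i j else 0) else 0) -
        if π w' = q' then (if (w' : FreeGroup _) = w then (if l = l' then d else 0) else 0) else 0 := by
    intro w'
    by_cases h : π w' = q'
    · simp only [h, if_true]
      congr 1
      · refine Finset.sum_congr rfl fun i _ => Finset.sum_congr rfl fun j _ => ?_
        refine if_congr ?_ rfl rfl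
        constructor
        · intro e; rw [e]; group
        · intro e; rw [e]; group
      · by_cases hl : l = l'
        · simp [hl, eq_comm]
        · simp [hl]
    · simp only [h, ↓reduceIte, Finset.sum_const_zero, sub_self]
  rw [Fintype.sum_congr _ _ h1, Finset.sum_sub_distrib, key w (by omega)]
  congr 1
  · symm
    rw [Finset.sum_comm]
    refine Finset.sum_congr rfl fun i _ => ?_
    rw [Finset.sum_comm]
    refine Finset.sum_congr rfl fun j _ => ?_
    rw [key]
    · refine if_congr ?_ rfl rfl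
      rw [_root_.map_mul, _root_.map_mul, _root_.map_inv]
      constructor
      · intro e; rw [← e]; group
      · intro e; rw [e]; group
    · refine (FreeGroup.norm_mul_le _ _).trans ?_
      have h1 := FreeGroup.norm_mul_le (of (l, i))⁻¹ w
      rw [norm_inv_eq, norm_of] at h1
      rw [norm_of]
      omega
  · by_cases hl : l = l'
    · simp [hl]
    · simp [hl]

theorem TMQ_pow_push {Q : Type*} [Group Q] [Fintype Q] [DecidableEq Q]
    (π : FreeGroup (Fin L × Fin N) →* Q) (R : ℕ) (B : Finset (FreeGroup (Fin L × Fin N)))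
    (hB : ∀ w, w ∈ B ↔ w.norm ≤ R)
    (c : Fin N → Fin N → S) (d : S) (n : ℕ) : ∀ (l m : Fin L) (w : B) (q : Q),
    (w : FreeGroup (Fin L × Fin N)).norm + 2 * n ≤ R →
    (TMQ (fun i => π (of i)) c d ^ n) (l, π w) (m, q) =
      ∑ v : B, if π v = q then (TMB c d B ^ n) (l, w) (m, v) else 0 := by
  induction n with
  | zero =>
    intro l m w q _
    simp only [pow_zero, Matrix.one_apply, Prod.mk.injEq]
    rw [Finset.sum_eq_single w]
    · by_cases h1 : l = m <;> by_cases h2 : π w = q <;> simp [h1, h2]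
    · intro b _ hb
      have h1 : ¬ (l = m ∧ w = b) := fun e => hb e.2.symm
      simp only [h1, ↓reduceIte, ite_self]
    · intro h; exact absurd (Finset.mem_univ _) h
  | succ n ih =>
    intro l m w q hw
    rw [pow_succ', Matrix.mul_apply, Fintype.sum_prod_type]
    have h1 : ∀ l' : Fin L, (∑ q', TMQ (fun i => π (of i)) c d (l, π w) (l', q') *
        (TMQ (fun i => π (of i)) c d ^ n) (l', q') (m, q)) =
        ∑ w' : B, TMB c d B (l, w) (l', w') *
          ∑ v : B, if π v = q then (TMB c d B ^ n) (l', w') (m, v) else 0 := by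
      intro l'
      have h2 : ∀ q', TMQ (fun i => π (of i)) c d (l, π w) (l', q') *
          (TMQ (fun i => π (of i)) c d ^ n) (l', q') (m, q) =
          ∑ w' : B, if π w' = q' then TMB c d B (l, w) (l', w') *
            (TMQ (fun i => π (of i)) c d ^ n) (l', π w') (m, q) else 0 := by
        intro q'
        have h3 : TMQ (fun i => π (of i)) c d (l, π w) (l', q') =
            ∑ w' : B, if π w' = q' then TMB c d B (l, w) (l', w') else 0 :=
          TM_push π R B hB c d l l' w (by omega) q'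
        rw [h3, Finset.sum_mul]
        refine Finset.sum_congr rfl fun w' _ => ?_
        by_cases h : π w' = q'
        · simp [h]
        · simp [h]
      rw [Finset.sum_congr rfl fun q' _ => h2 q', Finset.sum_comm]
      refine Finset.sum_congr rfl fun w' _ => ?_
      rw [Finset.sum_ite_eq, if_pos (Finset.mem_univ _)]
      by_cases h0 : TMB c d B (l, w) (l', w') = 0
      · rw [h0, zero_mul, zero_mul]
      · rw [ih]
        have := TM_support c d l l' w w' h0
        omega
    rw [Finset.sum_congr rfl fun l' _ => h1 l', ← Fintype.sum_prod_type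
      (f := fun p : Fin L × B => TMB c d B (l, w) p *
        ∑ v : B, if π v = q then (TMB c d B ^ n) p (m, v) else 0)]
    have h4 : ∀ v : B, (if π v = q then (TMB c d B ^ (n + 1)) (l, w) (m, v) else 0) =
        ∑ p : Fin L × B, TMB c d B (l, w) p *
          if π v = q then (TMB c d B ^ n) p (m, v) else 0 := by
      intro v
      rw [pow_succ', Matrix.mul_apply]
      by_cases h : π v = q
      · simp only [h, ↓reduceIte]
      · simp [h]
    rw [Finset.sum_congr rfl fun v _ => h4 v, Finset.sum_comm]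
    refine Finset.sum_congr rfl fun p _ => ?_
    rw [Finset.mul_sum]

/-- Powers of the transfer matrix of a finite quotient and of the ball of the free group have the
same entry at the identity. -/
theorem TMQ_pow_eq {Q : Type*} [Group Q] [Fintype Q] [DecidableEq Q]
    (π : FreeGroup (Fin L × Fin N) →* Q) (R : ℕ) (B : Finset (FreeGroup (Fin L × Fin N)))
    (hB : ∀ w, w ∈ B ↔ w.norm ≤ R)
    (hπ : ∀ w w' : FreeGroup (Fin L × Fin N), w.norm ≤ R + 1 → w'.norm ≤ R + 1 → π w = π w' →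
      w = w')
    (c : Fin N → Fin N → S) (d : S) (n : ℕ) (hn : 2 * n ≤ R) (l m : Fin L) :
    (TMQ (fun i => π (of i)) c d ^ n) (l, 1) (m, 1) =
      (TMB c d B ^ n) (l, ⟨1, (hB 1).2 (by simp)⟩) (m, ⟨1, (hB 1).2 (by simp)⟩) := by
  have h : (TMQ (fun i => π (of i)) c d ^ n) (l, 1) (m, 1) =
      ∑ v : B, if π v = 1 then (TMB c d B ^ n) (l, ⟨1, (hB 1).2 (by simp)⟩) (m, v) else 0 := by
    have h0 := TMQ_pow_push π R B hB c d n l m ⟨1, (hB 1).2 (by simp)⟩ 1
      (by simpa only [FreeGroup.norm_one, zero_add] using hn)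
    rw [← h0]
    show (TMQ (fun i => π (of i)) c d ^ n) (l, 1) (m, 1) =
      (TMQ (fun i => π (of i)) c d ^ n) (l, π 1) (m, 1)
    have h1 : (l, π 1) = (l, (1 : Q)) := by rw [_root_.map_one]
    exact congrArg (fun p => (TMQ (fun i => π (of i)) c d ^ n) p (m, 1)) h1.symm
  rw [h, Finset.sum_eq_single ⟨1, (hB 1).2 (by simp)⟩]
  · simp only [_root_.map_one, ↓reduceIte]
  · intro v _ hv
    rw [if_neg]
    intro e
    apply hv
    apply Subtype.ext
    have hvB := (hB v).1 v.2
    exact hπ _ _ (by omega) (by simp only [FreeGroup.norm_one, le_add_iff_nonneg_left, zero_le]) (e.trans (map_one π).symm)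
  · intro h; exact absurd (Finset.mem_univ _) h

end

end Vale.Agent.P095C
end

section

/-! Relative versions of the definitions of the norm part: `M` is a unital C*-algebra and `I` a
closed two-sided ideal of `M` (the possibly nonunital algebra). -/

set_option linter.unusedSectionVars false

open scoped CStarAlgebra ComplexOrder

namespace Vale.Agent.P095M

open Vale.Agent.P133 (CIdeal)
open Vale.Agent.P095N (SimpleI)

universe u w

section
variable {M : Type u} [CStarAlgebra M]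

/-- The completely positive approximation property of the ideal (the maps are defined on `M`). -/
def CPAPR [PartialOrder M] [StarOrderedRing M] (I : CIdeal M) : Prop :=
  ∀ (F : Finset M) (ε : ℝ), 0 < ε → ∃ (n : ℕ) (φ : M →CP CStarMatrix (Fin n) (Fin n) ℂ)
    (ψ : CStarMatrix (Fin n) (Fin n) ℂ →CP M), ∀ a ∈ F, a ∈ I → ‖ψ (φ a) - a‖ ≤ ε

variable [PartialOrder M]

/-- A positive contraction which is large on `b` and commutes up to `ε` with `F ∩ I`. -/
def AlmC (I : CIdeal M) (b : M) (F : Finset M) (ε : ℝ) (y : M) : Prop :=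
  0 ≤ y ∧ ‖y‖ ≤ 1 ∧ 1 - ε ≤ ‖y * b‖ ∧ ∀ a ∈ F, a ∈ I → ‖y * a - a * y‖ ≤ ε

/-- Finitely many pairwise orthogonal positive contractions, almost central and large on `b`. -/
def CentOrthR (I : CIdeal M) (b : M) : Prop :=
  ∀ (N : ℕ) (F : Finset M) (ε : ℝ), 0 < ε → ∃ t : Fin N → M,
    (∀ k, AlmC I b F ε (t k)) ∧ ∀ k l, k ≠ l → ‖t k * t l‖ ≤ ε

end

end Vale.Agent.P095M
end

section

/-! Sequences of blocks. -/

open Filter Topology
open scoped MultiplierAlgebra

namespace Vale.Agent.P095R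

universe u w

variable {A : Type u} [NonUnitalCStarAlgebra A]

/-- the partition of unity -/
def bu (h : ℕ → A) (k : ℕ) : A := h (k + 1) - h k

/-- cutoffs: `bg h k * bu h k ≈ bu h k`; note `k - 1 = 0` for `k = 0` -/
def bg (h : ℕ → A) (k : ℕ) : A := h (k + 2) - h (k - 1)

/-- The block sums of colour `r`. -/
def bsum {m : ℕ} (h : ℕ → A) (x : ℕ → Fin 4 → Fin m → A) (r : ℕ) (q : Fin 4) (i : Fin m) (n : ℕ) :
    A :=
  ∑ k ∈ (Finset.range n).filter (fun k => k % 4 = r), (if q = 3 then bu h k else bg h k) * x k q i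

/-- The output of the recursive choice. -/
structure BlockSeq [PartialOrder A] {G : Type w} [Group G] (α : G →* (A ≃⋆ₐ[ℂ] A)) (m : ℕ) (R : ℝ)
    (Y : Finset 𝓜(ℂ, A)) (S : Finset G) (η : ℕ → ℝ) (a : ℕ → A) (h : ℕ → A)
    (x : ℕ → Fin 4 → Fin m → A) : Prop where
  h0 : h 0 = 0
  h1 : h 1 = 0
  mono : ∀ n, h n ≤ h (n + 1)
  hnorm : ∀ n, ‖h n‖ ≤ 1
  hh : ∀ n j, j ≤ n + 1 → ‖h (n + 2) * h j - h j‖ ≤ η n ∧ ‖h j * h (n + 2) - h j‖ ≤ η n
  hsum : ∀ n r q i, r < 4 → ‖h (n + 2) * bsum h x r q i n - bsum h x r q i n‖ ≤ η n ∧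
    ‖bsum h x r q i n * h (n + 2) - bsum h x r q i n‖ ≤ η n
  ha : ∀ n j, j ≤ n → ‖h (n + 2) * a j - a j‖ ≤ η n ∧ ‖a j * h (n + 2) - a j‖ ≤ η n
  hY : ∀ n, ∀ y ∈ Y, ‖y.fst (h (n + 2)) - y.snd (h (n + 2))‖ ≤ η n
  hS : ∀ n, ∀ g ∈ S, ‖α g (h (n + 2)) - h (n + 2)‖ ≤ η n
  xnorm : ∀ n q i, ‖x n q i‖ ≤ R
  xh : ∀ n q i j, j ≤ n + 2 → ‖x n q i * h j - h j * x n q i‖ ≤ η n
  xa : ∀ n q i j, j ≤ n → ‖x n q i * a j - a j * x n q i‖ ≤ η n
  xY : ∀ n q i, ∀ y ∈ Y, ‖x n q i * y.snd (bg h n) - y.snd (bg h n) * x n q i‖ ≤ η n ∧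
    ‖x n q i * y.snd (bu h n) - y.snd (bu h n) * x n q i‖ ≤ η n
  xS : ∀ n q i, ∀ g ∈ S, ‖bg h n * (α g (x n q i) - x n q i)‖ ≤ η n ∧
    ‖bu h n * (α g (x n q i) - x n q i)‖ ≤ η n
  rel : ∀ n, ‖bu h n * (∑ i, x n 0 i * (x n 1 i * x n 2 i - x n 2 i * x n 1 i) * x n 3 i) -
    bu h n‖ ≤ η n

end Vale.Agent.P095R
end

section

/-! Estimates for block sums. -/

set_option linter.all false

open Filter Topology
open scoped MultiplierAlgebra

namespace Vale.Agent.P095R

universe u w

variable {A : Type u} [NonUnitalCStarAlgebra A]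

/-! ### elementary facts -/

/-- the coefficient of a block -/
def bc (h : ℕ → A) (q : Fin 4) (k : ℕ) : A := if q = 3 then bu h k else bg h k

lemma bc_form (h : ℕ → A) (q : Fin 4) (n : ℕ) :
    ∃ k1 k2, n - 1 ≤ k2 ∧ k2 ≤ k1 ∧ k1 ≤ n + 2 ∧ bc h q n = h k1 - h k2 := by
  unfold bc
  split_ifs
  · exact ⟨n + 1, n, by omega, by omega, by omega, rfl⟩
  · exact ⟨n + 2, n - 1, by omega, by omega, by omega, rfl⟩

lemma bsum_zero {m : ℕ} (h : ℕ → A) (x : ℕ → Fin 4 → Fin m → A) (r : ℕ) (q : Fin 4) (i : Fin m) :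
    bsum h x r q i 0 = 0 := by
  simp only [bsum, Finset.range_zero, Finset.filter_empty, Fin.isValue, ite_mul, Finset.sum_ite_irrel, Finset.sum_empty, ite_self]

lemma bsum_succ_same {m : ℕ} (h : ℕ → A) (x : ℕ → Fin 4 → Fin m → A) {r n : ℕ} (q : Fin 4)
    (i : Fin m) (hr : n % 4 = r) :
    bsum h x r q i (n + 1) = bsum h x r q i n + bc h q n * x n q i := by
  unfold bsum bc
  rw [Finset.range_add_one, Finset.filter_insert, if_pos hr, Finset.sum_insert (by simp),
    add_comm]

lemma bsum_succ_ne {m : ℕ} (h : ℕ → A) (x : ℕ → Fin 4 → Fin m → A) {r n : ℕ} (q : Fin 4)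
    (i : Fin m) (hr : n % 4 ≠ r) :
    bsum h x r q i (n + 1) = bsum h x r q i n := by
  unfold bsum
  rw [Finset.range_add_one, Finset.filter_insert, if_neg hr]

lemma bsum_back {m : ℕ} (h : ℕ → A) (x : ℕ → Fin 4 → Fin m → A) {r n : ℕ} (q : Fin 4)
    (i : Fin m) (hr : n % 4 = r) (N : ℕ) (h1 : N ≤ n) (h2 : n ≤ N + 3) :
    bsum h x r q i N = bsum h x r q i n := by
  have h3 : ∀ j, N + j ≤ n → bsum h x r q i (N + j) = bsum h x r q i N := by
    intro j
    induction j with
    | zero => intro _; rfl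
    | succ j ih =>
      intro hj
      rw [← add_assoc, bsum_succ_ne h x q i (by omega), ih (by omega)]
  have := h3 (n - N) (by omega)
  rw [← this]
  congr 1
  (clear * - hr h1 h2; omega)

lemma bsum_small {m : ℕ} (h : ℕ → A) (x : ℕ → Fin 4 → Fin m → A) {r n : ℕ} (q : Fin 4)
    (i : Fin m) (hr : n % 4 = r) (hn : n ≤ 3) : bsum h x r q i n = 0 := by
  rw [← bsum_back h x q i hr 0 (by omega) (by omega), bsum_zero]

lemma half_pow_le {N n : ℕ} (h : n ≤ N + 3) : (1 / 2 : ℝ) ^ N ≤ 8 * (1 / 2) ^ n := by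
  have h1 : (1 / 2 : ℝ) ^ (N + 3) ≤ (1 / 2) ^ n :=
    pow_le_pow_of_le_one (by norm_num) (by norm_num) h
  have h2 : (1 / 2 : ℝ) ^ (N + 3) = (1 / 2) ^ N / 8 := by rw [pow_add]; norm_num; ring
  rw [h2] at h1
  linarith only [h1]

lemma acc_bound {E : Type*} [SeminormedAddCommGroup E] (f : ℕ → E) {C e : ℝ} (h0 : f 0 = 0)
    (hs : ∀ n, ‖f (n + 1) - f n‖ ≤ C * (e * (1 / 2) ^ n)) (hC : 0 ≤ C) (he : 0 ≤ e) (n : ℕ) :
    ‖f n‖ ≤ C * (2 * e) := by
  have key : ∀ n, ‖f n‖ ≤ C * (2 * e - 2 * e * (1 / 2) ^ n) := by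
    intro n
    induction n with
    | zero => rw [h0]; simp
    | succ n ih =>
      have : f (n + 1) = f n + (f (n + 1) - f n) := by abel
      rw [this]
      refine (norm_add_le _ _).trans ?_
      refine (add_le_add ih (hs n)).trans (le_of_eq ?_)
      rw [pow_succ]
      ring
  refine (key n).trans (mul_le_mul_of_nonneg_left ?_ hC)
  have : 0 ≤ 2 * e * (1 / 2) ^ n := by (clear * - he; positivity)
  linarith

/-- `(C + c) (A + a) (B + b) (D + d)` for almost orthogonal pairs -/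
lemma mixed_bound {C c A' a B b D d : A} {K δ : ℝ} (hK : 0 ≤ K) (hδ : 0 ≤ δ)
    (hC : ‖C‖ ≤ K) (hc : ‖c‖ ≤ K) (hA : ‖A'‖ ≤ K) (ha : ‖a‖ ≤ K) (hB : ‖B‖ ≤ K) (hb : ‖b‖ ≤ K)
    (hD : ‖D‖ ≤ K) (hd : ‖d‖ ≤ K) (h1 : ‖C * a‖ ≤ δ) (h2 : ‖c * A'‖ ≤ δ) (h3 : ‖A' * b‖ ≤ δ)
    (h4 : ‖a * B‖ ≤ δ) (h5 : ‖B * d‖ ≤ δ) (h6 : ‖b * D‖ ≤ δ) :
    ‖(C + c) * ((A' + a) * (B + b)) * (D + d) - (C * (A' * B) * D + c * (a * b) * d)‖ ≤
      14 * K ^ 2 * δ := by
  have key : (C + c) * ((A' + a) * (B + b)) * (D + d) - (C * (A' * B) * D + c * (a * b) * d) =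
      (C * a + c * A') * ((B + b) * (D + d)) + (C * A' + c * a) * (B * d + b * D) +
        (C * (A' * b) * d + c * (a * B) * D) := by
    noncomm_ring
  have n2 : ∀ {u v : A} {s t : ℝ}, ‖u‖ ≤ s → ‖v‖ ≤ t → 0 ≤ s → ‖u * v‖ ≤ s * t :=
    fun hu hv hs => (norm_mul_le _ _).trans (mul_le_mul hu hv (norm_nonneg _) hs)
  have a2 : ∀ {u v : A} {s t : ℝ}, ‖u‖ ≤ s → ‖v‖ ≤ t → ‖u + v‖ ≤ s + t :=
    fun hu hv => (norm_add_le _ _).trans (add_le_add hu hv)
  have e1 : ‖(C * a + c * A') * ((B + b) * (D + d))‖ ≤ (δ + δ) * ((K + K) * (K + K)) :=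
    n2 (a2 h1 h2) (n2 (a2 hB hb) (a2 hD hd) (by (clear * - hK; positivity))) (by positivity)
  have e2 : ‖(C * A' + c * a) * (B * d + b * D)‖ ≤ (K * K + K * K) * (δ + δ) :=
    n2 (a2 (n2 hC hA hK) (n2 hc ha hK)) (a2 h5 h6) (by (clear * - hK; positivity))
  have e3 : ‖C * (A' * b) * d + c * (a * B) * D‖ ≤ K * δ * K + K * δ * K :=
    a2 (n2 (n2 hC h3 hK) hd (by positivity)) (n2 (n2 hc h4 hK) hD (by positivity))
  rw [key]
  refine (a2 (a2 e1 e2) e3).trans (le_of_eq ?_)
  ring

/-- moving all cut-offs to the left -/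
lemma pure_bound {g u x0 x1 x2 x3 : A} {R κ l : ℝ} (hR : 0 ≤ R) (hκ : 0 ≤ κ) (hl : 0 ≤ l)
    (hg : ‖g‖ ≤ 1) (hu : ‖u‖ ≤ 1) (h0 : ‖x0‖ ≤ R) (h1 : ‖x1‖ ≤ R) (h2 : ‖x2‖ ≤ R) (h3 : ‖x3‖ ≤ R)
    (g0 : ‖x0 * g - g * x0‖ ≤ κ) (g1 : ‖x1 * g - g * x1‖ ≤ κ)
    (u0 : ‖x0 * u - u * x0‖ ≤ κ) (u1 : ‖x1 * u - u * x1‖ ≤ κ) (u2 : ‖x2 * u - u * x2‖ ≤ κ)
    (gu : ‖g * u - u‖ ≤ l) :
    ‖(g * x0) * ((g * x1) * (g * x2)) * (u * x3) - u * (x0 * (x1 * x2) * x3)‖ ≤
      6 * κ * R ^ 3 + 3 * l * R ^ 4 := by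
  have key : (g * x0) * ((g * x1) * (g * x2)) * (u * x3) - u * (x0 * (x1 * x2) * x3) =
      g * (x0 * g - g * x0) * x1 * g * x2 * u * x3 +
      g * g * x0 * (x1 * g - g * x1) * x2 * u * x3 +
      g * g * (x0 * g - g * x0) * x1 * x2 * u * x3 +
      g * g * g * x0 * x1 * (x2 * u - u * x2) * x3 +
      g * g * g * x0 * (x1 * u - u * x1) * x2 * x3 +
      g * g * g * (x0 * u - u * x0) * x1 * x2 * x3 +
      g * g * (g * u - u) * x0 * x1 * x2 * x3 +
      g * (g * u - u) * x0 * x1 * x2 * x3 +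
      (g * u - u) * x0 * x1 * x2 * x3 := by
    noncomm_ring
  have n2 : ∀ {u v : A} {s t : ℝ}, ‖u‖ ≤ s → ‖v‖ ≤ t → 0 ≤ s → ‖u * v‖ ≤ s * t :=
    fun hu hv hs => (norm_mul_le _ _).trans (mul_le_mul hu hv (norm_nonneg _) hs)
  have a2 : ∀ {u v : A} {s t : ℝ}, ‖u‖ ≤ s → ‖v‖ ≤ t → ‖u + v‖ ≤ s + t :=
    fun hu hv => (norm_add_le _ _).trans (add_le_add hu hv)
  have z1 : (0 : ℝ) ≤ 1 := zero_le_one
  have e1 : ‖g * (x0 * g - g * x0) * x1 * g * x2 * u * x3‖ ≤ 1 * κ * R * 1 * R * 1 * R :=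
    n2 (n2 (n2 (n2 (n2 (n2 hg g0 z1) h1 (by (clear * - hκ; positivity))) hg (by (clear * - hκ hR; positivity))) h2 (by (clear * - hκ hR; positivity)))
      hu (by (clear * - hκ hR; positivity))) h3 (by (clear * - hκ hR; positivity))
  have e2 : ‖g * g * x0 * (x1 * g - g * x1) * x2 * u * x3‖ ≤ 1 * 1 * R * κ * R * 1 * R :=
    n2 (n2 (n2 (n2 (n2 (n2 hg hg z1) h0 (by positivity)) g1 (by positivity)) h2 (by (clear * - hR hκ; positivity)))
      hu (by (clear * - hR hκ; positivity))) h3 (by (clear * - hR hκ; positivity))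
  have e3 : ‖g * g * (x0 * g - g * x0) * x1 * x2 * u * x3‖ ≤ 1 * 1 * κ * R * R * 1 * R :=
    n2 (n2 (n2 (n2 (n2 (n2 hg hg z1) g0 (by positivity)) h1 (by (clear * - hκ; positivity))) h2 (by (clear * - hκ hR; positivity)))
      hu (by (clear * - hκ hR; positivity))) h3 (by (clear * - hκ hR; positivity))
  have e4 : ‖g * g * g * x0 * x1 * (x2 * u - u * x2) * x3‖ ≤ 1 * 1 * 1 * R * R * κ * R :=
    n2 (n2 (n2 (n2 (n2 (n2 hg hg z1) hg (by positivity)) h0 (by positivity)) h1 (by positivity))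
      u2 (by (clear * - hR; positivity))) h3 (by (clear * - hR hκ; positivity))
  have e5 : ‖g * g * g * x0 * (x1 * u - u * x1) * x2 * x3‖ ≤ 1 * 1 * 1 * R * κ * R * R :=
    n2 (n2 (n2 (n2 (n2 (n2 hg hg z1) hg (by positivity)) h0 (by positivity)) u1 (by positivity))
      h2 (by (clear * - hR hκ; positivity))) h3 (by (clear * - hR hκ; positivity))
  have e6 : ‖g * g * g * (x0 * u - u * x0) * x1 * x2 * x3‖ ≤ 1 * 1 * 1 * κ * R * R * R :=
    n2 (n2 (n2 (n2 (n2 (n2 hg hg z1) hg (by positivity)) u0 (by positivity)) h1 (by positivity))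
      h2 (by positivity)) h3 (by (clear * - hκ hR; positivity))
  have e7 : ‖g * g * (g * u - u) * x0 * x1 * x2 * x3‖ ≤ 1 * 1 * l * R * R * R * R :=
    n2 (n2 (n2 (n2 (n2 (n2 hg hg z1) gu (by positivity)) h0 (by positivity)) h1 (by (clear * - hl hR; positivity)))
      h2 (by (clear * - hl hR; positivity))) h3 (by (clear * - hl hR; positivity))
  have e8 : ‖g * (g * u - u) * x0 * x1 * x2 * x3‖ ≤ 1 * l * R * R * R * R :=
    n2 (n2 (n2 (n2 (n2 hg gu z1) h0 (by positivity)) h1 (by (clear * - hl hR; positivity))) h2 (by (clear * - hl hR; positivity)))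
      h3 (by (clear * - hl hR; positivity))
  have e9 : ‖(g * u - u) * x0 * x1 * x2 * x3‖ ≤ l * R * R * R * R :=
    n2 (n2 (n2 (n2 gu h0 hl) h1 (by (clear * - hl hR; positivity))) h2 (by (clear * - hl hR; positivity))) h3 (by (clear * - hl hR; positivity))
  rw [key]
  refine (a2 (a2 (a2 (a2 (a2 (a2 (a2 (a2 e1 e2) e3) e4) e5) e6) e7) e8) e9).trans (le_of_eq ?_)
  ring

/-! ### consequences of `BlockSeq` -/

section
variable [PartialOrder A] [StarOrderedRing A] {G : Type w} [Group G]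
  {α : G →* (A ≃⋆ₐ[ℂ] A)} {m : ℕ} {R : ℝ} {Y : Finset 𝓜(ℂ, A)} {S : Finset G}
  {e : ℝ} {a h : ℕ → A} {x : ℕ → Fin 4 → Fin m → A}

namespace BlockSeq

variable (H : BlockSeq α m R Y S (fun n => e * (1 / 2) ^ n) a h x)
include H

lemma monoh : Monotone h := monotone_nat_of_le_succ H.mono

lemma h_nonneg (n : ℕ) : 0 ≤ h n := by
  have := H.monoh (Nat.zero_le n)
  rwa [H.h0] at this

lemma h_small {j : ℕ} (hj : j < 2) : h j = 0 := by
  interval_cases j
  · exact H.h0
  · exact H.h1

lemma bc_nonneg (q : Fin 4) (n : ℕ) : 0 ≤ bc h q n := by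
  obtain ⟨k1, k2, -, h2, -, he⟩ := bc_form h q n
  rw [he]
  exact sub_nonneg.mpr (H.monoh h2)

lemma bc_star (q : Fin 4) (n : ℕ) : star (bc h q n) = bc h q n :=
  (IsSelfAdjoint.of_nonneg (H.bc_nonneg q n)).star_eq

lemma bc_norm (q : Fin 4) (n : ℕ) : ‖bc h q n‖ ≤ 1 := by
  obtain ⟨k1, k2, -, h2, -, he⟩ := bc_form h q n
  have h3 : bc h q n ≤ h k1 := by
    rw [he]
    exact sub_le_self _ (H.h_nonneg k2)
  exact (CStarAlgebra.norm_le_norm_of_nonneg_of_le (H.bc_nonneg q n) h3).trans (H.hnorm k1)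

/-- a seminorm-like quantity which is small on all `h k` -/
lemma bc_small {E : Type*} [SeminormedAddCommGroup E] (f : A → E)
    (hf : ∀ u v, f (u - v) = f u - f v) (q : Fin 4) (n : ℕ) {δ : ℝ}
    (hs : ∀ k, n - 1 ≤ k → k ≤ n + 2 → ‖f (h k)‖ ≤ δ) : ‖f (bc h q n)‖ ≤ 2 * δ := by
  obtain ⟨k1, k2, h1, h2, h3, he⟩ := bc_form h q n
  rw [he, hf]
  refine (norm_sub_le _ _).trans ?_
  have := hs k1 (h1.trans h2) h3
  have := hs k2 h1 (h2.trans h3)
  linarith

lemma e_nonneg : 0 ≤ e := by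
  have h1 := (H.hh 0 0 (by omega)).1
  have h2 := (norm_nonneg _).trans h1
  simpa only [ge_iff_le, one_div, pow_zero, mul_one] using h2

lemma bc_mul_bsum {r : ℕ} (hr4 : r < 4) (q q' : Fin 4) (i : Fin m) {n : ℕ} (hr : n % 4 = r) :
    ‖bc h q' n * bsum h x r q i n‖ ≤ 16 * (e * (1 / 2) ^ n) ∧
      ‖bsum h x r q i n * bc h q' n‖ ≤ 16 * (e * (1 / 2) ^ n) := by
  have he := H.e_nonneg
  rcases Nat.lt_or_ge n 4 with hn | hn
  · rw [bsum_small h x q i hr (by omega), mul_zero, zero_mul, norm_zero]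
    constructor <;> positivity
  · have hk : ∀ k, n - 1 ≤ k → k ≤ n + 2 →
        ‖h k * bsum h x r q i n - bsum h x r q i n‖ ≤ 8 * (e * (1 / 2) ^ n) ∧
          ‖bsum h x r q i n * h k - bsum h x r q i n‖ ≤ 8 * (e * (1 / 2) ^ n) := by
      intro k hk1 hk2
      have hb := bsum_back h x q i hr (k - 2) (by omega) (by omega)
      have h1 := H.hsum (k - 2) r q i hr4
      rw [hb, show k - 2 + 2 = k by omega] at h1
      have h2 : e * (1 / 2 : ℝ) ^ (k - 2) ≤ 8 * (e * (1 / 2) ^ n) := by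
        have := mul_le_mul_of_nonneg_left (half_pow_le (N := k - 2) (n := n) (by omega)) he
        (clear * - this; linarith)
      exact ⟨h1.1.trans h2, h1.2.trans h2⟩
    obtain ⟨k1, k2, h1, h2, h3, hc⟩ := bc_form h q' n
    have a1 := hk k1 (h1.trans h2) h3
    have a2 := hk k2 h1 (h2.trans h3)
    rw [hc]
    constructor
    · have : (h k1 - h k2) * bsum h x r q i n = (h k1 * bsum h x r q i n - bsum h x r q i n) -
          (h k2 * bsum h x r q i n - bsum h x r q i n) := by noncomm_ring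
      rw [this]
      refine (norm_sub_le _ _).trans ?_
      linarith only [a1, a2]
    · have : bsum h x r q i n * (h k1 - h k2) = (bsum h x r q i n * h k1 - bsum h x r q i n) -
          (bsum h x r q i n * h k2 - bsum h x r q i n) := by noncomm_ring
      rw [this]
      refine (norm_sub_le _ _).trans ?_
      linarith only [a1, a2]

lemma x_comm (q q' : Fin 4) (i : Fin m) (n : ℕ) :
    ‖x n q i * bc h q' n - bc h q' n * x n q i‖ ≤ 2 * (e * (1 / 2) ^ n) := by
  obtain ⟨k1, k2, h1, h2, h3, hc⟩ := bc_form h q' n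
  rw [hc]
  have : x n q i * (h k1 - h k2) - (h k1 - h k2) * x n q i =
      (x n q i * h k1 - h k1 * x n q i) - (x n q i * h k2 - h k2 * x n q i) := by noncomm_ring
  rw [this]
  refine (norm_sub_le _ _).trans ?_
  have b1 := H.xh n q i k1 h3
  have b2 := H.xh n q i k2 (h2.trans h3)
  linarith only [b1, b2]

/-- the sum of the coefficients -/
def csum (h : ℕ → A) (r : ℕ) (q : Fin 4) (n : ℕ) : A :=
  ∑ k ∈ (Finset.range n).filter (fun k => k % 4 = r), bc h q k

omit H in
lemma csum_zero (r : ℕ) (q : Fin 4) : csum h r q 0 = 0 := by simp [csum]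

omit H in
lemma csum_succ_same {r n : ℕ} (q : Fin 4) (hr : n % 4 = r) :
    csum h r q (n + 1) = csum h r q n + bc h q n := by
  unfold csum
  rw [Finset.range_add_one, Finset.filter_insert, if_pos hr, Finset.sum_insert (by simp),
    add_comm]

omit H in
lemma csum_succ_ne {r n : ℕ} (q : Fin 4) (hr : n % 4 ≠ r) :
    csum h r q (n + 1) = csum h r q n := by
  unfold csum
  rw [Finset.range_add_one, Finset.filter_insert, if_neg hr]

lemma csum_nonneg (r : ℕ) (q : Fin 4) (n : ℕ) : 0 ≤ csum h r q n :=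
  Finset.sum_nonneg fun k _ => H.bc_nonneg q k

lemma bc_le (q : Fin 4) (n : ℕ) : bc h q n ≤ h (n + 2) - h (n - 1) := by
  unfold bc
  split_ifs
  · unfold bu
    exact sub_le_sub (H.monoh (by omega)) (H.monoh (by omega))
  · exact le_rfl

lemma csum_le (r : ℕ) (q : Fin 4) (n : ℕ) :
    csum h r q n ≤ h (n + 1) + h n + h (n - 1) := by
  induction n with
  | zero =>
    rw [csum_zero]
    exact add_nonneg (add_nonneg (H.h_nonneg _) (H.h_nonneg _)) (H.h_nonneg _)
  | succ n ih =>
    by_cases hr : n % 4 = r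
    · rw [csum_succ_same q hr]
      refine (add_le_add ih (H.bc_le q n)).trans (le_of_eq ?_)
      rw [Nat.add_sub_cancel]
      abel
    · rw [csum_succ_ne q hr]
      refine ih.trans ?_
      rw [Nat.add_sub_cancel]
      exact add_le_add (add_le_add (H.monoh (by omega)) (H.monoh (by omega)))
        (H.monoh (by omega))

lemma csum_norm (r : ℕ) (q : Fin 4) (n : ℕ) : ‖csum h r q n‖ ≤ 3 := by
  refine (CStarAlgebra.norm_le_norm_of_nonneg_of_le (H.csum_nonneg r q n)
    (H.csum_le r q n)).trans ?_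
  refine (norm_add_le _ _).trans ?_
  have := norm_add_le (h (n + 1)) (h n)
  have := H.hnorm (n + 1)
  have := H.hnorm n
  have := H.hnorm (n - 1)
  linarith

omit H in
lemma mul_self_le {c : A} (hc : 0 ≤ c) (hc1 : ‖c‖ ≤ 1) : c * c ≤ c := by
  have hs : CFC.sqrt c * CFC.sqrt c = c := CFC.sqrt_mul_sqrt_self c hc
  have hst : star (CFC.sqrt c) = CFC.sqrt c :=
    (IsSelfAdjoint.of_nonneg (CFC.sqrt_nonneg c)).star_eq
  have h1 := CStarAlgebra.star_left_conjugate_le_norm_smul (a := CFC.sqrt c) (b := c)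
    (IsSelfAdjoint.of_nonneg hc)
  rw [hst, hs] at h1
  have h2 : CFC.sqrt c * c * CFC.sqrt c = c * c := by
    have : CFC.sqrt c * (CFC.sqrt c * CFC.sqrt c) * CFC.sqrt c =
        (CFC.sqrt c * CFC.sqrt c) * (CFC.sqrt c * CFC.sqrt c) := by noncomm_ring
    rwa [hs] at this
  rw [h2] at h1
  refine h1.trans ?_
  have h3 : c - ‖c‖ • c = (1 - ‖c‖) • c := by rw [sub_smul, one_smul]
  rw [← sub_nonneg, h3]
  exact smul_nonneg (by linarith only [hc1]) hc

lemma pp_le (hR : 0 ≤ R) (q : Fin 4) (i : Fin m) (n : ℕ) :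
    (bc h q n * x n q i) * star (bc h q n * x n q i) ≤ R ^ 2 • bc h q n := by
  have h1 : (bc h q n * x n q i) * star (bc h q n * x n q i) =
      bc h q n * (x n q i * star (x n q i)) * star (bc h q n) := by
    rw [star_mul]; noncomm_ring
  rw [h1]
  refine (CStarAlgebra.star_right_conjugate_le_norm_smul (IsSelfAdjoint.mul_star_self _)).trans ?_
  rw [H.bc_star, CStarRing.norm_self_mul_star]
  have h2 : bc h q n * bc h q n ≤ bc h q n := mul_self_le (H.bc_nonneg q n) (H.bc_norm q n)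
  have h3 : 0 ≤ ‖x n q i‖ * ‖x n q i‖ := by positivity
  refine (smul_le_smul_of_nonneg_left h2 h3).trans ?_
  refine smul_le_smul_of_nonneg_right ?_ (H.bc_nonneg q n)
  rw [sq]
  exact mul_le_mul (H.xnorm n q i) (H.xnorm n q i) (norm_nonneg _) hR

lemma P_mul_star {r : ℕ} (hr4 : r < 4) (hR : 0 ≤ R) (q q' : Fin 4) (i i' : Fin m) {n : ℕ}
    (hr : n % 4 = r) {K : ℝ} (hK : ‖bsum h x r q i n‖ ≤ K) :
    ‖bsum h x r q i n * star (bc h q' n * x n q' i')‖ ≤ (16 * R + 2 * K) * (e * (1 / 2) ^ n) := by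
  have he := H.e_nonneg
  set P := bsum h x r q i n
  set c := bc h q' n with hc
  have h1 : P * star (c * x n q' i') = (P * c) * star (x n q' i') +
      P * star (c * x n q' i' - x n q' i' * c) := by
    rw [star_sub, star_mul, star_mul, hc, H.bc_star]; noncomm_ring
  rw [h1]
  refine (norm_add_le _ _).trans ?_
  have a1 : ‖(P * c) * star (x n q' i')‖ ≤ 16 * (e * (1 / 2) ^ n) * R := by
    refine (norm_mul_le _ _).trans ?_
    rw [norm_star]
    exact mul_le_mul (H.bc_mul_bsum hr4 q q' i hr).2 (H.xnorm n q' i') (norm_nonneg _)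
      (by positivity)
  have a2 : ‖P * star (c * x n q' i' - x n q' i' * c)‖ ≤ K * (2 * (e * (1 / 2) ^ n)) := by
    refine (norm_mul_le _ _).trans ?_
    rw [norm_star, norm_sub_rev]
    exact mul_le_mul hK (H.x_comm q' q' i' n) (norm_nonneg _) ((norm_nonneg _).trans hK)
  linarith only [a1, a2]

lemma bsum_norm_aux (hR : 1 ≤ R) (he16 : e ≤ 1 / 16) {r : ℕ} (hr4 : r < 4) (q : Fin 4)
    (i : Fin m) (n : ℕ) : ‖bsum h x r q i n‖ ≤ 3 * R ∧ ∃ E : A,
      ‖E‖ ≤ 44 * R * (2 * e - 2 * e * (1 / 2) ^ n) ∧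
      bsum h x r q i n * star (bsum h x r q i n) ≤ R ^ 2 • csum h r q n + E := by
  have he := H.e_nonneg
  induction n with
  | zero =>
    rw [bsum_zero, norm_zero]
    refine ⟨by linarith only [hR], 0, by simp, ?_⟩
    rw [csum_zero]
    simp
  | succ n ih =>
    obtain ⟨ih1, E, hE, hle⟩ := ih
    have hpow : 0 ≤ e * (1 / 2 : ℝ) ^ n := by positivity
    by_cases hr : n % 4 = r
    · set P := bsum h x r q i n with hP
      set p := bc h q n * x n q i with hp
      have hPs : ‖P * star p‖ ≤ 22 * R * (e * (1 / 2) ^ n) := by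
        refine (H.P_mul_star hr4 (by linarith only [hR]) q q i i hr ih1).trans (le_of_eq ?_)
        ring
      have hsP : ‖p * star P‖ ≤ 22 * R * (e * (1 / 2) ^ n) := by
        have : p * star P = star (P * star p) := by rw [star_mul, star_star]
        rw [this, norm_star]
        exact hPs
      have hstep : bsum h x r q i (n + 1) = P + p := bsum_succ_same h x q i hr
      have hex : ∃ E : A, ‖E‖ ≤ 44 * R * (2 * e - 2 * e * (1 / 2) ^ (n + 1)) ∧
          bsum h x r q i (n + 1) * star (bsum h x r q i (n + 1)) ≤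
            R ^ 2 • csum h r q (n + 1) + E := by
        refine ⟨E + (P * star p + p * star P), ?_, ?_⟩
        · refine (norm_add_le _ _).trans ?_
          have h1 := norm_add_le (P * star p) (p * star P)
          have h2 : 44 * R * (2 * e - 2 * e * (1 / 2) ^ (n + 1)) =
              44 * R * (2 * e - 2 * e * (1 / 2) ^ n) + 44 * R * (e * (1 / 2) ^ n) := by
            rw [pow_succ]; ring
          rw [h2]
          linarith only [hE, hPs, hsP, h1]
        · rw [hstep, csum_succ_same q hr]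
          have h1 : (P + p) * star (P + p) = P * star P + (P * star p + p * star P) +
              p * star p := by
            rw [star_add]; noncomm_ring
          have h2 : R ^ 2 • (csum h r q n + bc h q n) + (E + (P * star p + p * star P)) =
              (R ^ 2 • csum h r q n + E) + (P * star p + p * star P) + R ^ 2 • bc h q n := by
            rw [smul_add]; abel
          rw [h1, h2]
          exact add_le_add (add_le_add hle le_rfl) (H.pp_le (by linarith only [hR]) q i n)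
      refine ⟨?_, hex⟩
      obtain ⟨E', hE', hle'⟩ := hex
      have h0 : 0 ≤ bsum h x r q i (n + 1) * star (bsum h x r q i (n + 1)) := mul_star_self_nonneg _
      have h1 := CStarAlgebra.norm_le_norm_of_nonneg_of_le h0 hle'
      rw [CStarRing.norm_self_mul_star] at h1
      have h2 : ‖R ^ 2 • csum h r q (n + 1) + E'‖ ≤ 9 * R ^ 2 := by
        refine (norm_add_le _ _).trans ?_
        have h3 : ‖R ^ 2 • csum h r q (n + 1)‖ ≤ R ^ 2 * 3 := by
          rw [norm_smul, Real.norm_of_nonneg (by positivity)]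
          exact mul_le_mul_of_nonneg_left (H.csum_norm _ _ _) (by positivity)
        have h4 : 44 * R * (2 * e - 2 * e * (1 / 2) ^ (n + 1)) ≤ 44 * R * (2 * (1 / 16)) := by
          refine mul_le_mul_of_nonneg_left ?_ (by linarith only [hR])
          have : 0 ≤ 2 * e * (1 / 2 : ℝ) ^ (n + 1) := by (clear * - he; positivity)
          linarith only [he16, this]
        nlinarith only [hR, hE', h3, h4]
      have h5 : ‖bsum h x r q i (n + 1)‖ * ‖bsum h x r q i (n + 1)‖ ≤ (3 * R) * (3 * R) := by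
        refine (h1.trans h2).trans (le_of_eq ?_)
        ring
      exact (mul_self_le_mul_self_iff (norm_nonneg _) (by linarith only [hR])).mpr h5
    · rw [bsum_succ_ne h x q i hr, csum_succ_ne q hr]
      refine ⟨ih1, E, hE.trans ?_, hle⟩
      refine mul_le_mul_of_nonneg_left ?_ (by linarith only [hR])
      rw [pow_succ]
      have : 0 ≤ 2 * e * (1 / 2 : ℝ) ^ n := by (clear * - he; positivity)
      linarith only [hpow]

lemma bsum_norm (hR : 1 ≤ R) (he16 : e ≤ 1 / 16) {r : ℕ} (hr4 : r < 4) (q : Fin 4)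
    (i : Fin m) (n : ℕ) : ‖bsum h x r q i n‖ ≤ 3 * R :=
  (H.bsum_norm_aux hR he16 hr4 q i n).1

/-! ### commutators with multipliers -/

omit H in
lemma fst_mul' (y : 𝓜(ℂ, A)) (c z : A) : y.fst (c * z) = y.fst c * z := by
  rw [← sub_eq_zero]
  set d := y.fst (c * z) - y.fst c * z with hd
  have h1 : ∀ b, b * d = 0 := by
    intro b
    rw [hd, mul_sub, ← y.central, ← mul_assoc b, ← y.central]
    noncomm_ring
  exact (CStarRing.star_mul_self_eq_zero_iff d).mp (h1 (star d))

omit H in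
lemma snd_mul' (y : 𝓜(ℂ, A)) (c z : A) : y.snd (c * z) = c * y.snd z := by
  rw [← sub_eq_zero]
  set d := y.snd (c * z) - c * y.snd z with hd
  have h1 : ∀ b, d * b = 0 := by
    intro b
    rw [hd, sub_mul, y.central, mul_assoc c (y.snd z) b, y.central, mul_assoc, sub_self]
  exact (CStarRing.mul_star_self_eq_zero_iff d).mp (h1 (star d))

lemma h_idx {f : ℕ → ℝ} (h0 : ∀ k < 2, f k ≤ 0) (hs : ∀ n, f (n + 2) ≤ e * (1 / 2) ^ n)
    {n k : ℕ} (hk : n - 1 ≤ k) : f k ≤ 8 * (e * (1 / 2) ^ n) := by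
  have he := H.e_nonneg
  rcases Nat.lt_or_ge k 2 with h2 | h2
  · exact (h0 k h2).trans (by positivity)
  · have h3 := hs (k - 2)
    rw [show k - 2 + 2 = k by omega] at h3
    refine h3.trans ?_
    have := mul_le_mul_of_nonneg_left (half_pow_le (N := k - 2) (n := n) (by omega)) he
    linarith only [this]

lemma bc_Y (q : Fin 4) (n : ℕ) {y : 𝓜(ℂ, A)} (hy : y ∈ Y) :
    ‖y.snd (bc h q n) - y.fst (bc h q n)‖ ≤ 16 * (e * (1 / 2) ^ n) := by
  have := H.bc_small (fun v => y.snd v - y.fst v)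
    (fun u v => by simp only [map_sub]; abel) q n (δ := 8 * (e * (1 / 2) ^ n)) (by
      intro k hk _
      refine H.h_idx (f := fun k => ‖y.snd (h k) - y.fst (h k)‖) ?_ ?_ hk
      · intro k hk
        show ‖y.snd (h k) - y.fst (h k)‖ ≤ 0
        rw [H.h_small hk, map_zero, map_zero, sub_zero, norm_zero]
      · intro n
        show ‖y.snd (h (n + 2)) - y.fst (h (n + 2))‖ ≤ _
        rw [norm_sub_rev]
        exact H.hY n y hy)
  refine this.trans (le_of_eq ?_)
  ring

lemma bsum_Y {M : ℝ} {y : 𝓜(ℂ, A)} (hy : y ∈ Y) (hM : ‖y.snd‖ ≤ M) (hR : 0 ≤ R)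
    (r : ℕ) (q : Fin 4) (i : Fin m) (n : ℕ) :
    ‖y.snd (bsum h x r q i n) - y.fst (bsum h x r q i n)‖ ≤ (2 * M + 1 + 16 * R) * (2 * e) := by
  have he := H.e_nonneg
  have hM0 : 0 ≤ M := (norm_nonneg _).trans hM
  refine acc_bound (fun n => y.snd (bsum h x r q i n) - y.fst (bsum h x r q i n)) ?_ ?_
    (by positivity) he n
  · simp [bsum_zero]
  · intro n
    show ‖(y.snd (bsum h x r q i (n + 1)) - y.fst (bsum h x r q i (n + 1))) -
      (y.snd (bsum h x r q i n) - y.fst (bsum h x r q i n))‖ ≤ _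
    by_cases hr : n % 4 = r
    · rw [bsum_succ_same h x q i hr, map_add, map_add]
      have hcY := H.bc_Y q n hy
      have hxc := H.x_comm q q i n
      have hxn := H.xnorm n q i
      have hxY : ‖x n q i * y.snd (bc h q n) - y.snd (bc h q n) * x n q i‖ ≤ e * (1 / 2) ^ n := by
        unfold bc
        split_ifs
        · exact (H.xY n q i y hy).2
        · exact (H.xY n q i y hy).1
      set c := bc h q n with hc
      have key : y.snd (bsum h x r q i n) + y.snd (c * x n q i) -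
          (y.fst (bsum h x r q i n) + y.fst (c * x n q i)) -
          (y.snd (bsum h x r q i n) - y.fst (bsum h x r q i n)) =
          y.snd (c * x n q i - x n q i * c) + (x n q i * y.snd c - y.snd c * x n q i) +
            (y.snd c - y.fst c) * x n q i := by
        rw [map_sub, snd_mul' y (x n q i) c, fst_mul' y c (x n q i)]
        noncomm_ring
      rw [key]
      refine (norm_add₃_le).trans ?_
      have a1 : ‖y.snd (c * x n q i - x n q i * c)‖ ≤ M * (2 * (e * (1 / 2) ^ n)) := by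
        refine (y.snd.le_opNorm _).trans ?_
        rw [norm_sub_rev]
        exact mul_le_mul hM hxc (norm_nonneg _) hM0
      have a2 : ‖(y.snd c - y.fst c) * x n q i‖ ≤ 16 * (e * (1 / 2) ^ n) * R := by
        refine (norm_mul_le _ _).trans ?_
        exact mul_le_mul hcY hxn (norm_nonneg _) (by positivity)
      linarith only [hxY, a1, a2]
    · rw [bsum_succ_ne h x q i hr, sub_self, norm_zero]
      (clear * - hM0 hR he; positivity)

/-! ### almost invariance -/

lemma bc_S (q : Fin 4) (n : ℕ) {g : G} (hg : g ∈ S) :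
    ‖α g (bc h q n) - bc h q n‖ ≤ 16 * (e * (1 / 2) ^ n) := by
  have := H.bc_small (fun v => α g v - v)
    (fun u v => by simp only [map_sub]; abel) q n (δ := 8 * (e * (1 / 2) ^ n)) (by
      intro k hk _
      refine H.h_idx (f := fun k => ‖α g (h k) - h k‖) ?_ ?_ hk
      · intro k hk
        show ‖α g (h k) - h k‖ ≤ 0
        rw [H.h_small hk, map_zero, sub_zero, norm_zero]
      · intro n
        exact H.hS n g hg)
  refine this.trans (le_of_eq ?_)
  ring

lemma bsum_S {g : G} (hg : g ∈ S) (hR : 0 ≤ R)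
    (r : ℕ) (q : Fin 4) (i : Fin m) (n : ℕ) :
    ‖α g (bsum h x r q i n) - bsum h x r q i n‖ ≤ (1 + 16 * R) * (2 * e) := by
  have he := H.e_nonneg
  refine acc_bound (fun n => α g (bsum h x r q i n) - bsum h x r q i n) ?_ ?_
    (by positivity) he n
  · simp [bsum_zero]
  · intro n
    show ‖(α g (bsum h x r q i (n + 1)) - bsum h x r q i (n + 1)) -
      (α g (bsum h x r q i n) - bsum h x r q i n)‖ ≤ _
    by_cases hr : n % 4 = r
    · rw [bsum_succ_same h x q i hr, map_add, map_mul]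
      have hcS := H.bc_S q n hg
      have hxn := H.xnorm n q i
      have hxS : ‖bc h q n * (α g (x n q i) - x n q i)‖ ≤ e * (1 / 2) ^ n := by
        unfold bc
        split_ifs
        · exact (H.xS n q i g hg).2
        · exact (H.xS n q i g hg).1
      have hax : ‖α g (x n q i)‖ ≤ R :=
        (NonUnitalStarAlgHom.norm_apply_le (α g) (x n q i)).trans hxn
      set c := bc h q n with hc
      have key : α g (bsum h x r q i n) + α g c * α g (x n q i) -
          (bsum h x r q i n + c * x n q i) - (α g (bsum h x r q i n) - bsum h x r q i n) =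
          (α g c - c) * α g (x n q i) + c * (α g (x n q i) - x n q i) := by
        noncomm_ring
      rw [key]
      refine (norm_add_le _ _).trans ?_
      have a2 : ‖(α g c - c) * α g (x n q i)‖ ≤ 16 * (e * (1 / 2) ^ n) * R := by
        refine (norm_mul_le _ _).trans ?_
        exact mul_le_mul hcS hax (norm_nonneg _) (by positivity)
      linarith only [hxS, a2]
    · rw [bsum_succ_ne h x q i hr, sub_self, norm_zero]
      (clear * - hR he; positivity)

/-! ### strict convergence -/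

lemma hh_a {j n k : ℕ} (hjn : j + 3 ≤ n) (hk : n - 1 ≤ k) :
    ‖h k * a j - a j‖ ≤ 8 * (e * (1 / 2) ^ n) ∧ ‖a j * h k - a j‖ ≤ 8 * (e * (1 / 2) ^ n) := by
  have he := H.e_nonneg
  have h3 := H.ha (k - 2) j (by omega)
  rw [show k - 2 + 2 = k by omega] at h3
  have h4 := mul_le_mul_of_nonneg_left (half_pow_le (N := k - 2) (n := n) (by omega)) he
  constructor
  · exact h3.1.trans (by linarith only [h4])
  · exact h3.2.trans (by linarith only [h4])

lemma bc_a (q : Fin 4) {j n : ℕ} (hjn : j + 3 ≤ n) :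
    ‖bc h q n * a j‖ ≤ 16 * (e * (1 / 2) ^ n) ∧ ‖a j * bc h q n‖ ≤ 16 * (e * (1 / 2) ^ n) := by
  obtain ⟨k1, k2, h1, h2, h3, hc⟩ := bc_form h q n
  have b1 := H.hh_a hjn (h1.trans h2)
  have b2 := H.hh_a hjn h1
  rw [hc]
  constructor
  · have : (h k1 - h k2) * a j = (h k1 * a j - a j) - (h k2 * a j - a j) := by noncomm_ring
    rw [this]
    refine (norm_sub_le _ _).trans ?_
    linarith only [b1, b2]
  · have : a j * (h k1 - h k2) = (a j * h k1 - a j) - (a j * h k2 - a j) := by noncomm_ring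
    rw [this]
    refine (norm_sub_le _ _).trans ?_
    linarith only [b1, b2]

lemma bsum_cauchy (hR : 0 ≤ R) (r : ℕ) (q : Fin 4) (i : Fin m) (j : ℕ) :
    (CauchySeq fun n => bsum h x r q i n * a j) ∧ CauchySeq fun n => a j * bsum h x r q i n := by
  have he := H.e_nonneg
  have hbig : ∀ n, n < j + 3 → R * ‖a j‖ ≤ (R * ‖a j‖ * 2 ^ (j + 3)) * (1 / 2) ^ n := by
    intro n hn
    have h1 : (1 : ℝ) ≤ 2 ^ (j + 3) * (1 / 2) ^ n := by
      have h2 : (2 : ℝ) ^ (j + 3) = 2 ^ (j + 3 - n) * 2 ^ n := by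
        rw [← pow_add]; congr 1; omega
      rw [h2, mul_assoc, ← mul_pow]
      norm_num
      exact one_le_pow₀ (by norm_num)
    have h3 : 0 ≤ R * ‖a j‖ := by positivity
    nlinarith
  have hstep : ∀ n, ‖bsum h x r q i (n + 1) * a j - bsum h x r q i n * a j‖ ≤
      ((1 + 16 * R) * e + R * ‖a j‖ * 2 ^ (j + 3)) * (1 / 2) ^ n ∧
      ‖a j * bsum h x r q i (n + 1) - a j * bsum h x r q i n‖ ≤
      ((1 + 16 * R) * e + R * ‖a j‖ * 2 ^ (j + 3)) * (1 / 2) ^ n := by
    intro n
    have hxn := H.xnorm n q i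
    have hcn := H.bc_norm q n
    have hp : 0 ≤ (1 / 2 : ℝ) ^ n := by positivity
    have t1 : 0 ≤ (1 + 16 * R) * e * (1 / 2) ^ n := by positivity
    have t2 : 0 ≤ (R * ‖a j‖ * 2 ^ (j + 3)) * (1 / 2) ^ n := by positivity
    by_cases hr : n % 4 = r
    · rw [bsum_succ_same h x q i hr]
      have k1 : (bsum h x r q i n + bc h q n * x n q i) * a j - bsum h x r q i n * a j =
          bc h q n * x n q i * a j := by noncomm_ring
      have k2 : a j * (bsum h x r q i n + bc h q n * x n q i) - a j * bsum h x r q i n =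
          a j * bc h q n * x n q i := by noncomm_ring
      rw [k1, k2]
      rcases Nat.lt_or_ge n (j + 3) with hn | hn
      · have h1 := hbig n hn
        have h2 : ‖bc h q n * x n q i * a j‖ ≤ 1 * R * ‖a j‖ :=
          (norm_mul_le _ _).trans (mul_le_mul_of_nonneg_right
            ((norm_mul_le _ _).trans (mul_le_mul hcn hxn (norm_nonneg _) zero_le_one))
            (norm_nonneg _))
        have h3 : ‖a j * bc h q n * x n q i‖ ≤ ‖a j‖ * 1 * R :=
          (norm_mul_le _ _).trans (mul_le_mul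
            ((norm_mul_le _ _).trans (mul_le_mul_of_nonneg_left hcn (norm_nonneg _)))
            hxn (norm_nonneg _) (by positivity))
        constructor
        · linarith
        · linarith only [t1, h1, h3]
      · have h1 := H.bc_a q hn
        have h2 := H.xa n q i j (by omega)
        constructor
        · have k3 : bc h q n * x n q i * a j = bc h q n * (x n q i * a j - a j * x n q i) +
              bc h q n * a j * x n q i := by noncomm_ring
          rw [k3]
          refine (norm_add_le _ _).trans ?_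
          have s1 : ‖bc h q n * (x n q i * a j - a j * x n q i)‖ ≤ 1 * (e * (1 / 2) ^ n) :=
            (norm_mul_le _ _).trans (mul_le_mul hcn h2 (norm_nonneg _) zero_le_one)
          have s2 : ‖bc h q n * a j * x n q i‖ ≤ 16 * (e * (1 / 2) ^ n) * R :=
            (norm_mul_le _ _).trans (mul_le_mul h1.1 hxn (norm_nonneg _) (by (clear * - he; positivity)))
          linarith only [t2, s1, s2]
        · have s2 : ‖a j * bc h q n * x n q i‖ ≤ 16 * (e * (1 / 2) ^ n) * R :=
            (norm_mul_le _ _).trans (mul_le_mul h1.2 hxn (norm_nonneg _) (by (clear * - he; positivity)))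
          have s3 : 0 ≤ e * (1 / 2 : ℝ) ^ n := by positivity
          linarith only [t2, s2, s3]
    · rw [bsum_succ_ne h x q i hr, sub_self, sub_self, norm_zero]
      constructor <;> linarith only [t1, t2]
  constructor
  · refine cauchySeq_of_le_geometric (1 / 2)
      ((1 + 16 * R) * e + R * ‖a j‖ * 2 ^ (j + 3)) (by norm_num) fun n => ?_
    rw [dist_eq_norm, norm_sub_rev]
    exact (hstep n).1
  · refine cauchySeq_of_le_geometric (1 / 2)
      ((1 + 16 * R) * e + R * ‖a j‖ * 2 ^ (j + 3)) (by norm_num) fun n => ?_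
    rw [dist_eq_norm, norm_sub_rev]
    exact (hstep n).2

lemma h_tendsto (j : ℕ) : Tendsto (fun n => h n * a j) atTop (𝓝 (a j)) ∧
    Tendsto (fun n => a j * h n) atTop (𝓝 (a j)) := by
  have hlim : Tendsto (fun n : ℕ => 8 * (e * (1 / 2 : ℝ) ^ n)) atTop (𝓝 0) := by
    have := tendsto_pow_atTop_nhds_zero_of_lt_one (r := (1 / 2 : ℝ)) (by norm_num) (by norm_num)
    simpa only [one_div, inv_pow, mul_zero] using (this.const_mul e).const_mul 8
  constructor
  · rw [tendsto_iff_norm_sub_tendsto_zero]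
    refine squeeze_zero' (Eventually.of_forall fun n => norm_nonneg _) ?_ hlim
    filter_upwards [eventually_ge_atTop (j + 3)] with n hn
    exact (H.hh_a hn (by omega)).1
  · rw [tendsto_iff_norm_sub_tendsto_zero]
    refine squeeze_zero' (Eventually.of_forall fun n => norm_nonneg _) ?_ hlim
    filter_upwards [eventually_ge_atTop (j + 3)] with n hn
    exact (H.hh_a hn (by omega)).2

/-! ### the relation -/

lemma bg_bu (n : ℕ) : ‖bg h n * bu h n - bu h n‖ ≤ 18 * (e * (1 / 2) ^ n) := by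
  have he := H.e_nonneg
  have b1 := (H.hh n (n + 1) le_rfl).1
  have b2 := (H.hh n n (by omega)).1
  have b3 : ‖h (n - 1) * bu h n‖ ≤ 16 * (e * (1 / 2) ^ n) := by
    rcases Nat.lt_or_ge n 2 with hn | hn
    · rw [H.h_small (show n - 1 < 2 by omega), zero_mul, norm_zero]
      positivity
    · have c1 := (H.hh (n - 1) (n - 1) (by omega)).2
      have c2 := (H.hh (n - 2) (n - 1) (by omega)).2
      rw [show n - 1 + 2 = n + 1 by omega] at c1
      rw [show n - 2 + 2 = n by omega] at c2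
      have d1 := mul_le_mul_of_nonneg_left (half_pow_le (N := n - 1) (n := n) (by omega)) he
      have d2 := mul_le_mul_of_nonneg_left (half_pow_le (N := n - 2) (n := n) (by omega)) he
      have : h (n - 1) * bu h n = (h (n - 1) * h (n + 1) - h (n - 1)) -
          (h (n - 1) * h n - h (n - 1)) := by unfold bu; noncomm_ring
      rw [this]
      refine (norm_sub_le _ _).trans ?_
      linarith
  have key : bg h n * bu h n - bu h n = (h (n + 2) * h (n + 1) - h (n + 1)) -
      (h (n + 2) * h n - h n) - h (n - 1) * bu h n := by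
    unfold bg bu; noncomm_ring
  rw [key]
  refine (norm_sub_le _ _).trans ?_
  have := norm_sub_le (h (n + 2) * h (n + 1) - h (n + 1)) (h (n + 2) * h n - h n)
  linarith only [b1, b2, b3, this]

lemma P_mul_p (hR : 0 ≤ R) {r : ℕ} (hr4 : r < 4) (q q' : Fin 4) (i i' : Fin m)
    {n : ℕ} (hr : n % 4 = r) (hK : ‖bsum h x r q i n‖ ≤ 3 * R) :
    ‖bsum h x r q i n * (bc h q' n * x n q' i')‖ ≤ 22 * R * (e * (1 / 2) ^ n) ∧
      ‖(bc h q' n * x n q' i') * bsum h x r q i n‖ ≤ 22 * R * (e * (1 / 2) ^ n) := by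
  have he := H.e_nonneg
  have hp : 0 ≤ R * (e * (1 / 2 : ℝ) ^ n) := by (clear * - hR he; positivity)
  have hb := H.bc_mul_bsum hr4 q q' i hr
  have hx := H.xnorm n q' i'
  have hc := H.x_comm q' q' i' n
  constructor
  · rw [← mul_assoc]
    have := (norm_mul_le (bsum h x r q i n * bc h q' n) (x n q' i')).trans
      (mul_le_mul hb.2 hx (norm_nonneg _) (by positivity))
    linarith
  · have key : (bc h q' n * x n q' i') * bsum h x r q i n =
        x n q' i' * (bc h q' n * bsum h x r q i n) -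
          (x n q' i' * bc h q' n - bc h q' n * x n q' i') * bsum h x r q i n := by noncomm_ring
    rw [key]
    refine (norm_sub_le _ _).trans ?_
    have a1 := (norm_mul_le (x n q' i') (bc h q' n * bsum h x r q i n)).trans
      (mul_le_mul hx hb.1 (norm_nonneg _) hR)
    have a2 := (norm_mul_le (x n q' i' * bc h q' n - bc h q' n * x n q' i')
      (bsum h x r q i n)).trans (mul_le_mul hc hK (norm_nonneg _) (by (clear * - he; positivity)))
    linarith only [a1, a2]

/-- one term of the commutator expression -/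
def term (h : ℕ → A) (x : ℕ → Fin 4 → Fin m → A) (r : ℕ) (i : Fin m) (n : ℕ) : A :=
  bsum h x r 0 i n * (bsum h x r 1 i n * bsum h x r 2 i n - bsum h x r 2 i n * bsum h x r 1 i n) *
    bsum h x r 3 i n

lemma term_step (hR : 1 ≤ R) (he16 : e ≤ 1 / 16) {r : ℕ} (hr4 : r < 4) (i : Fin m) {n : ℕ}
    (hr : n % 4 = r) :
    ‖term h x r i (n + 1) - term h x r i n -
      bu h n * (x n 0 i * (x n 1 i * x n 2 i - x n 2 i * x n 1 i) * x n 3 i)‖ ≤
      (5544 * R ^ 3 + 24 * R ^ 3 + 108 * R ^ 4) * (e * (1 / 2) ^ n) := by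
  have he := H.e_nonneg
  have hR0 : 0 ≤ R := by linarith only [hR]
  have hη : 0 ≤ e * (1 / 2 : ℝ) ^ n := by positivity
  have hK : ∀ q, ‖bsum h x r q i n‖ ≤ 3 * R := fun q => H.bsum_norm hR he16 hr4 q i n
  have hPp : ∀ q q', ‖bsum h x r q i n * (bc h q' n * x n q' i)‖ ≤ 22 * R * (e * (1 / 2) ^ n) :=
    fun q q' => (H.P_mul_p hR0 hr4 q q' i i hr (hK q)).1
  have hpP : ∀ q q', ‖(bc h q' n * x n q' i) * bsum h x r q i n‖ ≤ 22 * R * (e * (1 / 2) ^ n) :=
    fun q q' => (H.P_mul_p hR0 hr4 q q' i i hr (hK q)).2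
  have hpn : ∀ q, ‖bc h q n * x n q i‖ ≤ 3 * R := by
    intro q
    have := (norm_mul_le (bc h q n) (x n q i)).trans
      (mul_le_mul (H.bc_norm q n) (H.xnorm n q i) (norm_nonneg _) zero_le_one)
    linarith only [hR, this]
  have hbound : 14 * (3 * R) ^ 2 * (22 * R * (e * (1 / 2) ^ n)) =
      2772 * R ^ 3 * (e * (1 / 2) ^ n) := by ring
  have m1 := mixed_bound (K := 3 * R) (δ := 22 * R * (e * (1 / 2) ^ n)) (by positivity)
    (by (clear * - hR he; positivity)) (hK 0) (hpn 0) (hK 1) (hpn 1) (hK 2) (hpn 2) (hK 3) (hpn 3)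
    (hPp 0 1) (hpP 1 0) (hPp 1 2) (hpP 2 1) (hPp 2 3) (hpP 3 2)
  have m2 := mixed_bound (K := 3 * R) (δ := 22 * R * (e * (1 / 2) ^ n)) (by positivity)
    (by positivity) (hK 0) (hpn 0) (hK 2) (hpn 2) (hK 1) (hpn 1) (hK 3) (hpn 3)
    (hPp 0 2) (hpP 2 0) (hPp 2 1) (hpP 1 2) (hPp 1 3) (hpP 3 1)
  rw [hbound] at m1 m2
  have b0 : bc h 0 n = bg h n := by unfold bc; rw [if_neg (by decide)]
  have b1 : bc h 1 n = bg h n := by unfold bc; rw [if_neg (by decide)]
  have b2 : bc h 2 n = bg h n := by unfold bc; rw [if_neg (by decide)]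
  have b3 : bc h 3 n = bu h n := by unfold bc; rw [if_pos rfl]
  have hgn : ‖bg h n‖ ≤ 1 := by rw [← b0]; exact H.bc_norm 0 n
  have hun : ‖bu h n‖ ≤ 1 := by rw [← b3]; exact H.bc_norm 3 n
  have hxg : ∀ q, ‖x n q i * bg h n - bg h n * x n q i‖ ≤ 2 * (e * (1 / 2) ^ n) := by
    intro q; rw [← b0]; exact H.x_comm q 0 i n
  have hxu : ∀ q, ‖x n q i * bu h n - bu h n * x n q i‖ ≤ 2 * (e * (1 / 2) ^ n) := by
    intro q; rw [← b3]; exact H.x_comm q 3 i n
  have hgu := H.bg_bu n
  have p1 := pure_bound hR0 (κ := 2 * (e * (1 / 2) ^ n)) (l := 18 * (e * (1 / 2) ^ n))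
    (by (clear * - he; positivity)) (by (clear * - he; positivity)) hgn hun (H.xnorm n 0 i) (H.xnorm n 1 i) (H.xnorm n 2 i)
    (H.xnorm n 3 i) (hxg 0) (hxg 1) (hxu 0) (hxu 1) (hxu 2) hgu
  have p2 := pure_bound hR0 (κ := 2 * (e * (1 / 2) ^ n)) (l := 18 * (e * (1 / 2) ^ n))
    (by (clear * - he; positivity)) (by (clear * - he; positivity)) hgn hun (H.xnorm n 0 i) (H.xnorm n 2 i) (H.xnorm n 1 i)
    (H.xnorm n 3 i) (hxg 0) (hxg 2) (hxu 0) (hxu 2) (hxu 1) hgu
  rw [b0, b1, b2, b3] at m1 m2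
  have t1 : term h x r i (n + 1) =
      (bsum h x r 0 i n + bg h n * x n 0 i) *
        ((bsum h x r 1 i n + bg h n * x n 1 i) * (bsum h x r 2 i n + bg h n * x n 2 i)) *
        (bsum h x r 3 i n + bu h n * x n 3 i) -
      (bsum h x r 0 i n + bg h n * x n 0 i) *
        ((bsum h x r 2 i n + bg h n * x n 2 i) * (bsum h x r 1 i n + bg h n * x n 1 i)) *
        (bsum h x r 3 i n + bu h n * x n 3 i) := by
    unfold term
    rw [bsum_succ_same h x 0 i hr, bsum_succ_same h x 1 i hr, bsum_succ_same h x 2 i hr,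
      bsum_succ_same h x 3 i hr, b0, b1, b2, b3, mul_sub, sub_mul]
  have t0 : term h x r i n =
      bsum h x r 0 i n * (bsum h x r 1 i n * bsum h x r 2 i n) * bsum h x r 3 i n -
      bsum h x r 0 i n * (bsum h x r 2 i n * bsum h x r 1 i n) * bsum h x r 3 i n := by
    unfold term
    rw [mul_sub, sub_mul]
  have t2 : bu h n * (x n 0 i * (x n 1 i * x n 2 i - x n 2 i * x n 1 i) * x n 3 i) =
      bu h n * (x n 0 i * (x n 1 i * x n 2 i) * x n 3 i) -
      bu h n * (x n 0 i * (x n 2 i * x n 1 i) * x n 3 i) := by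
    rw [mul_sub (x n 0 i), sub_mul, mul_sub]
  rw [t1, t0, t2]
  generalize hz1 : (bsum h x r 0 i n + bg h n * x n 0 i) *
        ((bsum h x r 1 i n + bg h n * x n 1 i) * (bsum h x r 2 i n + bg h n * x n 2 i)) *
        (bsum h x r 3 i n + bu h n * x n 3 i) = z1 at m1 ⊢
  generalize hz2 : (bsum h x r 0 i n + bg h n * x n 0 i) *
        ((bsum h x r 2 i n + bg h n * x n 2 i) * (bsum h x r 1 i n + bg h n * x n 1 i)) *
        (bsum h x r 3 i n + bu h n * x n 3 i) = z2 at m2 ⊢
  generalize bsum h x r 0 i n * (bsum h x r 1 i n * bsum h x r 2 i n) * bsum h x r 3 i n = w1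
    at m1 ⊢
  generalize bsum h x r 0 i n * (bsum h x r 2 i n * bsum h x r 1 i n) * bsum h x r 3 i n = w2
    at m2 ⊢
  generalize bg h n * x n 0 i * (bg h n * x n 1 i * (bg h n * x n 2 i)) * (bu h n * x n 3 i) = v1
    at m1 p1
  generalize bg h n * x n 0 i * (bg h n * x n 2 i * (bg h n * x n 1 i)) * (bu h n * x n 3 i) = v2
    at m2 p2
  generalize bu h n * (x n 0 i * (x n 1 i * x n 2 i) * x n 3 i) = o1 at p1 ⊢
  generalize bu h n * (x n 0 i * (x n 2 i * x n 1 i) * x n 3 i) = o2 at p2 ⊢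
  have key : z1 - z2 - (w1 - w2) - (o1 - o2) =
      (z1 - (w1 + v1)) - (z2 - (w2 + v2)) + ((v1 - o1) - (v2 - o2)) := by abel
  rw [key]
  have q1 := norm_sub_le (z1 - (w1 + v1)) (z2 - (w2 + v2))
  have q2 := norm_sub_le (v1 - o1) (v2 - o2)
  refine (norm_add_le _ _).trans ?_
  have hfin : (5544 * R ^ 3 + 24 * R ^ 3 + 108 * R ^ 4) * (e * (1 / 2) ^ n) =
      2 * (2772 * R ^ 3 * (e * (1 / 2) ^ n)) +
      2 * (6 * (2 * (e * (1 / 2) ^ n)) * R ^ 3 + 3 * (18 * (e * (1 / 2) ^ n)) * R ^ 4) := by ring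
  rw [hfin]
  linarith only [m1, m2, p1, p2, q1, q2]

lemma rel_bound (hR : 1 ≤ R) (he16 : e ≤ 1 / 16) (n : ℕ) :
    ‖(∑ r ∈ Finset.range 4, ∑ i, term h x r i n) - h n‖ ≤
      (m * (5544 * R ^ 3 + 24 * R ^ 3 + 108 * R ^ 4) + 1) * (2 * e) := by
  have he := H.e_nonneg
  have hR0 : 0 ≤ R := by linarith only [hR]
  refine acc_bound (fun n => (∑ r ∈ Finset.range 4, ∑ i, term h x r i n) - h n) ?_ ?_
    (by (clear * - hR; positivity)) he n
  · show (∑ r ∈ Finset.range 4, ∑ i, term h x r i 0) - h 0 = 0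
    rw [H.h0, sub_zero]
    refine Finset.sum_eq_zero fun r _ => Finset.sum_eq_zero fun i _ => ?_
    unfold term
    rw [bsum_zero, zero_mul, zero_mul]
  · intro n
    show ‖((∑ r ∈ Finset.range 4, ∑ i, term h x r i (n + 1)) - h (n + 1)) -
      ((∑ r ∈ Finset.range 4, ∑ i, term h x r i n) - h n)‖ ≤ _
    have hr4 : n % 4 < 4 := Nat.mod_lt _ (by norm_num)
    have e1 : (∑ r ∈ Finset.range 4, ∑ i, term h x r i (n + 1)) -
        (∑ r ∈ Finset.range 4, ∑ i, term h x r i n) =
        ∑ i, (term h x (n % 4) i (n + 1) - term h x (n % 4) i n) := by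
      rw [← Finset.sum_sub_distrib]
      rw [Finset.sum_eq_single (n % 4)]
      · rw [← Finset.sum_sub_distrib]
      · intro r _ hne
        rw [← Finset.sum_sub_distrib]
        refine Finset.sum_eq_zero fun i _ => ?_
        unfold term
        rw [bsum_succ_ne h x 0 i hne.symm, bsum_succ_ne h x 1 i hne.symm,
          bsum_succ_ne h x 2 i hne.symm, bsum_succ_ne h x 3 i hne.symm, sub_self]
      · intro hn
        exact absurd (Finset.mem_range.mpr hr4) hn
    have e2 : ((∑ r ∈ Finset.range 4, ∑ i, term h x r i (n + 1)) - h (n + 1)) -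
        ((∑ r ∈ Finset.range 4, ∑ i, term h x r i n) - h n) =
        ∑ i, (term h x (n % 4) i (n + 1) - term h x (n % 4) i n -
          bu h n * (x n 0 i * (x n 1 i * x n 2 i - x n 2 i * x n 1 i) * x n 3 i)) +
        (bu h n * (∑ i, x n 0 i * (x n 1 i * x n 2 i - x n 2 i * x n 1 i) * x n 3 i) -
          bu h n) := by
      rw [Finset.sum_sub_distrib, ← e1, Finset.mul_sum]
      unfold bu
      abel
    rw [e2]
    refine (norm_add_le _ _).trans ?_
    have e3 : ‖∑ i, (term h x (n % 4) i (n + 1) - term h x (n % 4) i n -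
          bu h n * (x n 0 i * (x n 1 i * x n 2 i - x n 2 i * x n 1 i) * x n 3 i))‖ ≤
        m * ((5544 * R ^ 3 + 24 * R ^ 3 + 108 * R ^ 4) * (e * (1 / 2) ^ n)) := by
      refine (norm_sum_le _ _).trans ?_
      refine (Finset.sum_le_sum fun i _ => H.term_step hR he16 hr4 i rfl).trans ?_
      rw [Finset.sum_const, Finset.card_univ, Fintype.card_fin, nsmul_eq_mul]
    have e4 := H.rel n
    linarith only [e3, e4]

end BlockSeq

end

/-- All estimates for the block sums. -/
theorem blockSeq_bounds [PartialOrder A] [StarOrderedRing A] {G : Type w} [Group G]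
    (α : G →* (A ≃⋆ₐ[ℂ] A)) (m : ℕ) (R : ℝ) (hR : 1 ≤ R) (Y : Finset 𝓜(ℂ, A)) (S : Finset G)
    (ε : ℝ) (hε : 0 < ε) : ∃ ε' : ℝ, 0 < ε' ∧ ∀ (a h : ℕ → A) (x : ℕ → Fin 4 → Fin m → A),
      BlockSeq α m R Y S (fun n => ε' * (1 / 2) ^ n) a h x →
      (∀ r < 4, ∀ q i n, ‖bsum h x r q i n‖ ≤ 3 * R) ∧
      (∀ r < 4, ∀ q i n, ∀ y ∈ Y, ‖y.snd (bsum h x r q i n) - y.fst (bsum h x r q i n)‖ ≤ ε) ∧
      (∀ r < 4, ∀ q i n, ∀ g ∈ S, ‖α g (bsum h x r q i n) - bsum h x r q i n‖ ≤ ε) ∧
      (∀ n, ‖(∑ r ∈ Finset.range 4, ∑ i, bsum h x r 0 i n *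
        (bsum h x r 1 i n * bsum h x r 2 i n - bsum h x r 2 i n * bsum h x r 1 i n) *
          bsum h x r 3 i n) - h n‖ ≤ ε) ∧
      (∀ r < 4, ∀ q i j, (CauchySeq fun n => bsum h x r q i n * a j) ∧
        CauchySeq fun n => a j * bsum h x r q i n) ∧
      ∀ j, Tendsto (fun n => h n * a j) atTop (𝓝 (a j)) ∧
        Tendsto (fun n => a j * h n) atTop (𝓝 (a j)) := by
  have hR0 : 0 ≤ R := by linarith only [hR]
  set M : ℝ := ∑ y ∈ Y, ‖y.snd‖ with hM
  have hM0 : 0 ≤ M := Finset.sum_nonneg fun y _ => norm_nonneg _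
  set L : ℝ := (2 * M + 1 + 16 * R) +
    (m * (5544 * R ^ 3 + 24 * R ^ 3 + 108 * R ^ 4) + 1) with hL
  have hL0 : 0 < L := by (clear * - hR; positivity)
  refine ⟨min (1 / 16) (ε / (2 * L)), by positivity, ?_⟩
  intro a h x H
  set e : ℝ := min (1 / 16) (ε / (2 * L)) with he
  have he16 : e ≤ 1 / 16 := min_le_left _ _
  have he0 : 0 ≤ e := H.e_nonneg
  have hLe : L * (2 * e) ≤ ε := by
    have h1 : e ≤ ε / (2 * L) := min_le_right _ _
    calc L * (2 * e) ≤ L * (2 * (ε / (2 * L))) := by (clear * - h1 hR; gcongr)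
      _ = ε := by field_simp
  have hpos1 : 0 ≤ 2 * M + 1 + 16 * R := by (clear * - hR; positivity)
  have hpos2 : 0 ≤ m * (5544 * R ^ 3 + 24 * R ^ 3 + 108 * R ^ 4) + 1 := by positivity
  refine ⟨fun r hr q i n => H.bsum_norm hR he16 hr q i n, fun r _ q i n y hy => ?_,
    fun r _ q i n g hg => ?_, fun n => ?_, fun r _ q i j => H.bsum_cauchy hR0 r q i j,
    H.h_tendsto⟩
  · refine (H.bsum_Y hy (M := M) ?_ hR0 r q i n).trans (le_trans ?_ hLe)
    · exact Finset.single_le_sum (f := fun y : 𝓜(ℂ, A) => ‖y.snd‖)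
        (fun y _ => norm_nonneg _) hy
    · refine mul_le_mul_of_nonneg_right ?_ (by (clear * - hε hR; positivity))
      rw [hL]; linarith only [hpos2]
  · refine (H.bsum_S hg hR0 r q i n).trans (le_trans ?_ hLe)
    refine mul_le_mul_of_nonneg_right ?_ (by (clear * - hε hR; positivity))
    rw [hL]; linarith only [hM0, hpos2]
  · refine (H.rel_bound hR he16 n).trans (le_trans ?_ hLe)
    refine mul_le_mul_of_nonneg_right ?_ (by (clear * - hε hR; positivity))
    rw [hL]; linarith only [hR, hM0]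

end Vale.Agent.P095R
end

section

/-! Definitions for the relative comparison theorem. -/

namespace Vale.Agent.P095C

open Vale.Agent Vale.Agent.P133 Vale.Agent.P095N

universe u

variable {M : Type u} [CStarAlgebra M]

/-- The hereditary subalgebra generated by `u`, as a set. -/
def herC (u : M) : Set M := closure (Set.range fun x : M => u * x * u)

/-- The unital C*-algebra generated by the hereditary subalgebra of `u`. -/
noncomputable def herU (u : M) : StarSubalgebra ℂ M :=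
  (StarAlgebra.adjoin ℂ (Set.range fun x : M => u * x * u)).topologicalClosure

theorem isClosed_herU (u : M) : IsClosed (herU u : Set M) :=
  StarSubalgebra.isClosed_topologicalClosure _

noncomputable instance (u : M) : CStarAlgebra (herU u) :=
  StarSubalgebra.cstarAlgebra _ (h_closed := isClosed_herU u)

/-- Local form of: the central sequence algebra of `I` contains almost an element `e` which is
orthogonally repeated `2 ^ l` times and `2 ^ l + 1` copies of which are almost above `1`. -/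
def UPLocal (I : CIdeal M) : Prop :=
  ∀ (l : ℕ) (δ₁ : ℝ), 0 < δ₁ → ∃ V : ℝ, ∀ (F : Finset M) (δ₂ : ℝ), (∀ x ∈ F, x ∈ I) → 0 < δ₂ →
    ∃ (e : M) (g : Fin (2 ^ l) → M) (v : Option (Fin (2 ^ l)) → M),
      ‖e‖ ≤ V ∧ (∀ k, ‖g k‖ ≤ V) ∧ (∀ i, ‖v i‖ ≤ V) ∧
      (∀ x ∈ F, ‖e * x - x * e‖ ≤ δ₂ ∧ (∀ k, ‖g k * x - x * g k‖ ≤ δ₂) ∧
        ∀ i, ‖v i * x - x * v i‖ ≤ δ₂) ∧
      (∀ x ∈ F, ∀ k k', ‖(star (g k) * g k' - if k = k' then e else 0) * x‖ ≤ δ₂) ∧
      ∀ x ∈ F, ‖((∑ i, v i * e * star (v i)) - 1) * x‖ ≤ δ₁ * ‖x‖ + δ₂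

end Vale.Agent.P095C
end
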