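import Vale.Agent.P095.MathlibUsed
import Vale.Agent.P095.Bdl.B3
import Vale.Agent.P095.Bdl.B1
import Vale.Agent.P095.Bdl.B2

set_option linter.all false

section

/-!
# Quotients of unital C*-algebras by closed two-sided ideals

For `I : CIdeal M`: the quotient C*-algebra `Quo I` with quotient map
`Quo.qm I : M →⋆ₐ[ℂ] Quo I`, its universal property `Quo.lift`, norm formulas, lifting of positive
elements and (positive) contractions, ideals of the quotient, generated ideals, sums of ideals.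
-/

open Set Filter Topology

namespace Vale.Agent.P133

universe u

variable {M : Type u} [CStarAlgebra M]

open K

/-- The approximate unit of an ideal at an element (right-sided). -/
theorem quot_approx [PartialOrder M] [StarOrderedRing M] (I : CIdeal M) {a : M} (ha : a ∈ I)
    {ε : ℝ} (hε : 0 < ε) : ∃ u ∈ I, 0 ≤ u ∧ u ≤ 1 ∧ ‖a * (1 - u)‖ < ε := by
  obtain ⟨ν, hν, h1, _⟩ := exists_nu I (I.star_mem ha) I.zero_mem hε
  refine ⟨ν, hν.mem, hν.nonneg, hν.le_one, ?_⟩
  have h2 : a * (1 - ν) = star ((1 - ν) * star a) := by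
    rw [star_mul, star_star, star_sub, star_one, (IsSelfAdjoint.of_nonneg hν.nonneg).star_eq]
  rw [h2, norm_star]
  exact h1

/-- The quotient of a unital C*-algebra by a closed two-sided ideal. -/
def Quo (I : CIdeal M) : Type u := M ⧸ I.toSub

namespace Quo

variable (I : CIdeal M)

/-- the class of an element -/
noncomputable def mk0 (a : M) : Quo I := (Submodule.Quotient.mk a : M ⧸ I.toSub)

theorem mk0_surjective : Function.Surjective (mk0 I) := Submodule.Quotient.mk_surjective _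

/-- Auxiliary norm structure. -/
@[reducible] noncomputable def norm0 : NormedAddCommGroup (Quo I) :=
  haveI := I.closed'
  Submodule.Quotient.normedAddCommGroup I.toSub

theorem mk0_eq_iff {a b : M} : mk0 I a = mk0 I b ↔ a - b ∈ I := Submodule.Quotient.eq _

theorem norm0_mk0_le (a : M) : (norm0 I).toNorm.norm (mk0 I a) ≤ ‖a‖ :=
  Submodule.Quotient.norm_mk_le I.toSub a

theorem norm0_exists_lt (x : Quo I) {ε : ℝ} (hε : 0 < ε) :
    ∃ a : M, mk0 I a = x ∧ ‖a‖ < (norm0 I).toNorm.norm x + ε := Submodule.Quotient.norm_mk_lt x hε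

/-- a lift -/
noncomputable def out (x : Quo I) : M := Function.surjInv (mk0_surjective I) x

theorem mk0_out (x : Quo I) : mk0 I (out I x) = x := Function.surjInv_eq (mk0_surjective I) x

/-- multiplication of classes -/
noncomputable def mul0 (x y : Quo I) : Quo I := mk0 I (out I x * out I y)

theorem mk0_mul0 (a b : M) : mul0 I (mk0 I a) (mk0 I b) = mk0 I (a * b) := by
  unfold mul0
  rw [mk0_eq_iff]
  have h1 : out I (mk0 I a) - a ∈ I := (mk0_eq_iff I).1 (mk0_out I _)
  have h2 : out I (mk0 I b) - b ∈ I := (mk0_eq_iff I).1 (mk0_out I _)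
  have h3 : out I (mk0 I a) * out I (mk0 I b) - a * b =
      (out I (mk0 I a) - a) * out I (mk0 I b) + a * (out I (mk0 I b) - b) := by noncomm_ring
  rw [h3]
  exact I.add_mem (I.right_mem h1 _) (I.left_mem _ h2)

theorem norm0_mul_le (x y : Quo I) : (norm0 I).toNorm.norm (mul0 I x y) ≤
    (norm0 I).toNorm.norm x * (norm0 I).toNorm.norm y := by
  refine le_of_forall_pos_le_add fun ε hε => ?_
  set p := (norm0 I).toNorm.norm x
  set q := (norm0 I).toNorm.norm y
  have h0 : Tendsto (fun δ : ℝ => (p + δ) * (q + δ)) (𝓝[>] 0) (𝓝 ((p + 0) * (q + 0))) := by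
    refine Tendsto.mono_left ?_ nhdsWithin_le_nhds
    exact Continuous.tendsto (by fun_prop) 0
  have h1 : ∀ᶠ δ : ℝ in 𝓝[>] 0, (p + δ) * (q + δ) < p * q + ε := by
    refine h0.eventually_lt_const ?_
    rw [add_zero, add_zero]
    linarith
  obtain ⟨δ, h2, hδ⟩ := (h1.and self_mem_nhdsWithin).exists
  obtain ⟨a, ha, ha'⟩ := norm0_exists_lt I x hδ
  obtain ⟨b, hb, hb'⟩ := norm0_exists_lt I y hδ
  have h3 : mul0 I x y = mk0 I (a * b) := by
    rw [← ha, ← hb, mk0_mul0]
  rw [h3]
  calc (norm0 I).toNorm.norm (mk0 I (a * b)) ≤ ‖a * b‖ := norm0_mk0_le I _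
    _ ≤ ‖a‖ * ‖b‖ := norm_mul_le _ _
    _ ≤ (p + δ) * (q + δ) :=
        mul_le_mul ha'.le hb'.le (norm_nonneg b) ((norm_nonneg a).trans ha'.le)
    _ ≤ _ := h2.le

noncomputable instance instNormedRing : NormedRing (Quo I) where
  __ := norm0 I
  mul := mul0 I
  one := mk0 I 1
  one_mul x := by
    obtain ⟨a, rfl⟩ := mk0_surjective I x
    change mul0 I (mk0 I 1) (mk0 I a) = mk0 I a
    rw [mk0_mul0, one_mul]
  mul_one x := by
    obtain ⟨a, rfl⟩ := mk0_surjective I x
    change mul0 I (mk0 I a) (mk0 I 1) = mk0 I a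
    rw [mk0_mul0, mul_one]
  left_distrib x y z := by
    obtain ⟨a, rfl⟩ := mk0_surjective I x
    obtain ⟨b, rfl⟩ := mk0_surjective I y
    obtain ⟨c, rfl⟩ := mk0_surjective I z
    change mul0 I (mk0 I a) (mk0 I (b + c)) = mul0 I (mk0 I a) (mk0 I b) + mul0 I (mk0 I a) (mk0 I c)
    rw [mk0_mul0, mk0_mul0, mk0_mul0, mul_add]
    rfl
  right_distrib x y z := by
    obtain ⟨a, rfl⟩ := mk0_surjective I x
    obtain ⟨b, rfl⟩ := mk0_surjective I y
    obtain ⟨c, rfl⟩ := mk0_surjective I z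
    change mul0 I (mk0 I (a + b)) (mk0 I c) = mul0 I (mk0 I a) (mk0 I c) + mul0 I (mk0 I b) (mk0 I c)
    rw [mk0_mul0, mk0_mul0, mk0_mul0, add_mul]
    rfl
  zero_mul x := by
    obtain ⟨a, rfl⟩ := mk0_surjective I x
    change mul0 I (mk0 I 0) (mk0 I a) = mk0 I 0
    rw [mk0_mul0, zero_mul]
  mul_zero x := by
    obtain ⟨a, rfl⟩ := mk0_surjective I x
    change mul0 I (mk0 I a) (mk0 I 0) = mk0 I 0
    rw [mk0_mul0, mul_zero]
  mul_assoc x y z := by
    obtain ⟨a, rfl⟩ := mk0_surjective I x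
    obtain ⟨b, rfl⟩ := mk0_surjective I y
    obtain ⟨c, rfl⟩ := mk0_surjective I z
    change mul0 I (mul0 I (mk0 I a) (mk0 I b)) (mk0 I c) =
      mul0 I (mk0 I a) (mul0 I (mk0 I b) (mk0 I c))
    rw [mk0_mul0, mk0_mul0, mk0_mul0, mk0_mul0, mul_assoc]
  norm_mul_le := norm0_mul_le I

theorem norm_mk0_le (a : M) : ‖mk0 I a‖ ≤ ‖a‖ := norm0_mk0_le I a

theorem exists_norm_lt (x : Quo I) {ε : ℝ} (hε : 0 < ε) :
    ∃ a : M, mk0 I a = x ∧ ‖a‖ < ‖x‖ + ε := norm0_exists_lt I x hε

theorem mk0_mul (a b : M) : mk0 I (a * b) = mk0 I a * mk0 I b := (mk0_mul0 I a b).symm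

theorem mk0_add (a b : M) : mk0 I (a + b) = mk0 I a + mk0 I b := rfl

/-- The scalars as a ring hom. -/
noncomputable def algMap : ℂ →+* Quo I where
  toFun z := mk0 I (algebraMap ℂ M z)
  map_one' := by rw [map_one]; rfl
  map_mul' a b := by rw [map_mul, mk0_mul]
  map_zero' := by rw [map_zero]; rfl
  map_add' a b := by rw [map_add]; rfl

noncomputable instance instAlgebra : Algebra ℂ (Quo I) :=
  (algMap I).toAlgebra' fun z x => by
    obtain ⟨a, rfl⟩ := mk0_surjective I x
    change mk0 I (algebraMap ℂ M z) * mk0 I a = mk0 I a * mk0 I (algebraMap ℂ M z)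
    rw [← mk0_mul, ← mk0_mul, Algebra.commutes]

theorem mk0_smul (z : ℂ) (a : M) : mk0 I (z • a) = z • mk0 I a := by
  rw [Algebra.smul_def, Algebra.smul_def, mk0_mul]
  rfl

noncomputable instance instNormedAlgebra : NormedAlgebra ℂ (Quo I) where
  __ := instAlgebra I
  norm_smul_le z x := by
    refine le_of_forall_pos_le_add fun ε hε => ?_
    obtain ⟨a, rfl, ha⟩ := exists_norm_lt I x (ε := ε / (‖z‖ + 1)) (by positivity)
    calc ‖z • mk0 I a‖ = ‖mk0 I (z • a)‖ := by rw [mk0_smul]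
      _ ≤ ‖z • a‖ := norm_mk0_le I _
      _ = ‖z‖ * ‖a‖ := norm_smul _ _
      _ ≤ ‖z‖ * (‖mk0 I a‖ + ε / (‖z‖ + 1)) := by gcongr
      _ ≤ ‖z‖ * ‖mk0 I a‖ + ε := by
        rw [mul_add]
        gcongr
        rw [← mul_div_assoc, div_le_iff₀ (by positivity)]
        nlinarith [norm_nonneg z]

instance instComplete : CompleteSpace (Quo I) :=
  haveI := I.closed'
  Submodule.Quotient.completeSpace I.toSub

/-- star of a class -/
noncomputable def star0 (x : Quo I) : Quo I := mk0 I (star (out I x))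

theorem star0_mk0 (a : M) : star0 I (mk0 I a) = mk0 I (star a) := by
  unfold star0
  rw [mk0_eq_iff, ← star_sub]
  exact I.star_mem ((mk0_eq_iff I).1 (mk0_out I _))

noncomputable instance instStarRing : StarRing (Quo I) where
  star := star0 I
  star_involutive x := by
    obtain ⟨a, rfl⟩ := mk0_surjective I x
    rw [star0_mk0, star0_mk0, star_star]
  star_mul x y := by
    obtain ⟨a, rfl⟩ := mk0_surjective I x
    obtain ⟨b, rfl⟩ := mk0_surjective I y
    rw [← mk0_mul, star0_mk0, star0_mk0, star0_mk0, star_mul, mk0_mul]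
  star_add x y := by
    obtain ⟨a, rfl⟩ := mk0_surjective I x
    obtain ⟨b, rfl⟩ := mk0_surjective I y
    rw [← mk0_add, star0_mk0, star0_mk0, star0_mk0, star_add, mk0_add]

theorem star_mk0 (a : M) : star (mk0 I a) = mk0 I (star a) := star0_mk0 I a

instance instStarModule : StarModule ℂ (Quo I) where
  star_smul z x := by
    obtain ⟨a, rfl⟩ := mk0_surjective I x
    rw [← mk0_smul, star_mk0, star_mk0, star_smul, mk0_smul]

theorem norm_mul_self_le' (x : Quo I) : ‖x‖ * ‖x‖ ≤ ‖star x * x‖ := by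
  let _ := CStarAlgebra.spectralOrder M
  let _ := CStarAlgebra.spectralOrderedRing M
  obtain ⟨a, rfl⟩ := mk0_surjective I x
  refine le_of_forall_pos_le_add fun ε hε => ?_
  obtain ⟨b, hb, hbn⟩ := exists_norm_lt I (star (mk0 I a) * mk0 I a) (half_pos hε)
  rw [star_mk0, ← mk0_mul, mk0_eq_iff] at hb
  obtain ⟨u, hu, hu0, hu1, hau⟩ := quot_approx I hb (half_pos hε)
  have h1u : ‖1 - u‖ ≤ 1 := by
    rw [CStarAlgebra.norm_le_one_iff_of_nonneg (1 - u) (sub_nonneg.2 hu1)]
    exact sub_le_self _ hu0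
  have h1 : mk0 I (a * (1 - u)) = mk0 I a := by
    rw [mk0_eq_iff]
    have : a * (1 - u) - a = -(a * u) := by noncomm_ring
    rw [this]
    exact I.neg_mem (I.left_mem _ hu)
  have h2 : star (1 - u) = 1 - u := by
    rw [star_sub, star_one, (IsSelfAdjoint.of_nonneg hu0).star_eq]
  calc ‖mk0 I a‖ * ‖mk0 I a‖ = ‖mk0 I (a * (1 - u))‖ * ‖mk0 I (a * (1 - u))‖ := by rw [h1]
    _ ≤ ‖a * (1 - u)‖ * ‖a * (1 - u)‖ := by
        gcongr <;> exact norm_mk0_le I _
    _ = ‖star (a * (1 - u)) * (a * (1 - u))‖ := (CStarRing.norm_star_mul_self).symm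
    _ = ‖(1 - u) * ((b * (1 - u)) - ((b - star a * a) * (1 - u)))‖ := by
        rw [star_mul, h2]
        congr 1
        noncomm_ring
    _ ≤ ‖1 - u‖ * ‖(b * (1 - u)) - ((b - star a * a) * (1 - u))‖ := norm_mul_le _ _
    _ ≤ 1 * (‖b‖ * ‖1 - u‖ + ‖(b - star a * a) * (1 - u)‖) := by
        gcongr
        exact (norm_sub_le _ _).trans (by gcongr; exact norm_mul_le _ _)
    _ ≤ 1 * (‖b‖ * 1 + ε / 2) := by gcongr
    _ ≤ ‖star (mk0 I a) * mk0 I a‖ + ε := by linarith only [hbn]

instance instCStarRing : CStarRing (Quo I) where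
  norm_mul_self_le := norm_mul_self_le' I

noncomputable instance instCStarAlgebra : CStarAlgebra (Quo I) where

noncomputable instance instPartialOrder : PartialOrder (Quo I) := CStarAlgebra.spectralOrder _

instance instStarOrderedRing : StarOrderedRing (Quo I) := CStarAlgebra.spectralOrderedRing _

/-- The quotient map. -/
noncomputable def qm : M →⋆ₐ[ℂ] Quo I where
  toFun := mk0 I
  map_one' := rfl
  map_mul' a b := mk0_mul I a b
  map_zero' := rfl
  map_add' _ _ := rfl
  commutes' _ := rfl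
  map_star' a := (star_mk0 I a).symm

variable {I}

theorem qm_surjective : Function.Surjective (qm I) := mk0_surjective I

theorem qm_eq_iff {a b : M} : qm I a = qm I b ↔ a - b ∈ I := mk0_eq_iff I

theorem qm_eq_zero {a : M} : qm I a = 0 ↔ a ∈ I := by
  rw [← map_zero (qm I), qm_eq_iff, sub_zero]

theorem qm_zero_of_mem {a : M} (h : a ∈ I) : qm I a = 0 := qm_eq_zero.2 h

theorem norm_qm_le (a : M) : ‖qm I a‖ ≤ ‖a‖ := norm_mk0_le I a

theorem exists_qm_norm_lt (x : Quo I) {ε : ℝ} (hε : 0 < ε) :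
    ∃ a : M, qm I a = x ∧ ‖a‖ < ‖x‖ + ε := exists_norm_lt I x hε

/-- Functional calculus in the quotient. -/
theorem qm_cfc {f : ℝ → ℝ} (hf : Continuous f) {a : M} (ha : IsSelfAdjoint a) :
    qm I (cfc f a) = cfc f (qm I a) := map_cfc' (qm I) hf ha

/-- Universal property of the quotient. -/
noncomputable def lift {C : Type u} [CStarAlgebra C] (π : M →⋆ₐ[ℂ] C) (h : ∀ x ∈ I, π x = 0) :
    Quo I →⋆ₐ[ℂ] C where
  toFun x := π (out I x)
  map_one' := by
    rw [← map_one π, ← sub_eq_zero, ← map_sub]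
    exact h _ ((mk0_eq_iff I).1 (mk0_out I _))
  map_mul' x y := by
    rw [← map_mul π, ← sub_eq_zero, ← map_sub]
    refine h _ ((mk0_eq_iff I).1 ?_)
    rw [mk0_out, mk0_mul, mk0_out, mk0_out]
  map_zero' := h _ (qm_eq_zero.1 (mk0_out I _))
  map_add' x y := by
    rw [← map_add π, ← sub_eq_zero, ← map_sub]
    refine h _ ((mk0_eq_iff I).1 ?_)
    rw [mk0_out, mk0_add, mk0_out, mk0_out]
  commutes' z := by
    rw [← AlgHomClass.commutes π z, ← sub_eq_zero, ← map_sub]
    refine h _ ((mk0_eq_iff I).1 ?_)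
    rw [mk0_out]
    rfl
  map_star' x := by
    rw [← map_star π, ← sub_eq_zero, ← map_sub]
    refine h _ ((mk0_eq_iff I).1 ?_)
    rw [mk0_out, ← star_mk0, mk0_out]

end Quo

open Quo

section Order

variable [PartialOrder M] [StarOrderedRing M]

/-- For finitely many elements of a closed ideal there is an approximate unit. -/
theorem exists_approx_unit {ι : Type*} [Fintype ι] (I : CIdeal M) {c : ι → M}
    (hc : ∀ i, c i ∈ I) {ε : ℝ} (hε : 0 < ε) :
    ∃ ν : M, PC I ν ∧ ∀ i, ‖c i * (1 - ν)‖ < ε ∧ ‖(1 - ν) * c i‖ < ε := by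
  set x : M := ∑ i, (star (c i) * c i + c i * star (c i)) with hx
  have hx0 : 0 ≤ x := Finset.sum_nonneg fun i _ =>
    add_nonneg (star_mul_self_nonneg _) (mul_star_self_nonneg _)
  have hxI : x ∈ I := I.toSub.sum_mem fun i _ =>
    I.add_mem (I.left_mem _ (hc i)) (I.right_mem (hc i) _)
  have hx' : IsSelfAdjoint x := IsSelfAdjoint.of_nonneg hx0
  set η : ℝ := ε ^ 2 with hη
  have hη0 : 0 < η := by positivity
  have hcc : Continuous (fun u => 1 - cut η u) := continuous_const.sub (cut_continuous η)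
  set r : M := cfc (fun u => 1 - cut η u) x with hr
  have h1 : (1 : M) - cfc (cut η) x = r := by
    rw [hr, cfc_sub (fun _ => (1 : ℝ)) (cut η) x continuousOn_const
      (cut_continuous η).continuousOn, cfc_const_one ℝ x]
  have hrsa : IsSelfAdjoint r := cfc_predicate _ _
  have hmain : ‖r * x * r‖ ≤ η / 4 := by
    rw [hr, mul_assoc, mul_cfc hcc hx0, cfc_mul' hcc (cont_id_mul hcc)]
    refine norm_cfc_le' hx0 (by positivity) (fun u hu _ => ?_)
    have h3 := mul_one_sub_cut_sq_le hη0 hu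
    have h4 : 0 ≤ u * (1 - cut η u) ^ 2 := by (clear * - hu; positivity)
    rw [abs_of_nonneg (by nlinarith only [h4])]
    linarith
  have hlt : η / 4 < ε ^ 2 := by rw [hη]; nlinarith only [hη0]
  have hterm : ∀ i, star (c i) * c i ≤ x ∧ c i * star (c i) ≤ x := by
    intro i
    have h1 : star (c i) * c i + c i * star (c i) ≤ x :=
      Finset.single_le_sum (f := fun i => star (c i) * c i + c i * star (c i))
        (fun i _ => add_nonneg (star_mul_self_nonneg _) (mul_star_self_nonneg _))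
        (Finset.mem_univ i)
    exact ⟨le_trans (le_add_of_nonneg_right (mul_star_self_nonneg _)) h1,
      le_trans (le_add_of_nonneg_left (star_mul_self_nonneg _)) h1⟩
  have hconj : ∀ y : M, 0 ≤ y → y ≤ x → ‖r * y * r‖ < ε ^ 2 := fun y hy0 hy =>
    lt_of_le_of_lt ((norm_mono (sa_conj_nonneg hrsa hy0) (sa_conj_le hrsa hy)).trans hmain) hlt
  refine ⟨cfc (cut η) x, PC.of_cfc I hx0 hxI (cut_continuous η) (by simp only [cut, zero_div, zero_le_one, inf_of_le_right])
    (fun u hu => cut_nonneg hη0 hu) (fun u _ => cut_le_one η u), fun i => ⟨?_, ?_⟩⟩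
  · refine lt_of_pow_lt_pow_left₀ 2 hε.le ?_
    rw [h1, norm_sq_eq, star_mul, hrsa.star_eq]
    have := hconj _ (star_mul_self_nonneg (c i)) (hterm i).1
    simpa only [mul_assoc] using this
  · refine lt_of_pow_lt_pow_left₀ 2 hε.le ?_
    rw [h1, norm_sq_eq', star_mul, hrsa.star_eq]
    have := hconj _ (mul_star_self_nonneg (c i)) (hterm i).2
    simpa only [mul_assoc] using this

/-- Lifting contractions, inside an ideal. -/
theorem exists_lift_contraction {I A : CIdeal M} {a : M}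
    (ha : a ∈ A) (h1 : ‖qm I a‖ ≤ 1) : ∃ b ∈ A, ‖b‖ ≤ 1 ∧ qm I b = qm I a := by
  set x : M := star a * a with hx
  have hx0 : 0 ≤ x := star_mul_self_nonneg a
  have hx' : IsSelfAdjoint x := IsSelfAdjoint.of_nonneg hx0
  set h : ℝ → ℝ := fun s => 1 / max 1 (√s) with hh
  have hcont : Continuous h := by
    refine continuous_const.div (by fun_prop) fun s => ?_
    exact (lt_of_lt_of_le one_pos (le_max_left 1 (√s))).ne'
  have hsa : star (cfc h x) = cfc h x := star_cfc _ _
  refine ⟨a * cfc h x, A.right_mem ha _, ?_, ?_⟩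
  · have h2 : star (a * cfc h x) * (a * cfc h x) = cfc (fun s => h s * (s * h s)) x := by
      rw [← cfc_mul' hcont (cont_id_mul hcont), ← mul_cfc hcont hx0, star_mul, hsa, hx]
      simp only [mul_assoc]
    have h3 : ‖a * cfc h x‖ ^ 2 ≤ 1 := by
      rw [norm_sq_eq, h2]
      refine norm_cfc_le' hx0 zero_le_one fun s hs0 _ => ?_
      have hm : 0 < max 1 (√s) := lt_of_lt_of_le one_pos (le_max_left 1 (√s))
      have h4 : h s * (s * h s) = s / (max 1 (√s)) ^ 2 := by
        rw [hh]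
        field_simp
      rw [h4, abs_of_nonneg (by (clear * - hs0; positivity)), div_le_one (by positivity)]
      calc s = √s ^ 2 := (Real.sq_sqrt hs0).symm
        _ ≤ _ := by
          gcongr
          exact le_max_right _ _
    nlinarith only [h3]
  · have hmx : 0 ≤ qm I x := map_nonneg' (qm I) hx0
    have hmsa : IsSelfAdjoint (qm I x) := hx'.map (qm I)
    have hn : ‖qm I x‖ ≤ 1 := by
      rw [hx, map_mul, map_star, ← norm_sq_eq]
      nlinarith only [h1, norm_nonneg (qm I a)]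
    rw [map_mul, qm_cfc hcont hx']
    rw [cfc_congr (g := fun _ : ℝ => (1 : ℝ)) fun s hs => by
      have h7 : √s ≤ 1 := Real.sqrt_le_one.2 ((spec_le_norm hs).trans hn)
      simp only [hh]
      rw [max_eq_left h7, div_one], cfc_const_one ℝ (qm I x), mul_one]

end Order

namespace CIdeal

/-- The closed two-sided ideal of elements killed by every hom killing `S`. -/
noncomputable def gen (S : Set M) : CIdeal M where
  toSub :=
    { carrier := {a | ∀ (C : Type u) [CStarAlgebra C] (π : M →⋆ₐ[ℂ] C),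
        (∀ s ∈ S, π s = 0) → π a = 0}
      zero_mem' := fun C _ π _ => map_zero π
      add_mem' := fun {a b} ha hb C _ π h => by rw [map_add, ha C π h, hb C π h, add_zero]
      smul_mem' := fun c a ha C _ π h => by rw [map_smul, ha C π h, smul_zero] }
  mul_left' a x hx := fun C _ π h => by rw [map_mul, hx C π h, mul_zero]
  mul_right' a x hx := fun C _ π h => by rw [map_mul, hx C π h, zero_mul]
  star_mem' x hx := fun C _ π h => by rw [map_star, hx C π h, star_zero]
  closed' := by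
    have : {a : M | ∀ (C : Type u) [CStarAlgebra C] (π : M →⋆ₐ[ℂ] C),
        (∀ s ∈ S, π s = 0) → π a = 0} = ⋂ (C : Type u) (_ : CStarAlgebra C) (π : M →⋆ₐ[ℂ] C)
        (_ : ∀ s ∈ S, π s = 0), {a : M | π a = 0} := by
      ext a
      simp only [Set.mem_ofPred_eq, mem_iInter]
    change IsClosed {a : M | ∀ (C : Type u) [CStarAlgebra C] (π : M →⋆ₐ[ℂ] C),
        (∀ s ∈ S, π s = 0) → π a = 0}
    rw [this]
    refine isClosed_iInter fun C => isClosed_iInter fun _ => isClosed_iInter fun π =>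
      isClosed_iInter fun _ => isClosed_eq ?_ continuous_const
    exact (AddMonoidHomClass.continuous_of_bound π 1 fun a => by
      rw [one_mul]
      exact norm_map_le π a)

end CIdeal

end Vale.Agent.P133
end

section

/-! Descent: countably many `*`-polynomial relations that can be solved in some central sequence
algebra of a separable `A` can be solved in the central sequence algebra along every filter on `ℕ`
finer than the cofinite one. -/

open Filter Topology

namespace Vale.Agent.P101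

universe u v

namespace Descend

variable {A : Type u} [CStarAlgebra A]

/-- Evaluation of `*`-polynomials. -/
noncomputable def ev {κ : Type*} {B : Type*} [Ring B] [Algebra ℂ B] [Star B] (x : κ → B) :
    FreeAlgebra ℂ (κ ⊕ κ) →ₐ[ℂ] B :=
  FreeAlgebra.lift ℂ (Sum.elim x (fun k => star (x k)))

@[simp] lemma ev_inl {κ : Type*} {B : Type*} [Ring B] [Algebra ℂ B] [Star B] (x : κ → B) (k : κ) :
    ev x (FreeAlgebra.ι ℂ (Sum.inl k)) = x k := by
  simp only [ev, FreeAlgebra.lift_ι_apply, Sum.elim_inl]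

@[simp] lemma ev_inr {κ : Type*} {B : Type*} [Ring B] [Algebra ℂ B] [Star B] (x : κ → B) (k : κ) :
    ev x (FreeAlgebra.ι ℂ (Sum.inr k)) = star (x k) := by
  simp only [ev, FreeAlgebra.lift_ι_apply, Sum.elim_inr]

/-- The quotient map. -/
noncomputable def quo (A : Type u) [CStarAlgebra A] {ι : Type v} (μ : Filter ι) :
    centralSeq A μ →ₐ[ℂ] Fcs A μ :=
  RingCon.mkₐ ℂ (nullCon A μ)

lemma quo_surjective {ι : Type v} (μ : Filter ι) :
    Function.Surjective (quo A μ) := RingCon.mkₐ_surjective (nullCon A μ)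

/-- The variable `k`. -/
noncomputable def va {κ : Type*} (k : κ) : FreeAlgebra ℂ (κ ⊕ κ) := FreeAlgebra.ι ℂ (Sum.inl k)

/-- The adjoint of the variable `k`. -/
noncomputable def vs {κ : Type*} (k : κ) : FreeAlgebra ℂ (κ ⊕ κ) := FreeAlgebra.ι ℂ (Sum.inr k)

@[simp] lemma ev_va {κ : Type*} {B : Type*} [Ring B] [Algebra ℂ B] [Star B] (x : κ → B) (k : κ) :
    ev x (va k) = x k := by
  simp [va]

@[simp] lemma ev_vs {κ : Type*} {B : Type*} [Ring B] [Algebra ℂ B] [Star B] (x : κ → B) (k : κ) :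
    ev x (vs k) = star (x k) := by
  simp only [vs, ev_inr]

end Descend

end Vale.Agent.P101
end

section

/-! Step 8: polar lemma and final algebra. -/

namespace Vale.Agent.P101

universe u

namespace Step8

variable {F : Type*} [CStarAlgebra F] [PartialOrder F] [StarOrderedRing F]

/-- key norm estimate -/
theorem polar_key (a z : F) (C M : ℝ) (ha : 0 ≤ a) (hz : 0 ≤ z) (hC : 0 ≤ C) (hM : 0 ≤ M)
    (h : z ≤ C • a) (g : ℝ → ℝ) (hg : ContinuousOn g (spectrum ℝ a))
    (hb : ∀ t ∈ spectrum ℝ a, t * g t ^ 2 ≤ M) :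
    ‖cfc g a * CFC.sqrt z‖ ^ 2 ≤ C * M := by
  have hsa : IsSelfAdjoint a := ha.isSelfAdjoint
  set H := cfc g a with hH
  have hHsa : star H = H := by
    rw [hH, ← cfc_star]
    simp
  have hsz : star (CFC.sqrt z) = CFC.sqrt z := (CFC.sqrt_nonneg z).isSelfAdjoint
  have h1 : ‖H * CFC.sqrt z‖ ^ 2 = ‖H * z * H‖ := by
    rw [pow_two, ← CStarRing.norm_self_mul_star]
    congr 1
    rw [star_mul, hHsa, hsz]
    calc H * CFC.sqrt z * (CFC.sqrt z * H) = H * (CFC.sqrt z * CFC.sqrt z) * H := by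
          simp only [mul_assoc]
      _ = _ := by rw [CFC.sqrt_mul_sqrt_self z hz]
  rw [h1]
  have h2 : H * z * H ≤ C • (H * a * H) := by
    have := star_left_conjugate_le_conjugate h H
    rw [hHsa] at this
    simpa only [ge_iff_le, Algebra.mul_smul_comm, Algebra.smul_mul_assoc] using this
  have h3 : 0 ≤ H * z * H := by
    have := star_left_conjugate_nonneg hz H
    rwa [hHsa] at this
  have h4 : ‖H * z * H‖ ≤ ‖C • (H * a * H)‖ :=
    CStarAlgebra.norm_le_norm_of_nonneg_of_le h3 h2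
  refine h4.trans ?_
  rw [norm_smul, Real.norm_of_nonneg hC]
  refine mul_le_mul_of_nonneg_left ?_ hC
  have h5 : H * a * H = cfc (fun t => g t * t * g t) a := by
    rw [cfc_mul (fun t => g t * t) g a (by fun_prop) hg, cfc_mul g (fun t => t) a hg (by fun_prop),
      cfc_id' ℝ a]
  rw [h5]
  refine norm_cfc_le hM ?_
  intro x hx
  have hx0 : 0 ≤ x := spectrum_nonneg_of_nonneg ha hx
  rw [Real.norm_of_nonneg]
  · have := hb x hx
    nlinarith only [this]
  · have : g x * x * g x = x * g x ^ 2 := by ring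
    rw [this]; (clear * - hx0; positivity)

/-- scalar regularised inverse square root -/
noncomputable def ginv (e t : ℝ) : ℝ := (Real.sqrt (|t| + e))⁻¹

theorem ginv_cont {e : ℝ} (he : 0 < e) : Continuous (ginv e) := by
  unfold ginv
  refine Continuous.inv₀ (by fun_prop) ?_
  intro t
  have : 0 < |t| + e := by positivity
  exact (Real.sqrt_pos.2 this).ne'

theorem ginv_bound {e t : ℝ} (he : 0 < e) (ht : 0 ≤ t) :
    |t * ginv e t - Real.sqrt t| ≤ Real.sqrt e := by
  unfold ginv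
  rw [abs_of_nonneg ht]
  set u := Real.sqrt t
  set v := Real.sqrt (t + e)
  have hu : 0 ≤ u := Real.sqrt_nonneg t
  have huu : u * u = t := Real.mul_self_sqrt ht
  have hv : 0 < v := Real.sqrt_pos.2 (by positivity)
  have hvv : v * v = t + e := Real.mul_self_sqrt (by positivity)
  have hw : 0 ≤ Real.sqrt e := Real.sqrt_nonneg e
  have hww : Real.sqrt e * Real.sqrt e = e := Real.mul_self_sqrt he.le
  have huv : u ≤ v := Real.sqrt_le_sqrt (by linarith only [he])
  have hvw : v ≤ u + Real.sqrt e := by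
    nlinarith only [huu, hvv, hww, hu, hw, hv]
  have : t * v⁻¹ - u = - (u * (v - u) * v⁻¹) := by
    rw [← huu]; field_simp; ring
  rw [this, abs_neg, abs_of_nonneg (by have := sub_nonneg.2 huv; (clear * - huv ht he; positivity))]
  have h1 : u * (v - u) ≤ Real.sqrt e * v := by nlinarith only [hu, hvw, huv]
  calc u * (v - u) * v⁻¹ ≤ Real.sqrt e * v * v⁻¹ := by
        exact mul_le_mul_of_nonneg_right h1 (inv_nonneg.2 hv.le)
    _ = Real.sqrt e := by field_simp

theorem ginv_diff_bound {e e' t : ℝ} (he : 0 < e) (he' : 0 < e') (ht : 0 ≤ t) :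
    (t * (ginv e t - ginv e' t)) ^ 2 ≤ (Real.sqrt e + Real.sqrt e') ^ 2 := by
  have h1 := ginv_bound he ht
  have h2 := ginv_bound he' ht
  rw [sq_le_sq]
  rw [abs_of_nonneg (a := Real.sqrt e + Real.sqrt e') (by positivity)]
  have : t * (ginv e t - ginv e' t) = (t * ginv e t - Real.sqrt t) - (t * ginv e' t - Real.sqrt t) := by
    ring
  rw [this]
  exact (abs_sub _ _).trans (add_le_add h1 h2)

theorem polar_cauchy (T z : F) (C : ℝ) (hz : 0 ≤ z) (hC : 0 ≤ C) (h : z ≤ C • (star T * T))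
    {e e' : ℝ} (he : 0 < e) (he' : 0 < e') :
    ‖T * cfc (ginv e) (star T * T) * CFC.sqrt z - T * cfc (ginv e') (star T * T) * CFC.sqrt z‖ ^ 2
      ≤ C * (Real.sqrt e + Real.sqrt e') ^ 2 := by
  set a := star T * T with haT
  have ha : 0 ≤ a := star_mul_self_nonneg T
  have hsa : IsSelfAdjoint a := ha.isSelfAdjoint
  have hce := ginv_cont he
  have hce' := ginv_cont he'
  have hsz : star (CFC.sqrt z) = CFC.sqrt z := (CFC.sqrt_nonneg z).isSelfAdjoint
  set D := cfc (fun t => ginv e t - ginv e' t) a with hD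
  have hDsub : D = cfc (ginv e) a - cfc (ginv e') a := by
    rw [hD]
    exact cfc_sub (ginv e) (ginv e') a
  have hDsa : star D = D := by
    rw [hD, ← cfc_star]
    simp only [star_trivial]
  have h1 : T * cfc (ginv e) a * CFC.sqrt z - T * cfc (ginv e') a * CFC.sqrt z
      = T * D * CFC.sqrt z := by
    rw [hDsub]; noncomm_ring
  rw [h1]
  set g : ℝ → ℝ := fun t => Real.sqrt t * (ginv e t - ginv e' t) with hg
  have hgc : Continuous g := by
    rw [hg]; exact Real.continuous_sqrt.mul (hce.sub hce')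
  have hsat : star (cfc g a) = cfc g a := by
    rw [← cfc_star]; simp
  have h2 : D * a * D = cfc g a * cfc g a := by
    have e1 : D * a * D = cfc (fun t => (ginv e t - ginv e' t) * t * (ginv e t - ginv e' t)) a := by
      rw [cfc_mul (fun t => (ginv e t - ginv e' t) * t) (fun t => (ginv e t - ginv e' t)) a
        (by (clear * - hce hce'; fun_prop)) (by fun_prop), cfc_mul (fun t => (ginv e t - ginv e' t)) (fun t => t) a
        (by fun_prop) (by fun_prop), cfc_id' ℝ a]
    rw [e1, ← cfc_mul g g a (by fun_prop) (by fun_prop)]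
    refine cfc_congr ?_
    intro t ht
    have ht0 : 0 ≤ t := spectrum_nonneg_of_nonneg ha ht
    have := Real.mul_self_sqrt ht0
    simp only [hg]
    calc (ginv e t - ginv e' t) * t * (ginv e t - ginv e' t)
        = (ginv e t - ginv e' t) * (Real.sqrt t * Real.sqrt t) * (ginv e t - ginv e' t) := by rw [this]
      _ = _ := by ring
  have h3 : ‖T * D * CFC.sqrt z‖ ^ 2 = ‖cfc g a * CFC.sqrt z‖ ^ 2 := by
    rw [pow_two, pow_two, ← CStarRing.norm_star_mul_self, ← CStarRing.norm_star_mul_self]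
    congr 1
    simp only [star_mul, hsz, hDsa, hsat]
    calc CFC.sqrt z * (D * star T) * (T * D * CFC.sqrt z)
        = CFC.sqrt z * (D * (star T * T) * D) * CFC.sqrt z := by simp only [mul_assoc]
      _ = CFC.sqrt z * (cfc g a * cfc g a) * CFC.sqrt z := by rw [← haT, h2]
      _ = _ := by simp only [mul_assoc]
  rw [h3]
  refine polar_key a z C _ ha hz hC (by positivity) h g hgc.continuousOn ?_
  intro t ht
  have ht0 : 0 ≤ t := spectrum_nonneg_of_nonneg ha ht
  have := ginv_diff_bound he he' ht0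
  have hs := Real.sq_sqrt ht0
  have e2 : t * g t ^ 2 = (t * (ginv e t - ginv e' t)) ^ 2 := by
    simp only [hg]
    calc t * (Real.sqrt t * (ginv e t - ginv e' t)) ^ 2
        = t * (Real.sqrt t ^ 2) * (ginv e t - ginv e' t) ^ 2 := by ring
      _ = _ := by rw [hs]; ring
  rw [e2]; exact this

theorem polar_approx (T z : F) (C : ℝ) (hz : 0 ≤ z) (hC : 0 ≤ C) (h : z ≤ C • (star T * T))
    {e : ℝ} (he : 0 < e) :
    ‖z - star (T * cfc (ginv e) (star T * T) * CFC.sqrt z) *
      (T * cfc (ginv e) (star T * T) * CFC.sqrt z)‖ ≤ C * e := by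
  set a := star T * T with haT
  have ha : 0 ≤ a := star_mul_self_nonneg T
  have hsa : IsSelfAdjoint a := ha.isSelfAdjoint
  have hce := ginv_cont he
  have hsz : star (CFC.sqrt z) = CFC.sqrt z := (CFC.sqrt_nonneg z).isSelfAdjoint
  set G := cfc (ginv e) a with hG
  have hGsa : star G = G := by
    rw [hG, ← cfc_star]; simp
  set g : ℝ → ℝ := fun t => Real.sqrt e * ginv e t with hg
  have hgc : Continuous g := by rw [hg]; fun_prop
  have hsat : star (cfc g a) = cfc g a := by
    rw [← cfc_star]; simp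
  have h2 : 1 - G * a * G = cfc g a * cfc g a := by
    have e1 : G * a * G = cfc (fun t => ginv e t * t * ginv e t) a := by
      rw [cfc_mul (fun t => ginv e t * t) (ginv e) a (by (clear * - hce; fun_prop)) (by (clear * - hce; fun_prop)),
        cfc_mul (ginv e) (fun t => t) a (by (clear * - hce; fun_prop)) (by fun_prop), cfc_id' ℝ a]
    have e0 : (1 : F) = cfc (fun _ : ℝ => (1 : ℝ)) a := by
      rw [cfc_const_one ℝ a]
    rw [e1, e0, ← cfc_sub _ _ a (by fun_prop) (by (clear * - hce; fun_prop)), ← cfc_mul g g a (by (clear * - hce; fun_prop)) (by (clear * - hce; fun_prop))]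
    refine cfc_congr ?_
    intro t ht
    have ht0 : 0 ≤ t := spectrum_nonneg_of_nonneg ha ht
    simp only [hg, ginv]
    rw [abs_of_nonneg ht0]
    have hv : 0 < Real.sqrt (t + e) := Real.sqrt_pos.2 (by positivity)
    have hvv : Real.sqrt (t + e) * Real.sqrt (t + e) = t + e := Real.mul_self_sqrt (by positivity)
    have hee : Real.sqrt e * Real.sqrt e = e := Real.mul_self_sqrt he.le
    have : Real.sqrt e * (Real.sqrt (t + e))⁻¹ * (Real.sqrt e * (Real.sqrt (t + e))⁻¹)
        = (Real.sqrt e * Real.sqrt e) * ((Real.sqrt (t + e)) * Real.sqrt (t+e))⁻¹ := by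
      rw [mul_inv]; ring
    rw [this, hee, hvv]
    have h3 : (Real.sqrt (t + e))⁻¹ * t * (Real.sqrt (t + e))⁻¹ = t * (Real.sqrt (t+e) * Real.sqrt (t+e))⁻¹ := by
      rw [mul_inv]; ring
    rw [h3, hvv]
    have : t + e ≠ 0 := by positivity
    field_simp
    ring
  have h3 : z - star (T * G * CFC.sqrt z) * (T * G * CFC.sqrt z)
      = star (cfc g a * CFC.sqrt z) * (cfc g a * CFC.sqrt z) := by
    simp only [star_mul, hsz, hGsa, hsat]
    calc z - CFC.sqrt z * (G * star T) * (T * G * CFC.sqrt z)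
        = CFC.sqrt z * CFC.sqrt z - CFC.sqrt z * (G * (star T * T) * G) * CFC.sqrt z := by
          rw [CFC.sqrt_mul_sqrt_self z hz]; simp only [mul_assoc]
      _ = CFC.sqrt z * (1 - G * a * G) * CFC.sqrt z := by rw [← haT]; noncomm_ring
      _ = CFC.sqrt z * (cfc g a * cfc g a) * CFC.sqrt z := by rw [h2]
      _ = _ := by simp only [mul_assoc]
  rw [h3, CStarRing.norm_star_mul_self, ← pow_two]
  refine polar_key a z C _ ha hz hC he.le h g hgc.continuousOn ?_
  intro t ht
  have ht0 : 0 ≤ t := spectrum_nonneg_of_nonneg ha ht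
  simp only [hg, ginv]
  rw [abs_of_nonneg ht0, mul_pow, inv_pow, Real.sq_sqrt he.le, Real.sq_sqrt (by positivity)]
  have h1 : 0 < t + e := by positivity
  rw [← mul_assoc, ← div_eq_mul_inv, div_le_iff₀ h1]
  nlinarith only [he]

/-- **Polar lemma**: if `0 ≤ z ≤ C T*T` then there is `s` in the closure of `T F` with
`s* s = z`. -/
theorem exists_polar (T z : F) (C : ℝ) (hz : 0 ≤ z) (h : z ≤ C • (star T * T)) :
    ∃ s : F, star s * s = z ∧ s ∈ closure (Set.range (fun f : F => T * f)) := by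
  -- reduce to `0 ≤ C`
  wlog hC : 0 ≤ C generalizing C
  · refine this (|C|) (h.trans ?_) (abs_nonneg C)
    exact smul_le_smul_of_nonneg_right (le_abs_self C) (star_mul_self_nonneg T)
  set s : ℕ → F := fun n =>
    T * cfc (ginv (((n : ℝ) + 1)⁻¹)) (star T * T) * CFC.sqrt z with hs
  have hpos : ∀ n : ℕ, 0 < ((n : ℝ) + 1)⁻¹ := fun n => by (clear * -; positivity)
  have htend0 : Filter.Tendsto (fun n : ℕ => ((n : ℝ) + 1)⁻¹) Filter.atTop (nhds 0) := by
    simpa only [one_div] using tendsto_one_div_add_atTop_nhds_zero_nat (𝕜 := ℝ)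
  have hcau : CauchySeq s := by
    refine cauchySeq_of_le_tendsto_0 (fun n : ℕ => Real.sqrt C * (2 * Real.sqrt (((n : ℝ) + 1)⁻¹)))
      ?_ ?_
    · intro n m N hn hm
      rw [dist_eq_norm]
      have h1 := polar_cauchy T z C hz hC h (hpos n) (hpos m)
      have hle : ∀ k : ℕ, N ≤ k → Real.sqrt (((k : ℝ) + 1)⁻¹) ≤ Real.sqrt (((N : ℝ) + 1)⁻¹) := by
        intro k hk
        apply Real.sqrt_le_sqrt
        apply inv_anti₀ (by (clear * -; positivity))
        have : (N : ℝ) ≤ k := by exact_mod_cast hk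
        linarith only [this]
      have h2 : (Real.sqrt (((n : ℝ) + 1)⁻¹) + Real.sqrt (((m : ℝ) + 1)⁻¹)) ^ 2
          ≤ (2 * Real.sqrt (((N : ℝ) + 1)⁻¹)) ^ 2 := by
        apply pow_le_pow_left₀ (by (clear * -; positivity))
        have := hle n hn
        have := hle m hm
        (clear T z hz C h hC s hs hpos htend0 h1; linarith)
      have h3 : ‖s n - s m‖ ^ 2 ≤ (Real.sqrt C * (2 * Real.sqrt (((N : ℝ) + 1)⁻¹))) ^ 2 := by
        rw [mul_pow, Real.sq_sqrt hC]
        exact h1.trans (mul_le_mul_of_nonneg_left h2 hC)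
      exact le_of_sq_le_sq h3 (by (clear * -; positivity)) 
    · have : Filter.Tendsto (fun n : ℕ => Real.sqrt C * (2 * Real.sqrt (((n : ℝ) + 1)⁻¹)))
          Filter.atTop (nhds (Real.sqrt C * (2 * Real.sqrt 0))) :=
        ((((Real.continuous_sqrt.tendsto 0).comp htend0)).const_mul 2).const_mul _
      simpa only [Real.sqrt_inv, Real.sqrt_zero, mul_zero] using this
  obtain ⟨s0, hs0⟩ := cauchySeq_tendsto_of_complete hcau
  refine ⟨s0, ?_, ?_⟩
  · have h1 : Filter.Tendsto (fun n => star (s n) * s n) Filter.atTop (nhds (star s0 * s0)) :=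
      (hs0.star).mul hs0
    have h2 : Filter.Tendsto (fun n => star (s n) * s n) Filter.atTop (nhds z) := by
      rw [tendsto_iff_norm_sub_tendsto_zero]
      refine squeeze_zero (fun n => norm_nonneg _) (fun n => ?_)
        (g := fun n : ℕ => C * ((n : ℝ) + 1)⁻¹) ?_
      · rw [norm_sub_rev]
        exact polar_approx T z C hz hC h (hpos n)
      · simpa only [mul_zero] using htend0.const_mul C
    exact tendsto_nhds_unique h1 h2
  · refine mem_closure_of_tendsto hs0 (Filter.Eventually.of_forall fun n => ?_)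
    exact ⟨cfc (ginv (((n : ℝ) + 1)⁻¹)) (star T * T) * CFC.sqrt z, by simp only [hs, mul_assoc]⟩

end Step8

end Vale.Agent.P101
end

section

/-! Passing from the uniform 2-norm to the norm. -/

set_option linter.unusedSectionVars false

open Filter Topology

namespace Vale.Agent.P095

universe u v w

namespace NLiftAux

theorem aux_log {t κ : ℝ} (ht0 : 0 ≤ t) (ht1 : t ≤ 1) (hκ0 : 0 < κ) :
    (1 - t ^ κ) * t * (1 - t ^ κ) ≤ κ ^ 2 := by
  rcases ht0.eq_or_lt with rfl | ht
  · simp only [mul_zero, zero_mul]; positivity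
  · set u := -Real.log t with hu
    have hu0 : 0 ≤ u := by
      have := Real.log_nonpos ht.le ht1
      linarith only [this]
    have htu : t = Real.exp (-u) := by rw [hu, neg_neg, Real.exp_log ht]
    have h1 : 1 - t ^ κ ≤ κ * u := by
      rw [Real.rpow_def_of_pos ht]
      have := Real.add_one_le_exp (Real.log t * κ)
      nlinarith only [this]
    have h2 : 0 ≤ 1 - t ^ κ := by
      have := Real.rpow_le_one ht.le ht1 hκ0.le
      linarith only [this]
    have h3 : (1 - t ^ κ) ^ 2 ≤ (κ * u) ^ 2 := pow_le_pow_left₀ h2 h1 2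
    have h4 : u ^ 2 * t ≤ 1 := by
      have h5 := Real.quadratic_le_exp_of_nonneg (x := u / 2) (by linarith only [hu0])
      have h6 : u ≤ Real.exp (u / 2) := by nlinarith only [h5]
      have h7 : u ^ 2 ≤ Real.exp (u / 2) ^ 2 := pow_le_pow_left₀ hu0 h6 2
      have h8 : Real.exp (u / 2) ^ 2 = Real.exp u := by
        rw [← Real.exp_nat_mul]; congr 1; push_cast; ring
      rw [htu]
      calc u ^ 2 * Real.exp (-u) ≤ Real.exp u * Real.exp (-u) := by
            apply mul_le_mul_of_nonneg_right (h7.trans h8.le) (Real.exp_pos _).le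
        _ = 1 := by rw [← Real.exp_add]; simp
    calc (1 - t ^ κ) * t * (1 - t ^ κ) = (1 - t ^ κ) ^ 2 * t := by ring
      _ ≤ (κ * u) ^ 2 * t := mul_le_mul_of_nonneg_right h3 ht.le
      _ = κ ^ 2 * (u ^ 2 * t) := by ring
      _ ≤ κ ^ 2 * 1 := mul_le_mul_of_nonneg_left h4 (sq_nonneg _)
      _ = κ ^ 2 := mul_one _

theorem aux_pow {κ s : ℝ} (hκ : 0 < κ) (hs : 0 < s) :
    ∃ c : ℝ, 0 ≤ c ∧ ∀ t : ℝ, 0 ≤ t → t ≤ 1 → t ^ κ * t ^ κ ≤ s + c * t := by
  set t0 := s ^ (1 / (2 * κ)) with ht0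
  have ht0p : 0 < t0 := Real.rpow_pos_of_pos hs _
  refine ⟨t0⁻¹, by (clear * - hs; positivity), fun t h0 h1 => ?_⟩
  rcases le_total t t0 with h | h
  · have h2 : t ^ κ ≤ t0 ^ κ := Real.rpow_le_rpow h0 h hκ.le
    have h3 : t0 ^ κ * t0 ^ κ = s := by
      rw [ht0, ← Real.rpow_add (Real.rpow_pos_of_pos hs _), ← Real.rpow_mul hs.le]
      have : 1 / (2 * κ) * (κ + κ) = 1 := by field_simp; ring
      rw [this, Real.rpow_one]
    have h4 : 0 ≤ t ^ κ := Real.rpow_nonneg h0 _
    have h5 : t ^ κ * t ^ κ ≤ t0 ^ κ * t0 ^ κ := mul_le_mul h2 h2 h4 (h4.trans h2)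
    have h6 : 0 ≤ t0⁻¹ * t := by (clear * - hs h0; positivity)
    linarith only [h3, h5, h6]
  · have h2 : t ^ κ ≤ 1 := Real.rpow_le_one h0 h1 hκ.le
    have h4 : 0 ≤ t ^ κ := Real.rpow_nonneg h0 _
    have h5 : t ^ κ * t ^ κ ≤ 1 := by nlinarith only [h2, h4]
    have h6 : 1 ≤ t0⁻¹ * t := by
      rw [inv_mul_eq_div, le_div_iff₀ ht0p]; linarith only [h]
    linarith only [hs, h5, h6]

section
variable {A : Type u} [CStarAlgebra A]

theorem norm_aut (β : A ≃⋆ₐ[ℂ] A) (x : A) : ‖β x‖ ≤ ‖x‖ :=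
  NonUnitalStarAlgHom.norm_apply_le (β : A →⋆ₐ[ℂ] A) x

/-- an automorphism as a continuous linear map -/
noncomputable def autL (β : A ≃⋆ₐ[ℂ] A) : A →L[ℂ] A :=
  (β.toAlgEquiv.toLinearMap : A →ₗ[ℂ] A).mkContinuous 1 (fun x => by
    rw [one_mul]; exact norm_aut β x)

theorem autL_apply (β : A ≃⋆ₐ[ℂ] A) (x : A) : autL β x = β x := rfl

theorem cont_aut (β : A ≃⋆ₐ[ℂ] A) : Continuous β := (autL β).continuous

variable [PartialOrder A] [StarOrderedRing A]

theorem aut_nonneg (β : A ≃⋆ₐ[ℂ] A) {x : A} (hx : 0 ≤ x) : 0 ≤ β x := by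
  rw [CStarAlgebra.nonneg_iff_eq_star_mul_self] at hx ⊢
  obtain ⟨b, rfl⟩ := hx
  exact ⟨β b, by rw [map_mul, map_star]⟩

theorem aut_mono (β : A ≃⋆ₐ[ℂ] A) {x y : A} (hx : x ≤ y) : β x ≤ β y := by
  rw [← sub_nonneg, ← map_sub]
  exact aut_nonneg β (sub_nonneg.mpr hx)

theorem tr_mono {τ : A →ₗ[ℂ] ℂ} (hτ : IsTracialState τ) {x y : A} (h : x ≤ y) :
    (τ x).re ≤ (τ y).re := by
  have h1 : 0 ≤ y - x := sub_nonneg.mpr h
  rw [CStarAlgebra.nonneg_iff_eq_star_mul_self] at h1
  obtain ⟨b, hb⟩ := h1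
  have h2 := hτ.re_nonneg b
  rw [← hb, map_sub, Complex.sub_re] at h2
  linarith only [h2]

theorem norm_le_of_pm {x : A} (hx : IsSelfAdjoint x) {c : ℝ} (hc : 0 ≤ c)
    (h1 : x ≤ algebraMap ℝ A c) (h2 : -x ≤ algebraMap ℝ A c) : ‖x‖ ≤ c := by
  rcases subsingleton_or_nontrivial A with h | h
  · rw [Subsingleton.elim x 0, norm_zero]; exact hc
  · rcases CStarAlgebra.norm_or_neg_norm_mem_spectrum (a := x) hx with h3 | h3
    · exact (le_algebraMap_iff_spectrum_le (R := ℝ) (a := x)).1 h1 _ h3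
    · have h4 : ‖x‖ ∈ spectrum ℝ (-x) := by
        rw [← spectrum.neg_eq]; simpa using h3
      exact (le_algebraMap_iff_spectrum_le (R := ℝ) (a := -x)).1 h2 _ h4

theorem map_rpow (β : A ≃⋆ₐ[ℂ] A) {a : A} (ha : 0 ≤ a) (κ : ℝ) (hκ : 0 < κ) :
    β (a ^ κ) = (β a) ^ κ := by
  rw [CFC.rpow_eq_cfc_real ha, CFC.rpow_eq_cfc_real (aut_nonneg β ha)]
  have hc : Continuous fun x : ℝ => x ^ κ := Real.continuous_rpow_const hκ.le
  exact StarAlgHomClass.map_cfc (S := ℂ) β (fun x : ℝ => x ^ κ) a hc.continuousOn (cont_aut β)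
    (IsSelfAdjoint.of_nonneg ha) (IsSelfAdjoint.of_nonneg (aut_nonneg β ha))

theorem smul_rpow {a : A} (ha : 0 ≤ a) {L κ : ℝ} (hL : 0 ≤ L) (hκ : 0 < κ) :
    (L • a) ^ κ = (L ^ κ) • a ^ κ := by
  have hc : Continuous fun x : ℝ => x ^ κ := Real.continuous_rpow_const hκ.le
  have hLa : 0 ≤ L • a := smul_nonneg hL ha
  rw [CFC.rpow_eq_cfc_real ha, CFC.rpow_eq_cfc_real hLa, ← cfc_comp_smul L (fun x : ℝ => x ^ κ) a
    (by fun_prop) (IsSelfAdjoint.of_nonneg ha), ← cfc_smul (L ^ κ) (fun x : ℝ => x ^ κ) a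
    hc.continuousOn]
  refine cfc_congr fun t ht => ?_
  have ht0 : 0 ≤ t := spectrum_nonneg_of_nonneg ha ht
  simp only [smul_eq_mul]
  exact Real.mul_rpow hL ht0

end

section
variable {A : Type u} [CStarAlgebra A] [PartialOrder A] [StarOrderedRing A]

/-- the dominating element -/
theorem exists_dom {ι : Type*} [Fintype ι] (s : ι → (A ≃⋆ₐ[ℂ] A)) (h : A) (hh : 0 ≤ h) :
    ∃ S : A, h ≤ S ∧ (∀ i, s i S ≤ (2 * ((Fintype.card ι : ℝ) + 1)) • S) ∧ ‖S‖ ≤ 2 * ‖h‖ ∧
      ∀ η : ℝ, (∀ τ : A →ₗ[ℂ] ℂ, IsTracialState τ → (τ h).re ≤ η) →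
        ∀ τ : A →ₗ[ℂ] ℂ, IsTracialState τ → (τ S).re ≤ 2 * η := by
  classical
  set m : ℝ := (Fintype.card ι : ℝ) with hm
  have hm0 : 0 ≤ m := Nat.cast_nonneg _
  set lam : ℝ := (2 * (m + 1))⁻¹ with hlam
  have hlam0 : 0 < lam := by positivity
  have hlamm : lam * m ≤ 1 / 2 := by
    rw [hlam, inv_mul_eq_div, div_le_iff₀ (by positivity)]; linarith only []
  set B : A →L[ℂ] A := (lam : ℂ) • ∑ i, autL (s i) with hB
  have hBapp : ∀ x, B x = lam • ∑ i, s i x := by
    intro x
    rw [hB, smul_apply, sum_apply]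
    simp only [autL_apply]
    exact Complex.coe_smul lam _
  have hBnn : ∀ x, 0 ≤ x → 0 ≤ B x := by
    intro x hx
    rw [hBapp]
    exact smul_nonneg hlam0.le (Finset.sum_nonneg fun i _ => aut_nonneg _ hx)
  have hBnorm : ∀ x, ‖B x‖ ≤ 1 / 2 * ‖x‖ := by
    intro x
    rw [hBapp, norm_smul, Real.norm_eq_abs, abs_of_pos hlam0]
    have h1 : ‖∑ i, s i x‖ ≤ m * ‖x‖ := by
      refine (norm_sum_le _ _).trans ?_
      refine (Finset.sum_le_sum fun i _ => norm_aut (s i) x).trans ?_
      rw [Finset.sum_const, Finset.card_univ, nsmul_eq_mul]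
    calc lam * ‖∑ i, s i x‖ ≤ lam * (m * ‖x‖) := mul_le_mul_of_nonneg_left h1 hlam0.le
      _ = lam * m * ‖x‖ := by ring
      _ ≤ _ := mul_le_mul_of_nonneg_right hlamm (norm_nonneg _)
  have hpow : ∀ k : ℕ, 0 ≤ (B ^ k) h ∧ ‖(B ^ k) h‖ ≤ (1 / 2) ^ k * ‖h‖ := by
    intro k
    induction k with
    | zero => simpa only [pow_zero, one_apply_eq_self, one_div, one_mul, Std.le_refl, and_true] using hh
    | succ k ih =>
      have e1 : (B ^ (k + 1)) h = B ((B ^ k) h) := by rw [pow_succ']; rfl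
      rw [e1]
      refine ⟨hBnn _ ih.1, (hBnorm _).trans ?_⟩
      rw [pow_succ]
      have := ih.2
      nlinarith only [ih]
  have hsum : Summable fun k : ℕ => (B ^ k) h := by
    refine Summable.of_norm_bounded (g := fun k : ℕ => (1 / 2 : ℝ) ^ k * ‖h‖) ?_ fun k => (hpow k).2
    exact (summable_geometric_of_lt_one (by norm_num) (by norm_num)).mul_right _
  set S : A := ∑' k : ℕ, (B ^ k) h with hS
  have hS0 : 0 ≤ S := tsum_nonneg fun k => (hpow k).1
  have hfix : S = h + B S := by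
    have h1 := hsum.tsum_eq_zero_add
    have h2 : B S = ∑' k : ℕ, (B ^ (k + 1)) h := by
      rw [hS, B.map_tsum hsum]
      exact tsum_congr fun k => by rw [pow_succ']; rfl
    rw [h2]
    calc S = (B ^ 0) h + ∑' k : ℕ, (B ^ (k + 1)) h := h1
      _ = h + ∑' k : ℕ, (B ^ (k + 1)) h := by rw [pow_zero]; rfl
  have hBS : B S ≤ S := by
    conv_rhs => rw [hfix]
    exact le_add_of_nonneg_left hh
  refine ⟨S, ?_, ?_, ?_, ?_⟩
  · conv_rhs => rw [hfix]
    exact le_add_of_nonneg_right (hBnn _ hS0)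
  · intro i
    have h1 : lam • s i S ≤ B S := by
      rw [hBapp]
      exact smul_le_smul_of_nonneg_left
        (Finset.single_le_sum (f := fun i => s i S) (fun j _ => aut_nonneg _ hS0)
          (Finset.mem_univ i)) hlam0.le
    have h2 : s i S = (2 * (m + 1)) • (lam • s i S) := by
      rw [smul_smul, hlam, mul_inv_cancel₀ (by (clear * -; positivity)), one_smul]
    rw [h2]
    exact smul_le_smul_of_nonneg_left (h1.trans hBS) (by positivity)
  · have h1 : ‖S‖ ≤ ‖h‖ + 1 / 2 * ‖S‖ := by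
      conv_lhs => rw [hfix]
      exact (norm_add_le _ _).trans (by linarith [hBnorm S])
    linarith only [h1]
  · intro η hη
    have hη' : ∀ τ : A →ₗ[ℂ] ℂ, IsTracialState τ → 0 ≤ η := by
      intro τ hτ
      have := tr_mono hτ hh
      rw [map_zero] at this
      exact this.trans (hη τ hτ)
    have key : ∀ k : ℕ, ∀ τ : A →ₗ[ℂ] ℂ, IsTracialState τ →
        (τ S).re ≤ 2 * η + (1 / 2) ^ k * ‖S‖ := by
      intro k
      induction k with
      | zero =>
        intro τ hτ
        have h1 : (τ S).re ≤ ‖S‖ := ((Complex.re_le_norm _).trans (hτ.norm_le S))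
        have := hη' τ hτ
        simp only [pow_zero, one_mul]
        linarith only [h1, this]
      | succ k ih =>
        intro τ hτ
        have h1 : τ S = τ h + (lam : ℂ) * ∑ i, τ (s i S) := by
          conv_lhs => rw [hfix]
          rw [map_add, hBapp, ← Complex.coe_smul, map_smul, map_sum, smul_eq_mul]
        have h2 : ∀ i, (τ (s i S)).re ≤ 2 * η + (1 / 2) ^ k * ‖S‖ := fun i => by
          exact ih (τ ∘ₗ ((s i).toAlgEquiv.toLinearMap : A →ₗ[ℂ] A)) (hτ.comp (s i))
        have h3 : (∑ i, τ (s i S)).re ≤ m * (2 * η + (1 / 2) ^ k * ‖S‖) := by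
          rw [Complex.re_sum]
          refine (Finset.sum_le_sum fun i _ => h2 i).trans ?_
          rw [Finset.sum_const, Finset.card_univ, nsmul_eq_mul]
        have h0 := hη τ hτ
        have hη0 := hη' τ hτ
        rw [h1, Complex.add_re, Complex.re_ofReal_mul]
        have h4 : 0 ≤ 2 * η + (1 / 2) ^ k * ‖S‖ := by (clear * - hη0; positivity)
        have h5 : lam * (∑ i, τ (s i S)).re ≤ 1 / 2 * (2 * η + (1 / 2) ^ k * ‖S‖) := by
          calc lam * (∑ i, τ (s i S)).re ≤ lam * (m * (2 * η + (1 / 2) ^ k * ‖S‖)) :=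
                mul_le_mul_of_nonneg_left h3 hlam0.le
            _ = (lam * m) * (2 * η + (1 / 2) ^ k * ‖S‖) := by ring
            _ ≤ _ := mul_le_mul_of_nonneg_right hlamm h4
        rw [pow_succ]
        nlinarith only [h0, h5]
    intro τ hτ
    have hlim : Tendsto (fun k : ℕ => 2 * η + (1 / 2 : ℝ) ^ k * ‖S‖) atTop
        (𝓝 (2 * η + 0 * ‖S‖)) :=
      ((tendsto_pow_atTop_nhds_zero_of_lt_one (by norm_num) (by norm_num)).mul_const _).const_add _
    have := ge_of_tendsto' hlim fun k => key k τ hτ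
    linarith only [this]

/-- almost invariance of a power -/
theorem norm_aut_rpow_sub {β : A ≃⋆ₐ[ℂ] A} {k : A} (hk : 0 ≤ k) (hk1 : ‖k‖ ≤ 1) {L κ : ℝ}
    (hL : 1 ≤ L) (hκ : 0 < κ) (hκ1 : κ ≤ 1) (h1 : β k ≤ L • k) (h2 : β.symm k ≤ L • k) :
    ‖β (k ^ κ) - k ^ κ‖ ≤ L ^ κ - 1 := by
  have hL0 : 0 ≤ L := zero_le_one.trans hL
  have hmem : κ ∈ Set.Icc (0 : ℝ) 1 := ⟨hκ.le, hκ1⟩
  have hc0 : 0 ≤ L ^ κ - 1 := by
    have := Real.one_le_rpow hL hκ.le
    linarith only [this]
  set j : A := k ^ κ with hj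
  have hj0 : 0 ≤ j := CFC.rpow_nonneg
  have hj1 : j ≤ 1 := by
    have h := CFC.rpow_le_rpow hmem ((CStarAlgebra.norm_le_one_iff_of_nonneg k hk).1 hk1)
    rwa [CFC.one_rpow] at h
  have e1 : β j ≤ (L ^ κ) • j := by
    have := CFC.rpow_le_rpow hmem h1
    rwa [← map_rpow β hk κ hκ, smul_rpow hk hL0 hκ] at this
  have e2 : β.symm j ≤ (L ^ κ) • j := by
    have := CFC.rpow_le_rpow hmem h2
    rwa [← map_rpow β.symm hk κ hκ, smul_rpow hk hL0 hκ] at this
  have e3 : j ≤ (L ^ κ) • β j := by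
    have := aut_mono β e2
    rw [← Complex.coe_smul, map_smul, Complex.coe_smul] at this
    simpa only [ge_iff_le, StarAlgEquiv.apply_symm_apply] using this
  have hbj0 : 0 ≤ β j := aut_nonneg β hj0
  have hbj1 : β j ≤ 1 := by
    have := aut_mono β hj1
    rwa [map_one] at this
  have e4 : (L ^ κ - 1) • j ≤ algebraMap ℝ A (L ^ κ - 1) := by
    rw [Algebra.algebraMap_eq_smul_one]
    exact smul_le_smul_of_nonneg_left hj1 hc0
  have e5 : (L ^ κ - 1) • β j ≤ algebraMap ℝ A (L ^ κ - 1) := by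
    rw [Algebra.algebraMap_eq_smul_one]
    exact smul_le_smul_of_nonneg_left hbj1 hc0
  refine norm_le_of_pm ((IsSelfAdjoint.of_nonneg hbj0).sub (IsSelfAdjoint.of_nonneg hj0)) hc0 ?_ ?_
  · refine le_trans ?_ e4
    rw [sub_smul, one_smul]
    exact sub_le_sub_right e1 _
  · refine le_trans ?_ e5
    rw [sub_smul, one_smul, neg_sub]
    exact sub_le_sub_right e3 _

end

end NLiftAux


section
variable {A : Type u} [CStarAlgebra A]

open NLiftAux in
/-- elements almost fixed in 2-norm by finitely many automorphisms are close in 2-norm to elements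
almost fixed in norm -/
theorem lift_aut (n : ℕ) (σ : Fin n → (A ≃⋆ₐ[ℂ] A)) (ε : ℝ) (hε : 0 < ε) :
    ∃ δ : ℝ, 0 < δ ∧ ∀ v : A, ‖v‖ ≤ 1 →
      (∀ i, TwoNormLE (σ i v - v) δ ∧ TwoNormLE ((σ i).symm v - v) δ) →
      ∃ w : A, ‖w‖ ≤ 1 ∧ (∀ i, ‖σ i w - w‖ ≤ ε) ∧ TwoNormLE (w - v) ε := by
  classical
  let _ : PartialOrder A := CStarAlgebra.spectralOrder A
  let _ : StarOrderedRing A := CStarAlgebra.spectralOrderedRing A
  -- the family
  let s : Fin n ⊕ Fin n → (A ≃⋆ₐ[ℂ] A) := Sum.elim σ (fun i => (σ i).symm)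
  set m : ℝ := (Fintype.card (Fin n ⊕ Fin n) : ℝ) with hm
  have hm0 : 0 ≤ m := Nat.cast_nonneg _
  set L : ℝ := 2 * (m + 1) with hL
  have hL1 : 1 ≤ L := by rw [hL]; linarith
  set C : ℝ := 8 * m + 1 with hC
  have hC0 : 0 < C := by positivity
  have hC1 : 1 ≤ C := by rw [hC]; linarith
  -- choice of the exponent
  obtain ⟨κ, hκ0, hκ1, hκL, hκC⟩ : ∃ κ : ℝ, 0 < κ ∧ κ ≤ 1 ∧ L ^ κ - 1 ≤ ε / 2 ∧
      C * κ ^ 2 ≤ (ε / 2) ^ 2 := by
    have h1 : Tendsto (fun κ : ℝ => L ^ κ - 1) (𝓝 0) (𝓝 (L ^ (0 : ℝ) - 1)) :=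
      ((Real.continuous_const_rpow (by positivity)).tendsto 0).sub_const _
    have h2 : Tendsto (fun κ : ℝ => C * κ ^ 2) (𝓝 0) (𝓝 (C * 0 ^ 2)) :=
      ((continuous_id.pow 2).tendsto 0).const_mul C
    rw [Real.rpow_zero, sub_self] at h1
    have e1 := h1.eventually (eventually_lt_nhds (show (0 : ℝ) < ε / 2 by positivity))
    have e2 := h2.eventually (eventually_lt_nhds (show C * 0 ^ 2 < (ε / 2) ^ 2 by
      rw [zero_pow two_ne_zero, mul_zero]; positivity))
    have e3 : ∀ᶠ κ : ℝ in 𝓝 0, κ < 1 := eventually_lt_nhds zero_lt_one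
    have e4 := ((e1.and e2).and e3).filter_mono (nhdsWithin_le_nhds (s := Set.Ioi (0 : ℝ)))
    have e5 : ∀ᶠ κ : ℝ in 𝓝[>] 0, 0 < κ := eventually_mem_nhdsWithin
    obtain ⟨κ, h3, h4⟩ := (e4.and e5).exists
    exact ⟨κ, h4, h3.2.le, h3.1.1.le, h3.1.2.le⟩
  obtain ⟨c, hc0, hc⟩ := aux_pow hκ0 (show (0 : ℝ) < ε ^ 2 / 2 by positivity)
  -- choice of delta
  set δ : ℝ := ε / (4 * m * c + 2) with hδ
  have hden : 0 < 4 * m * c + 2 := by positivity
  have hδ0 : 0 < δ := by positivity
  have hδs : c * (2 * (m * δ ^ 2)) ≤ ε ^ 2 / 2 := by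
    rw [hδ, div_pow]
    have h1 : (4 * m * c + 2) ≤ (4 * m * c + 2) ^ 2 := by
      have : 0 ≤ 4 * m * c := by positivity
      nlinarith only [this]
    have h2 : c * (2 * (m * (ε ^ 2 / (4 * m * c + 2) ^ 2))) =
        ε ^ 2 / 2 * ((4 * m * c) / (4 * m * c + 2) ^ 2) := by
      field_simp; ring
    rw [h2]
    have h3 : (4 * m * c) / (4 * m * c + 2) ^ 2 ≤ 1 := by
      rw [div_le_one (by positivity)]; linarith only [h1]
    have h4 : 0 ≤ ε ^ 2 / 2 := by positivity
    nlinarith only [h3]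
  refine ⟨δ, hδ0, fun v hv hvs => ?_⟩
  -- the element h
  set x : Fin n ⊕ Fin n → A := fun i => s i v - v with hx
  set h : A := ∑ i, star (x i) * x i with hh
  have hh0 : 0 ≤ h := Finset.sum_nonneg fun i _ => star_mul_self_nonneg _
  have hxn : ∀ i, ‖x i‖ ≤ 2 := fun i =>
    (norm_sub_le _ _).trans (by linarith only [hv, norm_aut (s i) v])
  have hhn : ‖h‖ ≤ 4 * m := by
    refine (norm_sum_le _ _).trans ?_
    have : ∀ i, ‖star (x i) * x i‖ ≤ 4 := fun i => by
      rw [CStarRing.norm_star_mul_self]; nlinarith only [hxn i, norm_nonneg (x i)]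
    refine (Finset.sum_le_sum fun i _ => this i).trans ?_
    rw [Finset.sum_const, Finset.card_univ, nsmul_eq_mul, mul_comm]
  have hxi : ∀ i, ∀ τ : A →ₗ[ℂ] ℂ, IsTracialState τ → (τ (star (x i) * x i)).re ≤ δ ^ 2 := by
    rintro (i | i) τ hτ
    · exact (hvs i).1 τ hτ
    · exact (hvs i).2 τ hτ
  have hhτ : ∀ τ : A →ₗ[ℂ] ℂ, IsTracialState τ → (τ h).re ≤ m * δ ^ 2 := by
    intro τ hτ
    rw [hh, map_sum, Complex.re_sum]
    refine (Finset.sum_le_sum fun i _ => hxi i τ hτ).trans ?_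
    rw [Finset.sum_const, Finset.card_univ, nsmul_eq_mul]
  obtain ⟨S, hS1, hS2, hS3, hS4⟩ := exists_dom s h hh0
  have hS0 : 0 ≤ S := hh0.trans hS1
  have hSn : ‖S‖ ≤ C := by rw [hC]; linarith only [hhn, hS3]
  set k : A := C⁻¹ • S with hk
  have hCi : 0 ≤ C⁻¹ := by (clear * -; positivity)
  have hk0 : 0 ≤ k := smul_nonneg hCi hS0
  have hk1 : ‖k‖ ≤ 1 := by
    rw [hk, norm_smul, Real.norm_eq_abs, abs_of_nonneg hCi, inv_mul_eq_div, div_le_one hC0]
    exact hSn
  have hSk : S = C • k := by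
    rw [hk, smul_smul, mul_inv_cancel₀ hC0.ne', one_smul]
  have hks : ∀ i, s i k ≤ L • k := by
    intro i
    rw [hk, ← Complex.coe_smul, map_smul, Complex.coe_smul, smul_comm L]
    exact smul_le_smul_of_nonneg_left (hS2 i) hCi
  set j : A := k ^ κ with hj
  have hmem : κ ∈ Set.Icc (0 : ℝ) 1 := ⟨hκ0.le, hκ1⟩
  have hj0 : 0 ≤ j := CFC.rpow_nonneg
  have hj1 : j ≤ 1 := by
    have h := CFC.rpow_le_rpow hmem ((CStarAlgebra.norm_le_one_iff_of_nonneg k hk0).1 hk1)
    rwa [CFC.one_rpow] at h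
  have hksa : IsSelfAdjoint k := IsSelfAdjoint.of_nonneg hk0
  have hjsa : star j = j := IsSelfAdjoint.of_nonneg hj0
  have hcont : Continuous fun t : ℝ => t ^ κ := Real.continuous_rpow_const hκ0.le
  have hjc : j = cfc (fun t : ℝ => t ^ κ) k := CFC.rpow_eq_cfc_real hk0
  have hspec : ∀ t ∈ spectrum ℝ k, 0 ≤ t ∧ t ≤ 1 := by
    intro t ht
    refine ⟨spectrum_nonneg_of_nonneg hk0 ht, ?_⟩
    have h1 : k ≤ algebraMap ℝ A 1 := by
      rw [map_one]; exact (CStarAlgebra.norm_le_one_iff_of_nonneg k hk0).1 hk1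
    exact (le_algebraMap_iff_spectrum_le (R := ℝ) (a := k)).1 h1 t ht
  have h1j0 : 0 ≤ 1 - j := sub_nonneg.mpr hj1
  have h1j1 : ‖1 - j‖ ≤ 1 := by
    rw [CStarAlgebra.norm_le_one_iff_of_nonneg _ h1j0]
    exact sub_le_self _ hj0
  have h1js : star (1 - j) = 1 - j := IsSelfAdjoint.of_nonneg h1j0
  have h1jc : 1 - j = cfc (fun t : ℝ => 1 - t ^ κ) k := by
    rw [cfc_sub (fun _ : ℝ => (1 : ℝ)) (fun t : ℝ => t ^ κ) k (by fun_prop) hcont.continuousOn,
      cfc_const_one ℝ k, ← hjc]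
  -- norm estimate
  have hkey : ‖(1 - j) * S * (1 - j)‖ ≤ C * κ ^ 2 := by
    have h1 : (1 - j) * k * (1 - j) =
        cfc (fun t : ℝ => (1 - t ^ κ) * t * (1 - t ^ κ)) k := by
      have c1 : ContinuousOn (fun t : ℝ => 1 - t ^ κ) (spectrum ℝ k) :=
        (continuous_const.sub hcont).continuousOn
      rw [cfc_mul (fun t : ℝ => (1 - t ^ κ) * t) (fun t : ℝ => 1 - t ^ κ) k
        (c1.mul continuousOn_id) c1,
        cfc_mul (fun t : ℝ => 1 - t ^ κ) (fun t : ℝ => t) k c1 continuousOn_id, cfc_id' ℝ k,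
        ← h1jc]
    have h2 : (1 - j) * S * (1 - j) = C • ((1 - j) * k * (1 - j)) := by
      rw [hSk, mul_smul_comm, smul_mul_assoc]
    rw [h2, norm_smul, Real.norm_eq_abs, abs_of_pos hC0, h1]
    refine mul_le_mul_of_nonneg_left ?_ hC0.le
    refine norm_cfc_le (sq_nonneg κ) fun t ht => ?_
    obtain ⟨ht0, ht1⟩ := hspec t ht
    have h3 : 0 ≤ 1 - t ^ κ := by
      have := Real.rpow_le_one ht0 ht1 hκ0.le
      linarith only [this]
    rw [Real.norm_eq_abs, abs_of_nonneg (by (clear * - h3 ht0; positivity))]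
    exact aux_log ht0 ht1 hκ0
  have hxj : ∀ i, ‖x i * (1 - j)‖ ≤ ε / 2 := by
    intro i
    have h1 : star (x i * (1 - j)) * (x i * (1 - j)) ≤ (1 - j) * S * (1 - j) := by
      have h2 : star (x i) * x i ≤ S :=
        (Finset.single_le_sum (f := fun i => star (x i) * x i)
          (fun j _ => star_mul_self_nonneg _) (Finset.mem_univ i)).trans hS1
      have h3 := star_left_conjugate_le_conjugate h2 (1 - j)
      rw [h1js] at h3
      rw [star_mul, h1js]
      simpa only [mul_assoc] using h3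
    have h2 := CStarAlgebra.norm_le_norm_of_nonneg_of_le (star_mul_self_nonneg _) h1
    rw [CStarRing.norm_star_mul_self] at h2
    have h3 : ‖x i * (1 - j)‖ ^ 2 ≤ (ε / 2) ^ 2 := by
      rw [sq]; exact h2.trans (hkey.trans hκC)
    exact (pow_le_pow_iff_left₀ (norm_nonneg _) (by positivity) two_ne_zero).1 h3
  refine ⟨v * (1 - j), ?_, ?_, ?_⟩
  · refine (norm_mul_le _ _).trans ?_
    exact mul_le_one₀ hv (norm_nonneg _) h1j1
  · intro i
    have e1 : σ i (v * (1 - j)) - v * (1 - j) =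
        x (Sum.inl i) * (1 - j) - σ i v * (σ i j - j) := by
      rw [map_mul, map_sub, map_one]
      simp only [hx, s, Sum.elim_inl]
      noncomm_ring
    have e2 : ‖σ i (k ^ κ) - k ^ κ‖ ≤ L ^ κ - 1 :=
      norm_aut_rpow_sub hk0 hk1 hL1 hκ0 hκ1 (hks (Sum.inl i)) (hks (Sum.inr i))
    rw [e1]
    refine (norm_sub_le _ _).trans ?_
    have e3 : ‖σ i v * (σ i j - j)‖ ≤ ε / 2 := by
      refine (norm_mul_le _ _).trans ?_
      have : ‖σ i v‖ ≤ 1 := (norm_aut _ _).trans hv
      (clear hm hm0 hC1 hκC c hc0 hc δ hδ hden hδ0 hδs hvs hx hh hxi hhτ hS4 hSk hj hmem hj0 hj1 hksa hjsa hcont hjc hspec h1j0 h1j1 h1js h1jc hkey hxj e1; nlinarith [norm_nonneg (σ i j - j), norm_nonneg (σ i v)])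
    linarith only [e3, hxj (Sum.inl i)]
  · intro τ hτ
    have e1 : v * (1 - j) - v = -(v * j) := by noncomm_ring
    have e2 : star (-(v * j)) * (-(v * j)) = star (v * j) * (v * j) := by
      rw [star_neg, neg_mul_neg]
    rw [e1, e2]
    have e3 := hτ.mul_le v j
    have e4 : star j * j ≤ algebraMap ℝ A (ε ^ 2 / 2) + c • k := by
      have h1 : star j * j = cfc (fun t : ℝ => t ^ κ * t ^ κ) k := by
        rw [hjsa, cfc_mul (fun t : ℝ => t ^ κ) (fun t : ℝ => t ^ κ) k hcont.continuousOn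
          hcont.continuousOn, ← hjc]
      have h2 : algebraMap ℝ A (ε ^ 2 / 2) + c • k =
          cfc (fun t : ℝ => ε ^ 2 / 2 + c * t) k := by
        rw [cfc_add k (fun _ : ℝ => ε ^ 2 / 2) (fun t : ℝ => c * t) (by fun_prop) (by fun_prop),
          cfc_const (ε ^ 2 / 2) k, cfc_const_mul c (fun t : ℝ => t) k (by fun_prop), cfc_id' ℝ k]
      rw [h1, h2]
      exact cfc_mono (fun t ht => hc t (hspec t ht).1 (hspec t ht).2)
        (hcont.mul hcont).continuousOn (by fun_prop)
    have e5 := tr_mono hτ e4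
    have e6 : τ (algebraMap ℝ A (ε ^ 2 / 2) + c • k) =
        ((ε ^ 2 / 2 : ℝ) : ℂ) + (c : ℂ) * τ k := by
      rw [map_add, Algebra.algebraMap_eq_smul_one, ← Complex.coe_smul (ε ^ 2 / 2) (1 : A),
        ← Complex.coe_smul c k, map_smul, map_smul, hτ.map_one, smul_eq_mul, smul_eq_mul, mul_one]
    have e7 : (τ k).re ≤ 2 * (m * δ ^ 2) := by
      have h1 : τ k = ((C⁻¹ : ℝ) : ℂ) * τ S := by
        rw [hk, ← Complex.coe_smul, map_smul, smul_eq_mul]
      rw [h1, Complex.re_ofReal_mul]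
      have h2 := hS4 _ hhτ τ hτ
      have h3 : C⁻¹ ≤ 1 := inv_le_one_of_one_le₀ hC1
      have h4 : 0 ≤ 2 * (m * δ ^ 2) := by (clear * - hε hc0; positivity)
      calc C⁻¹ * (τ S).re ≤ C⁻¹ * (2 * (m * δ ^ 2)) := mul_le_mul_of_nonneg_left h2 hCi
        _ ≤ 1 * (2 * (m * δ ^ 2)) := mul_le_mul_of_nonneg_right h3 h4
        _ = _ := one_mul _
    rw [e6, Complex.add_re, Complex.ofReal_re, Complex.re_ofReal_mul] at e5
    have e8 : (τ (star j * j)).re ≤ ε ^ 2 := by nlinarith only [hδs, e5, hc0, e7]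
    have e9 : 0 ≤ (τ (star j * j)).re := hτ.re_nonneg j
    have e10 : ‖v‖ ^ 2 ≤ 1 := pow_le_one₀ (norm_nonneg _) hv
    nlinarith only [e3, e10, e8]

namespace NLiftAux

theorem twoNormLE_iff {x : A} {ε : ℝ} (hε : 0 ≤ ε) :
    TwoNormLE x ε ↔ ∀ τ : A →ₗ[ℂ] ℂ, IsTracialState τ → nrm τ x ≤ ε := by
  constructor
  · intro h τ hτ
    have := h τ hτ
    rw [← nrm_sq hτ] at this
    exact (pow_le_pow_iff_left₀ (nrm_nonneg _) hε two_ne_zero).1 this
  · intro h τ hτ
    rw [← nrm_sq hτ]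
    exact pow_le_pow_left₀ (nrm_nonneg _) (h τ hτ) 2

theorem nrm_mul_left_le {τ : A →ₗ[ℂ] ℂ} (hτ : IsTracialState τ) (x y : A) :
    nrm τ (x * y) ≤ ‖x‖ * nrm τ y := by
  have := hτ.mul_le x y
  rw [← nrm_sq hτ, ← nrm_sq hτ, ← mul_pow] at this
  exact (pow_le_pow_iff_left₀ (nrm_nonneg _) (mul_nonneg (norm_nonneg _) (nrm_nonneg _))
    two_ne_zero).1 this

theorem nrm_mul_right_le {τ : A →ₗ[ℂ] ℂ} (hτ : IsTracialState τ) (x y : A) :
    nrm τ (x * y) ≤ nrm τ x * ‖y‖ := by
  rw [← nrm_star hτ, star_mul, mul_comm]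
  have := nrm_mul_left_le hτ (star y) (star x)
  rwa [norm_star, nrm_star hτ x] at this

theorem lift_fintype {ι : Type*} [Fintype ι] (σ : ι → (A ≃⋆ₐ[ℂ] A)) (ε : ℝ) (hε : 0 < ε) :
    ∃ δ : ℝ, 0 < δ ∧ ∀ v : A, ‖v‖ ≤ 1 →
      (∀ i, TwoNormLE (σ i v - v) δ ∧ TwoNormLE ((σ i).symm v - v) δ) →
      ∃ w : A, ‖w‖ ≤ 1 ∧ (∀ i, ‖σ i w - w‖ ≤ ε) ∧ TwoNormLE (w - v) ε := by
  classical
  obtain ⟨δ, hδ, h⟩ := lift_aut (Fintype.card ι) (fun i => σ ((Fintype.equivFin ι).symm i)) ε hε
  refine ⟨δ, hδ, fun v hv hvs => ?_⟩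
  obtain ⟨w, h1, h2, h3⟩ := h v hv fun i => hvs _
  refine ⟨w, h1, fun i => ?_, h3⟩
  have := h2 (Fintype.equivFin ι i)
  simpa only [ge_iff_le, Equiv.symm_apply_apply] using this

theorem nrm_aut {τ : A →ₗ[ℂ] ℂ} (β : A ≃⋆ₐ[ℂ] A) (x : A) :
    nrm τ (β x) = nrm (τ ∘ₗ (β.toAlgEquiv.toLinearMap : A →ₗ[ℂ] A)) x := by
  unfold nrm
  rw [← map_star, ← map_mul]
  rfl

end NLiftAux

variable {G : Type w} [Group G] (α : G →* (A ≃⋆ₐ[ℂ] A))

open NLiftAux in
theorem lift_mcduff (hM : EquivariantUniformMcDuff α) (F : Finset A) (S : Finset G) (ε : ℝ)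
    (hε : 0 < ε) : ∃ w : A, ‖w‖ ≤ 1 ∧ (∀ a ∈ F, ‖w * a - a * w‖ ≤ ε) ∧
      (∀ g ∈ S, ‖α g w - w‖ ≤ ε) ∧ TwoNormLE (w * w) ε ∧
      TwoNormLE (star w * w + w * star w - 1) ε := by
  classical
  choose u c hc using fun a : A => CStarAlgebra.exists_sum_four_unitary a
  let σ : (F × Fin 4) ⊕ S → (A ≃⋆ₐ[ℂ] A) :=
    Sum.elim (fun p => Unitary.conjStarAlgAut ℂ A (u p.1 p.2)) (fun g => α g)
  set M : ℝ := ∑ a ∈ F, ‖a‖ with hMdef
  have hM0 : 0 ≤ M := Finset.sum_nonneg fun a _ => norm_nonneg a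
  set ε₁ : ℝ := ε / (8 + 2 * M) with hε₁
  have hε₁0 : 0 < ε₁ := by (clear * - hε; positivity)
  have hε₁8 : 4 * ε₁ ≤ ε / 2 := by
    rw [hε₁]
    have : 4 * (ε / (8 + 2 * M)) = ε * (4 / (8 + 2 * M)) := by ring
    rw [this]
    have h2 : 4 / (8 + 2 * M) ≤ 1 / 2 := by
      rw [div_le_div_iff₀ (by positivity) (by norm_num)]; linarith only [hM0]
    nlinarith only [hε, h2]
  have hε₁M : 2 * M * ε₁ ≤ ε := by
    rw [hε₁]
    have : 2 * M * (ε / (8 + 2 * M)) = ε * (2 * M / (8 + 2 * M)) := by ring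
    rw [this]
    have h2 : 2 * M / (8 + 2 * M) ≤ 1 := by
      rw [div_le_one (by (clear * -; positivity))]; linarith only []
    nlinarith only [hε, h2]
  obtain ⟨δ, hδ, hlift⟩ := lift_fintype σ ε₁ hε₁0
  set δ' : ℝ := min δ (ε / 2) with hδ'
  have hδ'0 : 0 < δ' := lt_min hδ (by positivity)
  obtain ⟨v, hv1, hv2, hv3, hv4, hv5⟩ := hM
    ((Finset.univ : Finset (F × Fin 4)).image fun p => ((u p.1 p.2 : unitary A) : A)) S δ' hδ'0
  rw [twoNormLE_iff hδ'0.le] at hv2 hv3
  obtain ⟨w, hw1, hw2, hw3⟩ := hlift v hv1 (by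
    rintro (p | g)
    · have h1 := (twoNormLE_iff hδ'0.le).1 (hv4 _ (Finset.mem_image_of_mem _ (Finset.mem_univ p)))
      set U : unitary A := u p.1 p.2 with hU
      have hU1 : star (U : A) * U = 1 := Unitary.coe_star_mul_self U
      have hU2 : (U : A) * star (U : A) = 1 := Unitary.coe_mul_star_self U
      have e1 : σ (Sum.inl p) v - v = (-(v * U - U * v)) * star (U : A) := by
        simp only [σ, Sum.elim_inl, Unitary.conjStarAlgAut_apply]
        rw [neg_mul, sub_mul, mul_assoc v, hU2, mul_one]; abel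
      have e2 : (σ (Sum.inl p)).symm v - v = star (U : A) * (v * U - U * v) := by
        simp only [σ, Sum.elim_inl, Unitary.conjStarAlgAut_symm_apply]
        rw [mul_sub, ← mul_assoc (star (U : A)) (U : A) v, hU1, one_mul, mul_assoc]
      constructor
      · rw [twoNormLE_iff hδ.le, e1]
        intro τ hτ
        rw [nrm_mul_unitary hτ (by rw [star_star]; exact hU1), nrm_neg]
        exact (h1 τ hτ).trans (min_le_left _ _)
      · rw [twoNormLE_iff hδ.le, e2]
        intro τ hτ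
        rw [nrm_unitary_mul (by rw [star_star]; exact hU2)]
        exact (h1 τ hτ).trans (min_le_left _ _)
    · have h1 := (twoNormLE_iff hδ'0.le).1 (hv5 g g.2)
      constructor
      · rw [twoNormLE_iff hδ.le]
        intro τ hτ
        exact (h1 τ hτ).trans (min_le_left _ _)
      · rw [twoNormLE_iff hδ.le]
        intro τ hτ
        have e1 : (σ (Sum.inr g)).symm v - v = (α g).symm (-(α g v - v)) := by
          simp only [σ, Sum.elim_inr]
          rw [neg_sub, map_sub]
          simp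
        rw [e1, nrm_aut, nrm_neg]
        exact (h1 _ (hτ.comp _)).trans (min_le_left _ _))
  rw [twoNormLE_iff hε₁0.le] at hw3
  refine ⟨w, hw1, ?_, ?_, ?_, ?_⟩
  · intro a ha
    have h1 : ∀ k, ‖w * (u a k : A) - (u a k : A) * w‖ ≤ ε₁ := by
      intro k
      have h2 := hw2 (Sum.inl (⟨a, ha⟩, k))
      set U : unitary A := u a k with hU
      have hU1 : star (U : A) * U = 1 := Unitary.coe_star_mul_self U
      have e1 : w * (U : A) - (U : A) * w = -((σ (Sum.inl (⟨a, ha⟩, k)) w - w) * U) := by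
        simp only [Sum.elim_inl, Unitary.conjStarAlgAut_apply, σ]
        rw [sub_mul, mul_assoc _ (star _) _, hU1, mul_one]; abel
      rw [e1, norm_neg]
      refine (norm_mul_le _ _).trans ?_
      have h3 : ‖(U : A)‖ ≤ 1 := by
        rcases subsingleton_or_nontrivial A with h | h
        · rw [Subsingleton.elim (U : A) 0, norm_zero]; exact zero_le_one
        · exact (CStarRing.norm_coe_unitary U).le
      nlinarith only [h2, h3, norm_nonneg (σ (Sum.inl (⟨a, ha⟩, k)) w - w)]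
    have e1 : w * a - a * w = ∑ k, c a k • (w * (u a k : A) - (u a k : A) * w) := by
      conv_lhs => rw [(hc a).1]
      rw [Finset.mul_sum, Finset.sum_mul, ← Finset.sum_sub_distrib]
      refine Finset.sum_congr rfl fun k _ => ?_
      rw [mul_smul_comm, smul_mul_assoc, smul_sub]
    rw [e1]
    refine (norm_sum_le _ _).trans ?_
    have h2 : ∀ k, ‖c a k • (w * (u a k : A) - (u a k : A) * w)‖ ≤ ‖a‖ / 2 * ε₁ := by
      intro k
      rw [norm_smul]
      exact mul_le_mul ((hc a).2 k) (h1 k) (norm_nonneg _) (by (clear * -; positivity))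
    refine (Finset.sum_le_sum fun k _ => h2 k).trans ?_
    rw [Finset.sum_const, Finset.card_univ, Fintype.card_fin, nsmul_eq_mul]
    have h3 : ‖a‖ ≤ M := Finset.single_le_sum (f := fun a : A => ‖a‖)
      (fun b _ => norm_nonneg b) ha
    push_cast
    nlinarith only [hε₁M, hε₁0, h3]
  · intro g hg
    have h1 := hw2 (Sum.inr ⟨g, hg⟩)
    have h2 : ε₁ ≤ ε := by linarith only [hε₁0, hε₁8]
    exact h1.trans h2
  · rw [twoNormLE_iff hε.le]
    intro τ hτ
    have h0 := hw3 τ hτ
    have e1 : w * w = w * (w - v) + (w - v) * v + v * v := by noncomm_ring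
    have h1 : nrm τ (w * (w - v)) ≤ ε₁ := (nrm_mul_left_le hτ _ _).trans (by
      nlinarith only [h0, hw1, nrm_nonneg (σ := τ) (w - v)])
    have h2 : nrm τ ((w - v) * v) ≤ ε₁ := (nrm_mul_right_le hτ _ _).trans (by
      nlinarith only [h0, hv1, nrm_nonneg (σ := τ) (w - v)])
    have h3 := hv2 τ hτ
    have h4 := min_le_right δ (ε / 2)
    rw [e1]
    refine (nrm_add_le hτ _ _).trans ?_
    have := nrm_add_le hτ (w * (w - v)) ((w - v) * v)
    linarith only [hε₁0, hε₁8, h1, h2, h3, h4, this]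
  · rw [twoNormLE_iff hε.le]
    intro τ hτ
    have h0 := hw3 τ hτ
    have e1 : star w * w + w * star w - 1 = (star w * (w - v) + star (w - v) * v) +
        (w * star (w - v) + (w - v) * star v) + (star v * v + v * star v - 1) := by
      rw [star_sub]; noncomm_ring
    have h0' : nrm τ (star (w - v)) ≤ ε₁ := by rw [nrm_star hτ]; exact h0
    have hws : ‖star w‖ ≤ 1 := by rw [norm_star]; exact hw1
    have hvs : ‖star v‖ ≤ 1 := by rw [norm_star]; exact hv1
    have h1 : nrm τ (star w * (w - v)) ≤ ε₁ := (nrm_mul_left_le hτ _ _).trans (by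
      nlinarith only [hε₁0, hws, h0, norm_nonneg (star w)])
    have h2 : nrm τ (star (w - v) * v) ≤ ε₁ := (nrm_mul_right_le hτ _ _).trans (by
      nlinarith only [h0', hv1, nrm_nonneg (σ := τ) (star (w - v))])
    have h3 : nrm τ (w * star (w - v)) ≤ ε₁ := (nrm_mul_left_le hτ _ _).trans (by
      nlinarith only [h0', hw1, nrm_nonneg (σ := τ) (star (w - v))])
    have h4 : nrm τ ((w - v) * star v) ≤ ε₁ := (nrm_mul_right_le hτ _ _).trans (by
      nlinarith only [hε₁0, hvs, h0, norm_nonneg (star v)])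
    have h5 := hv3 τ hτ
    have h6 := min_le_right δ (ε / 2)
    rw [e1]
    refine (nrm_add_le hτ _ _).trans ?_
    have h7 := nrm_add_le hτ (star w * (w - v) + star (w - v) * v)
      (w * star (w - v) + (w - v) * star v)
    have h8 := nrm_add_le hτ (star w * (w - v)) (star (w - v) * v)
    have h9 := nrm_add_le hτ (w * star (w - v)) ((w - v) * star v)
    linarith only [hε₁8, h1, h2, h3, h4, h5, h6, h7, h8, h9]

end

end Vale.Agent.P095
end

section

namespace Vale.Agent.P135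

/-- Cuntz comparison `diag a ≾ diag b` of finite tuples of elements of a C*-algebra. -/
def CuntzLE {B : Type*} [NonUnitalCStarAlgebra B] {ι κ : Type*} [Fintype ι] [Fintype κ]
    [DecidableEq ι] (a : ι → B) (b : κ → B) : Prop :=
  ∀ ε : ℝ, 0 < ε → ∃ x : ι → κ → B, ∀ i i' : ι,
    ‖∑ j, x i j * b j * star (x i' j) - (if i = i' then a i else 0)‖ ≤ ε

/-- The properties of a dimension (rank) function on the positive elements of one C*-algebra
that are needed to build a quasitrace. -/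
structure IsRankFn {B : Type*} [CStarAlgebra B] [PartialOrder B] [StarOrderedRing B]
    (D : B → ℝ) : Prop where
  nonneg : ∀ a : B, 0 ≤ a → 0 ≤ D a
  zero : D 0 = 0
  mono : ∀ a b : B, 0 ≤ a → a ≤ b → D a ≤ D b
  star_mul : ∀ x : B, D (star x * x) = D (x * star x)
  conj_le : ∀ a c : B, 0 ≤ a → D (star c * a * c) ≤ D a
  add_le : ∀ a b : B, 0 ≤ a → 0 ≤ b → D (a + b) ≤ D a + D b
  add_orth : ∀ a b : B, 0 ≤ a → 0 ≤ b → a * b = 0 → D (a + b) = D a + D b

end Vale.Agent.P135
end

section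

namespace Vale.Agent.P135

section general
variable {B : Type*} [NonUnitalCStarAlgebra B]

theorem CuntzLE.trans {ι κ ν : Type*} [Fintype ι] [Fintype κ] [Fintype ν] [DecidableEq ι]
    [DecidableEq κ] {a : ι → B} {b : κ → B} {c : ν → B} (h₁ : CuntzLE a b) (h₂ : CuntzLE b c) :
    CuntzLE a c := by
  intro ε hε
  obtain ⟨x, hx⟩ := h₁ (ε / 2) (half_pos hε)
  set M : ℝ := ∑ i, ∑ j, ‖x i j‖ with hM
  have hM0 : 0 ≤ M := Finset.sum_nonneg fun i _ => Finset.sum_nonneg fun j _ => norm_nonneg _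
  have hrow : ∀ i, ∑ j, ‖x i j‖ ≤ M := fun i =>
    Finset.single_le_sum (f := fun i => ∑ j, ‖x i j‖)
      (fun i _ => Finset.sum_nonneg fun j _ => norm_nonneg _) (Finset.mem_univ i)
  obtain ⟨y, hy⟩ := h₂ (ε / (2 * (M ^ 2 + 1))) (by (clear * - hε; positivity))
  refine ⟨fun i l => ∑ j, x i j * y j l, fun i i' => ?_⟩
  have h1 : ∑ l, (∑ j, x i j * y j l) * c l * star (∑ j, x i' j * y j l) =
      ∑ j, ∑ j', x i j * (∑ l, y j l * c l * star (y j' l)) * star (x i' j') := by
    have h2 : ∀ l, (∑ j, x i j * y j l) * c l * star (∑ j, x i' j * y j l) =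
        ∑ j, ∑ j', x i j * (y j l * c l * star (y j' l)) * star (x i' j') := by
      intro l
      rw [star_sum, Finset.sum_mul, Finset.sum_mul]
      refine Finset.sum_congr rfl fun j _ => ?_
      rw [Finset.mul_sum]
      refine Finset.sum_congr rfl fun j' _ => ?_
      rw [star_mul]
      simp only [mul_assoc]
    simp_rw [h2, Finset.mul_sum, Finset.sum_mul]
    rw [Finset.sum_comm]
    refine Finset.sum_congr rfl fun j _ => ?_
    rw [Finset.sum_comm]
  have h3 : ∑ j, x i j * b j * star (x i' j) =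
      ∑ j, ∑ j', x i j * (if j = j' then b j else 0) * star (x i' j') := by
    refine Finset.sum_congr rfl fun j _ => ?_
    rw [Finset.sum_eq_single j]
    · simp only [↓reduceIte]
    · intro j' _ hj'
      simp only [Ne.symm hj', ↓reduceIte, mul_zero, zero_mul]
    · simp only [Finset.mem_univ, not_true_eq_false, ↓reduceIte, IsEmpty.forall_iff]
  have h4 : ‖∑ l, (∑ j, x i j * y j l) * c l * star (∑ j, x i' j * y j l) -
      ∑ j, x i j * b j * star (x i' j)‖ ≤ ε / 2 := by
    rw [h1, h3, ← Finset.sum_sub_distrib]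
    have h5 : ∀ j j', ‖x i j * (∑ l, y j l * c l * star (y j' l)) * star (x i' j') -
        x i j * (if j = j' then b j else 0) * star (x i' j')‖ ≤
        ‖x i j‖ * ‖x i' j'‖ * (ε / (2 * (M ^ 2 + 1))) := by
      intro j j'
      rw [← sub_mul, ← mul_sub]
      calc ‖x i j * (∑ l, y j l * c l * star (y j' l) - if j = j' then b j else 0) *
            star (x i' j')‖
          ≤ ‖x i j‖ * ‖∑ l, y j l * c l * star (y j' l) - if j = j' then b j else 0‖ *
            ‖star (x i' j')‖ :=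
            (norm_mul_le _ _).trans (mul_le_mul_of_nonneg_right (norm_mul_le _ _)
              (norm_nonneg _))
        _ ≤ ‖x i j‖ * (ε / (2 * (M ^ 2 + 1))) * ‖star (x i' j')‖ := by
            gcongr
            exact hy j j'
        _ = _ := by rw [norm_star]; ring
    calc ‖∑ j, (∑ j', x i j * (∑ l, y j l * c l * star (y j' l)) * star (x i' j') -
          ∑ j', x i j * (if j = j' then b j else 0) * star (x i' j'))‖
        ≤ ∑ j, ∑ j', ‖x i j‖ * ‖x i' j'‖ * (ε / (2 * (M ^ 2 + 1))) := by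
          refine norm_sum_le_of_le _ fun j _ => ?_
          rw [← Finset.sum_sub_distrib]
          exact norm_sum_le_of_le _ fun j' _ => h5 j j'
      _ = (∑ j, ‖x i j‖) * (∑ j', ‖x i' j'‖) * (ε / (2 * (M ^ 2 + 1))) := by
          rw [Finset.sum_mul_sum, Finset.sum_mul]
          refine Finset.sum_congr rfl fun j _ => ?_
          rw [Finset.sum_mul]
      _ ≤ M * M * (ε / (2 * (M ^ 2 + 1))) := by
          gcongr
          · exact hrow i
          · exact hrow i'
      _ ≤ ε / 2 := by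
          rw [show M * M * (ε / (2 * (M ^ 2 + 1))) = (ε / 2) * (M ^ 2 / (M ^ 2 + 1)) by
            (clear * - hε; field_simp)]
          have : M ^ 2 / (M ^ 2 + 1) ≤ 1 := by
            rw [div_le_one (by (clear * -; positivity))]; linarith only []
          have h6 : 0 ≤ ε / 2 := by positivity
          nlinarith only [hε, this]
  calc ‖∑ l, (∑ j, x i j * y j l) * c l * star (∑ j, x i' j * y j l) -
        (if i = i' then a i else 0)‖
      ≤ ‖∑ l, (∑ j, x i j * y j l) * c l * star (∑ j, x i' j * y j l) -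
          ∑ j, x i j * b j * star (x i' j)‖ +
        ‖∑ j, x i j * b j * star (x i' j) - (if i = i' then a i else 0)‖ :=
        norm_sub_le_norm_sub_add_norm_sub _ _ _
    _ ≤ ε / 2 + ε / 2 := add_le_add h4 (hx i i')
    _ = ε := add_halves ε

/-- reindexing by equivalences on both sides -/
theorem CuntzLE.reindex {ι ι' κ κ' : Type*} [Fintype ι] [Fintype κ] [Fintype ι'] [Fintype κ']
    [DecidableEq ι] [DecidableEq ι'] {a : ι → B} {b : κ → B} (e : ι' ≃ ι) (f : κ' ≃ κ)
    (h : CuntzLE a b) : CuntzLE (a ∘ e) (b ∘ f) := by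
  intro ε hε
  obtain ⟨x, hx⟩ := h ε hε
  refine ⟨fun i j => x (e i) (f j), fun i i' => ?_⟩
  have h1 := hx (e i) (e i')
  rw [← f.sum_comp] at h1
  simpa only [Function.comp_apply, ge_iff_le, EmbeddingLike.apply_eq_iff_eq] using h1

end general

/-- exact one-element comparison -/
theorem CuntzLE.of_eq {B : Type*} [NonUnitalCStarAlgebra B] {ι κ : Type*} [Fintype ι] [Fintype κ]
    [DecidableEq ι] {a : ι → B} {b : κ → B} (x : ι → κ → B)
    (h : ∀ i i', ∑ j, x i j * b j * star (x i' j) = if i = i' then a i else 0) :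
    CuntzLE a b := by
  intro ε hε
  refine ⟨x, fun i i' => ?_⟩
  rw [h, sub_self, norm_zero]
  exact hε.le

section unital
variable {B : Type*} [CStarAlgebra B] [PartialOrder B] [StarOrderedRing B]

/-- one against one -/
theorem CuntzLE.single {a b : B}
    (h : ∀ ε : ℝ, 0 < ε → ∃ x : B, ‖x * b * star x - a‖ ≤ ε) :
    CuntzLE (fun _ : Fin 1 => a) (fun _ : Fin 1 => b) := by
  intro ε hε
  obtain ⟨x, hx⟩ := h ε hε
  refine ⟨fun _ _ => x, fun i i' => ?_⟩
  have : i = i' := Subsingleton.elim _ _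
  simpa only [Finset.univ_unique, Fin.default_eq_zero, Fin.isValue, Finset.sum_const, Finset.card_singleton,     one_smul, this, ↓reduceIte, ge_iff_le] using hx

theorem cuntz_conj (a c : B) :
    CuntzLE (fun _ : Fin 1 => star c * a * c) (fun _ : Fin 1 => a) :=
  CuntzLE.single fun ε hε => ⟨star c, by simpa only [star_star, sub_self, norm_zero] using hε.le⟩

/-- continuity of `f` on the spectrum of a positive element -/
theorem contOn {a : B} (ha : 0 ≤ a) {f : ℝ → ℝ} (hf : ContinuousOn f (Set.Ici 0)) :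
    ContinuousOn f (spectrum ℝ a) :=
  hf.mono fun _ hx => spectrum_nonneg_of_nonneg ha hx

theorem norm_cfc_le_of {a : B} (ha : 0 ≤ a) {f : ℝ → ℝ} {c : ℝ} (hc : 0 ≤ c)
    (h : ∀ s, 0 ≤ s → |f s| ≤ c) : ‖cfc f a‖ ≤ c :=
  norm_cfc_le hc fun s hs => by
    rw [Real.norm_eq_abs]
    exact h s (spectrum_nonneg_of_nonneg ha hs)

theorem star_cfc' (f : ℝ → ℝ) (a : B) : star (cfc f a) = cfc f a :=
  (cfc_predicate f a : IsSelfAdjoint _).star_eq

theorem exists_mono {a b : B} (ha : 0 ≤ a) (hab : a ≤ b) {δ : ℝ} (hδ : 0 < δ) :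
    ∃ x : B, ‖x * b * star x - a‖ ≤ δ := by
  have hb : 0 ≤ b := ha.trans hab
  have hbs : IsSelfAdjoint b := hb.isSelfAdjoint
  set f : ℝ → ℝ := fun s => Real.sqrt (1 / (s + δ)) with hf
  set h : ℝ → ℝ := fun s => Real.sqrt (δ / (s + δ)) with hh
  have hpos : ∀ s ∈ Set.Ici (0 : ℝ), s + δ ≠ 0 := fun s hs => by
    have : 0 ≤ s := hs
    (clear * - this hδ; positivity)
  have hfc : ContinuousOn f (Set.Ici 0) := by
    apply ContinuousOn.sqrt
    exact continuousOn_const.div (by fun_prop) hpos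
  have hhc : ContinuousOn h (Set.Ici 0) := by
    apply ContinuousOn.sqrt
    exact continuousOn_const.div (by fun_prop) hpos
  have hfc' := contOn hb hfc
  have hhc' := contOn hb hhc
  set r := CFC.sqrt a with hr
  have hr1 : star r = r := (CFC.sqrt_nonneg a).isSelfAdjoint.star_eq
  have hr2 : r * r = a := CFC.sqrt_mul_sqrt_self a ha
  refine ⟨r * cfc f b, ?_⟩
  have h1 : cfc f b * b * cfc f b + cfc h b * cfc h b = 1 := by
    have e1 : cfc f b * b * cfc f b = cfc (fun s => f s * s * f s) b := by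
      rw [cfc_mul (fun s => f s * s) f b (hfc'.mul continuousOn_id) hfc',
        cfc_mul f (fun s => s) b hfc' continuousOn_id, cfc_id' ℝ b]
    have e2 : cfc h b * cfc h b = cfc (fun s => h s * h s) b := by
      rw [cfc_mul h h b hhc' hhc']
    rw [e1, e2, ← cfc_add (a := b) (fun s => f s * s * f s) (fun s => h s * h s)
      ((hfc'.mul continuousOn_id).mul hfc') (hhc'.mul hhc')]
    rw [← cfc_one ℝ b]
    apply cfc_congr
    intro s hs
    have hs0 : 0 ≤ s := spectrum_nonneg_of_nonneg hb hs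
    have hp : 0 < s + δ := by (clear * - hs0 hδ; positivity)
    have e3 : f s * f s = 1 / (s + δ) := Real.mul_self_sqrt (by (clear * - hs0 hδ; positivity))
    have e4 : h s * h s = δ / (s + δ) := Real.mul_self_sqrt (by positivity)
    change f s * s * f s + h s * h s = 1
    rw [mul_right_comm, e3, e4]
    field_simp
  have h2 : r * cfc f b * b * star (r * cfc f b) - a = -(star (cfc h b * r) * (cfc h b * r)) := by
    rw [star_mul, star_mul, star_cfc', star_cfc', hr1]
    have h3 : r * cfc f b * b * (cfc f b * r) = r * (cfc f b * b * cfc f b) * r := by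
      noncomm_ring
    have h4 : r * cfc h b * (cfc h b * r) = r * (cfc h b * cfc h b) * r := by
      noncomm_ring
    rw [h3, h4, ← sub_eq_zero, sub_neg_eq_add, sub_add_eq_add_sub, ← add_mul, ← mul_add, h1,
      mul_one, hr2, sub_self]
  rw [h2, norm_neg, CStarRing.norm_star_mul_self, ← CStarRing.norm_self_mul_star]
  have h5 : cfc h b * r * star (cfc h b * r) = star (cfc h b) * a * cfc h b := by
    rw [star_mul, star_cfc', hr1, ← hr2]
    noncomm_ring
  rw [h5]
  have h6 : star (cfc h b) * a * cfc h b ≤ star (cfc h b) * b * cfc h b :=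
    star_left_conjugate_le_conjugate hab _
  have h7 : 0 ≤ star (cfc h b) * a * cfc h b := star_left_conjugate_nonneg ha _
  refine (CStarAlgebra.norm_le_norm_of_nonneg_of_le h7 h6).trans ?_
  have h8 : star (cfc h b) * b * cfc h b = cfc (fun s => h s * s * h s) b := by
    rw [star_cfc', cfc_mul (fun s => h s * s) h b (hhc'.mul continuousOn_id) hhc',
      cfc_mul h (fun s => s) b hhc' continuousOn_id, cfc_id' ℝ b]
  rw [h8]
  refine norm_cfc_le_of hb hδ.le fun s hs => ?_
  have hp : 0 < s + δ := by (clear * - hs hδ; positivity)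
  have e4 : h s * h s = δ / (s + δ) := Real.mul_self_sqrt (by (clear * - hδ hs; positivity))
  rw [mul_right_comm, e4, abs_of_nonneg (by (clear * - hδ hs; positivity)), div_mul_eq_mul_div, div_le_iff₀ hp]
  nlinarith only [hδ]

theorem cuntz_sq {a : B} (ha : 0 ≤ a) :
    CuntzLE (fun _ : Fin 1 => a) (fun _ : Fin 1 => a * a) := by
  refine CuntzLE.single fun δ hδ => ?_
  have has : IsSelfAdjoint a := ha.isSelfAdjoint
  set f : ℝ → ℝ := fun s => Real.sqrt (1 / (s + δ)) with hf
  have hpos : ∀ s ∈ Set.Ici (0 : ℝ), s + δ ≠ 0 := fun s hs => by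
    have : 0 ≤ s := hs
    positivity
  have hfc : ContinuousOn f (Set.Ici 0) := by
    apply ContinuousOn.sqrt
    exact continuousOn_const.div (by fun_prop) hpos
  have hfc' := contOn ha hfc
  refine ⟨cfc f a, ?_⟩
  have h1 : cfc f a * (a * a) * star (cfc f a) - a =
      cfc (fun s => f s * (s * s) * f s - s) a := by
    rw [star_cfc', cfc_sub (fun s => f s * (s * s) * f s) (fun s => s) a
      ((hfc'.mul (by fun_prop)).mul hfc') continuousOn_id,
      cfc_mul (fun s => f s * (s * s)) f a (hfc'.mul (by fun_prop)) hfc',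
      cfc_mul f (fun s => s * s) a hfc' (by (clear * -; fun_prop)),
      cfc_mul (fun s => s) (fun s => s) a continuousOn_id continuousOn_id, cfc_id' ℝ a]
  rw [h1]
  refine norm_cfc_le_of ha hδ.le fun s hs => ?_
  have hp : 0 < s + δ := by positivity
  have e4 : f s * f s = 1 / (s + δ) := Real.mul_self_sqrt (by positivity)
  rw [mul_right_comm, e4]
  have e5 : 1 / (s + δ) * (s * s) - s = -(δ * s / (s + δ)) := by field_simp; ring
  rw [e5, abs_neg, abs_of_nonneg (by (clear * - hδ hs; positivity)), div_le_iff₀ hp]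
  nlinarith only [hδ]

theorem cuntz_star_mul (x : B) :
    CuntzLE (fun _ : Fin 1 => star x * x) (fun _ : Fin 1 => x * star x) := by
  refine (cuntz_sq (star_mul_self_nonneg x)).trans ?_
  have h := cuntz_conj (x * star x) x
  have e : star x * (x * star x) * x = star x * x * (star x * x) := by noncomm_ring
  rwa [e] at h

end unital

end Vale.Agent.P135
end

section

/-! From a matrix inequality to Cuntz comparison. -/

namespace Vale.Agent.P095C

open Vale.Agent

variable {A : Type*} [CStarAlgebra A] [PartialOrder A] [StarOrderedRing A]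

section diag

variable {m : Type*} [Fintype m] [DecidableEq m]

/-- the diagonal matrix with constant entry -/
noncomputable def mcD (m : Type*) [DecidableEq m] (a : A) : CStarMatrix m m A :=
  CStarMatrix.ofMatrix (Matrix.diagonal fun _ : m => a)

omit [PartialOrder A] [StarOrderedRing A] [Fintype m] in
theorem mcD_apply (a : A) (i j : m) : mcD m a i j = if i = j then a else 0 :=
  Matrix.diagonal_apply ..

theorem mcD_mul (a b : A) : mcD m a * mcD m b = mcD m (a * b) := by
  refine CStarMatrix.ext fun i j => ?_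
  rw [CStarMatrix.mul_apply]
  simp only [mcD_apply]
  rw [Finset.sum_eq_single i]
  · by_cases h : i = j <;> simp [h]
  · intro k _ hk
    simp [Ne.symm hk]
  · simp only [Finset.mem_univ, not_true_eq_false, ↓reduceIte, mul_ite, mul_zero, ite_eq_right_iff, IsEmpty.forall_iff]

omit [PartialOrder A] [StarOrderedRing A] [Fintype m] in
theorem mcD_star (a : A) : star (mcD m a) = mcD m (star a) := by
  refine CStarMatrix.ext fun i j => ?_
  rw [CStarMatrix.star_apply, mcD_apply, mcD_apply]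
  by_cases h : i = j
  · simp only [h, ↓reduceIte]
  · simp only [Ne.symm h, ↓reduceIte, star_zero, h]

omit [PartialOrder A] [StarOrderedRing A] [Fintype m] in
theorem mcD_sub (a b : A) : mcD m (a - b) = mcD m a - mcD m b := by
  refine CStarMatrix.ext fun i j => ?_
  rw [CStarMatrix.sub_apply, mcD_apply, mcD_apply, mcD_apply]
  by_cases h : i = j <;> simp [h]

omit [PartialOrder A] [StarOrderedRing A] [Fintype m] in
theorem mcD_smul_one (r : ℝ) : mcD m (r • (1 : A)) = r • (1 : CStarMatrix m m A) := by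
  refine CStarMatrix.ext fun i j => ?_
  rw [CStarMatrix.smul_apply, mcD_apply, CStarMatrix.one_apply]
  by_cases h : i = j <;> simp [h]

theorem mcD_nonneg {a : A} (ha : 0 ≤ a) : 0 ≤ mcD m a := by
  have h1 : a = star (CFC.sqrt a) * CFC.sqrt a := by
    rw [(CFC.sqrt_nonneg a).isSelfAdjoint.star_eq, CFC.sqrt_mul_sqrt_self a ha]
  rw [h1, ← mcD_mul, ← mcD_star]
  exact star_mul_self_nonneg _

end diag

omit [PartialOrder A] [StarOrderedRing A] in
/-- blocks -/
theorem mc_prod {ι κ : Type*} [Fintype ι] [Fintype κ] [DecidableEq ι] {a b : A}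
    (h : P135.CuntzLE (fun _ : ι => a) (fun _ : κ => b)) (j : ℕ) :
    P135.CuntzLE (fun _ : Fin j × ι => a) (fun _ : Fin j × κ => b) := by
  intro ε hε
  obtain ⟨x, hx⟩ := h ε hε
  refine ⟨fun p r => if p.1 = r.1 then x p.2 r.2 else 0, fun p p' => ?_⟩
  rw [Fintype.sum_prod_type]
  rw [Finset.sum_eq_single p.1]
  · by_cases hp : p.1 = p'.1
    · have h1 := hx p.2 p'.2
      have e1 : (p = p') = (p.2 = p'.2) := by
        rw [Prod.ext_iff]
        simp [hp]
      simp only [e1, hp, if_true]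
      exact h1
    · have e1 : ¬ (p = p') := fun h => hp (congrArg Prod.fst h)
      have e2 : ¬ (p'.1 = p.1) := fun h => hp h.symm
      simp only [e1, e2, if_true, if_false, star_zero, mul_zero, Finset.sum_const_zero, sub_zero,
        norm_zero]
      exact hε.le
  · intro t _ ht
    refine Finset.sum_eq_zero fun k _ => ?_
    dsimp only
    rw [if_neg (Ne.symm ht), zero_mul, zero_mul]
  · intro hn
    exact absurd (Finset.mem_univ _) hn

/-- blockwise comparison of constant tuples -/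
theorem cuntz_mul {a b : A} {K M : ℕ}
    (h : P135.CuntzLE (fun _ : Fin K => a) (fun _ : Fin M => b)) (j : ℕ) :
    P135.CuntzLE (fun _ : Fin (j * K) => a) (fun _ : Fin (j * M) => b) :=
  (mc_prod h j).reindex (finProdFinEquiv (m := j) (n := K)).symm
    (finProdFinEquiv (m := j) (n := M)).symm

omit [PartialOrder A] [StarOrderedRing A] in
/-- inclusion of constant tuples -/
theorem mc_emb {ι κ : Type*} [Fintype ι] [Fintype κ] [DecidableEq ι] [DecidableEq κ] (a : A)
    (f : ι → κ) (hf : Function.Injective f) :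
    P135.CuntzLE (fun _ : ι => a) (fun _ : κ => a) := by
  refine P135.CuntzLE.of_eq (fun i j => if f i = j then 1 else 0) fun i i' => ?_
  rw [Finset.sum_eq_single (f i)]
  · by_cases h : i = i'
    · simp only [h, ↓reduceIte, one_mul, star_one, mul_one]
    · have h2 : ¬ (f i' = f i) := fun h' => h (hf h').symm
      simp only [↓reduceIte, one_mul, h2, star_zero, mul_zero, h]
  · intro j _ hj
    simp only [Ne.symm hj, ↓reduceIte, zero_mul]
  · simp only [Finset.mem_univ, not_true_eq_false, ↓reduceIte, one_mul, IsEmpty.forall_iff]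

/-- fewer copies on the left, more copies on the right -/
theorem cuntz_mono_card {a b : A} {K M K' M' : ℕ}
    (h : P135.CuntzLE (fun _ : Fin K => a) (fun _ : Fin M => b)) (hK : K' ≤ K) (hM : M ≤ M') :
    P135.CuntzLE (fun _ : Fin K' => a) (fun _ : Fin M' => b) :=
  ((mc_emb a (Fin.castLE hK) (Fin.castLE_injective hK)).trans h).trans
    (mc_emb b (Fin.castLE hM) (Fin.castLE_injective hM))

end Vale.Agent.P095C
end
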