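import Vale.Agent.P095.MathlibUsed
import Vale.Agent.P095.Bdl.B1
import Vale.Agent.P101.StmtZ
import Vale.Agent.P095.Bdl.B8
import Vale.Agent.P101.StmtChar
import Vale.Agent.P095.Bdl.B2
import Vale.Agent.P095.Bdl.B3

set_option linter.all false

section

open scoped TensorProduct

namespace Vale.Agent.P101

universe u

/-- Two unital star-homomorphisms are approximately unitarily equivalent. -/
def ApproxUnitarilyEquiv {Z B : Type u} [CStarAlgebra Z] [CStarAlgebra B] (φ ψ : Z →⋆ₐ[ℂ] B) :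
    Prop :=
  ∀ (S : Finset Z) (ε : ℝ), 0 < ε → ∃ v ∈ unitary B, ∀ x ∈ S, ‖v * φ x * star v - ψ x‖ < ε

/-- `Z` is the closure of an increasing union of prime dimension drop algebras and has
approximately inner half-flip. -/
structure IsJiangSu (Z : Type u) [CStarAlgebra Z] : Prop where
  limit : ∃ (p q : ℕ → ℕ) (S : ℕ → StarSubalgebra ℂ Z), Monotone S ∧
    (∀ n, 0 < p n ∧ 0 < q n ∧ Nat.Coprime (p n) (q n) ∧
      Nonempty (dimDrop (p n) (q n) ≃⋆ₐ[ℂ] S n)) ∧
    Dense (⋃ n, (S n : Set Z))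
  half_flip : ∀ (B : Type u) [CStarAlgebra B] (φ ψ : Z →⋆ₐ[ℂ] B),
    (∀ x y, Commute (φ x) (ψ y)) → ApproxUnitarilyEquiv φ ψ

/-- `B` is, via `i` and `j`, a C*-completion of the algebraic tensor product `A ⊗ Z`. -/
structure IsCStarTensor {A Z B : Type u} [CStarAlgebra A] [CStarAlgebra Z] [CStarAlgebra B]
    (i : A →⋆ₐ[ℂ] B) (j : Z →⋆ₐ[ℂ] B) : Prop where
  comm : ∀ a z, Commute (i a) (j z)
  inj : Function.Injective
    (Algebra.TensorProduct.lift (i : A →ₐ[ℂ] B) (j : Z →ₐ[ℂ] B) comm : A ⊗[ℂ] Z →ₐ[ℂ] B)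
  dense : DenseRange
    (Algebra.TensorProduct.lift (i : A →ₐ[ℂ] B) (j : Z →ₐ[ℂ] B) comm : A ⊗[ℂ] Z →ₐ[ℂ] B)

end Vale.Agent.P101
end

section

/-! Comparison of the definitions used by the final statements with the working definitions. -/

open Filter Topology
open scoped Kronecker TensorProduct

namespace Vale.Agent.P101

universe u

theorem dimDrop_of_isDimDrop {Z : Type u} [CStarAlgebra Z] {p q : ℕ} {R : StarSubalgebra ℂ Z}
    (h : IsDimDrop p q R) : Nonempty (dimDrop p q ≃⋆ₐ[ℂ] R) := by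
  obtain ⟨S, hS, e⟩ := h.iso
  have : S = dimDrop p q := by
    ext f
    rw [hS f]
    rfl
  rw [← this]
  exact e

theorem IsJiangSuAlgebra.isJiangSu {Z : Type u} [CStarAlgebra Z] (h : IsJiangSuAlgebra Z) :
    IsJiangSu Z := by
  obtain ⟨p, q, R, hR, hn, hd⟩ := h.limit
  refine ⟨⟨p, q, R, hR, fun n => ?_, hd⟩, fun B _ φ ψ hc S ε hε => (h.half_flip B).flip φ ψ hc S ε hε⟩
  obtain ⟨h1, h2, h3, h4⟩ := hn n
  exact ⟨h1, h2, h3, dimDrop_of_isDimDrop h4⟩

theorem IsTensorCompletion.isCStarTensor {A Z B : Type u} [CStarAlgebra A] [CStarAlgebra Z]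
    [CStarAlgebra B] {i : A →⋆ₐ[ℂ] B} {j : Z →⋆ₐ[ℂ] B} (h : IsTensorCompletion i j) :
    IsCStarTensor i j :=
  ⟨h.comm, h.injective, h.dense⟩

end Vale.Agent.P101
end

section

open TopologicalSpace
open scoped TensorProduct Kronecker

namespace Vale.Agent.P101

universe u

section
open scoped Matrix.Norms.L2Operator

theorem sepAux_isClosed_dimDrop (p q : ℕ) :
    IsClosed ((dimDrop p q : StarSubalgebra ℂ
      C(unitInterval, Matrix (Fin p × Fin q) (Fin p × Fin q) ℂ)) :
      Set C(unitInterval, Matrix (Fin p × Fin q) (Fin p × Fin q) ℂ)) := by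
  have h0 : IsClosed (Set.range fun x : Matrix (Fin p) (Fin p) ℂ =>
      x ⊗ₖ (1 : Matrix (Fin q) (Fin q) ℂ)) := by
    let f : Matrix (Fin p) (Fin p) ℂ →ₗ[ℂ] Matrix (Fin p × Fin q) (Fin p × Fin q) ℂ :=
      { toFun := fun x => x ⊗ₖ (1 : Matrix (Fin q) (Fin q) ℂ)
        map_add' := fun x y => Matrix.add_kronecker _ _ _
        map_smul' := fun c x => Matrix.smul_kronecker _ _ _ }
    have : IsClosed (LinearMap.range f : Set (Matrix (Fin p × Fin q) (Fin p × Fin q) ℂ)) :=
      Submodule.closed_of_finiteDimensional _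
    exact this
  have h1 : IsClosed (Set.range fun x : Matrix (Fin q) (Fin q) ℂ =>
      (1 : Matrix (Fin p) (Fin p) ℂ) ⊗ₖ x) := by
    let f : Matrix (Fin q) (Fin q) ℂ →ₗ[ℂ] Matrix (Fin p × Fin q) (Fin p × Fin q) ℂ :=
      { toFun := fun x => (1 : Matrix (Fin p) (Fin p) ℂ) ⊗ₖ x
        map_add' := fun x y => Matrix.kronecker_add _ _ _
        map_smul' := fun c x => Matrix.kronecker_smul _ _ _ }
    have : IsClosed (LinearMap.range f : Set (Matrix (Fin p × Fin q) (Fin p × Fin q) ℂ)) :=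
      Submodule.closed_of_finiteDimensional _
    exact this
  have e : ((dimDrop p q : StarSubalgebra ℂ
      C(unitInterval, Matrix (Fin p × Fin q) (Fin p × Fin q) ℂ)) :
      Set C(unitInterval, Matrix (Fin p × Fin q) (Fin p × Fin q) ℂ))
      = (fun f : C(unitInterval, Matrix (Fin p × Fin q) (Fin p × Fin q) ℂ) => f 0) ⁻¹'
          (Set.range fun x : Matrix (Fin p) (Fin p) ℂ => x ⊗ₖ (1 : Matrix (Fin q) (Fin q) ℂ))
        ∩ (fun f : C(unitInterval, Matrix (Fin p × Fin q) (Fin p × Fin q) ℂ) => f 1) ⁻¹'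
          (Set.range fun x : Matrix (Fin q) (Fin q) ℂ => (1 : Matrix (Fin p) (Fin p) ℂ) ⊗ₖ x) := by
    ext f
    constructor
    · rintro ⟨⟨x, hx⟩, ⟨y, hy⟩⟩
      exact ⟨⟨x, hx.symm⟩, ⟨y, hy.symm⟩⟩
    · rintro ⟨⟨x, hx⟩, ⟨y, hy⟩⟩
      exact ⟨⟨x, hx.symm⟩, ⟨y, hy.symm⟩⟩
  rw [e]
  exact (h0.preimage (continuous_eval_const 0)).inter
    (h1.preimage (continuous_eval_const 1))

theorem sepAux_range {Z : Type u} [CStarAlgebra Z] (p q : ℕ) (φ : dimDrop p q →⋆ₐ[ℂ] Z) :
    IsSeparable (Set.range φ) := by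
  have : IsClosed ((dimDrop p q : StarSubalgebra ℂ
      C(unitInterval, Matrix (Fin p × Fin q) (Fin p × Fin q) ℂ)) :
      Set C(unitInterval, Matrix (Fin p × Fin q) (Fin p × Fin q) ℂ)) :=
    sepAux_isClosed_dimDrop p q
  let : CStarAlgebra (dimDrop p q) := StarSubalgebra.cstarAlgebra (dimDrop p q)
  have hc : Continuous φ :=
    AddMonoidHomClass.continuous_of_bound φ 1
      (by simpa only [one_mul] using! NonUnitalStarAlgHom.norm_apply_le φ)
  have : SecondCountableTopology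
      C(unitInterval, Matrix (Fin p × Fin q) (Fin p × Fin q) ℂ) := inferInstance
  have : SeparableSpace (dimDrop p q) := inferInstance
  exact isSeparable_range hc

end

/-- A Jiang-Su algebra is separable. -/
theorem separable_dimDrop_closure {Z : Type u} [CStarAlgebra Z] (h : IsJiangSu Z) :
    TopologicalSpace.SeparableSpace Z := by
  obtain ⟨p, q, S, -, hS, hdense⟩ := h.limit
  have h1 : ∀ n, IsSeparable (S n : Set Z) := by
    intro n
    obtain ⟨-, -, -, ⟨e⟩⟩ := hS n
    have h2 := sepAux_range (p n) (q n) ((S n).subtype.comp (e : dimDrop (p n) (q n) →⋆ₐ[ℂ] S n))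
    refine h2.mono ?_
    intro z hz
    exact ⟨e.symm ⟨z, hz⟩, by simp⟩
  have h2 : IsSeparable (⋃ n, (S n : Set Z)) := IsSeparable.iUnion h1
  have h3 : IsSeparable (Set.univ : Set Z) := by
    rw [← hdense.closure_eq]
    exact h2.closure
  exact isSeparable_univ_iff.mp h3

theorem separable_tensor {A Z B : Type u} [CStarAlgebra A] [CStarAlgebra Z] [CStarAlgebra B]
    [TopologicalSpace.SeparableSpace A] [TopologicalSpace.SeparableSpace Z]
    (i : A →⋆ₐ[ℂ] B) (j : Z →⋆ₐ[ℂ] B) (h : IsCStarTensor i j) :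
    TopologicalSpace.SeparableSpace B := by
  have hci : Continuous i :=
    AddMonoidHomClass.continuous_of_bound i 1
      (by simpa only [one_mul] using! NonUnitalStarAlgHom.norm_apply_le i)
  have hcj : Continuous j :=
    AddMonoidHomClass.continuous_of_bound j 1
      (by simpa only [one_mul] using! NonUnitalStarAlgHom.norm_apply_le j)
  have h1 : IsSeparable (Set.range fun x : A × Z => i x.1 * j x.2) :=
    isSeparable_range ((hci.comp continuous_fst).mul (hcj.comp continuous_snd))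
  have h2 : IsSeparable
      (Submodule.span ℂ (Set.range fun x : A × Z => i x.1 * j x.2) : Set B) := h1.span
  have h3 : Set.range (Algebra.TensorProduct.lift (i : A →ₐ[ℂ] B) (j : Z →ₐ[ℂ] B) h.comm)
      ⊆ (Submodule.span ℂ (Set.range fun x : A × Z => i x.1 * j x.2) : Set B) := by
    rintro _ ⟨t, rfl⟩
    induction t using TensorProduct.induction_on with
    | zero => simp only [map_zero, SetLike.mem_coe, zero_mem]
    | tmul a z =>
      rw [Algebra.TensorProduct.lift_tmul]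
      exact Submodule.subset_span ⟨(a, z), rfl⟩
    | add x y hx hy =>
      rw [map_add]
      exact Submodule.add_mem _ hx hy
  have h4 : IsSeparable (Set.univ : Set B) := by
    rw [← h.dense.closure_eq]
    exact (h2.mono h3).closure
  exact isSeparable_univ_iff.mp h4

end Vale.Agent.P101
end

section

/-! Homomorphisms from an inductive limit of dimension drop algebras into a central sequence
algebra. -/

open Filter Topology

namespace Vale.Agent.P101

universe u v w

section Rep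

variable {A : Type u} [CStarAlgebra A] {ι : Type v} {μ : Filter ι}

/-- Any representative of `φ d` has norm eventually less than `r` if `‖d‖ < r`. -/
theorem rep_norm_lt {D : Type w} [CStarAlgebra D] (φ : D →⋆ₐ[ℂ] Fcs A μ) (d : D) {r : ℝ}
    (hr : ‖d‖ < r) (y : centralSeq A μ) (hy : (Quotient.mk'' y : Fcs A μ) = φ d) :
    ∀ᶠ i in μ, ‖(y : ι → A) i‖ < r := by
  rcases subsingleton_or_nontrivial A with hA | hA
  · have hr0 : 0 < r := lt_of_le_of_lt (norm_nonneg _) hr
    exact Eventually.of_forall fun i => by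
      rw [Subsingleton.elim ((y : ι → A) i) 0, norm_zero]; exact hr0
  let _ := CStarAlgebra.spectralOrder D
  have _ := CStarAlgebra.spectralOrderedRing D
  let _ := CStarAlgebra.spectralOrder A
  have _ := CStarAlgebra.spectralOrderedRing A
  obtain ⟨r₁, h1, h2⟩ := exists_between hr
  have hr1 : 0 ≤ r₁ := (norm_nonneg d).trans h1.le
  have hle : star d * d ≤ algebraMap ℝ D (r₁ ^ 2) :=
    (CStarAlgebra.star_mul_le_algebraMap_norm_sq (a := d)).trans
      (algebraMap_mono D (pow_le_pow_left₀ (norm_nonneg d) h1.le 2))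
  set x : D := algebraMap ℝ D (r₁ ^ 2) - star d * d with hx
  have hx0 : 0 ≤ x := sub_nonneg.2 hle
  have hcc : star (CFC.sqrt x) * CFC.sqrt x = x := by
    have hs : star (CFC.sqrt x) = CFC.sqrt x := (CFC.sqrt_nonneg x).isSelfAdjoint
    rw [hs, CFC.sqrt_mul_sqrt_self x hx0]
  obtain ⟨z, hz⟩ : ∃ z : centralSeq A μ, (Quotient.mk'' z : Fcs A μ) = φ (CFC.sqrt x) :=
    Quotient.exists_rep _
  have hsum : star d * d + star (CFC.sqrt x) * CFC.sqrt x
      = algebraMap ℂ D ((r₁ ^ 2 : ℝ) : ℂ) := by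
    rw [hcc, hx, add_sub_cancel]
    rw [IsScalarTower.algebraMap_apply ℝ ℂ D]
    rfl
  have hφ : (Quotient.mk'' (star y * y + star z * z) : Fcs A μ)
      = Quotient.mk'' (algebraMap ℂ (centralSeq A μ) ((r₁ ^ 2 : ℝ) : ℂ)) := by
    have h3 := congrArg φ hsum
    rw [map_add, map_mul, map_mul, map_star, map_star, AlgHomClass.commutes, ← hy, ← hz] at h3
    exact h3
  have hnull : Tendsto (fun i => ‖(star ((y : ι → A) i) * (y : ι → A) i
      + star ((z : ι → A) i) * (z : ι → A) i) - algebraMap ℂ A ((r₁ ^ 2 : ℝ) : ℂ)‖) μ (𝓝 0) :=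
    (Quotient.exact hφ : (nullCon A μ) _ _)
  have hpos : 0 < r ^ 2 - r₁ ^ 2 := by nlinarith only [h2, hr1]
  filter_upwards [hnull.eventually (gt_mem_nhds hpos)] with i hi
  have h4 : ‖star ((y : ι → A) i) * (y : ι → A) i‖
      ≤ ‖star ((y : ι → A) i) * (y : ι → A) i + star ((z : ι → A) i) * (z : ι → A) i‖ :=
    CStarAlgebra.norm_le_norm_of_nonneg_of_le (star_mul_self_nonneg _)
      (le_add_of_nonneg_right (star_mul_self_nonneg _))
  have h5 : ‖star ((y : ι → A) i) * (y : ι → A) i + star ((z : ι → A) i) * (z : ι → A) i‖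
      ≤ ‖(star ((y : ι → A) i) * (y : ι → A) i
      + star ((z : ι → A) i) * (z : ι → A) i) - algebraMap ℂ A ((r₁ ^ 2 : ℝ) : ℂ)‖
      + ‖algebraMap ℂ A ((r₁ ^ 2 : ℝ) : ℂ)‖ := by
    have := norm_add_le ((star ((y : ι → A) i) * (y : ι → A) i
      + star ((z : ι → A) i) * (z : ι → A) i) - algebraMap ℂ A ((r₁ ^ 2 : ℝ) : ℂ))
      (algebraMap ℂ A ((r₁ ^ 2 : ℝ) : ℂ))
    rwa [sub_add_cancel] at this
  have h6 : ‖algebraMap ℂ A ((r₁ ^ 2 : ℝ) : ℂ)‖ = r₁ ^ 2 := by
    rw [norm_algebraMap']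
    simp
  rw [CStarRing.norm_star_mul_self] at h4
  have h7 : ‖(y : ι → A) i‖ * ‖(y : ι → A) i‖ < r ^ 2 := by
    rw [h6] at h5
    linarith only [hi, h4, h5]
  have h8 : 0 ≤ r := (norm_nonneg _).trans hr.le
  nlinarith only [hi, h4, h5, h6, h2, hr1]

end Rep

section Limit

variable {A : Type u} [CStarAlgebra A] {Z : Type v} [CStarAlgebra Z]

/-- a `*`-homomorphism on a `*`-subalgebra of `Z` which is contractive in the sense of
representatives -/
def ContractiveRep {ι : Type w} {μ : Filter ι} {S : StarSubalgebra ℂ Z}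
    (φ : S →⋆ₐ[ℂ] Fcs A μ) : Prop :=
  ∀ (s : S) (r : ℝ), ‖(s : Z)‖ < r → ∀ y : centralSeq A μ, (Quotient.mk'' y : Fcs A μ) = φ s →
    ∀ᶠ i in μ, ‖(y : ι → A) i‖ < r

end Limit

section DimDrop

open scoped Matrix.Norms.L2Operator

end DimDrop

end Vale.Agent.P101
end

section

/-! The unitaries needed for the intertwining argument. -/

open Filter Topology
open scoped TensorProduct

namespace Vale.Agent.P101

universe u v

open SeqQuot

end Vale.Agent.P101
end

section

/-! Elements that are small in every trace are small in the sense of Cuntz-Pedersen. -/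

open Vale.Agent.P095

namespace Vale.Agent.P095C

variable {A : Type*} [CStarAlgebra A] [PartialOrder A] [StarOrderedRing A]

theorem exists_small_family {e : A} (he0 : 0 ≤ e) {δ : ℝ} (hδ : 0 < δ)
    (h : ∀ τ : A →ₗ[ℂ] ℂ, IsTracialState τ → (τ e).re ≤ δ / 4) {ε : ℝ} (hε : 0 < ε) :
    ∃ (n : ℕ) (z : Fin n → A),
      ‖e - ∑ i, z i * star (z i)‖ ≤ ε ∧ ‖∑ i, star (z i) * z i‖ ≤ δ := by
  obtain ⟨n, x, hx⟩ := exists_commutator_sum he0.isSelfAdjoint h (ε := δ / 4) (by (clear * - hδ; positivity))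
  have h1 : TRel e ((3 * δ / 4) • (1 : A)) :=
    TRel.of_commutator he0 x hx (by positivity) (by linarith only [hδ])
  obtain ⟨m, z, hz1, hz2⟩ := h1.exists_norm he0 (by positivity) (ε := min ε (δ / 4))
    (lt_min hε (by positivity))
  refine ⟨m, z, hz1.trans (min_le_left _ _), hz2.trans ?_⟩
  have := min_le_right ε (δ / 4)
  linarith only [this]

end Vale.Agent.P095C
end

section

/-! The almost invariant unitaries needed for the equivariant intertwining argument. -/

open Filter Topology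
open scoped TensorProduct

namespace Vale.Agent.P095.ZS

universe u v w

open Vale.Agent.P101 Vale.Agent.P101.SeqQuot

/-- The map induced on bounded functions modulo null functions. -/
noncomputable def bqMap {B : Type u} [CStarAlgebra B] {ι : Type v} (μ : Filter ι)
    (f : B →⋆ₐ[ℂ] B) : Bq B μ →⋆ₐ[ℂ] Bq B μ where
  toFun := Quotient.map' (fun x : bddSeq B ι => (⟨fun k => f ((x : ι → B) k),
      x.2.imp fun C hC k => (NonUnitalStarAlgHom.norm_apply_le f _).trans (hC k)⟩ :
        bddSeq B ι)) (by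
    intro x y h
    have h' : Tendsto (fun i => ‖(x : ι → B) i - (y : ι → B) i‖) μ (𝓝 0) := h
    refine squeeze_zero (fun i => norm_nonneg _) (fun i => ?_) h'
    change ‖f ((x : ι → B) i) - f ((y : ι → B) i)‖ ≤ _
    rw [← map_sub]
    exact NonUnitalStarAlgHom.norm_apply_le f _)
  map_one' := by
    refine congrArg (Bq.mk μ) (Subtype.ext (funext fun k => ?_))
    exact map_one f
  map_mul' := by
    rintro ⟨x⟩ ⟨y⟩
    refine congrArg (Bq.mk μ) (Subtype.ext (funext fun k => ?_))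
    exact map_mul f _ _
  map_zero' := by
    refine congrArg (Bq.mk μ) (Subtype.ext (funext fun k => ?_))
    exact map_zero f
  map_add' := by
    rintro ⟨x⟩ ⟨y⟩
    refine congrArg (Bq.mk μ) (Subtype.ext (funext fun k => ?_))
    exact map_add f _ _
  commutes' := by
    intro r
    refine congrArg (Bq.mk μ) (Subtype.ext (funext fun k => ?_))
    exact (f : B →ₐ[ℂ] B).commutes r
  map_star' := by
    rintro ⟨x⟩
    refine congrArg (Bq.mk μ) (Subtype.ext (funext fun k => ?_))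
    exact map_star f _

theorem unitaries {A Z B : Type u} [CStarAlgebra A] [CStarAlgebra Z] [CStarAlgebra B]
    {G : Type w} [Group G] (α : G →* (A ≃⋆ₐ[ℂ] A)) (β : G →* (B ≃⋆ₐ[ℂ] B))
    (hZ : IsJiangSu Z) (i : A →⋆ₐ[ℂ] B) (j : Z →⋆ₐ[ℂ] B) (h : IsCStarTensor i j)
    (hαβ : ∀ g a, i (α g a) = β g (i a)) (hβj : ∀ g z, β g (j z) = j z)
    (hA : ∃ (ι : Type) (μ : Filter ι) (_ : NeBot μ), Nonempty (Z →⋆ₐ[ℂ] Fa α μ))
    (S : Finset A) (T : Finset B) (K : Finset G) (ε : ℝ) (hε : 0 < ε) :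
    ∃ v ∈ unitary B, (∀ a ∈ S, ‖v * i a - i a * v‖ < ε) ∧
      (∀ b ∈ T, ∃ a, ‖star v * b * v - i a‖ < ε) ∧ ∀ g ∈ K, ‖β g v - v‖ < ε := by
  classical
  obtain ⟨ι, μ, hμ, ⟨Ψ₀⟩⟩ := hA
  let Ψ : Z →⋆ₐ[ℂ] Fcs A μ := (incl α μ).comp Ψ₀
  let θ : G → Bq B μ →⋆ₐ[ℂ] Bq B μ := fun g => bqMap μ ((β g : B ≃⋆ₐ[ℂ] B) : B →⋆ₐ[ℂ] B)
  -- homomorphisms into the big algebra
  let Ψ2 : Z →⋆ₐ[ℂ] Bq B μ := (Bq.mapHom μ i).comp Ψ
  let Ψ1 : Z →⋆ₐ[ℂ] Bq B μ := (Bq.constHom μ).comp j
  let κ : A →⋆ₐ[ℂ] Bq B μ := (Bq.constHom μ).comp i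
  have hκ1 : ∀ a z, κ a * Ψ1 z = Ψ1 z * κ a := by
    intro a z
    change Bq.constHom μ (i a) * Bq.constHom μ (j z) = Bq.constHom μ (j z) * Bq.constHom μ (i a)
    rw [← map_mul, ← map_mul, (h.comm a z).eq]
  have hκmap : ∀ a (w : Fcs A μ), κ a * Bq.mapHom μ i w = Bq.mapHom μ i w * κ a := by
    rintro a ⟨w⟩
    refine (Bq.mk_eq_iff μ (Bq.const (i a) * ⟨fun k => i ((w : ι → A) k), _⟩)
      (⟨fun k => i ((w : ι → A) k), _⟩ * Bq.const (i a))).mpr ?_
    refine squeeze_zero (fun k => norm_nonneg _) (fun k => ?_) (w.2.2 a)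
    change ‖i a * i ((w : ι → A) k) - i ((w : ι → A) k) * i a‖ ≤ _
    rw [← map_mul, ← map_mul, ← map_sub, norm_sub_rev ((w : ι → A) k * a)]
    exact NonUnitalStarAlgHom.norm_apply_le i _
  have hκ2 : ∀ a z, κ a * Ψ2 z = Ψ2 z * κ a := fun a z => hκmap a (Ψ z)
  have h12 : ∀ x y, Ψ2 x * Ψ1 y = Ψ1 y * Ψ2 x := by
    intro x y
    have : ∀ (w : Fcs A μ), Bq.mapHom μ i w * Bq.constHom μ (j y) =
        Bq.constHom μ (j y) * Bq.mapHom μ i w := by
      rintro ⟨w⟩
      refine congrArg (Bq.mk μ) (Subtype.ext (funext fun k => ?_))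
      exact (h.comm _ _).eq
    exact this (Ψ x)
  -- both are fixed
  have hθ1 : ∀ g z, θ g (Ψ1 z) = Ψ1 z := by
    intro g z
    refine congrArg (Bq.mk μ) (Subtype.ext (funext fun k => ?_))
    exact hβj g z
  have hθ2 : ∀ g z, θ g (Ψ2 z) = Ψ2 z := by
    intro g z
    have : ∀ w : Fa α μ, θ g (Bq.mapHom μ i (incl α μ w)) = Bq.mapHom μ i (incl α μ w) := by
      rintro ⟨w⟩
      refine (Bq.mk_eq_iff μ (⟨fun k => β g (i ((w : ι → A) k)), _⟩ : bddSeq B ι)
        ⟨fun k => i ((w : ι → A) k), _⟩).mpr ?_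
      refine squeeze_zero (fun k => norm_nonneg _) (fun k => ?_)
        (((mem_fixSeq α μ _).1 w.2).2 g)
      change ‖β g (i ((w : ι → A) k)) - i ((w : ι → A) k)‖ ≤ _
      rw [← hαβ, ← map_sub]
      exact NonUnitalStarAlgHom.norm_apply_le i _
    exact this (Ψ₀ z)
  -- the relative commutant
  let C : StarSubalgebra ℂ (Bq B μ) :=
    { carrier := {z | (∀ a, κ a * z = z * κ a) ∧ ∀ g, θ g z = z}
      mul_mem' := by
        rintro x y ⟨hx, hx'⟩ ⟨hy, hy'⟩
        refine ⟨fun a => ?_, fun g => ?_⟩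
        · rw [← mul_assoc, hx a, mul_assoc, hy a, mul_assoc]
        · rw [map_mul, hx', hy']
      add_mem' := by
        rintro x y ⟨hx, hx'⟩ ⟨hy, hy'⟩
        refine ⟨fun a => ?_, fun g => ?_⟩
        · rw [mul_add, add_mul, hx a, hy a]
        · rw [map_add, hx', hy']
      algebraMap_mem' := by
        intro r
        refine ⟨fun a => (Algebra.commutes r (κ a)).symm, fun g => ?_⟩
        exact AlgHomClass.commutes (θ g) r
      star_mem' := by
        rintro x ⟨hx, hx'⟩
        refine ⟨fun a => ?_, fun g => ?_⟩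
        · have h1 := congrArg star (hx (star a))
          rw [star_mul, star_mul, map_star, star_star] at h1
          exact h1.symm
        · rw [map_star, hx'] }
  have hCmem' : ∀ z : Bq B μ, z ∈ C ↔ (∀ a, κ a * z = z * κ a) ∧ ∀ g, θ g z = z :=
    fun z => Iff.rfl
  have hθc : ∀ g, Continuous (θ g) := fun g =>
    AddMonoidHomClass.continuous_of_bound (θ g) 1
      (by simpa only [one_mul] using! NonUnitalStarAlgHom.norm_apply_le (θ g))
  have hCcl : IsClosed (C : Set (Bq B μ)) := by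
    have : (C : Set (Bq B μ)) = (⋂ a, {z | κ a * z = z * κ a}) ∩ ⋂ g, {z | θ g z = z} := by
      ext z
      simp only [Set.mem_inter_iff, Set.mem_iInter]
      exact hCmem' z
    rw [this]
    exact (isClosed_iInter fun a => isClosed_eq (by fun_prop) (by fun_prop)).inter
      (isClosed_iInter fun g => isClosed_eq (hθc g) continuous_id)
  let _ : CStarAlgebra C := StarSubalgebra.cstarAlgebra _ (h_closed := hCcl)
  let Φ1 : Z →⋆ₐ[ℂ] C := Ψ1.codRestrict C (fun z => (hCmem' _).mpr ⟨fun a => hκ1 a z, fun g => hθ1 g z⟩)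
  let Φ2 : Z →⋆ₐ[ℂ] C := Ψ2.codRestrict C (fun z => (hCmem' _).mpr ⟨fun a => hκ2 a z, fun g => hθ2 g z⟩)
  have hflip := hZ.half_flip C Φ2 Φ1 (fun x y => Subtype.ext (h12 x y))
  -- approximations of the elements of `T`
  have hT : ∀ b : B, ∃ s : Finset (A × Z), ‖b - ∑ m ∈ s, i m.1 * j m.2‖ < ε / 2 := by
    intro b
    obtain ⟨t, ht⟩ := (Metric.denseRange_iff.mp h.dense) b (ε / 2) (by positivity)
    obtain ⟨s, rfl⟩ := TensorProduct.exists_finset t
    refine ⟨s, ?_⟩
    rw [dist_eq_norm, map_sum] at ht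
    simpa only [Algebra.TensorProduct.lift_tmul, StarAlgHom.coe_toAlgHom] using ht
  choose s hs using hT
  set M : ℝ := ∑ b ∈ T, ∑ m ∈ s b, ‖m.1‖ with hM
  have hM0 : 0 ≤ M := Finset.sum_nonneg fun b _ => Finset.sum_nonneg fun m _ => norm_nonneg _
  obtain ⟨v', hv', hv'S⟩ := hflip (T.biUnion fun b => (s b).image Prod.snd)
    (ε / (2 * (M + 1))) (by (clear * - hε; positivity))
  set v : Bq B μ := (v' : Bq B μ) with hvdef
  have hv : v ∈ unitary (Bq B μ) := by
    rw [Unitary.mem_iff] at hv' ⊢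
    exact ⟨congrArg Subtype.val hv'.1, congrArg Subtype.val hv'.2⟩
  have hvκ : ∀ a, κ a * v = v * κ a := ((hCmem' v).mp v'.2).1
  have hvθ : ∀ g, θ g v = v := ((hCmem' v).mp v'.2).2
  have hvS : ∀ b ∈ T, ∀ m ∈ s b, ‖v * Ψ2 m.2 * star v - Ψ1 m.2‖ < ε / (2 * (M + 1)) := by
    intro b hb m hm
    exact hv'S m.2 (Finset.mem_biUnion.mpr ⟨b, hb, Finset.mem_image.mpr ⟨m, hm, rfl⟩⟩)
  have hvv : star v * v = 1 := (Unitary.mem_iff.mp hv).1
  have hsv : star v ∈ unitary (Bq B μ) := Unitary.star_mem hv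
  -- key estimate in the big algebra
  have hbig : ∀ b ∈ T, ‖star v * Bq.constHom μ b * v - ∑ m ∈ s b, κ m.1 * Ψ2 m.2‖ < ε := by
    intro b hb
    have e1 : star v * Bq.constHom μ b * v - ∑ m ∈ s b, κ m.1 * Ψ2 m.2 =
        star v * Bq.constHom μ (b - ∑ m ∈ s b, i m.1 * j m.2) * v +
        ∑ m ∈ s b, κ m.1 * (star v * (Ψ1 m.2 - v * Ψ2 m.2 * star v) * v) := by
      have e2 : ∀ m : A × Z, κ m.1 * (star v * (Ψ1 m.2 - v * Ψ2 m.2 * star v) * v) =
          star v * (κ m.1 * Ψ1 m.2) * v - κ m.1 * Ψ2 m.2 := by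
        intro m
        have e3 : κ m.1 * star v = star v * κ m.1 := by
          have := hvκ (star m.1)
          have h4 := congrArg star this
          rw [star_mul, star_mul, map_star, star_star] at h4
          exact h4.symm
        calc κ m.1 * (star v * (Ψ1 m.2 - v * Ψ2 m.2 * star v) * v)
            = (κ m.1 * star v) * Ψ1 m.2 * v - κ m.1 * ((star v * v) * Ψ2 m.2 * (star v * v)) := by
              noncomm_ring
          _ = star v * (κ m.1 * Ψ1 m.2) * v - κ m.1 * Ψ2 m.2 := by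
              rw [hvv, e3]; noncomm_ring
      simp only [e2, Finset.sum_sub_distrib]
      have e5 : Bq.constHom μ (b - ∑ m ∈ s b, i m.1 * j m.2) =
          Bq.constHom μ b - ∑ m ∈ s b, κ m.1 * Ψ1 m.2 := by
        rw [map_sub, map_sum]
        congr 1
      rw [e5, mul_sub, sub_mul, Finset.mul_sum, Finset.sum_mul]
      abel
    rw [e1]
    have n1 : ‖star v * Bq.constHom μ (b - ∑ m ∈ s b, i m.1 * j m.2) * v‖ < ε / 2 := by
      rw [CStarRing.norm_mul_mem_unitary _ hv, CStarRing.norm_mem_unitary_mul _ hsv]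
      exact (NonUnitalStarAlgHom.norm_apply_le (Bq.constHom (B := B) μ) _).trans_lt (hs b)
    have n2 : ‖∑ m ∈ s b, κ m.1 * (star v * (Ψ1 m.2 - v * Ψ2 m.2 * star v) * v)‖ ≤
        ∑ m ∈ s b, ‖m.1‖ * (ε / (2 * (M + 1))) := by
      refine (norm_sum_le _ _).trans (Finset.sum_le_sum fun m hm => ?_)
      refine (norm_mul_le _ _).trans (mul_le_mul (NonUnitalStarAlgHom.norm_apply_le κ _) ?_
        (norm_nonneg _) (norm_nonneg _))
      rw [CStarRing.norm_mul_mem_unitary _ hv, CStarRing.norm_mem_unitary_mul _ hsv, norm_sub_rev]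
      exact (hvS b hb m hm).le
    rw [← Finset.sum_mul] at n2
    have n3 : ∑ m ∈ s b, ‖m.1‖ ≤ M :=
      Finset.single_le_sum (f := fun b => ∑ m ∈ s b, ‖m.1‖)
        (fun b _ => Finset.sum_nonneg fun m _ => norm_nonneg _) hb
    have n4 : (∑ m ∈ s b, ‖m.1‖) * (ε / (2 * (M + 1))) ≤ ε / 2 := by
      calc (∑ m ∈ s b, ‖m.1‖) * (ε / (2 * (M + 1))) ≤ (M + 1) * (ε / (2 * (M + 1))) :=
            mul_le_mul_of_nonneg_right (by linarith only [n3]) (by (clear * - hε; positivity))
        _ = ε / 2 := by field_simp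
    refine (norm_add_le _ _).trans_lt ?_
    linarith only [n1, n2, n4]
  -- lift to sequences
  obtain ⟨V, hVu, hVv⟩ := Bq.exists_unitary_lift μ v hv
  choose y hy using fun z => Descend.quo_surjective μ (Ψ z)
  have hΨ2 : ∀ z, ∃ hb, Ψ2 z = Bq.mk μ ⟨fun k => i ((y z : ι → A) k), hb⟩ := by
    intro z
    refine ⟨(y z).2.1.imp fun K hK k => (NonUnitalStarAlgHom.norm_apply_le i _).trans (hK k), ?_⟩
    change Bq.mapHom μ i (Ψ z) = _
    rw [← hy z]
    rfl
  have hev1 : ∀ a ∈ S, ∀ᶠ k in μ, ‖(V : ι → B) k * i a - i a * (V : ι → B) k‖ < ε := by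
    intro a _
    have h0 : ‖Bq.mk μ (V * Bq.const (i a) - Bq.const (i a) * V)‖ < ε := by
      have : Bq.mk μ (V * Bq.const (i a) - Bq.const (i a) * V) = 0 := by
        rw [Bq.mk_sub, Bq.mk_mul, Bq.mk_mul, hVv]
        exact sub_eq_zero.mpr (hvκ a).symm
      rw [this, norm_zero]
      exact hε
    exact Bq.eventually_norm_lt μ _ h0
  have hev3 : ∀ g ∈ K, ∀ᶠ k in μ, ‖β g ((V : ι → B) k) - (V : ι → B) k‖ < ε := by
    intro g _
    have hb : ∃ C : ℝ, ∀ k, ‖β g ((V : ι → B) k)‖ ≤ C :=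
      V.2.imp fun C hC k => (norm_act β g _).trans (hC k)
    have h0 : ‖Bq.mk μ ((⟨fun k => β g ((V : ι → B) k), hb⟩ : bddSeq B ι) - V)‖ < ε := by
      have : Bq.mk μ ((⟨fun k => β g ((V : ι → B) k), hb⟩ : bddSeq B ι) - V) = 0 := by
        rw [Bq.mk_sub]
        refine sub_eq_zero.mpr ?_
        have h1 := hvθ g
        rw [← hVv] at h1
        exact h1
      rw [this, norm_zero]
      exact hε
    exact Bq.eventually_norm_lt μ _ h0
  have hev2 : ∀ b ∈ T, ∀ᶠ k in μ, ‖star ((V : ι → B) k) * b * (V : ι → B) k -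
      i (∑ m ∈ s b, m.1 * (y m.2 : ι → A) k)‖ < ε := by
    intro b hb
    have hYb : ∃ K : ℝ, ∀ k, ‖i (∑ m ∈ s b, m.1 * (y m.2 : ι → A) k)‖ ≤ K := by
      choose K hK using fun z => (y z).2.1
      refine ⟨∑ m ∈ s b, ‖m.1‖ * K m.2, fun k => ?_⟩
      refine (NonUnitalStarAlgHom.norm_apply_le i _).trans ((norm_sum_le _ _).trans
        (Finset.sum_le_sum fun m _ => ?_))
      exact (norm_mul_le _ _).trans (mul_le_mul_of_nonneg_left (hK _ _) (norm_nonneg _))
    let Y : bddSeq B ι := ⟨fun k => i (∑ m ∈ s b, m.1 * (y m.2 : ι → A) k), hYb⟩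
    have hY : Bq.mk μ Y = ∑ m ∈ s b, κ m.1 * Ψ2 m.2 := by
      choose hb' hΨ using hΨ2
      simp only [hΨ]
      have : ∀ m : A × Z, κ m.1 * Bq.mk μ ⟨fun k => i ((y m.2 : ι → A) k), hb' m.2⟩ =
          Bq.mk μ (Bq.const (i m.1) * ⟨fun k => i ((y m.2 : ι → A) k), hb' m.2⟩) :=
        fun m => rfl
      simp only [this]
      have h7 : ∀ (s : Finset (A × Z)) (f : A × Z → bddSeq B ι),
          ∑ m ∈ s, Bq.mk μ (f m) = Bq.mk μ (∑ m ∈ s, f m) := by
        intro s f
        induction s using Finset.induction_on with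
        | empty => rfl
        | insert a s ha ih => rw [Finset.sum_insert ha, Finset.sum_insert ha, ih, Bq.mk_add]
      rw [h7]
      congr 1
      apply Subtype.ext
      funext k
      change i (∑ m ∈ s b, m.1 * (y m.2 : ι → A) k) = _
      rw [map_sum]
      simp only [AddSubmonoidClass.coe_finsetSum, Finset.sum_apply]
      refine Finset.sum_congr rfl fun m _ => ?_
      rw [map_mul]
      rfl
    have h0 : ‖Bq.mk μ (star V * Bq.const b * V - Y)‖ < ε := by
      rw [Bq.mk_sub, hY, Bq.mk_mul, Bq.mk_mul, Bq.mk_star, hVv]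
      exact hbig b hb
    exact Bq.eventually_norm_lt μ _ h0
  obtain ⟨k, ⟨hk1, hk2⟩, hk3⟩ := ((((Finset.eventually_all S).mpr hev1).and
    ((Finset.eventually_all T).mpr hev2)).and ((Finset.eventually_all K).mpr hev3)).exists
  exact ⟨(V : ι → B) k, hVu k, hk1, fun b hb => ⟨_, hk2 b hb⟩, hk3⟩

end Vale.Agent.P095.ZS
end

section

/-! Tracial states on the unital algebra generated by a hereditary subalgebra. -/

set_option linter.unusedSectionVars false

namespace Vale.Agent.P095C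

open Vale.Agent Vale.Agent.P133 Vale.Agent.P095N Vale.Agent.P095

universe u

variable {M : Type u} [CStarAlgebra M] [PartialOrder M] [StarOrderedRing M]

theorem mem_herU (u x : M) : u * x * u ∈ herU u :=
  StarSubalgebra.le_topologicalClosure _ (StarAlgebra.subset_adjoin ℂ _ ⟨x, rfl⟩)

/-- square roots inside `herU u`. -/
theorem cnt_exists_sqrt {u : M} (x : herU u) (hx : 0 ≤ (x : M)) :
    ∃ y : herU u, star y * y = x := by
  have : IsClosed (herU u : Set M) := isClosed_herU u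
  have hsa : IsSelfAdjoint (x : M) := hx.isSelfAdjoint
  have hmem : cfc Real.sqrt (x : M) ∈ herU u := cfc_mem (𝕜 := ℝ) (𝕜' := ℂ) _ x.2
  refine ⟨⟨_, hmem⟩, ?_⟩
  apply Subtype.ext
  show star (cfc Real.sqrt (x : M)) * cfc Real.sqrt (x : M) = x
  rw [(cfc_predicate (p := IsSelfAdjoint) Real.sqrt (x : M)).star_eq]
  rw [← cfc_mul Real.sqrt Real.sqrt (x : M)]
  conv_rhs => rw [← cfc_id ℝ (x : M)]
  apply cfc_congr
  intro t ht
  exact Real.mul_self_sqrt (spectrum_nonneg_of_nonneg hx ht)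

/-- A tracial state of `herU u` extends to a functional on `M` which is locally tracial. -/
theorem exists_locTr {u : M} (hu : 0 ≤ u) (τ : herU u →ₗ[ℂ] ℂ) (hτ : IsTracialState τ) :
    ∃ σ : M →ₗ[ℂ] ℂ, LocTr u σ ∧ ∀ x : herU u, σ x = τ x := by
  -- the cone of elements with positive real part
  let s : PointedCone ℝ M :=
    { carrier := {y | 0 ≤ y + star y}
      add_mem' := fun {a b} ha hb => by
        simp only [Set.mem_ofPred_eq] at ha hb ⊢
        have : a + b + star (a + b) = (a + star a) + (b + star b) := by rw [star_add]; abel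
        rw [this]; exact add_nonneg ha hb
      zero_mem' := by simp only [Set.mem_ofPred_eq, star_zero, add_zero, Std.le_refl]
      smul_mem' := fun c {a} ha => by
        simp only [Set.mem_ofPred_eq] at ha ⊢
        have : c • a + star (c • a) = (c : ℝ) • (a + star a) := by
          rw [smul_add]
          congr 1
          show star ((c : ℝ) • a) = (c : ℝ) • star a
          rw [star_smul]; simp only [star_trivial, Nonneg.coe_smul]
        rw [this]; exact smul_nonneg c.2 ha }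
  have hs : ∀ y : M, y ∈ s ↔ 0 ≤ y + star y := fun y => Iff.rfl
  -- the real functional on `herU u`
  let f0 : herU u →ₗ[ℝ] ℝ := Complex.reLm ∘ₗ (τ.restrictScalars ℝ)
  have hf0 : ∀ x : herU u, f0 x = (τ x).re := fun x => rfl
  let D : Submodule ℝ M := (herU u).toSubalgebra.toSubmodule.restrictScalars ℝ
  let f : M →ₗ.[ℝ] ℝ := ⟨D,
    { toFun := fun x => f0 ⟨x.1, x.2⟩
      map_add' := fun x y => f0.map_add ⟨x.1, x.2⟩ ⟨y.1, y.2⟩
      map_smul' := fun c x => f0.map_smul c ⟨x.1, x.2⟩ }⟩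
  have hf : ∀ x : f.domain, f x = (τ ⟨x.1, x.2⟩).re := fun x => rfl
  have hpos : ∀ x : herU u, 0 ≤ (x : M) → 0 ≤ (τ x).re := by
    intro x hx
    obtain ⟨y, rfl⟩ := cnt_exists_sqrt x hx
    exact hτ.re_nonneg y
  have him : ∀ x : herU u, IsSelfAdjoint (x : M) → (τ x).im = 0 := by
    intro x hx
    -- `‖x‖ - x ≥ 0`
    have h1 : 0 ≤ ((algebraMap ℂ (herU u) (‖(x : M)‖ : ℂ) - x : herU u) : M) := by
      have h2 : (x : M) ≤ algebraMap ℝ M ‖(x : M)‖ := hx.le_algebraMap_norm_self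
      have h3 : ((algebraMap ℂ (herU u) (‖(x : M)‖ : ℂ) - x : herU u) : M)
          = algebraMap ℝ M ‖(x : M)‖ - (x : M) := by
        show (algebraMap ℂ M (‖(x : M)‖ : ℂ)) - (x : M) = _
        congr 1
      rw [h3]; exact sub_nonneg.2 h2
    obtain ⟨y, hy⟩ := cnt_exists_sqrt _ h1
    have h4 := hτ.im_eq y
    rw [hy, map_sub, Algebra.algebraMap_eq_smul_one, map_smul, hτ.map_one] at h4
    simpa only [smul_eq_mul, mul_one, Complex.sub_im, Complex.ofReal_im, zero_sub, neg_eq_zero] using h4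
  have hre : ∀ x : herU u, (τ (star x)).re = (τ x).re := by
    intro x
    have h1 : (τ (Complex.I • (x - star x))).im = 0 := by
      apply him
      show star (Complex.I • ((x : M) - star (x : M))) = Complex.I • ((x : M) - star (x : M))
      rw [star_smul, star_sub, star_star, Complex.star_def, Complex.conj_I, neg_smul, ← smul_neg,
        neg_sub]
    rw [map_smul, map_sub] at h1
    simp only [smul_eq_mul, Complex.mul_im, Complex.I_re, Complex.sub_im, zero_mul, Complex.I_im, Complex.sub_re, one_mul, zero_add] at h1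
    linarith only [h1]
  have nonneg : ∀ x : f.domain, (x : M) ∈ s → 0 ≤ f x := by
    intro x hx
    rw [hf]
    have h1 : 0 ≤ (τ (⟨x.1, x.2⟩ + star ⟨x.1, x.2⟩ : herU u)).re := hpos _ hx
    rw [map_add, Complex.add_re, hre] at h1
    linarith only [h1]
  have dense : ∀ y : M, ∃ x : f.domain, (x : M) + y ∈ s := by
    intro y
    refine ⟨⟨algebraMap ℂ M (‖y‖ : ℂ), (herU u).algebraMap_mem _⟩, ?_⟩
    rw [hs]
    have h1 : IsSelfAdjoint (y + star y) := IsSelfAdjoint.add_star_self y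
    have h2 := h1.neg_algebraMap_norm_le_self
    have h3 : ‖y + star y‖ ≤ 2 * ‖y‖ := by
      calc _ ≤ ‖y‖ + ‖star y‖ := norm_add_le _ _
        _ = 2 * ‖y‖ := by rw [norm_star]; ring
    have h4 : algebraMap ℝ M ‖y + star y‖ ≤ algebraMap ℝ M (2 * ‖y‖) :=
      algebraMap_mono M h3
    have h5 : algebraMap ℂ M (‖y‖ : ℂ) + y + star (algebraMap ℂ M (‖y‖ : ℂ) + y)
        = algebraMap ℝ M (2 * ‖y‖) + (y + star y) := by
      have e1 : algebraMap ℂ M (‖y‖ : ℂ) = algebraMap ℝ M ‖y‖ := by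
        rw [IsScalarTower.algebraMap_apply ℝ ℂ M]; rfl
      rw [e1, star_add, two_mul, map_add]
      have e2 : star (algebraMap ℝ M ‖y‖) = algebraMap ℝ M ‖y‖ := by
        rw [← algebraMap_star_comm]; simp
      rw [e2]; abel
    show 0 ≤ algebraMap ℂ M (‖y‖ : ℂ) + y + star (algebraMap ℂ M (‖y‖ : ℂ) + y)
    rw [h5]
    have h6 : 0 ≤ algebraMap ℝ M ‖y + star y‖ + (y + star y) := by
      have := add_le_add_right h2 (algebraMap ℝ M ‖y + star y‖)
      simpa only [ge_iff_le, add_neg_cancel] using this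
    exact h6.trans (by (clear u hu τ hτ s hs f0 hf0 D f hf hpos him hre nonneg h1 h2 h5 h6; gcongr))
  obtain ⟨g, hg1, hg2⟩ := riesz_extension s f nonneg dense
  let σ : M →ₗ[ℂ] ℂ := Module.Dual.extendRCLike (𝕜 := ℂ) g
  have hσ : ∀ y : M, σ y = (g y : ℂ) - Complex.I * (g (Complex.I • y) : ℂ) := fun y => rfl
  have hext : ∀ x : herU u, σ x = τ x := by
    intro x
    have h1 : g (x : M) = (τ x).re := hg1 ⟨x.1, x.2⟩
    have h2 : g (Complex.I • (x : M)) = (τ (Complex.I • x)).re :=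
      hg1 ⟨Complex.I • x.1, (Complex.I • x : herU u).2⟩
    rw [hσ, h1, h2, map_smul]
    apply Complex.ext <;> simp
  refine ⟨σ, ⟨?_, ?_, ?_, ?_⟩, hext⟩
  · intro a
    have h1 : g (Complex.I • (star a * a)) = 0 := by
      have h2 : (Complex.I • (star a * a)) ∈ s := by
        rw [hs, star_smul, Complex.star_def, Complex.conj_I, star_mul, star_star]
        simp only [neg_smul, add_neg_cancel, Std.le_refl]
      have h3 : (-(Complex.I • (star a * a))) ∈ s := by
        rw [hs, star_neg, star_smul, Complex.star_def, Complex.conj_I, star_mul, star_star]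
        simp only [neg_smul, neg_neg, neg_add_cancel, Std.le_refl]
      have h4 := hg2 _ h2
      have h5 := hg2 _ h3
      rw [map_neg] at h5
      linarith only [h4, h5]
    rw [hσ, h1]
    simp only [Complex.ofReal_zero, mul_zero, sub_zero, Complex.ofReal_im]
  · intro a
    have h2 : (star a * a) ∈ s := by
      rw [hs, star_mul, star_star]
      exact add_nonneg (star_mul_self_nonneg a) (star_mul_self_nonneg a)
    have h4 := hg2 _ h2
    rw [hσ]
    simpa only [Complex.sub_re, Complex.ofReal_re, Complex.mul_re, Complex.I_re, zero_mul, Complex.I_im,     Complex.ofReal_im, mul_zero, sub_self, sub_zero, ge_iff_le] using h4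
  · have h1 : σ ((1 : herU u) : M) = τ 1 := hext 1
    have h2 : σ (1 : M) = 1 := by rw [← hτ.map_one]; exact h1
    rw [h2]; simp
  · intro x y
    have h1 := hext (⟨_, mem_herU u x⟩ * ⟨_, mem_herU u y⟩)
    have h2 := hext (⟨_, mem_herU u y⟩ * ⟨_, mem_herU u x⟩)
    have h3 := hτ.map_mul_comm ⟨_, mem_herU u x⟩ ⟨_, mem_herU u y⟩
    exact h1.trans (h3.trans h2.symm)

/-- `herC u` as a submodule. -/
noncomputable def cntS (u : M) : Submodule ℂ M :=
  (LinearMap.range ((LinearMap.mulRight ℂ u) ∘ₗ (LinearMap.mulLeft ℂ u))).topologicalClosure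

theorem cnt_mem {u x : M} : x ∈ herC u ↔ x ∈ cntS u := by
  unfold cntS herC
  rw [← SetLike.mem_coe, Submodule.topologicalClosure_coe]
  constructor <;> intro h
  · refine closure_mono ?_ h
    rintro _ ⟨y, rfl⟩
    exact ⟨y, rfl⟩
  · refine closure_mono ?_ h
    rintro _ ⟨y, rfl⟩
    exact ⟨y, rfl⟩

theorem cnt_isClosed (u : M) : IsClosed (herC u) := isClosed_closure

theorem cnt_mul_gen {u f : M} (hf : f ∈ herC u) (y : M) : f * (u * y * u) ∈ herC u := by
  have h : Set.MapsTo (fun f : M => f * (u * y * u)) (Set.range fun x : M => u * x * u)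
      (Set.range fun x : M => u * x * u) := by
    rintro _ ⟨x, rfl⟩
    exact ⟨x * u * u * y, by simp only [mul_assoc]⟩
  exact h.closure (by (clear * -; fun_prop)) hf

/-- Elements of `herU u` times elements of `herC u`. -/
theorem herC_mul_herU {u : M} (hu : 0 ≤ u) {f x : M} (hf : f ∈ herC u) (hx : x ∈ herU u) :
    f * x ∈ herC u := by
  have hsu : star u = u := hu.isSelfAdjoint.star_eq
  have key : ∀ y : M, y ∈ StarAlgebra.adjoin ℂ (Set.range fun x : M => u * x * u) →
      ∀ f ∈ herC u, f * y ∈ herC u ∧ f * star y ∈ herC u := by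
    intro y hy
    induction hy using StarAlgebra.adjoin_induction with
    | mem y hy =>
      obtain ⟨z, rfl⟩ := hy
      intro f hf
      refine ⟨cnt_mul_gen hf z, ?_⟩
      have : star (u * z * u) = u * star z * u := by
        rw [star_mul, star_mul, hsu, mul_assoc]
      rw [this]
      exact cnt_mul_gen hf _
    | algebraMap c =>
      intro f hf
      have h1 : ∀ c : ℂ, f * algebraMap ℂ M c ∈ herC u := by
        intro c
        rw [← Algebra.commutes, ← Algebra.smul_def, cnt_mem]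
        exact (cntS u).smul_mem c (cnt_mem.1 hf)
      refine ⟨h1 c, ?_⟩
      rw [← algebraMap_star_comm]
      exact h1 _
    | add y z _ _ hy hz =>
      intro f hf
      refine ⟨?_, ?_⟩
      · rw [mul_add, cnt_mem]
        exact (cntS u).add_mem (cnt_mem.1 (hy f hf).1) (cnt_mem.1 (hz f hf).1)
      · rw [star_add, mul_add, cnt_mem]
        exact (cntS u).add_mem (cnt_mem.1 (hy f hf).2) (cnt_mem.1 (hz f hf).2)
    | mul y z _ _ hy hz =>
      intro f hf
      refine ⟨?_, ?_⟩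
      · rw [← mul_assoc]
        exact (hz _ (hy f hf).1).1
      · rw [star_mul, ← mul_assoc]
        exact (hy _ (hz f hf).2).2
    | star y _ hy =>
      intro f hf
      refine ⟨(hy f hf).2, ?_⟩
      rw [star_star]
      exact (hy f hf).1
  have h : Set.MapsTo (fun y : M => f * y)
      ((StarAlgebra.adjoin ℂ (Set.range fun x : M => u * x * u) : StarSubalgebra ℂ M) : Set M)
      (herC u) := fun y hy => (key y hy f hf).1
  have h2 := h.closure (by fun_prop)
  rw [(cnt_isClosed u).closure_eq] at h2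
  apply h2
  exact hx

/-- approximate units of the hereditary subalgebra -/
theorem exists_herC_unit {u : M} (hu : 0 ≤ u) {e : M} (he : e ∈ herC u) {ε : ℝ} (hε : 0 < ε) :
    ∃ f ∈ herC u, 0 ≤ f ∧ ‖f‖ ≤ 1 ∧ ‖f * e - e‖ ≤ ε ∧ ‖e * f - e‖ ≤ ε := by
  obtain ⟨_, ⟨a, rfl⟩, ha⟩ := Metric.mem_closure_iff.1 he (ε / 4) (by positivity)
  rw [dist_eq_norm] at ha
  simp only at ha
  have hsa : IsSelfAdjoint u := hu.isSelfAdjoint
  -- choose the parameter
  set K : ℝ := ‖a * u‖ + ‖u * a‖ + 1 with hK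
  have hKpos : 0 < K := by (clear * -; positivity)
  set r : ℝ := ε / K with hr
  have hrpos : 0 < r := by positivity
  set s : ℝ := r ^ 2 with hs
  have hspos : 0 < s := by (clear * - hε; positivity)
  have hden : ∀ t : ℝ, t ^ 2 + s ≠ 0 := fun t => by (clear * - hε; positivity)
  let F : ℝ → ℝ := fun t => t * (t ^ 2 + s)⁻¹ * t
  have hcont : Continuous fun t : ℝ => (t ^ 2 + s)⁻¹ :=
    Continuous.inv₀ (by fun_prop) hden
  have hF : Continuous F := by
    show Continuous fun t : ℝ => t * (t ^ 2 + s)⁻¹ * t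
    exact (continuous_id.mul hcont).mul continuous_id
  have hF0 : ∀ t, 0 ≤ F t := fun t => by
    show 0 ≤ t * (t ^ 2 + s)⁻¹ * t
    have : t * (t ^ 2 + s)⁻¹ * t = t ^ 2 * (t ^ 2 + s)⁻¹ := by ring
    rw [this]; (clear * - hε; positivity)
  have hF1 : ∀ t, F t ≤ 1 := fun t => by
    show t * (t ^ 2 + s)⁻¹ * t ≤ 1
    have : t * (t ^ 2 + s)⁻¹ * t = t ^ 2 / (t ^ 2 + s) := by ring
    rw [this, div_le_one (by (clear * - hε; positivity))]
    linarith only [hspos]
  have hFt : ∀ t, ‖F t * t - t‖ ≤ r / 2 := fun t => by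
    have h1 : F t * t - t = - (s * t / (t ^ 2 + s)) := by
      show t * (t ^ 2 + s)⁻¹ * t * t - t = _
      have := hden t
      field_simp
      ring
    rw [h1, norm_neg, Real.norm_eq_abs, abs_div, abs_of_pos (show 0 < t ^ 2 + s by (clear * - hε; positivity)),
      div_le_iff₀ (by (clear * - hε; positivity)), abs_mul, abs_of_pos hspos]
    have h2 : 0 ≤ |t| := abs_nonneg t
    have h3 : |t| ^ 2 = t ^ 2 := sq_abs t
    nlinarith only [hrpos, h3, sq_nonneg (|t| - r)]
  have hFu : cfc F u = u * cfc (fun t : ℝ => (t ^ 2 + s)⁻¹) u * u := by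
    have h1 : cfc F u = cfc (fun t : ℝ => t * (t ^ 2 + s)⁻¹) u * cfc (fun t : ℝ => t) u :=
      cfc_mul (fun t : ℝ => t * (t ^ 2 + s)⁻¹) (fun t : ℝ => t) u
        (continuous_id.mul hcont).continuousOn continuous_id.continuousOn
    have h2 : cfc (fun t : ℝ => t * (t ^ 2 + s)⁻¹) u
        = cfc (fun t : ℝ => t) u * cfc (fun t : ℝ => (t ^ 2 + s)⁻¹) u :=
      cfc_mul (fun t : ℝ => t) (fun t : ℝ => (t ^ 2 + s)⁻¹) u
        continuous_id.continuousOn hcont.continuousOn
    rw [h1, h2, cfc_id' ℝ u]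
  have hn : ‖cfc F u‖ ≤ 1 := by
    refine norm_cfc_le zero_le_one fun t _ => ?_
    rw [Real.norm_eq_abs, abs_of_nonneg (hF0 t)]; exact hF1 t
  have hfu : ‖cfc F u * u - u‖ ≤ r / 2 := by
    have h1 : cfc F u * u - u = cfc (fun t : ℝ => F t * t - t) u := by
      have h2 : cfc (fun t : ℝ => F t * t - t) u
          = cfc (fun t : ℝ => F t * t) u - cfc (fun t : ℝ => t) u :=
        cfc_sub (fun t : ℝ => F t * t) (fun t : ℝ => t) u
          (hF.mul continuous_id).continuousOn continuous_id.continuousOn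
      have h3 : cfc (fun t : ℝ => F t * t) u = cfc F u * cfc (fun t : ℝ => t) u :=
        cfc_mul F (fun t : ℝ => t) u hF.continuousOn continuous_id.continuousOn
      rw [h2, h3, cfc_id' ℝ u]
    rw [h1]
    exact norm_cfc_le (by (clear * - hε; positivity)) fun t _ => hFt t
  have hfu' : ‖u * cfc F u - u‖ ≤ r / 2 := by
    have h1 : u * cfc F u - u = star (cfc F u * u - u) := by
      rw [star_sub, star_mul, hsa.star_eq, (cfc_predicate (p := IsSelfAdjoint) F u).star_eq]
    rw [h1, norm_star]; exact hfu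
  refine ⟨cfc F u, ?_, cfc_nonneg fun t _ => hF0 t, hn, ?_, ?_⟩
  · rw [hFu]
    exact subset_closure ⟨_, rfl⟩
  · have h1 : cfc F u * e - e = (cfc F u * (e - u * a * u) - (e - u * a * u))
        + (cfc F u * u - u) * (a * u) := by noncomm_ring
    rw [h1]
    have h2 : ‖cfc F u * (e - u * a * u) - (e - u * a * u)‖ ≤ ε / 4 + ε / 4 := by
      refine (norm_sub_le _ _).trans (add_le_add ?_ ha.le)
      calc _ ≤ ‖cfc F u‖ * ‖e - u * a * u‖ := norm_mul_le _ _
        _ ≤ 1 * (ε / 4) := by (clear * - hn ha; gcongr)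
        _ = ε / 4 := one_mul _
    have h3 : ‖(cfc F u * u - u) * (a * u)‖ ≤ ε / 2 := by
      calc _ ≤ ‖cfc F u * u - u‖ * ‖a * u‖ := norm_mul_le _ _
        _ ≤ (r / 2) * K := by
            gcongr
            rw [hK]; linarith only [norm_nonneg (u * a)]
        _ = ε / 2 := by rw [hr]; (clear * - hKpos hε; field_simp)
    calc _ ≤ _ := norm_add_le _ _
      _ ≤ (ε / 4 + ε / 4) + ε / 2 := add_le_add h2 h3
      _ = ε := by ring
  · have h1 : e * cfc F u - e = ((e - u * a * u) * cfc F u - (e - u * a * u))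
        + (u * a) * (u * cfc F u - u) := by noncomm_ring
    rw [h1]
    have h2 : ‖(e - u * a * u) * cfc F u - (e - u * a * u)‖ ≤ ε / 4 + ε / 4 := by
      refine (norm_sub_le _ _).trans (add_le_add ?_ ha.le)
      calc _ ≤ ‖e - u * a * u‖ * ‖cfc F u‖ := norm_mul_le _ _
        _ ≤ (ε / 4) * 1 := by (clear * - ha hn hε; gcongr)
        _ = ε / 4 := mul_one _
    have h3 : ‖(u * a) * (u * cfc F u - u)‖ ≤ ε / 2 := by
      calc _ ≤ ‖u * a‖ * ‖u * cfc F u - u‖ := norm_mul_le _ _
        _ ≤ K * (r / 2) := by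
            gcongr
            rw [hK]; linarith only [norm_nonneg (a * u)]
        _ = ε / 2 := by rw [hr]; (clear * - hKpos hε; field_simp)
    calc _ ≤ _ := norm_add_le _ _
      _ ≤ (ε / 4 + ε / 4) + ε / 2 := add_le_add h2 h3
      _ = ε := by ring

/-- `exists_small_family` without order. -/
theorem cnt_small_family {A : Type*} [CStarAlgebra A] (y : A) {δ : ℝ} (hδ : 0 < δ)
    (h : ∀ τ : A →ₗ[ℂ] ℂ, IsTracialState τ → (τ (star y * y)).re ≤ δ / 4) {ε : ℝ} (hε : 0 < ε) :
    ∃ (n : ℕ) (z : Fin n → A),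
      ‖star y * y - ∑ i, z i * star (z i)‖ ≤ ε ∧ ‖∑ i, star (z i) * z i‖ ≤ δ := by
  let _ : PartialOrder A := CStarAlgebra.spectralOrder A
  have _ : StarOrderedRing A := CStarAlgebra.spectralOrderedRing A
  exact exists_small_family (star_mul_self_nonneg y) hδ h hε

/-- Small elements are sums `∑ z z^*` with `∑ z^* z` small inside the hereditary subalgebra. -/
theorem exists_small_family_her {u : M} (hu : 0 ≤ u) {e : M} (he0 : 0 ≤ e) {δ : ℝ} (hδ : 0 < δ)
    (h : Small u e (δ / 4)) {ε : ℝ} (hε : 0 < ε) :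
    ∃ (n : ℕ) (z : Fin n → M), (∀ i, z i ∈ herC u) ∧
      ‖u * e * u - ∑ i, z i * star (z i)‖ ≤ ε ∧ ‖∑ i, star (z i) * z i‖ ≤ δ := by
  have hsu : star u = u := hu.isSelfAdjoint.star_eq
  have hpos : 0 ≤ u * e * u := by
    have := star_left_conjugate_nonneg he0 u
    rwa [hsu] at this
  let E : herU u := ⟨u * e * u, mem_herU u e⟩
  obtain ⟨y, hy⟩ : ∃ y : herU u, star y * y = E := cnt_exists_sqrt E hpos
  have htr : ∀ τ : herU u →ₗ[ℂ] ℂ, IsTracialState τ → (τ E).re ≤ δ / 4 := by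
    intro τ hτ
    obtain ⟨σ, hσ, hext⟩ := exists_locTr hu τ hτ
    rw [← hext E]
    exact h σ hσ
  obtain ⟨n, z, hz1, hz2⟩ := cnt_small_family (A := herU u) y hδ
    (fun τ hτ => by rw [hy]; exact htr τ hτ) (ε := ε / 2) (by positivity)
  rw [hy] at hz1
  obtain ⟨f, hf, hf0, hf1, hfe, hef⟩ := exists_herC_unit hu (e := u * e * u)
    (subset_closure ⟨e, rfl⟩) (ε := ε / 4) (by positivity)
  have hsf : star f = f := hf0.isSelfAdjoint.star_eq
  have hz1' : ‖u * e * u - ∑ i, (z i : M) * star (z i : M)‖ ≤ ε / 2 := by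
    have : ((E - ∑ i, z i * star (z i) : herU u) : M)
        = u * e * u - ∑ i, (z i : M) * star (z i : M) := by
      rw [AddSubgroupClass.coe_sub, AddSubmonoidClass.coe_finsetSum]
      rfl
    rw [← this]; exact hz1
  have hz2' : ‖∑ i, star (z i : M) * (z i : M)‖ ≤ δ := by
    have : ((∑ i, star (z i) * z i : herU u) : M) = ∑ i, star (z i : M) * (z i : M) := by
      rw [AddSubmonoidClass.coe_finsetSum]
      rfl
    rw [← this]; exact hz2
  refine ⟨n, fun i => f * (z i : M), fun i => herC_mul_herU hu hf (z i).2, ?_, ?_⟩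
  · have h1 : ∑ i, f * (z i : M) * star (f * (z i : M))
        = f * (∑ i, (z i : M) * star (z i : M)) * f := by
      rw [Finset.mul_sum, Finset.sum_mul]
      refine Finset.sum_congr rfl fun i _ => ?_
      rw [star_mul, hsf]; simp only [mul_assoc]
    rw [h1]
    set S := ∑ i, (z i : M) * star (z i : M) with hS
    have h2 : u * e * u - f * S * f
        = -(f * (u * e * u) - u * e * u) + -(f * ((u * e * u) * f - u * e * u))
          + f * (u * e * u - S) * f := by noncomm_ring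
    rw [h2]
    have h3 : ‖f * ((u * e * u) * f - u * e * u)‖ ≤ ε / 4 := by
      calc _ ≤ ‖f‖ * ‖(u * e * u) * f - u * e * u‖ := norm_mul_le _ _
        _ ≤ 1 * (ε / 4) := by (clear * - hf1 hef; gcongr)
        _ = ε / 4 := one_mul _
    have h4 : ‖f * (u * e * u - S) * f‖ ≤ ε / 2 := by
      calc _ ≤ ‖f * (u * e * u - S)‖ * ‖f‖ := norm_mul_le _ _
        _ ≤ (‖f‖ * ‖u * e * u - S‖) * ‖f‖ := by
            gcongr; exact norm_mul_le _ _
        _ ≤ (1 * (ε / 2)) * 1 := by (clear * - hf1 hz1' hε; gcongr)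
        _ = ε / 2 := by ring
    calc _ ≤ ‖-(f * (u * e * u) - u * e * u) + -(f * ((u * e * u) * f - u * e * u))‖
          + ‖f * (u * e * u - S) * f‖ := norm_add_le _ _
      _ ≤ (‖-(f * (u * e * u) - u * e * u)‖ + ‖-(f * ((u * e * u) * f - u * e * u))‖)
          + ‖f * (u * e * u - S) * f‖ := by gcongr; exact norm_add_le _ _
      _ ≤ (ε / 4 + ε / 4) + ε / 2 := by
          rw [norm_neg, norm_neg]
          exact add_le_add (add_le_add hfe h3) h4
      _ = ε := by ring
  · refine le_trans ?_ hz2'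
    have hff : f * f ≤ 1 := by
      have h1 : f ≤ 1 := (CStarAlgebra.norm_le_one_iff_of_nonneg f hf0).1 hf1
      have h2 : f * f ≤ 1 := by
        have h3 : f ^ 2 ≤ 1 := by
          have h4 : ‖f ^ 2‖ ≤ 1 := by
            rw [pow_two]
            calc _ ≤ ‖f‖ * ‖f‖ := norm_mul_le _ _
              _ ≤ 1 * 1 := by (clear * - hf1; gcongr)
              _ = 1 := one_mul 1
          have h5 : 0 ≤ f ^ 2 := by
            have := star_mul_self_nonneg f
            rwa [hsf, ← pow_two] at this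
          exact (CStarAlgebra.norm_le_one_iff_of_nonneg _ h5).1 h4
        rwa [pow_two] at h3
      exact h2
    apply CStarAlgebra.norm_le_norm_of_nonneg_of_le
    · exact Finset.sum_nonneg fun i _ => star_mul_self_nonneg _
    · refine Finset.sum_le_sum fun i _ => ?_
      have h1 : star (f * (z i : M)) * (f * (z i : M)) = star (z i : M) * (f * f) * (z i : M) := by
        rw [star_mul, hsf]; simp only [mul_assoc]
      rw [h1]
      have h2 := star_left_conjugate_le_conjugate hff (z i : M)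
      rwa [mul_one] at h2

end Vale.Agent.P095C
end
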