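import Vale.Agent.P095.MathlibUsed
import Vale.Agent.P095.Bdl.B1
import Vale.Agent.P095.Bdl.B2
import Vale.Agent.P095.Defs

set_option linter.all false

section

/-! Norm of a product of an element of a simple algebra and a commuting element. -/

open Filter Topology

namespace Vale.Agent.P095J

open Vale.Agent.P101 Vale.Agent.P101.SeqQuot

universe u v

section Exact

variable {A : Type u} {D : Type v} [CStarAlgebra A] [CStarAlgebra D] [IsSimpleRing A]

end Exact

section Finite

variable {A : Type u} [CStarAlgebra A] [IsSimpleRing A]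

end Finite

end Vale.Agent.P095J
end

section

/-! Commuting copies of a central sequence algebra in a central sequence algebra over a product
index set. -/

open Filter Topology

namespace Vale.Agent.P101

universe u v

section Pull

variable {A : Type u} [CStarAlgebra A] {ι ι' : Type v} {μ : Filter ι} {μ' : Filter ι'}

/-- pull-back of central sequences along a map of index sets -/
def pullSeq (f : ι' → ι) (hf : Tendsto f μ' μ) : centralSeq A μ →⋆ₐ[ℂ] centralSeq A μ' where
  toFun x := ⟨fun i => (x : ι → A) (f i), by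
    obtain ⟨⟨C, hC⟩, hx⟩ := x.2
    exact ⟨⟨C, fun i => hC (f i)⟩, fun a => (hx a).comp hf⟩⟩
  map_one' := rfl
  map_mul' _ _ := rfl
  map_zero' := rfl
  map_add' _ _ := rfl
  commutes' _ := rfl
  map_star' _ := rfl

/-- pull-back on central sequence algebras -/
noncomputable def pull (f : ι' → ι) (hf : Tendsto f μ' μ) : Fcs A μ →⋆ₐ[ℂ] Fcs A μ' :=
  { (nullCon A μ).liftₐ (((nullCon A μ').mkₐ ℂ).comp
      (pullSeq (A := A) f hf : centralSeq A μ →ₐ[ℂ] centralSeq A μ')) (by
      intro x y hxy
      have h : Tendsto (fun i => ‖(x : ι → A) i - (y : ι → A) i‖) μ (𝓝 0) := hxy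
      refine Quotient.sound (?_ : (nullCon A μ') _ _)
      exact h.comp hf) with
    map_star' := by
      rintro ⟨x⟩
      rfl }

end Pull

section Curry

variable {A : Type u} [CStarAlgebra A] {ι ι' : Type v} (μ : Filter ι) (μ' : Filter ι')

theorem tendsto_fst_curry : Tendsto Prod.fst (μ'.curry μ) μ' := by
  intro s hs
  have hs' : ∀ᶠ x in μ', x ∈ s := hs
  exact hs'.mono fun x hx => Filter.Eventually.of_forall fun _ => hx

theorem tendsto_snd_curry : Tendsto Prod.snd (μ'.curry μ) μ := by
  intro s hs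
  have hs' : ∀ᶠ x in μ, x ∈ s := hs
  show ∀ᶠ _ in μ', ∀ᶠ y in μ, y ∈ s
  exact Filter.Eventually.of_forall fun _ => hs'

theorem curry_neBot [NeBot μ] [NeBot μ'] : NeBot (μ'.curry μ) := by
  refine ⟨fun h => ?_⟩
  have h1 : ∀ᶠ p : ι' × ι in μ'.curry μ, False := by rw [h]; trivial
  rw [eventually_curry_iff] at h1
  obtain ⟨x, hx⟩ := h1.exists
  obtain ⟨_, hy⟩ := hx.exists
  exact hy

end Curry

/-- Reindexing of legs. -/
def Legs.reindex {κ κ' : Type*} {F : Type*} {G : Type*} [Ring F] [StarRing F] [Algebra ℂ F]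
    [Ring G] [StarRing G] [Algebra ℂ G] (L : Legs κ F G) (e : κ' → κ)
    (he : Function.Injective e) : Legs κ' F G where
  σ i := L.σ (e i)
  comm i j h := L.comm (e i) (e j) (fun h' => h (he h'))

end Vale.Agent.P101
end

section

/-! Commuting equivariant copies of the central sequence algebra with multiplicative norms. -/

open Filter Topology

namespace Vale.Agent.P095J

open Vale.Agent.P101 Vale.Agent.P101.SeqQuot

universe u v w

section Act

variable {A : Type u} [CStarAlgebra A] {G : Type w} [Group G] (α : G →* (A ≃⋆ₐ[ℂ] A))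
  {ι : Type v} (μ : Filter ι)

theorem norm_act (g : G) (x : A) : ‖α g x‖ = ‖x‖ := by
  refine le_antisymm (NonUnitalStarAlgHom.norm_apply_le ((α g : A ≃⋆ₐ[ℂ] A) : A →⋆ₐ[ℂ] A) x) ?_
  have h := NonUnitalStarAlgHom.norm_apply_le ((α g⁻¹ : A ≃⋆ₐ[ℂ] A) : A →⋆ₐ[ℂ] A) (α g x)
  have e : ((α g⁻¹ : A ≃⋆ₐ[ℂ] A) : A →⋆ₐ[ℂ] A) (α g x) = x := by
    show (α g⁻¹ * α g) x = x
    rw [← map_mul, inv_mul_cancel, map_one]
    rfl
  rwa [e] at h

theorem act_act_inv (g : G) (x : A) : α g (α g⁻¹ x) = x := by
  show (α g * α g⁻¹) x = x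
  rw [← map_mul, mul_inv_cancel, map_one]
  rfl

theorem act_mem {x : ι → A} (hx : x ∈ centralSeq A μ) (g : G) :
    (fun i => α g (x i)) ∈ centralSeq A μ := by
  obtain ⟨⟨C, hC⟩, hx⟩ := hx
  refine ⟨⟨C, fun i => by rw [norm_act]; exact hC i⟩, fun a => ?_⟩
  refine (hx (α g⁻¹ a)).congr fun i => ?_
  have e : α g (x i) * a - a * α g (x i) = α g (x i * α g⁻¹ a - α g⁻¹ a * x i) := by
    rw [map_sub, map_mul, map_mul, act_act_inv]
  rw [e, norm_act]

/-- The action on central sequences. -/
def actSeq (g : G) : centralSeq A μ →⋆ₐ[ℂ] centralSeq A μ where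
  toFun x := ⟨fun i => α g ((x : ι → A) i), act_mem α μ x.2 g⟩
  map_one' := Subtype.ext (funext fun _ => map_one _)
  map_mul' _ _ := Subtype.ext (funext fun _ => map_mul _ _ _)
  map_zero' := Subtype.ext (funext fun _ => map_zero _)
  map_add' _ _ := Subtype.ext (funext fun _ => map_add _ _ _)
  commutes' r := Subtype.ext (funext fun _ => AlgHomClass.commutes (α g) r)
  map_star' _ := Subtype.ext (funext fun _ => map_star _ _)

/-- The action on the central sequence algebra. -/
noncomputable def act (g : G) : Fcs A μ →⋆ₐ[ℂ] Fcs A μ :=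
  { (nullCon A μ).liftₐ (((nullCon A μ).mkₐ ℂ).comp
      (actSeq α μ g : centralSeq A μ →ₐ[ℂ] centralSeq A μ)) (by
      intro x y hxy
      have h : Tendsto (fun i => ‖(x : ι → A) i - (y : ι → A) i‖) μ (𝓝 0) := hxy
      refine Quotient.sound (?_ : (nullCon A μ) _ _)
      show Tendsto (fun i => ‖α g ((x : ι → A) i) - α g ((y : ι → A) i)‖) μ (𝓝 0)
      refine h.congr fun i => ?_
      rw [← map_sub, norm_act]) with
    map_star' := by
      rintro ⟨x⟩
      exact congrArg (Quotient.mk'' (s₁ := (nullCon A μ).toSetoid)) (map_star (actSeq α μ g) x) }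

end Act

section Prod

variable {A : Type u} [CStarAlgebra A] [IsSimpleRing A] {G : Type w} [Group G]
  (α : G →* (A ≃⋆ₐ[ℂ] A))

end Prod

end Vale.Agent.P095J
end

section

/-! If an automorphism acts non-trivially on the central sequence algebra, then there is a positive
norm one central element orthogonal to its image. -/

open Filter Topology

namespace Vale.Agent.P095J

open Vale.Agent.P101 Vale.Agent.P101.SeqQuot

universe u v w

section ProdPos

variable {F : Type u} {D : Type v} [CStarAlgebra F] [CStarAlgebra D] {κ : Type*} [Fintype κ]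
  [DecidableEq κ] (L : Legs κ F D) [PartialOrder F] [StarOrderedRing F] [PartialOrder D]
  [StarOrderedRing D]

theorem prodHom_nonneg (z : κ → F) (hz : ∀ i, 0 ≤ z i) : 0 ≤ L.prodHom z := by
  have e : z = star (fun i => CFC.sqrt (z i)) * (fun i => CFC.sqrt (z i)) := by
    funext i
    show z i = star (CFC.sqrt (z i)) * CFC.sqrt (z i)
    rw [(CFC.sqrt_nonneg (z i)).isSelfAdjoint.star_eq, CFC.sqrt_mul_sqrt_self (z i) (hz i)]
  rw [e, map_mul, ← L.star_prodHom]
  exact star_mul_self_nonneg _

end ProdPos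

section Avg

/-- Averages of copies. -/
theorem avg_copies {F : Type u} {D : Type v} [CStarAlgebra F] [CStarAlgebra D] (n : ℕ)
    (hn : 0 < n) (L : Legs (Fin n) F D) (hL : ∀ z : Fin n → F, ‖L.prodHom z‖ = ∏ i, ‖z i‖)
    (a : F →⋆ₐ[ℂ] F) (a' : D →⋆ₐ[ℂ] D) (hequi : ∀ i x, L.σ i (a x) = a' (L.σ i x)) (y : F)
    (hy : IsSelfAdjoint y) (hy1 : ‖y‖ ≤ 1) (hl : ‖y - a y‖ ∈ spectrum ℝ (y - a y))
    (hl0 : y - a y ≠ 0) :
    ∃ b : D, IsSelfAdjoint b ∧ ‖b‖ ≤ 1 ∧ ‖b * a' b - a' b * b‖ ≤ 2 / n ∧
      ‖y - a y‖ / 2 ≤ ‖b - a' b‖ := by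
  let _ := CStarAlgebra.spectralOrder F
  have _ := CStarAlgebra.spectralOrderedRing F
  let _ := CStarAlgebra.spectralOrder D
  have _ := CStarAlgebra.spectralOrderedRing D
  set d := y - a y with hd
  have hactsa : ∀ x : F, IsSelfAdjoint x → IsSelfAdjoint (a x) := fun x hx => by
    rw [IsSelfAdjoint, ← map_star, hx.star_eq]
  have hdsa : IsSelfAdjoint d := hy.sub (hactsa y hy)
  have hn0 : (0 : ℝ) < n := by exact_mod_cast hn
  have hlam : 0 < ‖d‖ := norm_pos_iff.2 hl0
  set u : F := cfc (fun t : ℝ => max (t - ‖d‖ / 2) 0) d with hu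
  have hu0 : 0 ≤ u := cfc_nonneg fun t _ => le_max_right _ _
  have hune : u ≠ 0 := by
    intro h0
    have hspec : spectrum ℝ u = (fun t : ℝ => max (t - ‖d‖ / 2) 0) '' spectrum ℝ d :=
      cfc_map_spectrum (fun t : ℝ => max (t - ‖d‖ / 2) 0) d
    have h1 : max (‖d‖ - ‖d‖ / 2) 0 ∈ spectrum ℝ u := by
      rw [hspec]; exact ⟨‖d‖, hl, rfl⟩
    have hntr : Nontrivial (F) := ⟨⟨_, _, hl0⟩⟩
    rw [h0, spectrum.zero_eq] at h1
    have h2 : max (‖d‖ - ‖d‖ / 2) 0 = 0 := h1
    have h3 := le_max_left (‖d‖ - ‖d‖ / 2) 0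
    rw [h2] at h3
    linarith only [hlam, h3]
  have hdu : (‖d‖ / 2) • u ≤ d * u := by
    have e1 : d * u = cfc (fun t : ℝ => t * max (t - ‖d‖ / 2) 0) d := by
      rw [cfc_mul (fun t : ℝ => t) (fun t => max (t - ‖d‖ / 2) 0) d (by fun_prop) (by fun_prop),
        cfc_id' ℝ d]
    have e2 : (‖d‖ / 2) • u = cfc (fun t : ℝ => ‖d‖ / 2 * max (t - ‖d‖ / 2) 0) d := by
      rw [hu, ← cfc_const_mul _ (fun t : ℝ => max (t - ‖d‖ / 2) 0) d (by fun_prop)]
    rw [e1, e2]
    refine cfc_mono (fun t _ => ?_) (by fun_prop) (by fun_prop)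
    rcases le_total (t - ‖d‖ / 2) 0 with h | h
    · rw [max_eq_right h, mul_zero, mul_zero]
    · exact mul_le_mul_of_nonneg_right (by linarith only [h]) (le_max_right _ _)
  set U : D := L.prodHom (fun _ => u) with hU
  have hU0 : 0 ≤ U := prodHom_nonneg L _ fun _ => hu0
  have hUn : 0 < ‖U‖ := by
    rw [hU, hL]
    exact Finset.prod_pos fun _ _ => norm_pos_iff.2 hune
  -- each copy
  have hstep : ∀ i, (‖d‖ / 2) • U ≤ L.σ i d * U := by
    intro i
    set R : D := L.prodHom (Function.update (fun _ => u) i 1) with hR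
    have hR0 : 0 ≤ R := prodHom_nonneg L _ fun j => by
      by_cases h : j = i
      · subst h; rw [Function.update_self]; exact zero_le_one
      · rw [Function.update_of_ne h]; exact hu0
    have hUR : U = L.σ i u * R := by
      have := L.prodHom_update i (fun _ => u) u
      rwa [Function.update_eq_self] at this
    have hcR : ∀ a, Commute (L.σ i a) R := fun a => by
      show L.σ i a * R = R * L.σ i a
      rw [← L.prodHom_update i (fun _ => u) a, ← L.prodHom_update' i (fun _ => u) a]
    have h1 : 0 ≤ L.σ i (d * u - (‖d‖ / 2) • u) := map_nonneg (L.σ i) (sub_nonneg.2 hdu)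
    have h2 : 0 ≤ L.σ i (d * u - (‖d‖ / 2) • u) * R := (hcR _).mul_nonneg h1 hR0
    rw [← sub_nonneg]
    refine h2.trans (le_of_eq ?_)
    have e3 : L.σ i ((‖d‖ / 2) • u) = (‖d‖ / 2) • L.σ i u := by
      rw [← Complex.coe_smul, ← Complex.coe_smul, map_smul]
    rw [hUR, map_sub, map_mul, sub_mul, e3, smul_mul_assoc, mul_assoc]
  have hsum : (n * (‖d‖ / 2)) • U ≤ (∑ i, L.σ i d) * U := by
    rw [Finset.sum_mul]
    calc (n * (‖d‖ / 2)) • U = ∑ _i : Fin n, (‖d‖ / 2) • U := by
          rw [Finset.sum_const, Finset.card_univ, Fintype.card_fin, ← Nat.cast_smul_eq_nsmul ℝ,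
            smul_smul]
      _ ≤ _ := Finset.sum_le_sum fun i _ => hstep i
  have hnorm : n * (‖d‖ / 2) ≤ ‖∑ i, L.σ i d‖ := by
    have h1 := CStarAlgebra.norm_le_norm_of_nonneg_of_le (smul_nonneg (by positivity) hU0) hsum
    rw [norm_smul, Real.norm_of_nonneg (by positivity)] at h1
    exact le_of_mul_le_mul_right (h1.trans (norm_mul_le _ _)) hUn
  let b : D := (1 / (n : ℝ)) • ∑ i, L.σ i y
  have hact : a' b = (1 / (n : ℝ)) • ∑ i, L.σ i (a y) := by
    show a' ((1 / (n : ℝ)) • ∑ i, L.σ i y) = _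
    rw [← Complex.coe_smul, ← Complex.coe_smul, map_smul, map_sum]
    simp only [hequi]
  have hnorm1 : ∀ (i : Fin n) (x : F), ‖L.σ i x‖ ≤ ‖x‖ := fun i x =>
    NonUnitalStarAlgHom.norm_apply_le (L.σ i) x
  refine ⟨b, ?_, ?_, ?_, ?_⟩
  · show IsSelfAdjoint ((1 / (n : ℝ)) • ∑ i, L.σ i y)
    refine IsSelfAdjoint.smul (IsSelfAdjoint.all _) ?_
    rw [IsSelfAdjoint, star_sum]
    refine Finset.sum_congr rfl fun i _ => ?_
    rw [← map_star, hy.star_eq]
  · show ‖(1 / (n : ℝ)) • ∑ i, L.σ i y‖ ≤ 1
    rw [norm_smul, Real.norm_of_nonneg (by positivity)]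
    have h1 : ‖∑ i, L.σ i y‖ ≤ n := by
      refine (norm_sum_le _ _).trans ?_
      calc ∑ i : Fin n, ‖L.σ i y‖ ≤ ∑ _i : Fin n, (1 : ℝ) :=
            Finset.sum_le_sum fun i _ => (hnorm1 i y).trans hy1
        _ = n := by simp only [Finset.sum_const, Finset.card_univ, Fintype.card_fin, nsmul_eq_mul, mul_one]
    rw [div_mul_eq_mul_div, one_mul, div_le_one hn0]
    exact h1
  · have hz1 : ‖a y‖ ≤ 1 := (NonUnitalStarAlgHom.norm_apply_le a y).trans hy1
    rw [hact]
    have e1 : b * ((1 / (n : ℝ)) • ∑ i, L.σ i (a y)) -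
        ((1 / (n : ℝ)) • ∑ i, L.σ i (a y)) * b =
        (1 / (n : ℝ) * (1 / (n : ℝ))) • ∑ i, (L.σ i y * L.σ i (a y) -
          L.σ i (a y) * L.σ i y) := by
      show ((1 / (n : ℝ)) • ∑ i, L.σ i y) * ((1 / (n : ℝ)) • ∑ i, L.σ i (a y)) -
        ((1 / (n : ℝ)) • ∑ i, L.σ i (a y)) * ((1 / (n : ℝ)) • ∑ i, L.σ i y) = _
      rw [smul_mul_smul_comm, smul_mul_smul_comm, ← smul_sub]
      congr 1
      rw [Finset.sum_mul_sum, Finset.sum_mul_sum]
      rw [Finset.sum_comm (f := fun i j => L.σ i (a y) * L.σ j y), ← Finset.sum_sub_distrib]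
      refine Finset.sum_congr rfl fun i _ => ?_
      rw [← Finset.sum_sub_distrib]
      refine (Finset.sum_eq_single i (fun j _ hj => ?_) (fun h => (h (Finset.mem_univ i)).elim))
      rw [sub_eq_zero]
      exact (L.comm i j (Ne.symm hj) y (a y)).eq
    rw [e1, norm_smul, Real.norm_of_nonneg (by positivity)]
    have h2 : ‖∑ i, (L.σ i y * L.σ i (a y) - L.σ i (a y) * L.σ i y)‖ ≤ 2 * n := by
      refine (norm_sum_le _ _).trans ?_
      calc ∑ i : Fin n, ‖L.σ i y * L.σ i (a y) - L.σ i (a y) * L.σ i y‖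
          ≤ ∑ _i : Fin n, (2 : ℝ) := by
            refine Finset.sum_le_sum fun i _ => (norm_sub_le _ _).trans ?_
            have h3 : ‖L.σ i y * L.σ i (a y)‖ ≤ 1 :=
              (norm_mul_le _ _).trans (mul_le_one₀ ((hnorm1 i y).trans hy1) (norm_nonneg _)
                ((hnorm1 i _).trans hz1))
            have h4 : ‖L.σ i (a y) * L.σ i y‖ ≤ 1 :=
              (norm_mul_le _ _).trans (mul_le_one₀ ((hnorm1 i _).trans hz1) (norm_nonneg _)
                ((hnorm1 i y).trans hy1))
            linarith only [h3, h4]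
        _ = 2 * n := by simp only [Finset.sum_const, Finset.card_univ, Fintype.card_fin, nsmul_eq_mul, mul_comm]
    calc 1 / (n : ℝ) * (1 / (n : ℝ)) * ‖∑ i, (L.σ i y * L.σ i (a y) -
          L.σ i (a y) * L.σ i y)‖ ≤ 1 / (n : ℝ) * (1 / (n : ℝ)) * (2 * n) :=
          mul_le_mul_of_nonneg_left h2 (by positivity)
      _ = 2 / n := by field_simp
  · rw [hact]
    have e1 : b - (1 / (n : ℝ)) • ∑ i, L.σ i (a y) = (1 / (n : ℝ)) • ∑ i, L.σ i d := by
      show (1 / (n : ℝ)) • ∑ i, L.σ i y - (1 / (n : ℝ)) • ∑ i, L.σ i (a y) = _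
      rw [← smul_sub, ← Finset.sum_sub_distrib]
      simp only [hd, map_sub]
    rw [e1, norm_smul, Real.norm_of_nonneg (by positivity)]
    calc ‖d‖ / 2 = 1 / (n : ℝ) * (n * (‖d‖ / 2)) := by field_simp
      _ ≤ _ := mul_le_mul_of_nonneg_left hnorm (by positivity)

end Avg

end Vale.Agent.P095J
end

section

set_option linter.unusedSectionVars false
set_option linter.unusedVariables false
set_option linter.unusedSimpArgs false

namespace Vale.Agent.P095

open Finset ComplexConjugate

section defs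
variable {B : Type*} [Ring B] {κ : Type*} [Fintype κ]

/-- the ordered product attached to a pattern -/
noncomputable def atom (x : κ → B) (ω : κ → Bool) : B :=
  ((Finset.univ : Finset κ).toList.map (fun i => if ω i then x i else 1 - x i)).prod

/-- the Boolean functional calculus -/
noncomputable def ev [Algebra ℂ B] [DecidableEq κ] (x : κ → B) (ψ : (κ → Bool) → ℂ) : B :=
  ∑ ω, ψ ω • atom x ω

theorem map_atom {C : Type*} [Ring C] (f : B →+* C) (x : κ → B) (ω : κ → Bool) :
    f (atom x ω) = atom (fun i => f (x i)) ω := by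
  unfold atom
  rw [map_list_prod, List.map_map]
  congr 1
  apply List.map_congr_left
  intro i _
  simp only [Function.comp]
  split_ifs <;> simp only [map_sub, map_one]

end defs

section comm
variable {S : Type*} [CommRing S] {κ : Type*} [Fintype κ] [DecidableEq κ]

theorem atom_eq_prod (y : κ → S) (ω : κ → Bool) :
    atom y ω = ∏ i, (if ω i then y i else 1 - y i) := by
  unfold atom
  rw [Finset.prod_map_toList]

theorem comm_sum_atom (y : κ → S) : ∑ ω, atom y ω = 1 := by
  have h : (∏ i : κ, ∑ b : Bool, (if b then y i else 1 - y i)) = 1 := by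
    apply Finset.prod_eq_one
    intro i _
    simp only [Fintype.univ_bool, mem_singleton, Bool.true_eq_false, not_false_eq_true, sum_insert, ↓reduceIte, sum_singleton, Bool.false_eq_true, add_sub_cancel]
  rw [Finset.prod_univ_sum] at h
  rw [← h]
  apply Finset.sum_bij (fun (ω : κ → Bool) _ => ω)
  · intro ω _; simp only [Fintype.univ_bool, Fintype.mem_piFinset, mem_insert, mem_singleton, Bool.eq_true_or_eq_false_self, implies_true]
  · intro a _ b _ hab; exact hab
  · intro b _; exact ⟨b, by simp, rfl⟩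
  · intro ω _; exact atom_eq_prod y ω

theorem comm_atom_mul (y : κ → S) (hy : ∀ i, y i * y i = y i) (ω η : κ → Bool) :
    atom y ω * atom y η = if ω = η then atom y ω else 0 := by
  rw [atom_eq_prod, atom_eq_prod, ← Finset.prod_mul_distrib]
  split_ifs with h
  · subst h
    apply Finset.prod_congr rfl
    intro i _
    split_ifs
    · exact hy i
    · have := hy i
      linear_combination this
  · obtain ⟨i, hi⟩ := Function.ne_iff.mp h
    apply Finset.prod_eq_zero (Finset.mem_univ i)
    have h3 : y i * (1 - y i) = 0 := by linear_combination -(hy i)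
    have h4 : (1 - y i) * y i = 0 := by linear_combination -(hy i)
    cases h1 : ω i <;> cases h2 : η i <;> simp_all

theorem comm_mul_atom (y : κ → S) (hy : ∀ i, y i * y i = y i) (i : κ) (ω : κ → Bool) :
    y i * atom y ω = if ω i then atom y ω else 0 := by
  rw [atom_eq_prod, ← Finset.mul_prod_erase _ _ (Finset.mem_univ i), ← mul_assoc]
  have := hy i
  cases h : ω i
  · simp only [Bool.false_eq_true, if_false]
    have h2 : y i * (1 - y i) = 0 := by linear_combination -this
    rw [h2, zero_mul]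
  · simp only [if_true]
    rw [this]

end comm

/-- a commuting family of projections -/
structure CommProj {B : Type*} [Ring B] [StarRing B] {κ : Type*} (x : κ → B) : Prop where
  idem : ∀ i, x i * x i = x i
  comm : ∀ i j, x i * x j = x j * x i
  sa : ∀ i, star (x i) = x i

universe u

section main
variable {B : Type u} [Ring B] [StarRing B] [Algebra ℂ B] [StarModule ℂ B]
  {κ : Type*} [Fintype κ] [DecidableEq κ] {x : κ → B}

theorem CommProj.exists_comm (hx : CommProj x) :
    ∃ (S : Type u) (_ : CommRing S) (f : S →+* B) (y : κ → S),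
      (∀ i, f (y i) = x i) ∧ (∀ i, y i * y i = y i) := by
  letI := Algebra.adjoinCommRingOfComm ℂ (s := Set.range x) (by
    rintro _ ⟨i, rfl⟩ _ ⟨j, rfl⟩; exact hx.comm i j)
  refine ⟨Algebra.adjoin ℂ (Set.range x), inferInstance,
    (Algebra.adjoin ℂ (Set.range x)).val.toRingHom,
    fun i => ⟨x i, Algebra.subset_adjoin ⟨i, rfl⟩⟩, fun i => rfl, fun i => ?_⟩
  apply Subtype.ext
  exact hx.idem i

theorem CommProj.sum_atom (hx : CommProj x) : ∑ ω, atom x ω = 1 := by
  obtain ⟨S, _, f, y, h1, h2⟩ := hx.exists_comm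
  have := congrArg f (comm_sum_atom y)
  simpa [map_atom, h1] using this

theorem CommProj.atom_mul (hx : CommProj x) (ω η : κ → Bool) :
    atom x ω * atom x η = if ω = η then atom x ω else 0 := by
  obtain ⟨S, _, f, y, h1, h2⟩ := hx.exists_comm
  have := congrArg f (comm_atom_mul y h2 ω η)
  rw [map_mul, apply_ite f, map_zero] at this
  simpa only [map_atom, h1] using this

theorem CommProj.mul_atom (hx : CommProj x) (i : κ) (ω : κ → Bool) :
    x i * atom x ω = if ω i then atom x ω else 0 := by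
  obtain ⟨S, _, f, y, h1, h2⟩ := hx.exists_comm
  have := congrArg f (comm_mul_atom y h2 i ω)
  rw [map_mul, apply_ite f, map_zero] at this
  simpa only [h1, map_atom] using this

theorem atom_commute (z : B) (hz : ∀ i, z * x i = x i * z) (ω : κ → Bool) :
    z * atom x ω = atom x ω * z := by
  unfold atom
  apply Commute.list_prod_right
  intro w hw
  rw [List.mem_map] at hw
  obtain ⟨i, _, rfl⟩ := hw
  split_ifs
  · exact hz i
  · show z * (1 - x i) = (1 - x i) * z
    rw [mul_sub, sub_mul, hz i, mul_one, one_mul]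

theorem CommProj.star_atom (hx : CommProj x) (ω : κ → Bool) :
    star (atom x ω) = atom x ω := by
  obtain ⟨S, _, f, y, h1, h2⟩ := hx.exists_comm
  have h3 : ∀ l : List κ, star ((l.map (fun i => if ω i then x i else 1 - x i)).prod) =
      (l.map (fun i => if ω i then x i else 1 - x i)).prod := by
    intro l
    induction l with
    | nil => simp
    | cons a l ih =>
      rw [List.map_cons, List.prod_cons, star_mul, ih]
      have h4 : star (if ω a then x a else 1 - x a) = (if ω a then x a else 1 - x a) := by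
        split_ifs
        · exact hx.sa a
        · rw [star_sub, star_one, hx.sa a]
      rw [h4]
      symm
      apply Commute.list_prod_right
      intro w hw
      rw [List.mem_map] at hw
      obtain ⟨i, _, rfl⟩ := hw
      have hc := hx.comm a i
      show (if ω a then x a else 1 - x a) * (if ω i then x i else 1 - x i) =
        (if ω i then x i else 1 - x i) * (if ω a then x a else 1 - x a)
      split_ifs
      · exact hc
      · rw [mul_sub, sub_mul, hc, mul_one, one_mul]
      · rw [mul_sub, sub_mul, hc, mul_one, one_mul]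
      · simp only [mul_sub, sub_mul, mul_one, one_mul, hc]
        abel
  exact h3 _

theorem ev_add (ψ φ : (κ → Bool) → ℂ) : ev x (fun ω => ψ ω + φ ω) = ev x ψ + ev x φ := by
  simp only [ev, add_smul, sum_add_distrib]

theorem ev_smul (c : ℂ) (ψ : (κ → Bool) → ℂ) : ev x (fun ω => c * ψ ω) = c • ev x ψ := by
  simp only [ev, smul_sum, smul_smul]

theorem ev_sub (ψ φ : (κ → Bool) → ℂ) : ev x (fun ω => ψ ω - φ ω) = ev x ψ - ev x φ := by
  simp only [ev, sub_smul, sum_sub_distrib]

theorem CommProj.ev_one (hx : CommProj x) : ev x (fun _ => 1) = 1 := by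
  simp [ev, hx.sum_atom]

theorem CommProj.ev_mul (hx : CommProj x) (ψ φ : (κ → Bool) → ℂ) :
    ev x (fun ω => ψ ω * φ ω) = ev x ψ * ev x φ := by
  unfold ev
  rw [Finset.sum_mul]
  apply Finset.sum_congr rfl
  intro ω _
  rw [Finset.mul_sum, Finset.sum_eq_single ω]
  · rw [smul_mul_assoc, mul_smul_comm, smul_smul, hx.atom_mul, if_pos rfl]
  · intro η _ hη
    rw [smul_mul_assoc, mul_smul_comm, hx.atom_mul, if_neg (Ne.symm hη), smul_zero, smul_zero]
  · intro h; exact absurd (Finset.mem_univ _) h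

theorem CommProj.ev_star (hx : CommProj x) (ψ : (κ → Bool) → ℂ) :
    star (ev x ψ) = ev x (fun ω => conj (ψ ω)) := by
  unfold ev
  rw [star_sum]
  apply Finset.sum_congr rfl
  intro ω _
  rw [star_smul, hx.star_atom]; rfl

theorem CommProj.ev_coord (hx : CommProj x) (i : κ) :
    ev x (fun ω => if ω i then 1 else 0) = x i := by
  have h1 : x i * ∑ ω, atom x ω = x i := by rw [hx.sum_atom, mul_one]
  rw [Finset.mul_sum] at h1
  rw [← h1]
  unfold ev
  apply Finset.sum_congr rfl
  intro ω _
  rw [hx.mul_atom]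
  by_cases h : ω i = true <;> simp [h]

theorem CommProj.ev_list_prod (hx : CommProj x) {γ : Type*} (l : List γ)
    (f : γ → (κ → Bool) → ℂ) :
    ev x (fun ω => (l.map (fun g => f g ω)).prod) = (l.map (fun g => ev x (f g))).prod := by
  induction l with
  | nil => simpa using hx.ev_one
  | cons a l ih =>
    simp only [List.map_cons, List.prod_cons]
    rw [hx.ev_mul, ih]

theorem ev_commute (z : B) (hz : ∀ i, z * x i = x i * z) (ψ : (κ → Bool) → ℂ) :
    z * ev x ψ = ev x ψ * z := by
  unfold ev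
  rw [Finset.mul_sum, Finset.sum_mul]
  apply Finset.sum_congr rfl
  intro ω _
  rw [mul_smul_comm, smul_mul_assoc, atom_commute z hz]

theorem CommProj.comp (hx : CommProj x) {κ' : Type*} (j : κ' → κ) : CommProj (fun k => x (j k)) where
  idem _ := hx.idem _
  comm _ _ := hx.comm _ _
  sa _ := hx.sa _

/-- atoms of a subfamily -/
theorem CommProj.atom_comp (hx : CommProj x) {κ' : Type*} [Fintype κ'] [DecidableEq κ']
    (j : κ' → κ) (η : κ' → Bool) :
    atom (fun k => x (j k)) η = ev x (fun ω => if (fun k => ω (j k)) = η then 1 else 0) := by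
  have h1 : ∀ ω : κ → Bool, (if (fun k => ω (j k)) = η then (1 : ℂ) else 0) =
      ((Finset.univ : Finset κ').toList.map
        (fun k => if η k then (if ω (j k) then (1 : ℂ) else 0) else
          1 - (if ω (j k) then (1 : ℂ) else 0))).prod := by
    intro ω
    rw [Finset.prod_map_toList]
    split_ifs with h
    · symm
      apply Finset.prod_eq_one
      intro k _
      have h5 : ω (j k) = η k := congrFun h k
      rw [h5]
      cases η k <;> simp
    · obtain ⟨k, hk⟩ := Function.ne_iff.mp h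
      symm
      apply Finset.prod_eq_zero (Finset.mem_univ k)
      cases h1 : ω (j k) <;> cases h2 : η k <;> simp_all
  simp_rw [h1]
  rw [hx.ev_list_prod]
  unfold atom
  congr 1
  apply List.map_congr_left
  intro k _
  split_ifs
  · exact (hx.ev_coord _).symm
  · rw [ev_sub (fun _ => 1), hx.ev_one, hx.ev_coord]

theorem CommProj.ev_comp (hx : CommProj x) {κ' : Type*} [Fintype κ'] [DecidableEq κ']
    (j : κ' → κ) (ψ : (κ' → Bool) → ℂ) :
    ev (fun k => x (j k)) ψ = ev x (fun ω => ψ (fun k => ω (j k))) := by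
  conv_lhs => unfold ev
  simp_rw [hx.atom_comp j]
  unfold ev
  simp_rw [Finset.smul_sum, smul_smul]
  rw [Finset.sum_comm]
  apply Finset.sum_congr rfl
  intro ω _
  rw [← Finset.sum_smul]
  congr 1
  rw [Finset.sum_eq_single (fun k => ω (j k))]
  · simp
  · intro b _ hb
    rw [if_neg (Ne.symm hb), mul_zero]
  · intro h; exact absurd (Finset.mem_univ _) h

/-- positivity -/
theorem CommProj.trace_atom (hx : CommProj x) {σ : B →ₗ[ℂ] ℂ} (h : IsTracialState σ) (b : B)
    (ω : κ → Bool) :
    σ (star b * b * atom x ω) = σ (star (b * atom x ω) * (b * atom x ω)) := by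
  have h1 : atom x ω * atom x ω = atom x ω := by rw [hx.atom_mul, if_pos rfl]
  rw [star_mul, hx.star_atom]
  calc σ (star b * b * atom x ω) = σ (star b * b * (atom x ω * atom x ω)) := by rw [h1]
    _ = σ ((star b * b * atom x ω) * atom x ω) := by rw [mul_assoc (star b * b)]
    _ = σ (atom x ω * (star b * b * atom x ω)) := by rw [h.map_mul_comm]
    _ = _ := by simp only [mul_assoc]

/-- the 2-norm of a function of a commuting family -/
theorem CommProj.nrm_ev_mul_le (hx : CommProj x) {σ : B →ₗ[ℂ] ℂ} (h : IsTracialState σ)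
    (ψ : (κ → Bool) → ℂ) (C : ℝ) (hC : 0 ≤ C) (hψ : ∀ ω, ‖ψ ω‖ ≤ C) (z : B) :
    nrm σ (ev x ψ * z) ≤ C * nrm σ z := by
  let φ : (κ → Bool) → ℂ := fun ω => ((Real.sqrt (C ^ 2 - ‖ψ ω‖ ^ 2) : ℝ) : ℂ)
  have h1 : star (ev x φ) * ev x φ = ((C ^ 2 : ℝ) : ℂ) • (1 : B) - star (ev x ψ) * ev x ψ := by
    rw [hx.ev_star, hx.ev_star, ← hx.ev_mul, ← hx.ev_mul, ← hx.ev_one, ← ev_smul, ← ev_sub]
    congr 1
    funext ω
    have h2 : 0 ≤ C ^ 2 - ‖ψ ω‖ ^ 2 := by
      have := hψ ω
      have := norm_nonneg (ψ ω)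
      nlinarith
    simp only [φ]
    rw [Complex.conj_ofReal, ← Complex.ofReal_mul, Real.mul_self_sqrt h2, Complex.conj_mul']
    push_cast; ring
  have h3 : (σ (star (ev x ψ * z) * (ev x ψ * z))).re ≤ C ^ 2 * (σ (star z * z)).re := by
    have h4 := h.re_nonneg (ev x φ * z)
    have h5 : star (ev x φ * z) * (ev x φ * z) =
        ((C ^ 2 : ℝ) : ℂ) • (star z * z) - star (ev x ψ * z) * (ev x ψ * z) := by
      calc star (ev x φ * z) * (ev x φ * z) = star z * (star (ev x φ) * ev x φ) * z := by
            rw [star_mul]; noncomm_ring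
        _ = _ := by
            rw [h1, mul_sub, sub_mul, mul_smul_comm, mul_one, smul_mul_assoc, star_mul]
            noncomm_ring
    rw [h5, map_sub, map_smul, smul_eq_mul, Complex.sub_re, Complex.re_ofReal_mul] at h4
    linarith only [h4]
  unfold nrm
  calc Real.sqrt (σ (star (ev x ψ * z) * (ev x ψ * z))).re
      ≤ Real.sqrt (C ^ 2 * (σ (star z * z)).re) := Real.sqrt_le_sqrt h3
    _ = C * Real.sqrt (σ (star z * z)).re := by
        rw [Real.sqrt_mul (by positivity), Real.sqrt_sq hC]

theorem CommProj.nrm_mul_ev_le (hx : CommProj x) {σ : B →ₗ[ℂ] ℂ} (h : IsTracialState σ)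
    (ψ : (κ → Bool) → ℂ) (C : ℝ) (hC : 0 ≤ C) (hψ : ∀ ω, ‖ψ ω‖ ≤ C) (z : B) :
    nrm σ (z * ev x ψ) ≤ C * nrm σ z := by
  rw [← nrm_star h, star_mul, hx.ev_star, ← nrm_star h z]
  exact hx.nrm_ev_mul_le h _ C hC (fun ω => by simpa only [RCLike.norm_conj] using hψ ω) _

end main

end Vale.Agent.P095
end

section

set_option linter.unusedSectionVars false
set_option linter.unusedVariables false
set_option linter.unusedSimpArgs false

namespace Vale.Agent.P095

open Filter Topology ComplexConjugate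

section maps
variable {B C : Type*} [Ring B] [Algebra ℂ B] [Ring C] [Algebra ℂ C]
  {κ : Type*} [Fintype κ] [DecidableEq κ]

theorem map_ev (f : B →+* C) (hf : ∀ (c : ℂ) (x : B), f (c • x) = c • f x) (x : κ → B)
    (ψ : (κ → Bool) → ℂ) : f (ev x ψ) = ev (fun i => f (x i)) ψ := by
  unfold ev
  rw [map_sum]
  apply Finset.sum_congr rfl
  intro ω _
  rw [hf, map_atom]

end maps

section cst
variable {A : Type*} [CStarAlgebra A]

/-- the class of a bounded sequence for a limit trace -/
noncomputable abbrev LimTr.c (t : LimTr A) : BSeq A →+* Qt t.isTracial := cls t.isTracial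

/-- the trace on the quotient -/
noncomputable abbrev LimTr.q (t : LimTr A) : Qt t.isTracial →ₗ[ℂ] ℂ := qtr t.isTracial

theorem LimTr.c_eq (t : LimTr A) {x y : BSeq A} (h : nrm t.val (x - y) = 0) : t.c x = t.c y :=
  (cls_eq_iff_nrm t.isTracial).mpr h

theorem LimTr.nrm_eq (t : LimTr A) {x y : BSeq A} (h : t.c x = t.c y) : nrm t.val (x - y) = 0 :=
  (cls_eq_iff_nrm t.isTracial).mp h

theorem LimTr.q_c (t : LimTr A) (x : BSeq A) : t.q (t.c x) = t.val x := rfl

theorem LimTr.nrm_c (t : LimTr A) (x : BSeq A) : nrm t.q (t.c x) = nrm t.val x :=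
  nrm_cls t.isTracial x

theorem LimTr.c_star (t : LimTr A) (x : BSeq A) : t.c (star x) = star (t.c x) := rfl

theorem LimTr.c_smul (t : LimTr A) (r : ℂ) (x : BSeq A) : t.c (r • x) = r • t.c x := rfl

theorem LimTr.q_tracial (t : LimTr A) : IsTracialState t.q := qtr_tracial t.isTracial

/-- restoring positive contractions -/
theorem clampB (z : BSeq A) (h1 : ∀ t : LimTr A, nrm t.val (z * z - z) = 0)
    (h2 : ∀ t : LimTr A, nrm t.val (star z - z) = 0) :
    ∃ e : BSeq A, (∀ n, (∃ b, e.1 n = star b * b) ∧ ‖e.1 n‖ ≤ 1 ∧ star (e.1 n) = e.1 n) ∧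
      ∀ t : LimTr A, nrm t.val (e - z) = 0 := by
  let y : BSeq A := (1 / 2 : ℂ) • (z + star z)
  have hy : ∀ n, IsSelfAdjoint (y.1 n) := by
    intro n
    have : star y = y := by
      simp only [star_smul, star_add, star_star, y]
      rw [add_comm (star z) z]
      congr 1
      simp only [one_div, star_inv₀, star_ofNat]
    exact congrFun (congrArg Subtype.val this) n
  choose e he using fun n => exists_clamp (y.1 n) (hy n)
  let E : BSeq A := ⟨e, 1, fun n => (he n).2.2.2.1⟩
  refine ⟨E, fun n => ⟨(he n).2.1, (he n).2.2.2.1, (he n).1⟩, fun t => ?_⟩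
  have hyz : t.c y = t.c z := by
    have h3 : t.c (star z) = t.c z := t.c_eq (h2 t)
    simp only [y]
    rw [t.c_smul, map_add, h3, ← two_smul ℂ, smul_smul]
    norm_num
  have hyy : nrm t.val (y * y - y) = 0 := by
    apply t.nrm_eq
    rw [map_mul, hyz, ← map_mul]
    exact t.c_eq (h1 t)
  have hEy : nrm t.val (E - y) = 0 := by
    apply le_antisymm _ (nrm_nonneg _)
    rw [← hyy]
    apply le_of_tendsto_of_tendsto' (t.tendsto_nrm (E - y)) (t.tendsto_nrm (y * y - y))
    intro n
    exact Real.sqrt_le_sqrt ((he n).2.2.2.2 _ (t.hτ n))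
  apply t.nrm_eq
  rw [← hyz]
  exact t.c_eq hEy

end cst

section fam
variable {A : Type*} [CStarAlgebra A] {G : Type*} [Group G] (α : G →* (A ≃⋆ₐ[ℂ] A))

theorem actB_mul (g h : G) (x : BSeq A) : actB (α (g * h)) x = actB (α g) (actB (α h) x) := by
  apply Subtype.ext; funext n
  rw [actB_val, actB_val, actB_val, map_mul]; rfl

theorem actB_one (x : BSeq A) : actB (α 1) x = x := by
  apply Subtype.ext; funext n
  rw [actB_val, map_one]; rfl

theorem actB_inv (g : G) (x : BSeq A) : actB (α g) (actB (α g⁻¹) x) = x := by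
  rw [← actB_mul, mul_inv_cancel, actB_one]

/-- successive choice of good elements -/
theorem exists_fam (μ : ℝ) (K L : Finset G) (hK : ∀ g ∈ L, ∀ h ∈ L, g⁻¹ * h ∈ K)
    (good : ∀ F : Finset (BSeq A), ∃ p, GoodB α μ K F p)
    (W : List (BSeq A) → Finset (BSeq A)) :
    ∃ p : ℕ → BSeq A, ∀ n, star (p n) = p n ∧ ∀ t : LimTr A,
      (∀ g, nrm t.val (actB (α g) (p n) * actB (α g) (p n) - actB (α g) (p n)) = 0) ∧
      (∀ g ∈ L, ∀ w ∈ W ((List.range n).map p),
        nrm t.val (actB (α g) (p n) * w - w * actB (α g) (p n)) = 0 ∧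
        t.val (w * actB (α g) (p n)) = μ * t.val w) ∧
      (∀ g ∈ L, ∀ h ∈ L,
        nrm t.val (actB (α g) (p n) * actB (α h) (p n) - actB (α h) (p n) * actB (α g) (p n))
          = 0) := by
  classical
  choose f hf using good
  let V : List (BSeq A) → Finset (BSeq A) := fun l =>
    L.biUnion (fun g => (W l).image (fun w => actB (α g⁻¹) w))
  let Ls : ℕ → List (BSeq A) := fun n => Nat.rec [] (fun _ l => l ++ [f (V l)]) n
  let p : ℕ → BSeq A := fun n => f (V (Ls n))
  have hLs : ∀ n, Ls n = (List.range n).map p := by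
    intro n
    induction n with
    | zero => rfl
    | succ n ih =>
      have h1 : Ls (n + 1) = Ls n ++ [p n] := rfl
      rw [h1, ih, List.range_succ, List.map_append]
      rfl
  refine ⟨p, fun n => ?_⟩
  obtain ⟨h1, h2, h3⟩ := hf (V (Ls n))
  refine ⟨h1, fun t => ⟨fun g => ?_, fun g hg w hw => ?_, fun g hg h hh => ?_⟩⟩
  · have := (h3 (t.comp (α g))).1
    rw [t.comp_nrm, map_sub, map_mul] at this
    exact this
  · rw [← hLs] at hw
    have hw' : actB (α g⁻¹) w ∈ V (Ls n) :=
      Finset.mem_biUnion.mpr ⟨g, hg, Finset.mem_image_of_mem _ hw⟩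
    have h4 := (h3 (t.comp (α g))).2.1 _ hw'
    constructor
    · have := h4.1
      rw [t.comp_nrm, map_sub, map_mul, map_mul, actB_inv] at this
      exact this
    · have := h4.2
      rw [t.comp_val, t.comp_val, map_mul, actB_inv] at this
      exact this
  · have := (h3 (t.comp (α g))).2.2 _ (hK g hg h hh)
    rw [t.comp_nrm, map_sub, map_mul (actB (α g)), map_mul (actB (α g)), ← actB_mul,
      mul_inv_cancel_left] at this
    exact this

end fam

end Vale.Agent.P095
end

section

/-! Cutting down by an approximate unit of the ideal. -/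

open Filter Topology

namespace Vale.Agent.P095K

open Vale.Agent.P095 Vale.Agent.P095J

universe u v w

variable {M : Type u} [CStarAlgebra M] {G : Type w} [Group G] {β : G →* (M ≃⋆ₐ[ℂ] M)}

theorem cut_norm (x u e : M) (ε₁ : ℝ) (hu : IsSelfAdjoint u) (hu1 : ‖u‖ ≤ 1) (he : ‖e‖ ≤ 1)
    (hε : ε₁ ≤ 1) (h : ‖(star x * x - e) * u‖ ≤ ε₁) : ‖x * u‖ ≤ 2 := by
  have h2 : ‖x * u‖ * ‖x * u‖ ≤ 2 := by
    rw [← CStarRing.norm_star_mul_self]
    have e1 : star (x * u) * (x * u) = u * ((star x * x - e) * u) + u * e * u := by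
      rw [star_mul, hu.star_eq]; noncomm_ring
    have n1 : ‖u * ((star x * x - e) * u)‖ ≤ 1 * ε₁ :=
      (norm_mul_le _ _).trans (mul_le_mul hu1 h (norm_nonneg _) zero_le_one)
    have n2 : ‖u * e * u‖ ≤ 1 * 1 * 1 :=
      (norm_mul_le _ _).trans (mul_le_mul ((norm_mul_le _ _).trans
        (mul_le_mul hu1 he (norm_nonneg _) zero_le_one)) hu1 (norm_nonneg _) (by norm_num))
    rw [e1]
    exact (norm_add_le _ _).trans (by linarith only [hε, n1, n2])
  nlinarith only [h2]

theorem cut_comm (x u b : M) (R ε₁ ρ : ℝ) (hu1 : ‖u‖ ≤ 1) (hx : ‖x‖ ≤ R)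
    (h1 : ‖u * b - b‖ ≤ ρ) (h2 : ‖b * u - b‖ ≤ ρ) (h : ‖x * b - b * x‖ ≤ ε₁) :
    ‖x * u * b - b * (x * u)‖ ≤ 2 * ε₁ + 2 * (R * ρ) := by
  have hR : 0 ≤ R := (norm_nonneg _).trans hx
  have e1 : x * u * b - b * (x * u) = x * (u * b - b) + (x * b - b * x) * u - x * (b * u - b) := by
    noncomm_ring
  have n1 : ‖x * (u * b - b)‖ ≤ R * ρ :=
    (norm_mul_le _ _).trans (mul_le_mul hx h1 (norm_nonneg _) hR)
  have n2 : ‖(x * b - b * x) * u‖ ≤ ε₁ * 1 :=
    (norm_mul_le _ _).trans (mul_le_mul h hu1 (norm_nonneg _) ((norm_nonneg _).trans h))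
  have n3 : ‖x * (b * u - b)‖ ≤ R * ρ :=
    (norm_mul_le _ _).trans (mul_le_mul hx h2 (norm_nonneg _) hR)
  have hε : 0 ≤ ε₁ := (norm_nonneg _).trans h
  rw [e1]
  have m1 := norm_sub_le (x * (u * b - b) + (x * b - b * x) * u) (x * (b * u - b))
  have m2 := norm_add_le (x * (u * b - b)) ((x * b - b * x) * u)
  linarith

theorem cut_fix (x u b : M) (g : G) (R ε₁ ρ : ℝ) (hx : ‖x‖ ≤ R)
    (h1 : ‖u * b - b‖ ≤ ρ) (h2 : ‖u * β g⁻¹ b - β g⁻¹ b‖ ≤ ρ) (h : ‖(β g x - x) * b‖ ≤ ε₁) :
    ‖(β g (x * u) - x * u) * b‖ ≤ ε₁ + 2 * (R * ρ) := by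
  have hR : 0 ≤ R := (norm_nonneg _).trans hx
  have h2' : ‖β g u * b - b‖ ≤ ρ := by
    have e : β g u * b - b = β g (u * β g⁻¹ b - β g⁻¹ b) := by
      rw [map_sub, map_mul, act_act_inv]
    rw [e, norm_act]; exact h2
  have e1 : (β g (x * u) - x * u) * b =
      β g x * (β g u * b - b) + (β g x - x) * b - x * (u * b - b) := by
    rw [map_mul]; noncomm_ring
  have n1 : ‖β g x * (β g u * b - b)‖ ≤ R * ρ :=
    (norm_mul_le _ _).trans (mul_le_mul (by rw [norm_act]; exact hx) h2' (norm_nonneg _) hR)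
  have n3 : ‖x * (u * b - b)‖ ≤ R * ρ :=
    (norm_mul_le _ _).trans (mul_le_mul hx h1 (norm_nonneg _) hR)
  rw [e1]
  have m1 := norm_sub_le (β g x * (β g u * b - b) + (β g x - x) * b) (x * (u * b - b))
  have m2 := norm_add_le (β g x * (β g u * b - b)) ((β g x - x) * b)
  linarith only [h, n1, n3, m1, m2]

theorem cut_sq (x y u e b : M) (R ε₁ ρ η : ℝ) (hu : IsSelfAdjoint u) (hu1 : ‖u‖ ≤ 1)
    (hxu : ‖x * u‖ ≤ 2) (hy : ‖y‖ ≤ R) (he : ‖e‖ ≤ 1) (h1 : ‖u * b - b‖ ≤ ρ)
    (h : ‖(star x * y - e) * b‖ ≤ ε₁) (heb : ‖e * b - b * e‖ ≤ η) :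
    ‖(star (x * u) * (y * u) - e) * b‖ ≤ ε₁ + 2 * (R * ρ) + 2 * η + ρ := by
  have hR : 0 ≤ R := (norm_nonneg _).trans hy
  have e1 : (star (x * u) * (y * u) - e) * b = star (x * u) * y * (u * b - b) +
      u * ((star x * y - e) * b) + (u * (e * b - b * e) + (u * b - b) * e - (e * b - b * e)) := by
    rw [star_mul, hu.star_eq]; noncomm_ring
  have n1 : ‖star (x * u) * y * (u * b - b)‖ ≤ 2 * R * ρ := by
    refine (norm_mul_le _ _).trans (mul_le_mul ?_ h1 (norm_nonneg _) (by positivity))
    refine (norm_mul_le _ _).trans ?_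
    rw [norm_star]
    exact mul_le_mul hxu hy (norm_nonneg _) (by norm_num)
  have n2 : ‖u * ((star x * y - e) * b)‖ ≤ 1 * ε₁ :=
    (norm_mul_le _ _).trans (mul_le_mul hu1 h (norm_nonneg _) zero_le_one)
  have n3 : ‖u * (e * b - b * e)‖ ≤ 1 * η :=
    (norm_mul_le _ _).trans (mul_le_mul hu1 heb (norm_nonneg _) zero_le_one)
  have n4 : ‖(u * b - b) * e‖ ≤ ρ * 1 :=
    (norm_mul_le _ _).trans (mul_le_mul h1 he (norm_nonneg _) ((norm_nonneg _).trans h1))
  rw [e1]
  have m1 := norm_add_le (star (x * u) * y * (u * b - b) + u * ((star x * y - e) * b))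
    (u * (e * b - b * e) + (u * b - b) * e - (e * b - b * e))
  have m2 := norm_add_le (star (x * u) * y * (u * b - b)) (u * ((star x * y - e) * b))
  have m3 := norm_sub_le (u * (e * b - b * e) + (u * b - b) * e) (e * b - b * e)
  have m4 := norm_add_le (u * (e * b - b * e)) ((u * b - b) * e)
  linarith

end Vale.Agent.P095K
end

section

/-!
# Auxiliary lemmas for the filling argument (`mcduff_of_trial`)
-/

set_option linter.unusedSectionVars false
set_option linter.unusedVariables false
set_option linter.unusedSimpArgs false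

namespace Vale.Agent.P095

open Filter Topology ComplexConjugate

section absq
variable {Q : Type*} [Ring Q] [StarRing Q] [Algebra ℂ Q] [StarModule ℂ Q] {q : Q →ₗ[ℂ] ℂ}

/-- Pythagoras -/
theorem nrm_sq_add_orth (h : IsTracialState q) {x y : Q} (hxy : star x * y = 0) :
    nrm q (x + y) ^ 2 = nrm q x ^ 2 + nrm q y ^ 2 := by
  have h2 : star y * x = 0 := by
    have := congrArg star hxy
    simpa only [star_mul, star_star, star_zero] using this
  rw [nrm_sq h, nrm_sq h, nrm_sq h, star_add, add_mul, mul_add, mul_add, hxy, h2]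
  simp only [add_zero, zero_add, map_add, Complex.add_re]

/-- projections are contractions -/
theorem nrm_proj_mul_le (h : IsTracialState q) {p : Q} (hs : star p = p) (hp : p * p = p)
    (x : Q) : nrm q (p * x) ≤ nrm q x := by
  have h1 : star (p * x) * ((1 - p) * x) = 0 := by
    rw [star_mul, hs]
    have : star x * p * ((1 - p) * x) = star x * (p - p * p) * x := by noncomm_ring
    rw [this, hp]; simp only [sub_self, mul_zero, zero_mul]
  have h2 := nrm_sq_add_orth h h1
  have h3 : p * x + (1 - p) * x = x := by noncomm_ring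
  rw [h3] at h2
  have h4 := nrm_nonneg (σ := q) (p * x)
  have h5 := nrm_nonneg (σ := q) x
  have h6 := sq_nonneg (nrm q ((1 - p) * x))
  nlinarith only [h2, h5]

/-- complementary projections are contractions -/
theorem nrm_compl_mul_le (h : IsTracialState q) {p : Q} (hs : star p = p) (hp : p * p = p)
    (x : Q) : nrm q ((1 - p) * x) ≤ nrm q x := by
  apply nrm_proj_mul_le h
  · rw [star_sub, star_one, hs]
  · have : (1 - p) * (1 - p) = 1 - p - (p - p * p) := by noncomm_ring
    rw [this, hp]; simp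

/-- the law of the event gives the mass outside of the event -/
theorem nrm_compl_mul_sq (h : IsTracialState q) {p x : Q} (hs : star p = p) (hp : p * p = p)
    {c : ℝ} (hlaw : q (x * star x * p) = c * q (x * star x)) :
    nrm q ((1 - p) * x) ^ 2 = (1 - c) * nrm q x ^ 2 := by
  have h1 : star ((1 - p) * x) * ((1 - p) * x) = star x * ((1 - p) * x) := by
    rw [star_mul, star_sub, star_one, hs]
    have : star x * (1 - p) * ((1 - p) * x) = star x * ((1 - p) - (p - p * p)) * x := by
      noncomm_ring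
    rw [this, hp, sub_self, sub_zero, mul_assoc]
  have h2 : q (star x * ((1 - p) * x)) = (1 - c) * q (x * star x) := by
    rw [h.map_mul_comm]
    have : (1 - p) * x * star x = x * star x - p * (x * star x) := by noncomm_ring
    rw [this, map_sub, h.map_mul_comm p, hlaw]
    ring
  rw [nrm_sq h, nrm_sq h, h1, h2, h.map_mul_comm x (star x)]
  have : ((1 : ℂ) - (c : ℂ)) = ((1 - c : ℝ) : ℂ) := by push_cast; rfl
  rw [this, Complex.re_ofReal_mul]

/-- the state of the filling process after `m` steps -/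
structure FillQ (q : Q →ₗ[ℂ] ℂ) (c κ : ℝ) (m : ℕ) (z r : Q) : Prop where
  rs : star r = r
  rr : r * r = r
  qr : q r = (((1 - c) ^ m : ℝ) : ℂ)
  contr : ∀ b, nrm q (z * b) ≤ nrm q b
  sq : nrm q (z * z) ^ 2 ≤ κ
  one : nrm q (star z * z + z * star z - (1 - r)) ^ 2 ≤ κ

theorem FillQ.zero {c κ : ℝ} (hκ : 0 ≤ κ) (h : IsTracialState q) : FillQ q c κ 0 0 1 where
  rs := star_one _
  rr := one_mul _
  qr := by simp [h.map_one]
  contr b := by rw [zero_mul, nrm_zero]; exact nrm_nonneg _
  sq := by rw [zero_mul, nrm_zero]; simpa only [ne_eq, OfNat.ofNat_ne_zero, not_false_eq_true, zero_pow] using hκ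
  one := by
    have : star (0 : Q) * 0 + 0 * star (0 : Q) - (1 - 1) = 0 := by simp only [star_zero, mul_zero, add_zero, sub_self]
    rw [this, nrm_zero]; simpa only [ne_eq, OfNat.ofNat_ne_zero, not_false_eq_true, zero_pow, ge_iff_le] using hκ

theorem FillQ.step (h : IsTracialState q) {c κ : ℝ} (hc0 : 0 ≤ c) (hc1 : c ≤ 1) (hκ : 0 ≤ κ)
    {m : ℕ} {z r w y : Q} (hf : FillQ q c κ m z r)
    (ws : star w = w) (ww : w * w = w) (wy : w * y = y) (yw : y * w = y)
    (ycontr : ∀ b, nrm q (y * b) ≤ nrm q b)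
    (wz : w * z = z * w) (wr : w * r = r * w)
    (lr : q (r * w) = c * q r)
    (lsq : q (z * z * star (z * z) * w) = c * q (z * z * star (z * z)))
    (lone : q ((star z * z + z * star z - (1 - r)) * star (star z * z + z * star z - (1 - r)) * w)
      = c * q ((star z * z + z * star z - (1 - r)) *
        star (star z * z + z * star z - (1 - r))))
    (hyy : nrm q (y * y) ^ 2 ≤ κ * c)
    (hyo : nrm q (star y * y + y * star y - w) ^ 2 ≤ κ * c) :
    FillQ q c κ (m + 1) ((1 - w) * z + y) ((1 - w) * r) := by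
  have wzs : w * star z = star z * w := by
    have := congrArg star wz
    rw [star_mul, star_mul, ws] at this
    exact this.symm
  have ysw : star y * w = star y := by
    have := congrArg star wy
    rwa [star_mul, ws] at this
  have wys : w * star y = star y := by
    have := congrArg star yw
    rwa [star_mul, ws] at this
  have owy : (1 - w) * y = 0 := by rw [sub_mul, one_mul, wy, sub_self]
  have oyw : y * (1 - w) = 0 := by rw [mul_sub, mul_one, yw, sub_self]
  have osy : star y * (1 - w) = 0 := by rw [mul_sub, mul_one, ysw, sub_self]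
  have ows : (1 - w) * star y = 0 := by rw [sub_mul, one_mul, wys, sub_self]
  have oo : (1 - w) * (1 - w) = 1 - w := by
    have : (1 - w) * (1 - w) = 1 - w - (w - w * w) := by noncomm_ring
    rw [this, ww]; simp
  have os : star (1 - w) = 1 - w := by rw [star_sub, star_one, ws]
  have oz : (1 - w) * z = z * (1 - w) := by
    rw [sub_mul, mul_sub, one_mul, mul_one, wz]
  have ozs : (1 - w) * star z = star z * (1 - w) := by
    rw [sub_mul, mul_sub, one_mul, mul_one, wzs]
  have orr : (1 - w) * r = r * (1 - w) := by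
    rw [sub_mul, mul_sub, one_mul, mul_one, wr]
  refine ⟨?_, ?_, ?_, ?_, ?_, ?_⟩
  · rw [star_mul, os, hf.rs, orr]
  · calc (1 - w) * r * ((1 - w) * r) = (1 - w) * (r * (1 - w)) * r := by noncomm_ring
      _ = (1 - w) * ((1 - w) * r) * r := by rw [orr]
      _ = ((1 - w) * (1 - w)) * (r * r) := by noncomm_ring
      _ = (1 - w) * r := by rw [oo, hf.rr]
  · rw [sub_mul, one_mul, map_sub, wr, lr, hf.qr, pow_succ]
    push_cast
    ring
  · intro b
    have e1 : ((1 - w) * z + y) * b = z * ((1 - w) * b) + y * (w * b) := by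
      have : y * (w * b) = y * b := by rw [← mul_assoc, yw]
      rw [this, add_mul, oz, mul_assoc]
    have e2 : star (z * ((1 - w) * b)) * (y * (w * b)) = 0 := by
      rw [← mul_assoc z, ← oz, star_mul, star_mul, os]
      calc star b * (star z * (1 - w)) * (y * (w * b))
          = star b * star z * ((1 - w) * y) * (w * b) := by noncomm_ring
        _ = 0 := by rw [owy]; simp only [mul_zero, zero_mul]
    have e3 : star ((1 - w) * b) * (w * b) = 0 := by
      rw [star_mul, os]
      calc star b * (1 - w) * (w * b) = star b * (w - w * w) * b := by noncomm_ring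
        _ = 0 := by rw [ww]; simp only [sub_self, mul_zero, zero_mul]
    have e4 : (1 - w) * b + w * b = b := by noncomm_ring
    have h1 := nrm_sq_add_orth h e2
    have h2 := nrm_sq_add_orth h e3
    rw [e4] at h2
    rw [← e1] at h1
    have h3 := hf.contr ((1 - w) * b)
    have h4 := ycontr (w * b)
    have h5 := nrm_nonneg (σ := q) (z * ((1 - w) * b))
    have h6 := nrm_nonneg (σ := q) (y * (w * b))
    have h7 := nrm_nonneg (σ := q) (((1 - w) * z + y) * b)
    have h8 := nrm_nonneg (σ := q) b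
    have h9 : nrm q (z * ((1 - w) * b)) ^ 2 ≤ nrm q ((1 - w) * b) ^ 2 :=
      pow_le_pow_left₀ h5 h3 2
    have h10 : nrm q (y * (w * b)) ^ 2 ≤ nrm q (w * b) ^ 2 := pow_le_pow_left₀ h6 h4 2
    exact (pow_le_pow_iff_left₀ h7 h8 two_ne_zero).1 (by linarith only [h1, h2, h9, h10])
  · have e1 : ((1 - w) * z + y) * ((1 - w) * z + y) = (1 - w) * (z * z) + y * y := by
      calc ((1 - w) * z + y) * ((1 - w) * z + y)
          = (1 - w) * z * ((1 - w) * z) + (1 - w) * z * y + y * (1 - w) * z + y * y := by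
            noncomm_ring
        _ = z * (1 - w) * ((1 - w) * z) + z * (1 - w) * y + y * (1 - w) * z + y * y := by
            rw [oz]
        _ = z * ((1 - w) * (1 - w)) * z + z * ((1 - w) * y) + y * (1 - w) * z + y * y := by
            noncomm_ring
        _ = (1 - w) * (z * z) + y * y := by
            rw [oo, owy, oyw, ← oz]; noncomm_ring
    have e2 : star ((1 - w) * (z * z)) * (y * y) = 0 := by
      rw [star_mul, os]
      calc star (z * z) * (1 - w) * (y * y) = star (z * z) * ((1 - w) * y) * y := by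
            noncomm_ring
        _ = 0 := by rw [owy]; simp only [star_mul, mul_zero, zero_mul]
    rw [e1, nrm_sq_add_orth h e2, nrm_compl_mul_sq h ws ww lsq]
    have := hf.sq
    nlinarith only [hyy, hc1, this]
  · set E := star z * z + z * star z - (1 - r) with hE
    set D := star y * y + y * star y - w with hD
    have e1 : star ((1 - w) * z + y) * ((1 - w) * z + y) = (1 - w) * (star z * z) + star y * y := by
      rw [star_add, star_mul, os]
      calc (star z * (1 - w) + star y) * ((1 - w) * z + y)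
          = star z * ((1 - w) * (1 - w)) * z + star z * ((1 - w) * y) +
            (star y * (1 - w)) * z + star y * y := by noncomm_ring
        _ = star z * (1 - w) * z + star y * y := by
            rw [oo, owy, osy]; simp only [mul_zero, add_zero, zero_mul]
        _ = (1 - w) * (star z * z) + star y * y := by rw [← ozs, mul_assoc]
    have e2 : ((1 - w) * z + y) * star ((1 - w) * z + y) = (1 - w) * (z * star z) + y * star y := by
      rw [star_add, star_mul, os]
      calc ((1 - w) * z + y) * (star z * (1 - w) + star y)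
          = (1 - w) * z * (star z * (1 - w)) + (1 - w) * z * star y +
            y * (star z * (1 - w)) + y * star y := by noncomm_ring
        _ = (1 - w) * z * ((1 - w) * star z) + z * (1 - w) * star y +
            y * ((1 - w) * star z) + y * star y := by rw [ozs, oz]
        _ = (1 - w) * (z * (1 - w)) * star z + z * ((1 - w) * star y) +
            y * (1 - w) * star z + y * star y := by noncomm_ring
        _ = (1 - w) * (z * star z) + y * star y := by
            rw [← oz, ows, oyw, ← mul_assoc (1 - w) (1 - w) z, oo]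
            noncomm_ring
    have e3 : star ((1 - w) * z + y) * ((1 - w) * z + y) +
        ((1 - w) * z + y) * star ((1 - w) * z + y) - (1 - (1 - w) * r) = (1 - w) * E + D := by
      rw [e1, e2, hE, hD]
      noncomm_ring
    have wD : (1 - w) * D = 0 := by
      rw [hD, mul_sub, mul_add, ← mul_assoc, ows, ← mul_assoc, owy]
      have : (1 - w) * w = w - w * w := by noncomm_ring
      rw [this, ww]; simp only [zero_mul, add_zero, sub_self]
    have e4 : star ((1 - w) * E) * D = 0 := by
      rw [star_mul, os, mul_assoc, wD, mul_zero]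
    rw [e3, nrm_sq_add_orth h e4, nrm_compl_mul_sq h ws ww lone]
    have := hf.one
    rw [← hE] at this
    nlinarith only [hyo, hc1, this]

/-- the invariance estimate -/
theorem inv_step (h : IsTracialState q) {c κ : ℝ} (hc0 : 0 ≤ c) (hc1 : c ≤ 1) (hκ : 0 ≤ κ)
    {z w y z' w' y' : Q}
    (ws : star w = w) (ww : w * w = w) (wy : w * y = y)
    (ws' : star w' = w') (ww' : w' * w' = w') (wy' : w' * y' = y')
    (wcomm : w' * w = w * w')
    (law : q ((z' - z) * star (z' - z) * w) = c * q ((z' - z) * star (z' - z)))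
    (h1 : nrm q ((w' - w) * z') ^ 2 ≤ κ * c) (h2 : nrm q ((w' - w) * z) ^ 2 ≤ κ * c)
    (h3 : nrm q (y' - y) ^ 2 ≤ κ * c) (hE : nrm q (z' - z) ^ 2 ≤ 9 * κ) :
    nrm q (((1 - w') * z' + y') - ((1 - w) * z + y)) ^ 2 ≤ 9 * κ := by
  set E := z' - z with hEdef
  set P := (1 - w) * (1 - w') with hP
  set H := w * ((w - w') * z') - (1 - w) * ((w' - w) * z) + (y' - y) with hH
  have os : star (1 - w) = 1 - w := by rw [star_sub, star_one, ws]
  have os' : star (1 - w') = 1 - w' := by rw [star_sub, star_one, ws']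
  have oo : (1 - w) * (1 - w) = 1 - w := by
    have : (1 - w) * (1 - w) = 1 - w - (w - w * w) := by noncomm_ring
    rw [this, ww]; simp
  have ocomm : (1 - w) * (1 - w') = (1 - w') * (1 - w) := by
    have e1 : (1 - w) * (1 - w') = 1 - w - w' + w * w' := by noncomm_ring
    have e2 : (1 - w') * (1 - w) = 1 - w - w' + w' * w := by noncomm_ring
    rw [e1, e2, wcomm]
  have owy : (1 - w) * y = 0 := by rw [sub_mul, one_mul, wy, sub_self]
  have owy' : (1 - w') * y' = 0 := by rw [sub_mul, one_mul, wy', sub_self]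
  have oww : (1 - w) * w = 0 := by
    have : (1 - w) * w = w - w * w := by noncomm_ring
    rw [this, ww]; simp
  have oww' : (1 - w') * w' = 0 := by
    have : (1 - w') * w' = w' - w' * w' := by noncomm_ring
    rw [this, ww']; simp
  have e1 : w * (w - w') = w * (1 - w') := by
    rw [mul_sub, mul_sub, ww, mul_one]
  have e2 : (1 - w) * (w' - w) = (1 - w) * w' := by
    rw [mul_sub, oww, sub_zero]
  have key : ((1 - w') * z' + y') - ((1 - w) * z + y) = P * E + H := by
    rw [hH, hP, hEdef, ← mul_assoc, ← mul_assoc, e1, e2]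
    noncomm_ring
  have PH : P * H = 0 := by
    have a1 : P * w = 0 := by
      rw [hP, ocomm, mul_assoc, oww, mul_zero]
    have a2 : P * y = 0 := by
      rw [hP, ocomm, mul_assoc, owy, mul_zero]
    have a3 : P * y' = 0 := by
      rw [hP, mul_assoc, owy', mul_zero]
    have a4 : P * ((1 - w) * w') = 0 := by
      calc P * ((1 - w) * w') = (1 - w) * ((1 - w') * (1 - w)) * w' := by rw [hP]; noncomm_ring
        _ = (1 - w) * ((1 - w) * (1 - w')) * w' := by rw [ocomm]
        _ = (1 - w) * (1 - w) * ((1 - w') * w') := by noncomm_ring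
        _ = 0 := by rw [oww']; simp
    calc P * H = P * w * ((w - w') * z') - P * ((1 - w) * (w' - w)) * z + (P * y' - P * y) := by
          rw [hH]; noncomm_ring
      _ = 0 := by rw [a1, e2, a2, a3, a4]; simp
  have Ps : star P = P := by rw [hP, star_mul, os, os', ocomm]
  have orth : star (P * E) * H = 0 := by
    rw [star_mul, Ps, mul_assoc, PH, mul_zero]
  rw [key, nrm_sq_add_orth h orth]
  have b1 : nrm q (P * E) ^ 2 ≤ (1 - c) * nrm q E ^ 2 := by
    rw [← nrm_compl_mul_sq h ws ww law, hP, ocomm, mul_assoc]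
    exact pow_le_pow_left₀ (nrm_nonneg _) (nrm_compl_mul_le h ws' ww' _) 2
  have hkc : 0 ≤ κ * c := mul_nonneg hκ hc0
  have root : ∀ x : Q, nrm q x ^ 2 ≤ κ * c → nrm q x ≤ Real.sqrt (κ * c) := by
    intro x hx
    exact Real.le_sqrt_of_sq_le hx
  have c1 : nrm q (w * ((w - w') * z')) ≤ Real.sqrt (κ * c) := by
    refine (nrm_proj_mul_le h ws ww _).trans ?_
    have : (w - w') * z' = -((w' - w) * z') := by noncomm_ring
    rw [this, nrm_neg]
    exact root _ h1
  have c2 : nrm q ((1 - w) * ((w' - w) * z)) ≤ Real.sqrt (κ * c) :=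
    (nrm_compl_mul_le h ws ww _).trans (root _ h2)
  have c3 := root _ h3
  have b2 : nrm q H ≤ 3 * Real.sqrt (κ * c) := by
    calc nrm q H ≤ nrm q (w * ((w - w') * z') - (1 - w) * ((w' - w) * z)) + nrm q (y' - y) :=
          nrm_add_le h _ _
      _ ≤ nrm q (w * ((w - w') * z')) + nrm q ((1 - w) * ((w' - w) * z)) + nrm q (y' - y) := by
          have := nrm_sub_le h (w * ((w - w') * z')) ((1 - w) * ((w' - w) * z))
          linarith only [this]
      _ ≤ 3 * Real.sqrt (κ * c) := by linarith only [c1, c2, c3]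
  have b3 : nrm q H ^ 2 ≤ 9 * (κ * c) := by
    calc nrm q H ^ 2 ≤ (3 * Real.sqrt (κ * c)) ^ 2 := pow_le_pow_left₀ (nrm_nonneg _) b2 2
      _ = 9 * (κ * c) := by rw [mul_pow, Real.sq_sqrt hkc]; norm_num
  nlinarith only [b1, b3, hc1, hE]

end absq

section bseq
variable {A : Type*} [CStarAlgebra A]

theorem LimTr.comp_c_eq (t : LimTr A) (β : A ≃⋆ₐ[ℂ] A) {x y : BSeq A}
    (h : (t.comp β).c x = (t.comp β).c y) : t.c (actB β x) = t.c (actB β y) := by
  apply t.c_eq
  have := (t.comp β).nrm_eq h
  rwa [t.comp_nrm, map_sub] at this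

theorem LimTr.nrm_sub_c (t : LimTr A) (x y : BSeq A) :
    nrm t.q (t.c x - t.c y) = nrm t.val (x - y) := by
  rw [← map_sub, t.nrm_c]

end bseq

end Vale.Agent.P095
end
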