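import Vale.Agent.P095.MathlibUsed
import Vale.Agent.P095.Bdl.B1

set_option linter.all false

namespace AFasta70af6x5a
theorem a0 {x1 : Type} [x2 : Fintype x1] [x3 : DecidableEq x1] : StarModule ℂ C(↑unitInterval, Matrix x1 x1 ℂ) := inferInstance
theorem a1 : IsTopologicalRing ℂ := inferInstance
theorem a2 : IsTopologicalSemiring ℂ := inferInstance
@[reducible] noncomputable def a3 {x1 : Type} [x2 : DecidableEq x1] [x3 : Fintype x1] : Semiring C(↑unitInterval, Matrix x1 x1 ℂ) := inferInstance
theorem a4 {x1 : Type} [x2 : Fintype x1] [x3 : DecidableEq x1] : ContinuousConstSMul ℂ (Matrix x1 x1 ℂ) := inferInstance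
theorem a5 {x1 : Type} [x2 : Fintype x1] : IsTopologicalSemiring (Matrix x1 x1 ℂ) := inferInstance
theorem a6 : IsTopologicalDivisionRing ℂ := inferInstance
theorem a7.{u1, u2} {x1 : Type u1} {x2 : Type u2} [x3 : CStarAlgebra x1] [x4 : CStarAlgebra x2] : NonUnitalAlgHomClass (x1 →⋆ₐ[ℂ] x2) ℂ x1 x2 := inferInstance
theorem a8 {x1 : Type} [x2 : Fintype x1] [x3 : DecidableEq x1] : SubringClass (StarSubalgebra ℂ C(↑unitInterval, Matrix x1 x1 ℂ)) C(↑unitInterval, Matrix x1 x1 ℂ) := inferInstance
theorem a9 {x1 : Type} : StarModule ℂ (Matrix x1 x1 ℂ) := inferInstance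
theorem a10 : CharZero ℝ := inferInstance
@[reducible] noncomputable def a11.{u1} {x1 : Type u1} [x2 : NormedRing x1] {x3 : Ideal x1} : Norm (x1 ⧸ x3) := inferInstance
@[reducible] noncomputable def a12 {x1 : Type} [x2 : Fintype x1] [x3 : DecidableEq x1] : SetLike (StarSubalgebra ℂ C(↑unitInterval, Matrix x1 x1 ℂ)) C(↑unitInterval, Matrix x1 x1 ℂ) := inferInstance
@[reducible] noncomputable def a13 : Semiring C(↑unitInterval, ℂ) := inferInstance
@[reducible] noncomputable def a14 {x1 : Type} [x2 : Fintype x1] [x3 : DecidableEq x1] : Algebra ℂ C(↑unitInterval, Matrix x1 x1 ℂ) := inferInstance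
@[reducible] noncomputable def a15 {x1 : Type} [x2 : DecidableEq x1] [x3 : Fintype x1] : Ring C(↑unitInterval, Matrix x1 x1 ℂ) := inferInstance
theorem a16 : ContinuousMul ℂ := inferInstance
@[reducible] noncomputable def a17 : Mul C(↑unitInterval, ℂ) := inferInstance
theorem a18.{u1, u2} {x1 : Type u1} {x2 : Type u2} [x3 : CStarAlgebra x1] [x4 : CStarAlgebra x2] : MulHomClass (x1 →⋆ₐ[ℂ] x2) x1 x2 := inferInstance
theorem a19.{u1, u2} {x1 : Type u1} {x2 : Type u2} [x3 : CStarAlgebra x1] [x4 : CStarAlgebra x2] : AddMonoidHomClass (x1 →⋆ₐ[ℂ] x2) x1 x2 := inferInstance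
theorem a20 {x1 : Type} [x2 : Fintype x1] : IsTopologicalRing (Matrix x1 x1 ℂ) := inferInstance
theorem a21.{u1, u2} {x1 : Type u1} {x2 : Type u2} [x3 : CStarAlgebra x1] [x4 : CStarAlgebra x2] : DistribMulActionSemiHomClass (x1 →⋆ₐ[ℂ] x2) (⇑(MonoidHom.id ℂ)) x1 x2 := inferInstance
@[reducible] noncomputable def a22 : Add C(↑unitInterval, ℂ) := inferInstance
theorem a23 : ContinuousSub ℝ := inferInstance
@[reducible] noncomputable def a24 : NonAssocSemiring C(↑unitInterval, ℂ) := inferInstance
theorem a25.{u1, u2} {x1 : Type u1} {x2 : Type u2} [x3 : CStarAlgebra x1] [x4 : CStarAlgebra x2] : MonoidWithZeroHomClass (x1 →⋆ₐ[ℂ] x2) x1 x2 := inferInstance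
theorem a26 : ContinuousAdd ℂ := inferInstance
theorem a27 : IsSemitopologicalSemiring ℂ := inferInstance
@[reducible] def a28.{u1} {x1 : Type u1} [x2 : NormedRing x1] {x3 : Ideal x1} : Add (x1 ⧸ x3) := inferInstance
theorem a29 : IsSemitopologicalRing ℂ := inferInstance
theorem a30 : ContinuousSub ℂ := inferInstance
theorem a31 : PosMulReflectLT ℝ := inferInstance
@[reducible] noncomputable def a32 : MulOneClass C(↑unitInterval, ℂ) := inferInstance
end AFasta70af6x5a
attribute [local instance] AFasta70af6x5a.a0 AFasta70af6x5a.a1 AFasta70af6x5a.a2 AFasta70af6x5a.a3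
  AFasta70af6x5a.a4 AFasta70af6x5a.a5 AFasta70af6x5a.a6 AFasta70af6x5a.a7 AFasta70af6x5a.a8
  AFasta70af6x5a.a9 AFasta70af6x5a.a10 AFasta70af6x5a.a11 AFasta70af6x5a.a12 AFasta70af6x5a.a13
  AFasta70af6x5a.a14 AFasta70af6x5a.a15 AFasta70af6x5a.a16 AFasta70af6x5a.a17 AFasta70af6x5a.a18
  AFasta70af6x5a.a19 AFasta70af6x5a.a20 AFasta70af6x5a.a21 AFasta70af6x5a.a22 AFasta70af6x5a.a23
  AFasta70af6x5a.a24 AFasta70af6x5a.a25 AFasta70af6x5a.a26 AFasta70af6x5a.a27 AFasta70af6x5a.a28
  AFasta70af6x5a.a29 AFasta70af6x5a.a30 AFasta70af6x5a.a31 AFasta70af6x5a.a32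
namespace AFasta70af6x5b
@[reducible] noncomputable def a0 {x1 : Type} [x2 : Fintype x1] [x3 : DecidableEq x1] : Semiring ↥(Vale.Agent.P101.coneAlg x1) := inferInstance
@[reducible] noncomputable def a1 {x1 : Type} [x2 : Fintype x1] [x3 : DecidableEq x1] : Distrib ↥(Vale.Agent.P101.coneAlg x1) := inferInstance
@[reducible] noncomputable def a2 {x1 : Type} [x2 : Fintype x1] [x3 : DecidableEq x1] : Ring ↥(Vale.Agent.P101.coneAlg x1) := inferInstance
@[reducible] noncomputable def a3 {x1 : Type} [x2 : Fintype x1] [x3 : DecidableEq x1] : Mul ↥(Vale.Agent.P101.coneAlg x1) := inferInstance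
@[reducible] noncomputable def a4 {x1 : Type} [x2 : Fintype x1] [x3 : DecidableEq x1] : Add ↥(Vale.Agent.P101.coneAlg x1) := inferInstance
@[reducible] noncomputable def a5 {x1 : Type} [x2 : Fintype x1] [x3 : DecidableEq x1] : NonAssocSemiring ↥(Vale.Agent.P101.coneAlg x1) := inferInstance
theorem a6.{u1, u2} {x1 : Type u1} {x2 : Type u2} [x3 : CStarAlgebra x1] [x4 : CStarAlgebra x2] : AddHomClass (x1 →⋆ₐ[ℂ] x2) x1 x2 := inferInstance
theorem a7.{u1, u2} {x1 : Type u1} {x2 : Type u2} [x3 : CStarAlgebra x1] [x4 : CStarAlgebra x2] : LinearMapClass (x1 →⋆ₐ[ℂ] x2) ℂ x1 x2 := inferInstance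
end AFasta70af6x5b
attribute [local instance] AFasta70af6x5b.a0 AFasta70af6x5b.a1 AFasta70af6x5b.a2 AFasta70af6x5b.a3
  AFasta70af6x5b.a4 AFasta70af6x5b.a5 AFasta70af6x5b.a6 AFasta70af6x5b.a7
section

/-! Step 1: a C*-algebra without characters is generated, as a two-sided ideal, by commutators. -/

open scoped BigOperators ComplexStarModule
open Metric

namespace Vale.Agent.P101

universe u v

section Quot

variable {R : Type u} [NormedRing R] [NormedAlgebra ℂ R] (I : Ideal R) [I.IsTwoSided]

/-- norm structure on the quotient of a noncommutative normed ring by a closed two-sided ideal -/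
@[reducible] noncomputable def quotNormedRing [IsClosed (I : Set R)] : NormedRing (R ⧸ I) :=
  { Ideal.Quotient.ring I, Submodule.Quotient.normedAddCommGroup I with
    norm_mul_le := fun x y => le_of_forall_pos_le_add fun ε hε => by
      have := ((nhds_basis_ball.prod_nhds nhds_basis_ball).tendsto_iff nhds_basis_ball).mp
        (continuous_mul.tendsto (‖x‖, ‖y‖)) ε hε
      simp only [Set.mem_prod, mem_ball, and_imp, Prod.forall, Prod.exists] at this
      rcases this with ⟨ε₁, ε₂, ⟨h₁, h₂⟩, h⟩
      obtain ⟨a, rfl, ha⟩ := Submodule.Quotient.norm_mk_lt x h₁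
      obtain ⟨b, rfl, hb⟩ := Submodule.Quotient.norm_mk_lt y h₂
      simp only [dist, abs_sub_lt_iff] at h
      have h3 := Submodule.Quotient.norm_mk_le (S := I) a
      have h4 := Submodule.Quotient.norm_mk_le (S := I) b
      specialize h ‖a‖ ‖b‖ ⟨by linarith, by linarith⟩ ⟨by linarith, by linarith⟩
      calc
        _ ≤ ‖a * b‖ := Submodule.Quotient.norm_mk_le (S := I) (a * b)
        _ ≤ ‖a‖ * ‖b‖ := norm_mul_le a b
        _ ≤ _ := (sub_lt_iff_lt_add'.mp h.1).le }

end Quot

/-- A maximal left ideal of a complex Banach algebra containing all commutators is the kernel of a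
character. -/
theorem exists_algHom_of_maximal {F : Type u} [NormedRing F] [NormedAlgebra ℂ F] [CompleteSpace F]
    (M : Ideal F) [hM : M.IsMaximal] (hc : ∀ a b : F, a * b - b * a ∈ M) :
    Nonempty (F →ₐ[ℂ] ℂ) := by
  have : M.IsTwoSided := ⟨fun {a} b ha => by
    have h1 : a * b = b * a + (a * b - b * a) := by abel
    rw [h1]
    exact M.add_mem (M.mul_mem_left _ ha) (hc a b)⟩
  have : IsClosed (M : Set F) := Ideal.IsMaximal.isClosed
  let _ : NormedRing (F ⧸ M) := quotNormedRing M
  let _ : NormedAlgebra ℂ (F ⧸ M) :=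
    { Submodule.Quotient.normedSpace M ℂ, Ideal.Quotient.algebra ℂ with }
  have : CompleteSpace (F ⧸ M) := Submodule.Quotient.completeSpace M
  have hunit : ∀ {a : F ⧸ M}, IsUnit a ↔ a ≠ 0 := by
    intro a
    obtain ⟨x, rfl⟩ := Ideal.Quotient.mk_surjective a
    have h10 : (1 : F ⧸ M) ≠ 0 := by
      rw [← map_one (Ideal.Quotient.mk M), Ne, Ideal.Quotient.eq_zero_iff_mem]
      exact (Ideal.ne_top_iff_one M).1 hM.ne_top
    constructor
    · rintro ⟨u, hu⟩ h0
      apply h10
      rw [← u.mul_inv, hu, h0, zero_mul]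
    · intro h
      have hx : x ∉ M := fun h' => h (Ideal.Quotient.eq_zero_iff_mem.2 h')
      obtain ⟨y, i, hi, e⟩ := hM.exists_inv hx
      have e1 : Ideal.Quotient.mk M y * Ideal.Quotient.mk M x = 1 := by
        rw [← map_mul, ← map_one (Ideal.Quotient.mk M), ← e, map_add,
          Ideal.Quotient.eq_zero_iff_mem.2 hi, add_zero]
      have e2 : Ideal.Quotient.mk M x * Ideal.Quotient.mk M y = 1 := by
        rw [← e1, ← map_mul, ← map_mul, ← sub_eq_zero, ← map_sub,
          Ideal.Quotient.eq_zero_iff_mem]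
        exact hc x y
      exact ⟨⟨_, _, e2, e1⟩, rfl⟩
  let e : ℂ ≃ₐ[ℂ] (F ⧸ M) := NormedRing.algEquivComplexOfComplete (A := F ⧸ M) hunit
  let f : F →ₐ[ℂ] F ⧸ M := Ideal.Quotient.mkₐ ℂ M
  exact ⟨(e.symm.toAlgHom).comp f⟩

theorem step1 {F : Type u} [CStarAlgebra F] (h : IsEmpty (F →⋆ₐ[ℂ] ℂ)) :
    Full {x : F | ∃ a b : F, IsSelfAdjoint a ∧ x = a * b - b * a} := by
  by_contra hcon
  set S : Set F := {x : F | ∃ a b : F, IsSelfAdjoint a ∧ x = a * b - b * a} with hS
  have hne : (TwoSidedIdeal.span S).asIdeal ≠ ⊤ := by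
    rw [Ideal.ne_top_iff_one]
    intro h1
    exact hcon (TwoSidedIdeal.mem_asIdeal.1 h1)
  obtain ⟨M, hM, hle⟩ := Ideal.exists_le_maximal _ hne
  have hsa : ∀ a b : F, IsSelfAdjoint a → a * b - b * a ∈ M := fun a b ha =>
    hle (TwoSidedIdeal.mem_asIdeal.2 (TwoSidedIdeal.subset_span ⟨a, b, ha, rfl⟩))
  have hc : ∀ a b : F, a * b - b * a ∈ M := by
    intro a b
    have e : a * b - b * a = ((ℜ a : F) * b - b * (ℜ a : F))
        + ((ℑ a : F) * (Complex.I • b) - (Complex.I • b) * (ℑ a : F)) := by
      conv_lhs => rw [← realPart_add_I_smul_imaginaryPart a]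
      simp only [add_mul, mul_add, smul_mul_assoc, mul_smul_comm]
      abel
    rw [e]
    exact M.add_mem (hsa _ _ (ℜ a).2) (hsa _ _ (ℑ a).2)
  obtain ⟨φ⟩ := exists_algHom_of_maximal M hc
  exact h.false { φ with
    map_star' := fun x => WeakDual.Complex.instStarHomClass.map_star φ x }

end Vale.Agent.P101
end

section

/-! Step 6: from a full square-zero element to the data of one leg. -/

open scoped BigOperators

namespace Vale.Agent.P101

universe u

namespace Step6

/-- ramp -/
noncomputable def al (δ t : ℝ) : ℝ := max 0 (min 1 (2 * t / δ - 1))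
noncomputable def kf (δ t : ℝ) : ℝ := al δ t * (Real.sqrt (max t (δ / 2)))⁻¹
noncomputable def hf (δ t : ℝ) : ℝ := Real.sqrt (1 - al δ t * al δ t)
noncomputable def cf (δ t : ℝ) : ℝ := max (-1) (min 1 (1 - 4 * t / δ))
noncomputable def sf (δ t : ℝ) : ℝ := Real.sqrt (1 - cf δ t * cf δ t)
noncomputable def ef (δ t : ℝ) : ℝ := max 0 (t - δ)
noncomputable def ef1 (δ t : ℝ) : ℝ := ef δ t * (max t δ)⁻¹

variable {δ : ℝ}

theorem al_cont : Continuous (al δ) := by unfold al; fun_prop
theorem cf_cont : Continuous (cf δ) := by unfold cf; fun_prop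
theorem ef_cont : Continuous (ef δ) := by unfold ef; fun_prop
theorem hf_cont : Continuous (hf δ) := by
  unfold hf; exact Real.continuous_sqrt.comp (continuous_const.sub (al_cont.mul al_cont))
theorem sf_cont : Continuous (sf δ) := by
  unfold sf; exact Real.continuous_sqrt.comp (continuous_const.sub (cf_cont.mul cf_cont))
theorem kf_cont (hδ : 0 < δ) : Continuous (kf δ) := by
  unfold kf
  refine al_cont.mul (Continuous.inv₀ (by fun_prop) fun t => ?_)
  have : 0 < max t (δ / 2) := lt_max_of_lt_right (by positivity)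
  exact (Real.sqrt_pos.2 this).ne'
theorem ef1_cont (hδ : 0 < δ) : Continuous (ef1 δ) := by
  unfold ef1
  refine ef_cont.mul (Continuous.inv₀ (by fun_prop) fun t => ?_)
  exact (lt_max_of_lt_right hδ).ne'

theorem al_nonneg (t : ℝ) : 0 ≤ al δ t := le_max_left _ _
theorem al_le_one (t : ℝ) : al δ t ≤ 1 := max_le zero_le_one (min_le_left _ _)

theorem al_eq_zero (hδ : 0 < δ) {t : ℝ} (h : t ≤ δ / 2) : al δ t = 0 := by
  unfold al
  refine max_eq_left ((min_le_right _ _).trans ?_)
  rw [sub_nonpos, div_le_one hδ]; linarith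

theorem al_eq_one (hδ : 0 < δ) {t : ℝ} (h : δ ≤ t) : al δ t = 1 := by
  unfold al
  have : 1 ≤ 2 * t / δ - 1 := by
    rw [le_sub_iff_add_le, le_div_iff₀ hδ]; linarith only [h]
  rw [min_eq_left this]; norm_num

theorem kf_sq (hδ : 0 < δ) (t : ℝ) : kf δ t * t * kf δ t = al δ t * al δ t := by
  rcases le_total t (δ / 2) with h | h
  · unfold kf; rw [al_eq_zero hδ h]; ring
  · unfold kf
    rw [max_eq_left h]
    have ht : 0 < t := by linarith only [hδ, h]
    have h1 : Real.sqrt t * Real.sqrt t = t := Real.mul_self_sqrt ht.le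
    have h2 : 0 < Real.sqrt t := Real.sqrt_pos.2 ht
    calc al δ t * (Real.sqrt t)⁻¹ * t * (al δ t * (Real.sqrt t)⁻¹)
        = al δ t * (Real.sqrt t)⁻¹ * (Real.sqrt t * Real.sqrt t) * (al δ t * (Real.sqrt t)⁻¹) := by
          rw [h1]
      _ = al δ t * al δ t := by field_simp

theorem sf_sq (t : ℝ) : cf δ t * cf δ t + sf δ t * sf δ t = 1 := by
  have h1 : cf δ t ≤ 1 := max_le (by norm_num) (min_le_left _ _)
  have h2 : -1 ≤ cf δ t := le_max_left _ _
  unfold sf
  rw [Real.mul_self_sqrt (by nlinarith only [h1, h2])]; ring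

theorem cf_zero : cf δ 0 = 1 := by unfold cf; norm_num
theorem sf_zero : sf δ 0 = 0 := by unfold sf; rw [cf_zero]; norm_num

theorem cf_eq (hδ : 0 < δ) {t : ℝ} (h : δ / 2 ≤ t) : cf δ t = -1 := by
  unfold cf
  refine max_eq_left ((min_le_right _ _).trans ?_)
  rw [sub_le_iff_le_add, ← sub_le_iff_le_add', le_div_iff₀ hδ]; linarith only [h]

theorem kc (hδ : 0 < δ) (t : ℝ) : kf δ t * cf δ t = - kf δ t := by
  rcases le_total t (δ / 2) with h | h
  · unfold kf; rw [al_eq_zero hδ h]; ring
  · rw [cf_eq hδ h]; ring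

theorem ks (hδ : 0 < δ) (t : ℝ) : kf δ t * sf δ t = 0 := by
  rcases le_total t (δ / 2) with h | h
  · unfold kf; rw [al_eq_zero hδ h]; ring
  · unfold sf; rw [cf_eq hδ h]; norm_num

theorem ae (hδ : 0 < δ) (t : ℝ) : al δ t * al δ t * ef δ t = ef δ t := by
  rcases le_total t δ with h | h
  · unfold ef; rw [max_eq_left (by linarith)]; ring
  · rw [al_eq_one hδ h]; ring

theorem te (hδ : 0 < δ) (t : ℝ) : t * ef1 δ t = ef δ t := by
  rcases le_total t δ with h | h
  · unfold ef1 ef; rw [max_eq_left (by linarith)]; ring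
  · unfold ef1
    rw [max_eq_left h]
    have : 0 < t := by linarith
    field_simp

theorem ef_lower (hδ : 0 < δ) {t M : ℝ} (h0 : 0 ≤ t) (hM : t ≤ M) :
    t ≤ 2 * δ + M / (δ * δ) * (ef δ t * ef δ t) := by
  have hM0 : 0 ≤ M := h0.trans hM
  rcases le_total t (2 * δ) with h | h
  · have : 0 ≤ M / (δ * δ) * (ef δ t * ef δ t) :=
      mul_nonneg (by positivity) (mul_self_nonneg _)
    linarith only [h, this]
  · have h1 : δ ≤ ef δ t := by unfold ef; rw [max_eq_right (by linarith)]; linarith
    have h2 : δ * δ ≤ ef δ t * ef δ t := mul_le_mul h1 h1 hδ.le (hδ.le.trans h1)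
    have h3 : M ≤ M / (δ * δ) * (ef δ t * ef δ t) := by
      calc M = M / (δ * δ) * (δ * δ) := by field_simp
        _ ≤ _ := mul_le_mul_of_nonneg_left h2 (by positivity)
    linarith only [hδ, hM, h3]

section Intertwine

variable {F : Type u} [CStarAlgebra F]

theorem aeval_intertwine (p q x : F) (h : p * x = x * q) (P : Polynomial ℝ) :
    Polynomial.aeval p P * x = x * Polynomial.aeval q P := by
  induction P using Polynomial.induction_on' with
  | add f g hf hg => simp only [map_add, add_mul, hf, hg, mul_add]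
  | monomial n r =>
    have : p ^ n * x = x * q ^ n := by
      induction n with
      | zero => simp
      | succ n ih =>
        rw [pow_succ, mul_assoc, h, ← mul_assoc, ih, mul_assoc, ← pow_succ]
    simp only [Polynomial.aeval_monomial]
    rw [mul_assoc, this, ← mul_assoc, ← mul_assoc, Algebra.commutes r x]

theorem cfc_intertwine (p q x : F) (hp : IsSelfAdjoint p) (hq : IsSelfAdjoint q)
    (h : p * x = x * q) (f : ℝ → ℝ) (hf : Continuous f) : cfc f p * x = x * cfc f q := by
  nontriviality F
  rw [← sub_eq_zero, ← norm_le_zero_iff]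
  refine le_of_forall_pos_le_add fun ε hε => ?_
  set R := max ‖p‖ ‖q‖ with hR
  set ε' := ε / (2 * (‖x‖ + 1)) with hε'
  have hε'0 : 0 < ε' := by (clear * - hε; positivity)
  obtain ⟨P, hP⟩ := exists_polynomial_near_of_continuousOn (-R) R f hf.continuousOn ε' hε'0
  have hnear : ∀ a : F, IsSelfAdjoint a → ‖a‖ ≤ R → ‖cfc f a - Polynomial.aeval a P‖ ≤ ε' := by
    intro a ha haR
    rw [← cfc_polynomial P a ha, ← cfc_sub f P.eval a (by (clear * - hf; fun_prop)) (by fun_prop)]
    refine norm_cfc_le hε'0.le fun t ht => ?_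
    have ht' : |t| ≤ R := (spectrum.norm_le_norm_of_mem ht).trans haR
    have := hP t (abs_le.1 ht')
    rw [Real.norm_eq_abs, abs_sub_comm]
    exact this.le
  have h1 := hnear p hp (le_max_left _ _)
  have h2 := hnear q hq (le_max_right _ _)
  have e : cfc f p * x - x * cfc f q
      = (cfc f p - Polynomial.aeval p P) * x - x * (cfc f q - Polynomial.aeval q P) := by
    rw [sub_mul, mul_sub, aeval_intertwine p q x h P]; abel
  rw [e, zero_add]
  calc ‖(cfc f p - Polynomial.aeval p P) * x - x * (cfc f q - Polynomial.aeval q P)‖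
      ≤ ‖(cfc f p - Polynomial.aeval p P) * x‖ + ‖x * (cfc f q - Polynomial.aeval q P)‖ :=
        norm_sub_le _ _
    _ ≤ ε' * ‖x‖ + ‖x‖ * ε' :=
        add_le_add ((norm_mul_le _ _).trans (mul_le_mul_of_nonneg_right h1 (norm_nonneg _)))
          ((norm_mul_le _ _).trans (mul_le_mul_of_nonneg_left h2 (norm_nonneg _)))
    _ = 2 * ‖x‖ * ε' := by ring
    _ ≤ ε := by
        rw [hε', ← mul_div_assoc, div_le_iff₀ (by (clear * -; positivity))]
        nlinarith only [hε]

theorem star_cfc_real (f : ℝ → ℝ) (a : F) : star (cfc f a) = cfc f a := by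
  rw [← cfc_star]; simp

/-- if `x * q = 0` then `x * f(q) = f(0) x`. -/
theorem mul_cfc_of_mul_eq_zero (q x : F) (hq : IsSelfAdjoint q)
    (h : x * q = 0) (f : ℝ → ℝ) (hf : Continuous f) : x * cfc f q = f 0 • x := by
  have h1 := cfc_intertwine 0 q x (IsSelfAdjoint.zero F) hq (by rw [h, zero_mul]) f hf
  rw [← h1, cfc_apply_zero, Algebra.algebraMap_eq_smul_one, smul_mul_assoc, one_mul]

theorem cfc_mul_of_mul_eq_zero (p x : F) (hp : IsSelfAdjoint p)
    (h : p * x = 0) (f : ℝ → ℝ) (hf : Continuous f) : cfc f p * x = f 0 • x := by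
  have h1 := cfc_intertwine p 0 x hp (IsSelfAdjoint.zero F) (by rw [h, mul_zero]) f hf
  rw [h1, cfc_apply_zero, Algebra.algebraMap_eq_smul_one, mul_smul_comm, mul_one]

end Intertwine

section Full

variable {F : Type u} [CStarAlgebra F] [PartialOrder F] [StarOrderedRing F]

theorem star_sum_mul_sum_le {n : ℕ} (y : Fin n → F) :
    star (∑ i, y i) * ∑ i, y i ≤ (n : ℝ) • ∑ i, star (y i) * y i := by
  have h0 : 0 ≤ ∑ i, ∑ j, star (y i - y j) * (y i - y j) :=
    Finset.sum_nonneg fun i _ => Finset.sum_nonneg fun j _ => star_mul_self_nonneg _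
  have e : ∑ i, ∑ j, star (y i - y j) * (y i - y j)
      = (2 : ℝ) • ((n : ℝ) • ∑ i, star (y i) * y i - star (∑ i, y i) * ∑ i, y i) := by
    have e1 : ∀ i j, star (y i - y j) * (y i - y j)
        = star (y i) * y i + star (y j) * y j - star (y i) * y j - star (y j) * y i := by
      intro i j; rw [star_sub]; noncomm_ring
    simp_rw [e1, Finset.sum_sub_distrib, Finset.sum_add_distrib]
    have e2 : ∑ i, ∑ j, star (y i) * y j = star (∑ i, y i) * ∑ i, y i := by
      rw [star_sum, Finset.sum_mul_sum]
    have e3 : ∑ i, ∑ j, star (y j) * y i = star (∑ i, y i) * ∑ i, y i := by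
      rw [Finset.sum_comm, e2]
    rw [e2, e3]
    simp only [Finset.sum_const, Finset.card_univ, Fintype.card_fin]
    rw [← Finset.smul_sum, two_smul, ← Nat.cast_smul_eq_nsmul ℝ]
    abel
  rw [e] at h0
  have h1 : (0 : F) ≤ (2 : ℝ)⁻¹ • ((2 : ℝ) • ((n : ℝ) • ∑ i, star (y i) * y i
      - star (∑ i, y i) * ∑ i, y i)) := smul_nonneg (by norm_num) h0
  rw [smul_smul, inv_mul_cancel₀ (by norm_num), one_smul] at h1
  exact sub_nonneg.1 h1

theorem conj_le {r x y : F} (h : x ≤ y) : star r * x * r ≤ star r * y * r :=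
  star_left_conjugate_le_conjugate h r

/-- fullness produces the elements `d`. -/
theorem exists_d (X : F) (hfull : Full {X}) :
    ∃ (δ : ℝ) (N : ℕ) (d : Fin N → F), 0 < δ ∧
      ∑ r, star (d r) * (cfc (ef δ) (star X * X) * cfc (ef δ) (star X * X)) * d r = 1 := by
  obtain ⟨n, l, x, r, hx, hsum⟩ := hfull.exists_sum
  obtain rfl : x = fun _ => X := funext fun i => by simpa using hx i
  rcases subsingleton_or_nontrivial F with hF | hF
  · exact ⟨1, 0, Fin.elim0, one_pos, Subsingleton.elim _ _⟩
  set a := star X * X with ha_def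
  have ha : 0 ≤ a := star_mul_self_nonneg X
  have hsa : IsSelfAdjoint a := ha.isSelfAdjoint
  set A := ∑ i, star (r i) * a * r i with hA
  have hA0 : 0 ≤ A := Finset.sum_nonneg fun i _ => star_left_conjugate_nonneg ha _
  set L := ∑ i, ‖l i‖ ^ 2 with hL
  have hL0 : 0 ≤ L := Finset.sum_nonneg fun i _ => by (clear * -; positivity)
  -- step A
  have hone : (1 : F) ≤ ((n : ℝ) * L) • A := by
    have h1 := star_sum_mul_sum_le (fun i => l i * X * r i)
    rw [hsum, star_one, one_mul] at h1
    refine h1.trans ?_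
    rw [mul_smul]
    refine smul_le_smul_of_nonneg_left ?_ (Nat.cast_nonneg n)
    rw [hA, Finset.smul_sum]
    refine Finset.sum_le_sum fun i _ => ?_
    have h2 : star (l i) * l i ≤ algebraMap ℝ F L := by
      refine CStarAlgebra.star_mul_le_algebraMap_norm_sq.trans ?_
      refine algebraMap_mono F ?_
      exact Finset.single_le_sum (f := fun i => ‖l i‖ ^ 2) (fun j _ => by (clear * -; positivity))
        (Finset.mem_univ i)
    have h3 := conj_le (r := X * r i) h2
    have e1 : star (l i * X * r i) * (l i * X * r i)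
        = star (X * r i) * (star (l i) * l i) * (X * r i) := by
      simp only [star_mul, mul_assoc]
    have e2 : L • (star (r i) * a * r i) = star (X * r i) * algebraMap ℝ F L * (X * r i) := by
      rw [Algebra.algebraMap_eq_smul_one, mul_smul_comm, smul_mul_assoc, mul_one]
      simp only [ha_def, star_mul, mul_assoc]
    rw [e1, e2]
    exact h3
  set K := (n : ℝ) * L + 1 with hK
  have hK0 : 0 < K := by (clear * -; positivity)
  have hone' : (1 : F) ≤ K • A := by
    refine hone.trans (smul_le_smul_of_nonneg_right ?_ hA0)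
    rw [hK]; linarith
  set B := ‖∑ i, star (r i) * r i‖ with hB
  have hB0 : 0 ≤ B := norm_nonneg _
  have hRB : ∑ i, star (r i) * r i ≤ algebraMap ℝ F B :=
    IsSelfAdjoint.le_algebraMap_norm_self (a := ∑ i, star (r i) * r i)
      (IsSelfAdjoint.of_nonneg (Finset.sum_nonneg fun i _ => star_mul_self_nonneg _))
  set δ := (4 * (K * B + 1))⁻¹ with hδ
  have hδ0 : 0 < δ := by (clear * -; positivity)
  set E := cfc (ef δ) a with hE
  set M := ‖a‖ + 1 with hM
  have hM0 : 0 < M := by positivity
  -- step B
  have hstepB : a ≤ (2 * δ) • (1 : F) + (M / (δ * δ)) • (E * E) := by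
    have e1 : (2 * δ) • (1 : F) + (M / (δ * δ)) • (E * E)
        = cfc (fun t => 2 * δ + M / (δ * δ) * (ef δ t * ef δ t)) a := by
      have hc := ef_cont (δ := δ)
      rw [cfc_const_add (2 * δ) (fun t => M / (δ * δ) * (ef δ t * ef δ t)) a (by fun_prop) hsa,
        cfc_const_mul (M / (δ * δ)) (fun t => ef δ t * ef δ t) a (by fun_prop),
        cfc_mul (ef δ) (ef δ) a (by fun_prop) (by fun_prop), Algebra.algebraMap_eq_smul_one]
    rw [e1]
    have e2 : a = cfc (fun t : ℝ => t) a := (cfc_id' ℝ a).symm
    conv_lhs => rw [e2]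
    have hc := ef_cont (δ := δ)
    refine cfc_mono (fun t ht => ?_) (by fun_prop) (by fun_prop)
    have ht0 : 0 ≤ t := spectrum_nonneg_of_nonneg ha ht
    have htM : t ≤ M := by
      have := spectrum.norm_le_norm_of_mem ht
      rw [Real.norm_eq_abs] at this
      have := (le_abs_self t).trans this
      rw [hM]; linarith only [this]
    exact ef_lower hδ0 ht0 htM
  set Z := ∑ i, star (r i) * (E * E) * r i with hZ
  have hAZ : A ≤ (2 * δ) • (∑ i, star (r i) * r i) + (M / (δ * δ)) • Z := by
    rw [hA, hZ, Finset.smul_sum, Finset.smul_sum, ← Finset.sum_add_distrib]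
    refine Finset.sum_le_sum fun i _ => ?_
    refine (conj_le (r := r i) hstepB).trans (le_of_eq ?_)
    simp only [mul_add, add_mul, mul_smul_comm, smul_mul_assoc, mul_one]
  have hfin : (1 : F) ≤ (K * (2 * δ * B)) • (1 : F) + (K * (M / (δ * δ))) • Z := by
    refine hone'.trans ?_
    rw [mul_smul K (2 * δ * B), mul_smul K (M / (δ * δ)), ← smul_add]
    refine smul_le_smul_of_nonneg_left (hAZ.trans ?_) hK0.le
    have h2δ : (0 : ℝ) ≤ 2 * δ := by (clear * -; positivity)
    rw [Algebra.algebraMap_eq_smul_one] at hRB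
    have h5 : (2 * δ) • (∑ i, star (r i) * r i) ≤ (2 * δ * B) • (1 : F) := by
      rw [mul_smul (2 * δ) B]
      exact smul_le_smul_of_nonneg_left hRB h2δ
    exact add_le_add h5 le_rfl
  have hhalf : K * (2 * δ * B) ≤ 1 / 2 := by
    rw [hδ]
    have : 0 < K * B + 1 := by (clear * -; positivity)
    have e : K * (2 * (4 * (K * B + 1))⁻¹ * B) = (K * B) / (2 * (K * B + 1)) := by
      field_simp; ring
    rw [e, div_le_iff₀ (by (clear * -; positivity))]
    linarith only []
  have hZlow : ((1 : ℝ) / 2 / (K * (M / (δ * δ)))) • (1 : F) ≤ Z := by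
    set q := K * (M / (δ * δ)) with hq
    have hq0 : 0 < q := by (clear * -; positivity)
    have h1 : (1 : F) ≤ ((1 : ℝ) / 2) • (1 : F) + q • Z := by
      refine hfin.trans (add_le_add ?_ le_rfl)
      exact smul_le_smul_of_nonneg_right hhalf zero_le_one
    have h2 : ((1 : ℝ) / 2) • (1 : F) ≤ q • Z := by
      have h3 : (1 : F) - ((1 : ℝ) / 2) • (1 : F) ≤ q • Z := by
        rw [sub_le_iff_le_add']; exact h1
      refine le_trans (le_of_eq ?_) h3
      rw [eq_sub_iff_add_eq, ← add_smul]; norm_num
    have h4 := smul_le_smul_of_nonneg_left h2 (inv_nonneg.2 hq0.le)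
    rw [smul_smul, smul_smul, inv_mul_cancel₀ hq0.ne', one_smul] at h4
    rw [div_eq_inv_mul]; exact h4
  have hcpos : 0 < (1 : ℝ) / 2 / (K * (M / (δ * δ))) := by (clear * -; positivity)
  have hZ0 : 0 ≤ Z := Finset.sum_nonneg fun i _ => by
    have hEE : 0 ≤ E * E := by
      have := star_mul_self_nonneg E
      rwa [hE, star_cfc_real] at this
    exact star_left_conjugate_nonneg hEE _
  have hZsp : IsStrictlyPositive Z := by
    refine ⟨hZ0, ?_⟩
    refine CStarAlgebra.isUnit_of_le (((1 : ℝ) / 2 / (K * (M / (δ * δ)))) • (1 : F)) hZlow ?_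
    refine ⟨smul_nonneg hcpos.le zero_le_one, ?_⟩
    rw [← Algebra.algebraMap_eq_smul_one]
    exact (IsUnit.mk0 _ hcpos.ne').map (algebraMap ℝ F)
  refine ⟨δ, n, fun i => r i * Z ^ (-(1 / 2) : ℝ), hδ0, ?_⟩
  have hW : star (Z ^ (-(1 / 2) : ℝ)) = Z ^ (-(1 / 2) : ℝ) :=
    (IsSelfAdjoint.of_nonneg CFC.rpow_nonneg).star_eq
  have e : ∀ i, star (r i * Z ^ (-(1 / 2) : ℝ)) * (E * E) * (r i * Z ^ (-(1 / 2) : ℝ))
      = Z ^ (-(1 / 2) : ℝ) * (star (r i) * (E * E) * r i) * Z ^ (-(1 / 2) : ℝ) := by
    intro i
    rw [star_mul, hW]; simp only [mul_assoc]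
  rw [Finset.sum_congr rfl fun i _ => e i, ← Finset.sum_mul, ← Finset.mul_sum, ← hZ]
  exact CFC.conjugate_rpow_neg_one_half Z hZsp

end Full

end Step6

end Vale.Agent.P101
end

section

/-! Step 7: from leg data to the absorption data. -/

open scoped BigOperators

namespace Vale.Agent.P101

universe u v

/-- A sequence of pairwise commuting legs, each carrying `V, P, β, E`. -/
structure Tower (G : Type v) [Ring G] [StarRing G] where
  leg : ℕ → Set G
  star_mem : ∀ k x, x ∈ leg k → star x ∈ leg k
  comm : ∀ i j, i ≠ j → ∀ x ∈ leg i, ∀ y ∈ leg j, Commute x y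
  V : ℕ → G
  P : ℕ → G
  β : ℕ → G
  E : ℕ → G
  hV : ∀ k, V k ∈ leg k
  hP : ∀ k, P k ∈ leg k
  hβ : ∀ k, β k ∈ leg k
  hE : ∀ k, E k ∈ leg k
  β_sa : ∀ k, star (β k) = β k
  E_sa : ∀ k, star (E k) = E k
  VV : ∀ k, V k * V k = 0
  VP : ∀ k, V k * P k = -(P k * V k)
  VsP : ∀ k, star (V k) * P k = -(P k * star (V k))
  PsP : ∀ k, star (P k) * P k = β k * β k
  PPs : ∀ k, P k * star (P k) = β k * β k
  VsV : ∀ k, star (V k) * V k + V k * star (V k) = 1 - β k * β k
  βV : ∀ k, Commute (β k) (V k)
  βP : ∀ k, Commute (β k) (P k)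
  Eβ : ∀ k, E k * β k = 0
  EV : ∀ k, E k * V k = 0
  VE : ∀ k, star (V k) * V k * E k = E k
  PE : ∀ k, P k * E k = 0

namespace Tower

variable {G : Type v} [Ring G] [StarRing G] (T : Tower G)

/-- `Q k = P 0 * ... * P (k-1)` -/
def Q : ℕ → G
  | 0 => 1
  | k + 1 => Q k * T.P k

/-- `B k = β 0 * ... * β (k-1)` -/
def B : ℕ → G
  | 0 => 1
  | k + 1 => B k * T.β k

/-- `A k = ∑ i < k, Q i * V i` -/
def A : ℕ → G
  | 0 => 0
  | k + 1 => A k + T.Q k * T.V k

@[simp] theorem Q_zero : T.Q 0 = 1 := rfl
@[simp] theorem B_zero : T.B 0 = 1 := rfl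
@[simp] theorem A_zero : T.A 0 = 0 := rfl
theorem Q_succ (k : ℕ) : T.Q (k + 1) = T.Q k * T.P k := rfl
theorem B_succ (k : ℕ) : T.B (k + 1) = T.B k * T.β k := rfl
theorem A_succ (k : ℕ) : T.A (k + 1) = T.A k + T.Q k * T.V k := rfl

theorem commQ : ∀ k j, k ≤ j → ∀ y ∈ T.leg j, Commute (T.Q k) y
  | 0, _, _, y, _ => Commute.one_left y
  | k + 1, j, h, y, hy => (commQ k j (by omega) y hy).mul_left
      (T.comm k j (by omega) _ (T.hP k) y hy)

theorem commB : ∀ k j, k ≤ j → ∀ y ∈ T.leg j, Commute (T.B k) y
  | 0, _, _, y, _ => Commute.one_left y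
  | k + 1, j, h, y, hy => (commB k j (by omega) y hy).mul_left
      (T.comm k j (by omega) _ (T.hβ k) y hy)

theorem commA : ∀ k j, k ≤ j → ∀ y ∈ T.leg j, Commute (T.A k) y
  | 0, _, _, y, _ => Commute.zero_left y
  | k + 1, j, h, y, hy => (commA k j (by omega) y hy).add_left
      ((T.commQ k j (by omega) y hy).mul_left (T.comm k j (by omega) _ (T.hV k) y hy))

theorem commQs (k j : ℕ) (h : k ≤ j) (y : G) (hy : y ∈ T.leg j) : Commute (star (T.Q k)) y := by
  have := (T.commQ k j h _ (T.star_mem j y hy)).star_star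
  simpa only [star_star] using this

theorem commAs (k j : ℕ) (h : k ≤ j) (y : G) (hy : y ∈ T.leg j) : Commute (star (T.A k)) y := by
  have := (T.commA k j h _ (T.star_mem j y hy)).star_star
  simpa only [star_star] using this

theorem B_sa : ∀ k, star (T.B k) = T.B k
  | 0 => by simp
  | k + 1 => by
    rw [B_succ, star_mul, T.β_sa, B_sa k]
    exact (T.commB k k le_rfl _ (T.hβ k)).eq.symm

theorem QsQ : ∀ k, star (T.Q k) * T.Q k = T.B k * T.B k
  | 0 => by simp
  | k + 1 => by
    have h1 := T.commB k k le_rfl _ (T.star_mem k _ (T.hP k))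
    have h2 := T.commB k k le_rfl _ (T.hβ k)
    calc star (T.Q (k+1)) * T.Q (k+1) = star (T.P k) * (star (T.Q k) * T.Q k) * T.P k := by
          rw [Q_succ, star_mul]; noncomm_ring
      _ = (star (T.P k) * (T.B k * T.B k)) * T.P k := by rw [QsQ k]
      _ = ((T.B k * T.B k) * star (T.P k)) * T.P k := by rw [(h1.mul_left h1).eq]
      _ = T.B k * T.B k * (star (T.P k) * T.P k) := by rw [mul_assoc]
      _ = T.B k * (T.B k * T.β k) * T.β k := by rw [T.PsP]; noncomm_ring
      _ = T.B k * (T.β k * T.B k) * T.β k := by rw [h2.eq]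
      _ = _ := by rw [B_succ]; noncomm_ring

theorem QQs : ∀ k, T.Q k * star (T.Q k) = T.B k * T.B k
  | 0 => by simp
  | k + 1 => by
    have h1 := T.commQ k k le_rfl _ (T.hβ k)
    have h2 := T.commB k k le_rfl _ (T.hβ k)
    calc T.Q (k+1) * star (T.Q (k+1)) = T.Q k * (T.P k * star (T.P k)) * star (T.Q k) := by
          rw [Q_succ, star_mul]; noncomm_ring
      _ = (T.Q k * (T.β k * T.β k)) * star (T.Q k) := by rw [T.PPs k]
      _ = T.β k * T.β k * (T.Q k * star (T.Q k)) := by rw [(h1.mul_right h1).eq, mul_assoc]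
      _ = T.β k * (T.β k * T.B k) * T.B k := by rw [QQs k]; simp only [mul_assoc]
      _ = T.β k * (T.B k * T.β k) * T.B k := by rw [h2.eq]
      _ = (T.β k * T.B k) * (T.β k * T.B k) := by simp only [mul_assoc]
      _ = _ := by rw [B_succ, h2.eq]

theorem BV (k i : ℕ) : Commute (T.B k) (T.V i) := by
  induction k with
  | zero => exact Commute.one_left _
  | succ k ih =>
    rw [B_succ]
    refine ih.mul_left ?_
    by_cases h : k = i
    · subst h; exact T.βV k
    · exact T.comm k i h _ (T.hβ k) _ (T.hV i)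

theorem BP (k i : ℕ) : Commute (T.B k) (T.P i) := by
  induction k with
  | zero => exact Commute.one_left _
  | succ k ih =>
    rw [B_succ]
    refine ih.mul_left ?_
    by_cases h : k = i
    · subst h; exact T.βP k
    · exact T.comm k i h _ (T.hβ k) _ (T.hP i)

theorem βV' (k i : ℕ) : Commute (T.β k) (T.V i) := by
  by_cases h : k = i
  · subst h; exact T.βV k
  · exact T.comm k i h _ (T.hβ k) _ (T.hV i)

theorem βP' (k i : ℕ) : Commute (T.β k) (T.P i) := by
  by_cases h : k = i
  · subst h; exact T.βP k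
  · exact T.comm k i h _ (T.hβ k) _ (T.hP i)

theorem commute_Q_of {x : G} (h : ∀ i, Commute x (T.P i)) (k : ℕ) : Commute x (T.Q k) := by
  induction k with
  | zero => exact Commute.one_right _
  | succ k ih => exact ih.mul_right (h k)

theorem commute_A_of {x : G} (hP : ∀ i, Commute x (T.P i)) (hV : ∀ i, Commute x (T.V i)) (k : ℕ) :
    Commute x (T.A k) := by
  induction k with
  | zero => exact Commute.zero_right _
  | succ k ih => exact ih.add_right ((T.commute_Q_of hP k).mul_right (hV k))

theorem BA (k i : ℕ) : Commute (T.B k) (T.A i) := T.commute_A_of (T.BP k) (T.BV k) i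

theorem BAs (k i : ℕ) : Commute (T.B k) (star (T.A i)) := by
  have := (T.BA k i).star_star
  rwa [B_sa] at this

theorem βA (k i : ℕ) : Commute (T.β k) (T.A i) := T.commute_A_of (T.βP' k) (T.βV' k) i

theorem βAs (k i : ℕ) : Commute (T.β k) (star (T.A i)) := by
  have := (T.βA k i).star_star
  rwa [β_sa] at this

theorem AQ : ∀ k, T.A k * T.Q k = -(T.Q k * T.A k)
  | 0 => by simp
  | k + 1 => by
    have c1 := (T.commA k k le_rfl _ (T.hP k)).eq
    have c2 := (T.commQ k k le_rfl _ (T.hV k)).eq
    have c3 := (T.commQ k k le_rfl _ (T.hP k)).eq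
    have e1 : T.A k * (T.Q k * T.P k) = -(T.Q k * T.P k * T.A k) := by
      rw [← mul_assoc, AQ k, neg_mul, mul_assoc, c1, mul_assoc]
    have e2 : T.Q k * T.V k * (T.Q k * T.P k) = -(T.Q k * T.P k * (T.Q k * T.V k)) := by
      calc T.Q k * T.V k * (T.Q k * T.P k) = T.Q k * (T.V k * T.Q k) * T.P k := by noncomm_ring
        _ = T.Q k * (T.Q k * T.V k) * T.P k := by rw [c2]
        _ = T.Q k * T.Q k * (T.V k * T.P k) := by noncomm_ring
        _ = -(T.Q k * (T.Q k * T.P k) * T.V k) := by rw [T.VP k]; noncomm_ring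
        _ = -(T.Q k * (T.P k * T.Q k) * T.V k) := by rw [c3]
        _ = -(T.Q k * T.P k * (T.Q k * T.V k)) := by noncomm_ring
    rw [A_succ, Q_succ, add_mul, mul_add, e1, e2]
    abel

theorem AsQ : ∀ k, star (T.A k) * T.Q k = -(T.Q k * star (T.A k))
  | 0 => by simp only [A_zero, star_zero, Q_zero, mul_one, mul_zero, neg_zero]
  | k + 1 => by
    have c1 := (T.commAs k k le_rfl _ (T.hP k)).eq
    have c2 := (T.commQ k k le_rfl _ (T.star_mem k _ (T.hV k))).eq
    have c3 := (T.commQ k k le_rfl _ (T.hP k)).eq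
    have c4 := (T.commQs k k le_rfl _ (T.hP k)).eq
    have e1 : star (T.A k) * (T.Q k * T.P k) = -(T.Q k * T.P k * star (T.A k)) := by
      rw [← mul_assoc, AsQ k, neg_mul, mul_assoc, c1, mul_assoc]
    have e2 : star (T.Q k * T.V k) * (T.Q k * T.P k) = -(T.Q k * T.P k * star (T.Q k * T.V k)) := by
      have c5 : T.Q k * star (T.Q k) = star (T.Q k) * T.Q k := by rw [QsQ, QQs]
      have c6 := (T.commQs k k le_rfl _ (T.star_mem k _ (T.hV k))).eq
      calc star (T.Q k * T.V k) * (T.Q k * T.P k)
          = star (T.V k) * (star (T.Q k) * T.Q k) * T.P k := by rw [star_mul]; noncomm_ring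
        _ = (star (T.V k) * T.Q k) * (star (T.Q k) * T.P k) := by rw [← c5]; noncomm_ring
        _ = (T.Q k * star (T.V k)) * (T.P k * star (T.Q k)) := by rw [c2, c4]
        _ = T.Q k * (star (T.V k) * T.P k) * star (T.Q k) := by noncomm_ring
        _ = -(T.Q k * T.P k * (star (T.V k) * star (T.Q k))) := by rw [T.VsP k]; noncomm_ring
        _ = _ := by rw [star_mul]
    rw [A_succ, Q_succ, star_add, add_mul, mul_add, e1, e2]
    abel

theorem AA : ∀ k, T.A k * T.A k = 0
  | 0 => by simp
  | k + 1 => by
    have c1 := (T.commA k k le_rfl _ (T.hV k)).eq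
    have c2 := (T.commQ k k le_rfl _ (T.hV k)).eq
    have e1 : T.A k * (T.Q k * T.V k) + T.Q k * T.V k * T.A k = 0 := by
      rw [← mul_assoc, T.AQ k, mul_assoc (T.Q k) (T.V k), ← c1]
      noncomm_ring
    have e2 : T.Q k * T.V k * (T.Q k * T.V k) = 0 := by
      calc T.Q k * T.V k * (T.Q k * T.V k) = T.Q k * (T.V k * T.Q k) * T.V k := by noncomm_ring
        _ = T.Q k * (T.Q k * T.V k) * T.V k := by rw [c2]
        _ = T.Q k * T.Q k * (T.V k * T.V k) := by noncomm_ring
        _ = 0 := by rw [T.VV, mul_zero]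
    rw [A_succ, add_mul, mul_add, mul_add, AA k, e2, zero_add, add_zero, e1]

theorem AsA_add : ∀ k, star (T.A k) * T.A k + T.A k * star (T.A k) = 1 - T.B k * T.B k
  | 0 => by simp
  | k + 1 => by
    have cA := (T.commAs k k le_rfl _ (T.hV k)).eq
    have cA' := (T.commA k k le_rfl _ (T.star_mem k _ (T.hV k))).eq
    have cB := (T.commB k k le_rfl _ (T.star_mem k _ (T.hV k))).eq
    have cB' := (T.commB k k le_rfl _ (T.hβ k)).eq
    have cQ := (T.commQ k k le_rfl _ (T.hV k)).eq
    have cQs := (T.commQs k k le_rfl _ (T.star_mem k _ (T.hV k))).eq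
    have cBV := (T.BV k k).eq
    -- cross terms
    have x1 : star (T.A k) * (T.Q k * T.V k) + T.Q k * T.V k * star (T.A k) = 0 := by
      rw [← mul_assoc, T.AsQ k, mul_assoc (T.Q k) (T.V k), ← cA]
      noncomm_ring
    have x2 : star (T.Q k * T.V k) * T.A k + T.A k * star (T.Q k * T.V k) = 0 := by
      have := congrArg star x1
      simpa only [star_mul, star_add, star_star, star_zero] using this
    -- diagonal terms
    have d1 : star (T.Q k * T.V k) * (T.Q k * T.V k)
        = T.B k * T.B k * (star (T.V k) * T.V k) := by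
      calc star (T.Q k * T.V k) * (T.Q k * T.V k)
          = star (T.V k) * (star (T.Q k) * T.Q k) * T.V k := by rw [star_mul]; noncomm_ring
        _ = (star (T.V k) * T.B k) * T.B k * T.V k := by rw [T.QsQ]; noncomm_ring
        _ = (T.B k * star (T.V k)) * T.B k * T.V k := by rw [cB]
        _ = T.B k * (star (T.V k) * T.B k) * T.V k := by noncomm_ring
        _ = T.B k * (T.B k * star (T.V k)) * T.V k := by rw [cB]
        _ = _ := by noncomm_ring
    have d2 : (T.Q k * T.V k) * star (T.Q k * T.V k)
        = T.B k * T.B k * (T.V k * star (T.V k)) := by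
      calc (T.Q k * T.V k) * star (T.Q k * T.V k)
          = (T.Q k * T.V k) * (star (T.V k) * star (T.Q k)) := by rw [star_mul]
        _ = (T.V k * T.Q k) * (star (T.Q k) * star (T.V k)) := by rw [cQ, cQs]
        _ = T.V k * (T.Q k * star (T.Q k)) * star (T.V k) := by noncomm_ring
        _ = (T.V k * T.B k) * T.B k * star (T.V k) := by rw [T.QQs]; noncomm_ring
        _ = (T.B k * T.V k) * T.B k * star (T.V k) := by rw [cBV]
        _ = T.B k * (T.V k * T.B k) * star (T.V k) := by noncomm_ring
        _ = T.B k * (T.B k * T.V k) * star (T.V k) := by rw [cBV]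
        _ = _ := by noncomm_ring
    calc star (T.A (k+1)) * T.A (k+1) + T.A (k+1) * star (T.A (k+1))
        = (star (T.A k) * T.A k + T.A k * star (T.A k))
          + (star (T.A k) * (T.Q k * T.V k) + T.Q k * T.V k * star (T.A k))
          + (star (T.Q k * T.V k) * T.A k + T.A k * star (T.Q k * T.V k))
          + (star (T.Q k * T.V k) * (T.Q k * T.V k) + (T.Q k * T.V k) * star (T.Q k * T.V k)) := by
          rw [A_succ, star_add]; noncomm_ring
      _ = (1 - T.B k * T.B k) + T.B k * T.B k * (star (T.V k) * T.V k + T.V k * star (T.V k)) := by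
          rw [AsA_add k, x1, x2, d1, d2]; noncomm_ring
      _ = (1 - T.B k * T.B k) + T.B k * T.B k * (1 - T.β k * T.β k) := by rw [T.VsV]
      _ = 1 - T.B k * (T.B k * T.β k) * T.β k := by noncomm_ring
      _ = 1 - T.B k * (T.β k * T.B k) * T.β k := by rw [cB']
      _ = 1 - T.B (k+1) * T.B (k+1) := by rw [B_succ]; noncomm_ring

theorem QE (k j : ℕ) (h : k < j) : T.Q j * T.E k = 0 := by
  induction j, h using Nat.le_induction with
  | base => rw [Q_succ, mul_assoc, T.PE, mul_zero]
  | succ j hj ih =>
    rw [Q_succ, mul_assoc, (T.comm j k (by omega) _ (T.hP j) _ (T.hE k)).eq, ← mul_assoc, ih,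
      zero_mul]

theorem AE (k j : ℕ) (h : k < j) : T.A j * T.E k = T.A k * T.E k + T.Q k * T.V k * T.E k := by
  induction j, h using Nat.le_induction with
  | base => rw [A_succ, add_mul]
  | succ j hj ih =>
    rw [A_succ, add_mul, ih, mul_assoc (T.Q j), (T.comm j k (by omega) _ (T.hV j) _ (T.hE k)).eq,
      ← mul_assoc, T.QE k j hj, zero_mul, add_zero]

theorem exists_B (k n : ℕ) (h : k < n) : ∃ R, T.B n = R * T.β k := by
  induction n, h using Nat.le_induction with
  | base => exact ⟨T.B k, rfl⟩
  | succ n hn ih =>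
    obtain ⟨R, hR⟩ := ih
    exact ⟨R * T.β n, by rw [B_succ, hR, mul_assoc,
      (T.comm k n (by omega) _ (T.hβ k) _ (T.hβ n)).eq, mul_assoc]⟩

theorem B_anti [PartialOrder G] [StarOrderedRing G] (k n : ℕ) (h : k ≤ n) :
    T.B n * T.B n ≤ T.B k * T.B k := by
  induction n, h using Nat.le_induction with
  | base => exact le_rfl
  | succ n hn ih =>
    refine le_trans ?_ ih
    rw [← sub_nonneg]
    have e : T.B n * T.B n - T.B (n + 1) * T.B (n + 1)
        = star (T.B n) * (star (T.V n) * T.V n + T.V n * star (T.V n)) * T.B n := by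
      have cB := (T.commB n n le_rfl _ (T.hβ n)).eq
      rw [T.VsV, B_sa, B_succ]
      calc T.B n * T.B n - T.B n * T.β n * (T.B n * T.β n)
          = T.B n * T.B n - T.B n * T.β n * (T.β n * T.B n) := by rw [cB]
        _ = _ := by noncomm_ring
    rw [e]
    exact star_left_conjugate_nonneg
      (add_nonneg (star_mul_self_nonneg _) (mul_star_self_nonneg _)) _

/-- Data on top of a tower: the extra legs. -/
structure Extra (T : Tower G) (N n : ℕ) where
  d : ℕ → Fin N → G
  d_mem : ∀ k r, d k r ∈ T.leg k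
  d_sum : ∀ k, k < n → ∑ r, star (d k r) * (T.E k * T.E k) * d k r = 1
  ex : Set G
  ex_star : ∀ x ∈ ex, star x ∈ ex
  ex_comm : ∀ x ∈ ex, ∀ k, ∀ y ∈ T.leg k, Commute x y
  m : Fin N → G
  h : Fin n → G
  τ : G
  hm : ∀ r, m r ∈ ex
  hh : ∀ κ, h κ ∈ ex
  hτ : τ ∈ ex
  mm : ∀ r, star (m r) * m r = star τ * τ
  mm' : ∀ r r', r ≠ r' → star (m r) * m r' = 0
  h_sum : ∑ κ, star (h κ) * (star τ * τ) * h κ = 1

variable {T} {N n : ℕ} (X : Extra T N n)

/-- the summands of `S` -/
def Extra.Z (κ : Fin n) (r : Fin N) : G := T.E κ * X.d κ r * T.B n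

/-- the element `S` -/
def Extra.S : G := ∑ κ, ∑ r, X.m r * X.h κ * X.Z κ r

theorem commute_B_of {x : G} (h : ∀ k, Commute x (T.β k)) (j : ℕ) : Commute x (T.B j) := by
  induction j with
  | zero => exact Commute.one_right _
  | succ k ih => exact ih.mul_right (h k)

theorem Extra.commB {x : G} (hx : x ∈ X.ex) (k : ℕ) : Commute x (T.B k) :=
  commute_B_of (fun k => X.ex_comm x hx k _ (T.hβ k)) k

theorem Extra.commZ {x : G} (hx : x ∈ X.ex) (κ : Fin n) (r : Fin N) : Commute x (X.Z κ r) :=
  ((X.ex_comm x hx κ _ (T.hE κ)).mul_right (X.ex_comm x hx κ _ (X.d_mem κ r))).mul_right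
    (X.commB hx n)

theorem βE (k : ℕ) : T.β k * T.E k = 0 := by
  have := congrArg star (T.Eβ k)
  simpa only [star_mul, T.β_sa, T.E_sa, star_zero] using this

theorem Extra.star_Z (κ : Fin n) (r : Fin N) :
    star (X.Z κ r) = T.B n * star (X.d κ r) * T.E κ := by
  rw [Extra.Z, star_mul, star_mul, T.B_sa, T.E_sa]; noncomm_ring

theorem Extra.Z_off {Y : G} (hβ : ∀ k, Commute (T.β k) Y) (κ κ' : Fin n) (hne : κ ≠ κ')
    (r r' : Fin N) : star (X.Z κ r) * Y * X.Z κ' r' = 0 := by
  have hne' : (κ' : ℕ) ≠ (κ : ℕ) := fun h => hne (Fin.ext h.symm)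
  obtain ⟨R, hR⟩ := T.exists_B κ' n κ'.2
  have c1 := (T.comm κ' κ hne' _ (T.hβ κ') _ (T.star_mem κ _ (X.d_mem κ r)))
  have c2 := (T.comm κ' κ hne' _ (T.hβ κ') _ (T.hE κ))
  have c3 : Commute (T.β κ') (star (X.d κ r) * T.E κ * Y) := (c1.mul_right c2).mul_right (hβ κ')
  calc star (X.Z κ r) * Y * X.Z κ' r'
      = R * (T.β κ' * (star (X.d κ r) * T.E κ * Y)) * T.E κ' * (X.d κ' r' * T.B n) := by
        rw [X.star_Z, Extra.Z]; nth_rewrite 1 [hR]; simp only [mul_assoc]
    _ = R * (star (X.d κ r) * T.E κ * Y) * (T.β κ' * T.E κ') * (X.d κ' r' * T.B n) := by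
        rw [c3.eq]; simp only [mul_assoc]
    _ = 0 := by rw [βE]; simp only [mul_zero, zero_mul]

theorem Extra.term {Y : G} (hY : ∀ x ∈ X.ex, Commute x Y) (κ κ' : Fin n) (r r' : Fin N) :
    star (X.m r * X.h κ * X.Z κ r) * Y * (X.m r' * X.h κ' * X.Z κ' r')
      = (star (X.h κ) * (star (X.m r) * X.m r') * X.h κ') * (star (X.Z κ r) * Y * X.Z κ' r') := by
  have c1 : Commute (X.m r' * X.h κ') Y := (hY _ (X.hm r')).mul_left (hY _ (X.hh κ'))
  have c2 : ∀ x ∈ X.ex, Commute x (star (X.Z κ r)) := fun x hx => by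
    have := (X.commZ (X.ex_star x hx) κ r).star_star
    simpa only [star_star] using this
  have c3 : Commute (star (X.h κ) * (star (X.m r) * X.m r') * X.h κ') (star (X.Z κ r)) :=
    (((c2 _ (X.ex_star _ (X.hh κ))).mul_left ((c2 _ (X.ex_star _ (X.hm r))).mul_left
      (c2 _ (X.hm r')))).mul_left (c2 _ (X.hh κ')))
  calc star (X.m r * X.h κ * X.Z κ r) * Y * (X.m r' * X.h κ' * X.Z κ' r')
      = star (X.Z κ r) * (star (X.h κ) * star (X.m r)) * (Y * (X.m r' * X.h κ')) * X.Z κ' r' := by
        rw [star_mul, star_mul]; simp only [mul_assoc]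
    _ = (star (X.Z κ r) * (star (X.h κ) * (star (X.m r) * X.m r') * X.h κ')) * Y * X.Z κ' r' := by
        rw [← c1.eq]; simp only [mul_assoc]
    _ = _ := by rw [← c3.eq]; simp only [mul_assoc]

theorem Extra.SYS {Y : G} (hY : ∀ x ∈ X.ex, Commute x Y) (hβ : ∀ k, Commute (T.β k) Y) :
    star X.S * Y * X.S = ∑ κ, (star (X.h κ) * (star X.τ * X.τ) * X.h κ) *
      (T.B n * (∑ r, star (X.d κ r) * (T.E κ * Y * T.E κ) * X.d κ r) * T.B n) := by
  have e1 : star X.S * Y * X.S = ∑ κ, ∑ r, ∑ κ', ∑ r',
      star (X.m r * X.h κ * X.Z κ r) * Y * (X.m r' * X.h κ' * X.Z κ' r') := by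
    rw [Extra.S, star_sum, Finset.sum_mul, Finset.sum_mul]
    refine Finset.sum_congr rfl fun κ _ => ?_
    rw [star_sum, Finset.sum_mul, Finset.sum_mul]
    refine Finset.sum_congr rfl fun r _ => ?_
    rw [Finset.mul_sum]
    refine Finset.sum_congr rfl fun κ' _ => ?_
    rw [Finset.mul_sum]
  rw [e1]
  refine Finset.sum_congr rfl fun κ _ => ?_
  have e2 : ∀ r : Fin N, ∑ κ', ∑ r',
      star (X.m r * X.h κ * X.Z κ r) * Y * (X.m r' * X.h κ' * X.Z κ' r')
      = (star (X.h κ) * (star X.τ * X.τ) * X.h κ) * (star (X.Z κ r) * Y * X.Z κ r) := by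
    intro r
    rw [Finset.sum_eq_single κ, Finset.sum_eq_single r]
    · rw [X.term hY, X.mm]
    · intro r' _ hr'
      rw [X.term hY, X.mm' r r' (Ne.symm hr')]; simp only [mul_zero, zero_mul]
    · intro h; exact absurd (Finset.mem_univ _) h
    · intro κ' _ hκ'
      refine Finset.sum_eq_zero fun r' _ => ?_
      rw [X.term hY, X.Z_off hβ κ κ' (Ne.symm hκ'), mul_zero]
    · intro h; exact absurd (Finset.mem_univ _) h
  rw [Finset.sum_congr rfl fun r _ => e2 r, ← Finset.mul_sum]
  congr 1
  rw [Finset.mul_sum, Finset.sum_mul]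
  refine Finset.sum_congr rfl fun r _ => ?_
  rw [X.star_Z, Extra.Z]; simp only [mul_assoc]

theorem Extra.bS : T.B n * X.S = 0 := by
  rw [Extra.S, Finset.mul_sum]
  refine Finset.sum_eq_zero fun κ _ => ?_
  rw [Finset.mul_sum]
  refine Finset.sum_eq_zero fun r _ => ?_
  obtain ⟨R, hR⟩ := T.exists_B κ n κ.2
  have c := ((X.commB (X.hm r) n).mul_left (X.commB (X.hh κ) n)).eq
  rw [← mul_assoc, ← c, mul_assoc, Extra.Z, ← mul_assoc (T.B n), ← mul_assoc (T.B n)]
  have : T.B n * T.E κ = 0 := by rw [hR, mul_assoc, βE, mul_zero]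
  rw [this]; simp

end Tower

section Final

variable {F : Type u} {G : Type v} [CStarAlgebra F] [CStarAlgebra G]

theorem LegData.PE (D : LegData F) : D.P * D.E = 0 := by
  have : star (D.P * D.E) * (D.P * D.E) = 0 := by
    calc star (D.P * D.E) * (D.P * D.E) = D.E * (star D.P * D.P) * D.E := by
          rw [star_mul, D.E_sa]; noncomm_ring
      _ = (D.E * D.β) * D.β * D.E := by rw [D.PsP]; noncomm_ring
      _ = 0 := by rw [D.Eβ]; simp
  exact (CStarRing.star_mul_self_eq_zero_iff _).1 this

/-- The tower of the absorbing legs. -/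
noncomputable def towerOf (D : LegData F) {n : ℕ} (σ : Fin n → F →⋆ₐ[ℂ] G)
    (hσ : ∀ i j, i ≠ j → ∀ x y, Commute (σ i x) (σ j y)) : Tower G where
  leg k := if h : k < n then Set.range (σ ⟨k, h⟩) else {0, 1}
  star_mem k x hx := by
    by_cases h : k < n
    · simp only [h, dif_pos] at hx ⊢
      obtain ⟨y, rfl⟩ := hx
      exact ⟨star y, map_star _ _⟩
    · simp only [h, dif_neg, not_false_eq_true] at hx ⊢
      rcases hx with rfl | rfl <;> simp
  comm i j hij x hx y hy := by
    by_cases hi : i < n
    · by_cases hj : j < n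
      · simp only [hi, hj, dif_pos] at hx hy
        obtain ⟨x, rfl⟩ := hx
        obtain ⟨y, rfl⟩ := hy
        exact hσ _ _ (fun h => hij (by simpa using h)) x y
      · simp only [hj, dif_neg, not_false_eq_true] at hy
        rcases hy with rfl | rfl
        · exact Commute.zero_right _
        · exact Commute.one_right _
    · simp only [hi, dif_neg, not_false_eq_true] at hx
      rcases hx with rfl | rfl
      · exact Commute.zero_left _
      · exact Commute.one_left _
  V k := if h : k < n then σ ⟨k, h⟩ D.V else 0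
  P k := if h : k < n then σ ⟨k, h⟩ D.P else 1
  β k := if h : k < n then σ ⟨k, h⟩ D.β else 1
  E k := if h : k < n then σ ⟨k, h⟩ D.E else 0
  hV k := by by_cases h : k < n <;> simp [h]
  hP k := by by_cases h : k < n <;> simp [h]
  hβ k := by by_cases h : k < n <;> simp [h]
  hE k := by by_cases h : k < n <;> simp [h]
  β_sa k := by by_cases h : k < n <;> simp [h, ← map_star, D.β_sa]
  E_sa k := by by_cases h : k < n <;> simp [h, ← map_star, D.E_sa]
  VV k := by by_cases h : k < n <;> simp [h, ← map_mul, D.VV]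
  VP k := by by_cases h : k < n <;> simp [h, ← map_mul, D.VP]
  VsP k := by by_cases h : k < n <;> simp [h, ← map_star, ← map_mul, D.VsP]
  PsP k := by by_cases h : k < n <;> simp [h, ← map_star, ← map_mul, D.PsP]
  PPs k := by by_cases h : k < n <;> simp [h, ← map_star, ← map_mul, D.PPs]
  VsV k := by
    by_cases h : k < n
    · simp only [h, dif_pos, ← map_star, ← map_mul, ← map_add, D.VsV, map_sub, map_one]
    · simp [h]
  βV k := by
    by_cases h : k < n
    · simp only [h, dif_pos]; exact D.βV.map (σ ⟨k, h⟩)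
    · simp [h]
  βP k := by
    by_cases h : k < n
    · simp only [h, dif_pos]; exact D.βP.map (σ ⟨k, h⟩)
    · simp [h]
  Eβ k := by by_cases h : k < n <;> simp [h, ← map_mul, D.Eβ]
  EV k := by by_cases h : k < n <;> simp [h, ← map_mul, D.EV]
  VE k := by by_cases h : k < n <;> simp [h, ← map_star, ← map_mul, D.VE]
  PE k := by by_cases h : k < n <;> simp [h, ← map_mul, D.PE]

theorem exists_extra (D : LegData F) {n : ℕ} (σ : Fin n → F →⋆ₐ[ℂ] G)
    (hσ : ∀ i j, i ≠ j → ∀ x y, Commute (σ i x) (σ j y)) (K : Legs (Fin D.N) F G)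
    (hn : n = D.N ^ D.N) (hK : ∀ i j x y, Commute (σ i x) (K.σ j y)) :
    ∃ X : Tower.Extra (towerOf D σ hσ) D.N n,
      ∀ x ∈ X.ex, ∀ k, ∀ y ∈ (towerOf D σ hσ).leg k, Commute x y := by
  classical
  subst hn
  let n := D.N ^ D.N
  let T := towerOf D σ hσ
  have hKcomm : ∀ z k y, y ∈ T.leg k → Commute (K.prodHom z) y := by
    intro z k y hy
    by_cases h : k < n
    · have hy' : y ∈ Set.range (σ ⟨k, h⟩) := by
        simpa [T, towerOf, h, n] using hy
      obtain ⟨x, rfl⟩ := hy'
      refine Commute.symm ?_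
      unfold Legs.prodHom
      exact MonoidHom.commute_noncommPiCoprod _
        (fun i x' => hK ⟨k, h⟩ i x x') _
    · have hy' : y ∈ ({0, 1} : Set G) := by
        have h' : ¬ k < D.N ^ D.N := h
        simpa [T, towerOf, h'] using hy
      rcases hy' with rfl | rfl
      · exact Commute.zero_right _
      · exact Commute.one_right _
  let X : Tower.Extra T D.N n :=
    { d := fun k r => if h : k < D.N ^ D.N then σ ⟨k, h⟩ (D.d r) else 0
      d_mem := fun k r => by
        by_cases h : k < D.N ^ D.N <;> simp [T, towerOf, h]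
      d_sum := fun k hk => by
        have hk' : k < D.N ^ D.N := hk
        have := congrArg (σ ⟨k, hk⟩) D.full
        simpa only [hk', ↓reduceDIte, towerOf, map_sum, map_mul, map_star, map_one, T] using this
      ex := Set.range K.prodHom
      ex_star := by
        rintro _ ⟨z, rfl⟩
        exact ⟨star z, (K.star_prodHom z).symm⟩
      ex_comm := by
        rintro _ ⟨z, rfl⟩ k y hy
        exact hKcomm z k y hy
      m := fun r => K.prodHom fun j => if (r : ℕ).testBit j then D.V * D.E else D.E
      h := fun κ => K.prodHom fun j => D.d (finFunctionFinEquiv.symm κ j)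
      τ := K.prodHom fun _ => D.E
      hm := fun r => ⟨_, rfl⟩
      hh := fun κ => ⟨_, rfl⟩
      hτ := ⟨_, rfl⟩
      mm := fun r => by
        rw [K.star_prodHom, K.star_prodHom, ← map_mul, ← map_mul]
        congr 1
        funext j
        by_cases hb : (r : ℕ).testBit j
        · simp only [Pi.mul_apply, Pi.star_apply, hb, if_true, star_mul, D.E_sa]
          rw [mul_assoc, ← mul_assoc (star D.V), D.VE]
        · simp only [Pi.mul_apply, Pi.star_apply, hb, Bool.false_eq_true, ↓reduceIte]
      mm' := fun r r' hr => by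
        have : ∃ j : Fin D.N, (r : ℕ).testBit j ≠ (r' : ℕ).testBit j := by
          by_contra hcon
          push Not at hcon
          refine hr (Fin.ext (Nat.eq_of_testBit_eq fun i => ?_))
          by_cases hi : i < D.N
          · exact hcon ⟨i, hi⟩
          · have h1 : ∀ x : Fin D.N, (x : ℕ).testBit i = false := fun x =>
              Nat.testBit_lt_two_pow (lt_of_lt_of_le (lt_of_lt_of_le x.2 (by omega))
                Nat.lt_two_pow_self.le)
            rw [h1, h1]
        obtain ⟨j, hj⟩ := this
        rw [K.star_prodHom, ← map_mul]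
        refine K.prodHom_eq_zero _ j ?_
        have hEVs : star D.V * D.E = 0 := by
          have := congrArg star D.EV
          simpa only [star_mul, D.E_sa, star_zero] using this
        cases h1 : (r : ℕ).testBit j <;> cases h2 : (r' : ℕ).testBit j
        · exact absurd (h1.trans h2.symm) hj
        · simp only [Pi.mul_apply, Pi.star_apply, h1, h2, if_true]
          simp only [Bool.false_eq_true, if_false, D.E_sa]
          rw [← mul_assoc, D.EV, zero_mul]
        · simp only [Pi.mul_apply, Pi.star_apply, h1, h2, if_true, star_mul, D.E_sa]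
          simp only [Bool.false_eq_true, if_false]
          rw [mul_assoc, hEVs, mul_zero]
        · exact absurd (h1.trans h2.symm) hj
      h_sum := by
        have e1 : ∀ κ : Fin n, star (K.prodHom fun j => D.d (finFunctionFinEquiv.symm κ j)) *
            (star (K.prodHom fun _ => D.E) * K.prodHom fun _ => D.E) *
            (K.prodHom fun j => D.d (finFunctionFinEquiv.symm κ j))
            = K.prodHom (fun j => star (D.d (finFunctionFinEquiv.symm κ j)) * (D.E * D.E) *
              D.d (finFunctionFinEquiv.symm κ j)) := by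
          intro κ
          rw [K.star_prodHom, K.star_prodHom, ← map_mul, ← map_mul, ← map_mul]
          congr 1
          funext j
          simp only [Pi.mul_apply, Pi.star_apply, D.E_sa]
        rw [Finset.sum_congr rfl fun κ _ => e1 κ]
        rw [Fintype.sum_equiv (finFunctionFinEquiv.symm)
          (fun κ : Fin n => K.prodHom (fun j => star (D.d (finFunctionFinEquiv.symm κ j)) *
            (D.E * D.E) * D.d (finFunctionFinEquiv.symm κ j)))
          (fun f : Fin D.N → Fin D.N => K.prodHom (fun j => star (D.d (f j)) *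
            (D.E * D.E) * D.d (f j))) (fun κ => rfl)]
        rw [← K.prodHom_sum (fun _ r => star (D.d r) * (D.E * D.E) * D.d r), D.full]
        exact map_one _ }
  exact ⟨X, fun x hx => X.ex_comm x hx⟩

end Final

end Vale.Agent.P101
end

section

/-! Step 6, general version: `l` commuting modes. -/

open scoped BigOperators

namespace Vale.Agent.P101

universe u v

namespace Step6

/-- the data of one leg and one mode, before taking commuting copies. -/
structure Leg0Data (F : Type u) [CStarAlgebra F] where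
  V : F
  J : F
  α : F
  E : F
  N : ℕ
  d : Fin N → F
  α_sa : star α = α
  E_sa : star E = E
  α_norm : ‖α‖ ≤ 1
  VV : V * V = 0
  JV : J * V = -V
  VJ : V * J = V
  JVs : J * star V = star V
  VsJ : star V * J = -star V
  JsJ : star J * J = 1
  JJs : J * star J = 1
  VsV : star V * V + V * star V = α * α
  αV : Commute α V
  αJ : Commute α J
  Eα : E * α = E
  EV : E * V = 0
  VE : star V * V * E = E
  full : ∑ r, star (d r) * (E * E) * d r = 1

theorem ae1 {δ : ℝ} (hδ : 0 < δ) (t : ℝ) : al δ t * ef δ t = ef δ t := by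
  rcases le_total t δ with h | h
  · unfold ef; rw [max_eq_left (by linarith only [h])]; ring
  · rw [al_eq_one hδ h]; ring

end Step6

open Step6 in
theorem exists_leg0 {F : Type u} [CStarAlgebra F] (X : F) (hX : X * X = 0) (hf : Full {X}) :
    Nonempty (Leg0Data F) := by
  let _ : PartialOrder F := CStarAlgebra.spectralOrder F
  have _ : StarOrderedRing F := CStarAlgebra.spectralOrderedRing F
  obtain ⟨δ, N, d, hδ, hd⟩ := exists_d X hf
  have hkc := kf_cont hδ
  have hhc := hf_cont (δ := δ)
  have hcc := cf_cont (δ := δ)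
  have hsc := sf_cont (δ := δ)
  have hec := ef_cont (δ := δ)
  have hec1 := ef1_cont hδ
  have hac := al_cont (δ := δ)
  set a := star X * X with ha
  set a' := X * star X with ha'
  set c := a + a' with hc
  have hXs : star X * star X = 0 := by rw [← star_mul, hX, star_zero]
  have a_sa : IsSelfAdjoint a := IsSelfAdjoint.star_mul_self X
  have a'_sa : IsSelfAdjoint a' := IsSelfAdjoint.mul_star_self X
  have c_sa : IsSelfAdjoint c := a_sa.add a'_sa
  have aX : a * X = 0 := by rw [ha, mul_assoc, hX, mul_zero]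
  have Xa' : X * a' = 0 := by rw [ha', ← mul_assoc, hX, zero_mul]
  have aa' : a * a' = 0 := by rw [ha', ← mul_assoc, aX, zero_mul]
  have a'a : a' * a = 0 := by rw [ha, ha', mul_assoc, ← mul_assoc (star X), hXs]; simp
  have cX : c * X = a' * X := by rw [hc, add_mul, aX, zero_add]
  have Xc : X * c = X * a := by rw [hc, mul_add, Xa', add_zero]
  have hcomm : Commute c X := by
    show c * X = X * c
    rw [cX, Xc, ha, ha', mul_assoc]
  have hcommS : Commute c (star X) := by
    have := hcomm.star_star
    rwa [c_sa.star_eq] at this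
  have hca' : Commute c a' := by rw [ha']; exact hcomm.mul_right hcommS
  have hcomm_a : Commute c a := by rw [ha]; exact hcommS.mul_right hcomm
  -- the elements
  set k := cfc (kf δ) c with hk
  set α := cfc (al δ) c with hα
  set C := cfc (cf δ) a' with hC
  set S := cfc (sf δ) a' with hS
  set E := cfc (ef δ) a with hE
  have ksa : star k = k := star_cfc_real _ _
  have αsa : star α = α := star_cfc_real _ _
  have Csa : star C = C := star_cfc_real _ _
  have Ssa : star S = S := star_cfc_real _ _
  have Esa : star E = E := star_cfc_real _ _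
  have kX : Commute k X := hcomm.cfc_real _
  have kXs : Commute k (star X) := hcommS.cfc_real _
  have αX : Commute α X := hcomm.cfc_real _
  have kα : Commute k α := cfc_commute_cfc _ _ c
  have ka' : Commute k a' := hca'.cfc_real _
  have αa' : Commute α a' := hca'.cfc_real _
  have kC : Commute k C := (ka'.symm.cfc_real _).symm
  have kS : Commute k S := (ka'.symm.cfc_real _).symm
  have αC : Commute α C := (αa'.symm.cfc_real _).symm
  have αS : Commute α S := (αa'.symm.cfc_real _).symm
  have CS : Commute C S := cfc_commute_cfc _ _ a'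
  -- relations with `X`
  have XC : X * C = X := by
    rw [hC, mul_cfc_of_mul_eq_zero a' X a'_sa Xa' _ hcc, cf_zero, one_smul]
  have XS : X * S = 0 := by
    rw [hS, mul_cfc_of_mul_eq_zero a' X a'_sa Xa' _ hsc, sf_zero, zero_smul]
  have a'X : a' * X = X * c := by rw [← cX, hcomm.eq]
  have CX : C * X = X * cfc (cf δ) c := cfc_intertwine a' c X a'_sa c_sa a'X _ hcc
  have SX : S * X = X * cfc (sf δ) c := cfc_intertwine a' c X a'_sa c_sa a'X _ hsc
  have hCk : cfc (cf δ) c * k = -k := by
    rw [hk, ← cfc_mul (cf δ) (kf δ) c (by fun_prop) (by fun_prop), ← cfc_neg (kf δ) c]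
    exact cfc_congr fun t _ => by rw [mul_comm]; exact kc hδ t
  have hSk : cfc (sf δ) c * k = 0 := by
    rw [hk, ← cfc_mul (sf δ) (kf δ) c (by fun_prop) (by fun_prop)]
    have : (fun t => sf δ t * kf δ t) = fun _ => (0 : ℝ) := by
      funext t; rw [mul_comm]; exact ks hδ t
    rw [this, cfc_const_zero ℝ c]
  have CV : C * (X * k) = -(X * k) := by rw [← mul_assoc, CX, mul_assoc, hCk, mul_neg]
  have SV : S * (X * k) = 0 := by rw [← mul_assoc, SX, mul_assoc, hSk, mul_zero]
  have VC : (X * k) * C = X * k := by rw [mul_assoc, kC.eq, ← mul_assoc, XC]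
  have VS : (X * k) * S = 0 := by rw [mul_assoc, kS.eq, ← mul_assoc, XS, zero_mul]
  have CC : C * C + S * S = 1 := by
    rw [hC, hS, ← cfc_mul (cf δ) (cf δ) a' (by fun_prop) (by fun_prop),
      ← cfc_mul (sf δ) (sf δ) a' (by fun_prop) (by fun_prop),
      ← cfc_add a' (fun t => cf δ t * cf δ t) (fun t => sf δ t * sf δ t) (by fun_prop)
        (by fun_prop)]
    have : (fun t => cf δ t * cf δ t + sf δ t * sf δ t) = fun _ => (1 : ℝ) := by
      funext t; exact sf_sq t
    rw [this, cfc_const_one ℝ a']
  set V := X * k with hV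
  set J := C + Complex.I • S with hJ
  have Jstar : star J = C - Complex.I • S := by
    rw [hJ, star_add, star_smul, Csa, Ssa]
    simp only [RCLike.star_def, Complex.conj_I, neg_smul, sub_eq_add_neg]
  have JV : J * V = -V := by rw [hJ, add_mul, smul_mul_assoc, CV, SV]; simp
  have VJ : V * J = V := by rw [hJ, mul_add, mul_smul_comm, VC, VS]; simp only [smul_zero, add_zero]
  have JsV : star J * V = -V := by rw [Jstar, sub_mul, smul_mul_assoc, CV, SV]; simp
  have VJs : V * star J = V := by rw [Jstar, mul_sub, mul_smul_comm, VC, VS]; simp only [smul_zero, sub_zero]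
  have VsJ : star V * J = -star V := by
    have := congrArg star JsV
    rwa [star_mul, star_star, star_neg] at this
  have JVs : J * star V = star V := by
    have := congrArg star VJs
    rwa [star_mul, star_star] at this
  have JsJ : star J * J = 1 := by
    rw [Jstar, hJ, ← CC]
    have : (C - Complex.I • S) * (C + Complex.I • S)
        = C * C + Complex.I • (C * S) - Complex.I • (S * C) - (Complex.I * Complex.I) • (S * S) := by
      rw [← smul_smul]
      simp only [sub_mul, mul_add, smul_mul_assoc, mul_smul_comm, smul_sub]; abel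
    rw [this, CS.eq, Complex.I_mul_I]; simp only [add_sub_cancel_right, neg_smul, one_smul, sub_neg_eq_add]
  have JJs : J * star J = 1 := by
    rw [Jstar, hJ, ← CC]
    have : (C + Complex.I • S) * (C - Complex.I • S)
        = C * C - Complex.I • (C * S) + Complex.I • (S * C) - (Complex.I * Complex.I) • (S * S) := by
      rw [← smul_smul]
      simp only [mul_sub, add_mul, smul_mul_assoc, mul_smul_comm, smul_add]; abel
    rw [this, CS.eq, Complex.I_mul_I]; simp only [sub_add_cancel, neg_smul, one_smul, sub_neg_eq_add]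
  have αJ : Commute α J := by
    rw [hJ]; exact αC.add_right (αS.smul_right _)
  have αV : Commute α V := αX.mul_right kα.symm
  have αα : α * α = cfc (fun t => al δ t * al δ t) c := by
    rw [hα, ← cfc_mul (al δ) (al δ) c (by fun_prop) (by fun_prop)]
  have kck : k * c * k = cfc (fun t => al δ t * al δ t) c := by
    have : cfc (fun t => kf δ t * t * kf δ t) c = k * c * k := by
      rw [cfc_mul (fun t => kf δ t * t) (kf δ) c (by fun_prop) (by fun_prop),
        cfc_mul (kf δ) (fun t => t) c (by fun_prop) (by fun_prop), cfc_id' ℝ c]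
    rw [← this]
    exact cfc_congr fun t _ => kf_sq hδ t
  have VsV : star V * V = k * a * k := by
    rw [hV, star_mul, ksa, ha]; noncomm_ring
  have VVs : V * star V = k * a' * k := by
    rw [hV, star_mul, ksa, ha']
    calc X * k * (k * star X) = (X * k) * (k * star X) := rfl
      _ = (k * X) * (star X * k) := by rw [kX.eq, kXs.eq]
      _ = _ := by noncomm_ring
  -- relations with `E`
  have hca : c * a = a * a := by rw [hc, add_mul, a'a, add_zero]
  have αa : α * a = a * cfc (al δ) a := cfc_intertwine c a a c_sa a_sa hca _ hac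
  have ka : k * a = a * cfc (kf δ) a := cfc_intertwine c a a c_sa a_sa hca _ hkc
  have Ea : E = a * cfc (ef1 δ) a := by
    have : cfc (fun t => t * ef1 δ t) a = a * cfc (ef1 δ) a := by
      rw [cfc_mul (fun t => t) (ef1 δ) a (by fun_prop) (by fun_prop), cfc_id' ℝ a]
    rw [← this]
    exact cfc_congr fun t _ => (te hδ t).symm
  have αE : α * E = E := by
    have h1 : α * E = a * cfc (al δ) a * cfc (ef1 δ) a := by
      rw [Ea, ← mul_assoc, αa]
    have h2 : cfc (fun t => t * al δ t * ef1 δ t) a
        = a * cfc (al δ) a * cfc (ef1 δ) a := by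
      rw [cfc_mul (fun t => t * al δ t) (ef1 δ) a (by fun_prop) (by fun_prop),
        cfc_mul (fun t => t) (al δ) a (by fun_prop) (by fun_prop), cfc_id' ℝ a]
    rw [h1, ← h2]
    refine cfc_congr fun t _ => ?_
    calc t * al δ t * ef1 δ t = al δ t * (t * ef1 δ t) := by ring
      _ = ef δ t := by rw [te hδ]; exact ae1 hδ t
  have Eα : E * α = E := by
    have := congrArg star αE
    rwa [star_mul, Esa, αsa] at this
  have ef0 : ef δ 0 = 0 := by unfold ef; exact max_eq_left (by linarith only [hδ])
  have EX : E * X = 0 := by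
    rw [hE, cfc_mul_of_mul_eq_zero a X a_sa aX _ hec, ef0, zero_smul]
  have VVE : star V * V * E = E := by
    have h1 : k * E = cfc (kf δ) a * E := by
      have h3 : Commute a (cfc (kf δ) a) := by
        have := cfc_commute_cfc (fun t : ℝ => t) (kf δ) a
        rwa [cfc_id' ℝ a] at this
      rw [Ea, ← mul_assoc, ka, h3.eq, mul_assoc]
    have h2 : cfc (fun t => t * kf δ t * kf δ t * ef δ t) a
        = a * cfc (kf δ) a * cfc (kf δ) a * E := by
      rw [cfc_mul (fun t => t * kf δ t * kf δ t) (ef δ) a (by (clear * - hkc; fun_prop)) (by fun_prop),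
        cfc_mul (fun t => t * kf δ t) (kf δ) a (by fun_prop) (by fun_prop),
        cfc_mul (fun t => t) (kf δ) a (by fun_prop) (by fun_prop), cfc_id' ℝ a]
    rw [VsV, mul_assoc, h1, ka, ← mul_assoc, ← h2]
    refine cfc_congr fun t _ => ?_
    have := kf_sq hδ t
    calc t * kf δ t * kf δ t * ef δ t = (kf δ t * t * kf δ t) * ef δ t := by ring
      _ = _ := by rw [this]; exact ae hδ t
  have αnorm : ‖α‖ ≤ 1 := by
    rw [hα]
    refine norm_cfc_le zero_le_one fun t _ => ?_
    rw [Real.norm_of_nonneg (al_nonneg t)]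
    exact al_le_one t
  refine ⟨{ V := V, J := J, α := α, E := E, N := N, d := d, α_sa := αsa, E_sa := Esa,
            α_norm := αnorm, VV := ?_, JV := JV, VJ := VJ, JVs := JVs, VsJ := VsJ,
            JsJ := JsJ, JJs := JJs, VsV := ?_, αV := αV, αJ := αJ, Eα := Eα, EV := ?_,
            VE := VVE, full := hd }⟩
  · calc V * V = X * (k * X) * k := by rw [hV]; noncomm_ring
      _ = X * X * (k * k) := by rw [kX.eq]; noncomm_ring
      _ = 0 := by rw [hX, zero_mul]
  · rw [VsV, VVs, αα, ← kck, hc]
    simp only [mul_add, add_mul]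
  · rw [hV, ← mul_assoc, EX, zero_mul]

namespace Step6

section Prod

variable {F : Type u} {G : Type v} [CStarAlgebra F] [CStarAlgebra G] {κ : Type*} [Fintype κ]
  [DecidableEq κ] (L : Legs κ F G)

theorem norm_prodHom_le (z : κ → F) (hz : ∀ i, ‖z i‖ ≤ 1) : ‖L.prodHom z‖ ≤ 1 := by
  have h1 : ‖(1 : G)‖ ≤ 1 := by
    rcases subsingleton_or_nontrivial G with h | h
    · rw [Subsingleton.elim (1 : G) 0, norm_zero]; exact zero_le_one
    · rw [CStarRing.norm_one]
  have key : ∀ s : Finset κ, ∀ z : κ → F, (∀ i, i ∉ s → z i = 1) → (∀ i ∈ s, ‖z i‖ ≤ 1) →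
      ‖L.prodHom z‖ ≤ 1 := by
    intro s
    induction s using Finset.induction_on with
    | empty =>
      intro z hz _
      have : z = 1 := funext fun i => hz i (Finset.notMem_empty i)
      rw [this, map_one]; exact h1
    | insert i s hi ih =>
      intro z hz hz'
      have e1 : z = Function.update z i (z i) := (Function.update_eq_self i z).symm
      rw [e1, L.prodHom_update i z (z i)]
      have h2 : ‖L.σ i (z i)‖ ≤ 1 :=
        (NonUnitalStarAlgHom.norm_apply_le (L.σ i) (z i)).trans (hz' i (Finset.mem_insert_self i s))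
      have h3 : ‖L.prodHom (Function.update z i 1)‖ ≤ 1 := by
        apply ih
        · intro j hj
          by_cases h : j = i
          · subst h; simp
          · rw [Function.update_of_ne h]
            exact hz j (by simp [h, hj])
        · intro j hj
          have h : j ≠ i := fun h => hi (h ▸ hj)
          rw [Function.update_of_ne h]
          exact hz' j (Finset.mem_insert_of_mem hj)
      exact (norm_mul_le _ _).trans (mul_le_one₀ h2 (norm_nonneg _) h3)
  exact key Finset.univ z (fun i hi => absurd (Finset.mem_univ i) hi) (fun i _ => hz i)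

theorem prodHom_update_neg (i : κ) (z : κ → F) (a : F) :
    L.prodHom (Function.update z i (-a)) = - L.prodHom (Function.update z i a) := by
  rw [L.prodHom_update, L.prodHom_update i z a, map_neg, neg_mul]

theorem prodHom_update_add (i : κ) (z : κ → F) (a b : F) :
    L.prodHom (Function.update z i (a + b))
      = L.prodHom (Function.update z i a) + L.prodHom (Function.update z i b) := by
  rw [L.prodHom_update, L.prodHom_update i z a, L.prodHom_update i z b, map_add, add_mul]

omit [DecidableEq κ] in
theorem commute_prodHom (z w : κ → F) (h : ∀ i, Commute (z i) (w i)) :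
    Commute (L.prodHom z) (L.prodHom w) := by
  show L.prodHom z * L.prodHom w = L.prodHom w * L.prodHom z
  rw [← map_mul, ← map_mul]
  congr 1
  funext i
  exact (h i).eq

end Prod

end Step6

open Step6 in
theorem step6G {F : Type u} {G : Type v} [CStarAlgebra F] [CStarAlgebra G] (X : F)
    (hX : X * X = 0) (hf : Full {X}) (l : ℕ) (L : Legs (Fin l) F G) :
    Nonempty (ModeData l G) := by
  obtain ⟨D⟩ := exists_leg0 X hX hf
  obtain ⟨V, J, α, E, N, d, α_sa, E_sa, α_norm, VV, JV, VJ, JVs, VsJ, JsJ, JJs, VsV, αV, αJ,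
    Eα, EV, VE, full⟩ := D
  have αVs : Commute α (star V) := by
    have := αV.star_star
    rwa [α_sa] at this
  have αJs : Commute α (star J) := by
    have := αJ.star_star
    rwa [α_sa] at this
  set ca : Fin l → F := fun _ => α with hca
  set ce : Fin l → F := fun _ => E with hce
  set A : G := L.prodHom ca with hA
  set W : Fin l → G := fun i => L.prodHom (Function.update ca i V) with hW
  set K : Fin l → G := fun i => L.prodHom (Pi.mulSingle i J) with hK
  set EE : G := L.prodHom ce with hEE
  have upd_star : ∀ (z : Fin l → F) (i : Fin l) (a : F),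
      star (Function.update z i a) = Function.update (star z) i (star a) := by
    intro z i a
    ext j; by_cases h : j = i
    · subst h; simp only [Pi.star_apply, Function.update_self]
    · simp only [Pi.star_apply, Function.update_of_ne h]
  have single_star : ∀ (i : Fin l) (a : F),
      star (Pi.mulSingle i a : Fin l → F) = Pi.mulSingle i (star a) := by
    intro i a
    ext j; by_cases h : j = i
    · subst h; simp only [Pi.star_apply, Pi.mulSingle_eq_same]
    · simp only [Pi.star_apply, Pi.mulSingle_eq_of_ne h, star_one]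
  have sca : star ca = ca := funext fun i => α_sa
  have sce : star ce = ce := funext fun i => E_sa
  have A_sa : star A = A := by rw [hA, L.star_prodHom, sca]
  have EE_sa : star EE = EE := by rw [hEE, L.star_prodHom, sce]
  have A_isa : IsSelfAdjoint A := A_sa
  have A_norm : ‖A‖ ≤ 1 := norm_prodHom_le L _ fun _ => α_norm
  have Ws : ∀ i, star (W i) = L.prodHom (Function.update ca i (star V)) := by
    intro i; simp only [hW]; rw [L.star_prodHom, upd_star, sca]
  have Ks : ∀ i, star (K i) = L.prodHom (Pi.mulSingle i (star J)) := by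
    intro i; simp only [hK]; rw [L.star_prodHom, single_star]
  have upd_mul_single : ∀ (i : Fin l) (a b : F),
      Function.update ca i a * Pi.mulSingle i b = Function.update ca i (a * b) := by
    intro i a b
    ext j; by_cases h : j = i
    · subst h; simp
    · simp only [Pi.mul_apply, Function.update_of_ne h, Pi.mulSingle_eq_of_ne h, mul_one]
  have single_mul_upd : ∀ (i : Fin l) (a b : F),
      Pi.mulSingle i b * Function.update ca i a = Function.update ca i (b * a) := by
    intro i a b
    ext j; by_cases h : j = i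
    · subst h; simp
    · simp [Function.update_of_ne h, Pi.mulSingle_eq_of_ne h]
  have upd_mul_upd : ∀ (i : Fin l) (a b : F),
      Function.update ca i a * Function.update ca i b = Function.update (ca * ca) i (a * b) := by
    intro i a b
    ext j; by_cases h : j = i
    · subst h; simp
    · simp [Function.update_of_ne h]
  have single_mul_single : ∀ (i : Fin l) (a b : F),
      (Pi.mulSingle i a : Fin l → F) * Pi.mulSingle i b = Pi.mulSingle i (a * b) := by
    intro i a b
    ext j; by_cases h : j = i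
    · subst h; simp
    · simp only [Pi.mul_apply, Pi.mulSingle_eq_of_ne h, mul_one]
  -- relations in `G`
  have WK : ∀ i, W i * K i = W i := by
    intro i; simp only [hW, hK]; rw [← map_mul, upd_mul_single, VJ]
  have KW : ∀ i, K i * W i = -(W i) := by
    intro i; simp only [hW, hK]
    rw [← map_mul, single_mul_upd, JV, prodHom_update_neg]
  have WsK : ∀ i, star (W i) * K i = -star (W i) := by
    intro i; rw [Ws]; simp only [hK]
    rw [← map_mul, upd_mul_single, VsJ, prodHom_update_neg]
  have KWs : ∀ i, K i * star (W i) = star (W i) := by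
    intro i; rw [Ws]; simp only [hK]; rw [← map_mul, single_mul_upd, JVs]
  have KsK : ∀ i, star (K i) * K i = 1 := by
    intro i; rw [Ks]; simp only [hK]
    rw [← map_mul, single_mul_single, JsJ, Pi.mulSingle_one, map_one]
  have KKs : ∀ i, K i * star (K i) = 1 := by
    intro i; rw [Ks]; simp only [hK]
    rw [← map_mul, single_mul_single, JJs, Pi.mulSingle_one, map_one]
  have AW : ∀ i, Commute A (W i) := by
    intro i; refine commute_prodHom L _ _ fun j => ?_
    by_cases h : j = i
    · subst h; simpa [hca] using αV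
    · simp only [hca, Function.update_of_ne h]; exact Commute.refl _
  have AK : ∀ i, Commute A (K i) := by
    intro i; refine commute_prodHom L _ _ fun j => ?_
    by_cases h : j = i
    · subst h; simpa [hca] using αJ
    · simp only [hca, Pi.mulSingle_eq_of_ne h]; exact Commute.one_right _
  have WWc : ∀ i j, i ≠ j → Commute (W i) (W j) := by
    intro i j hij; refine commute_prodHom L _ _ fun m => ?_
    by_cases h : m = i
    · subst h; simpa [hca, Function.update_of_ne hij] using αV.symm
    · by_cases h' : m = j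
      · subst h'; simpa [hca, Function.update_of_ne h] using αV
      · simp only [hca, Function.update_of_ne h, Function.update_of_ne h']; exact Commute.refl _
  have WWsc : ∀ i j, i ≠ j → Commute (W i) (star (W j)) := by
    intro i j hij; rw [Ws]; refine commute_prodHom L _ _ fun m => ?_
    by_cases h : m = i
    · subst h; simpa only [hca, Function.update_self, Function.update_of_ne hij] using αV.symm
    · by_cases h' : m = j
      · subst h'; simpa only [hca, Function.update_of_ne h, Function.update_self] using αVs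
      · simp only [hca, Function.update_of_ne h, Function.update_of_ne h']; exact Commute.refl _
  have WKc : ∀ i j, i ≠ j → Commute (W i) (K j) := by
    intro i j hij; refine commute_prodHom L _ _ fun m => ?_
    by_cases h : m = i
    · subst h; simp only [Pi.mulSingle_eq_of_ne hij]; exact Commute.one_right _
    · by_cases h' : m = j
      · subst h'; simpa [hca, Function.update_of_ne h] using αJ
      · simp only [Pi.mulSingle_eq_of_ne h']; exact Commute.one_right _
  have WKsc : ∀ i j, i ≠ j → Commute (W i) (star (K j)) := by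
    intro i j hij; rw [Ks]; refine commute_prodHom L _ _ fun m => ?_
    by_cases h : m = i
    · subst h; simp only [Pi.mulSingle_eq_of_ne hij]; exact Commute.one_right _
    · by_cases h' : m = j
      · subst h'; simpa only [hca, Function.update_of_ne h, Pi.mulSingle_eq_same] using αJs
      · simp only [Pi.mulSingle_eq_of_ne h']; exact Commute.one_right _
  have KKc : ∀ i j, i ≠ j → Commute (K i) (K j) := by
    intro i j hij; refine commute_prodHom L _ _ fun m => ?_
    by_cases h : m = i
    · subst h; simp only [Pi.mulSingle_eq_of_ne hij]; exact Commute.one_right _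
    · simp only [Pi.mulSingle_eq_of_ne h]; exact Commute.one_left _
  have KKsc : ∀ i j, i ≠ j → Commute (K i) (star (K j)) := by
    intro i j hij; rw [Ks]; refine commute_prodHom L _ _ fun m => ?_
    by_cases h : m = i
    · subst h; simp only [Pi.mulSingle_eq_of_ne hij]; exact Commute.one_right _
    · simp only [Pi.mulSingle_eq_of_ne h]; exact Commute.one_left _
  have WW0 : ∀ i, W i * W i = 0 := by
    intro i; simp only [hW]; rw [← map_mul, upd_mul_upd]
    exact L.prodHom_eq_zero _ i (by simp [VV])
  have WsW : ∀ i, star (W i) * W i + W i * star (W i) = A * A := by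
    intro i; rw [Ws]; simp only [hW]
    rw [← map_mul, ← map_mul, upd_mul_upd, upd_mul_upd, ← prodHom_update_add, VsV, hA, ← map_mul]
    congr 1
    ext j; by_cases h : j = i
    · subst h; simp [hca]
    · simp [Function.update_of_ne h]
  -- the scalar function
  set φ : ℝ → ℝ := fun t => Real.sqrt (1 - t * t) with hφ
  have hφc : Continuous φ := by rw [hφ]; fun_prop
  set β : G := cfc φ A with hβ
  have β_sa : star β = β := star_cfc_real _ _
  have ββ : β * β = 1 - A * A := by
    have e1 : A * A = cfc (fun t : ℝ => t * t) A := by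
      rw [cfc_mul (fun t : ℝ => t) (fun t => t) A (by fun_prop) (by fun_prop), cfc_id' ℝ A]
    have e0 : (1 : G) = cfc (fun _ : ℝ => (1 : ℝ)) A := by rw [cfc_const_one ℝ A]
    rw [hβ, ← cfc_mul φ φ A (by fun_prop) (by fun_prop), e1, e0,
      ← cfc_sub (fun _ : ℝ => (1 : ℝ)) (fun t => t * t) A (by fun_prop) (by fun_prop)]
    refine cfc_congr fun t ht => ?_
    have h1 : |t| ≤ 1 := by
      rcases subsingleton_or_nontrivial G with h | h
      · exact absurd ht (by simp [spectrum.of_subsingleton])
      · exact (spectrum.norm_le_norm_of_mem ht).trans A_norm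
    exact Real.mul_self_sqrt (by nlinarith only [abs_le.1 h1])
  have Aβ : Commute β A := by
    have := cfc_commute_cfc φ (fun t : ℝ => t) A
    rwa [cfc_id' ℝ A] at this
  have βW : ∀ i, Commute β (W i) := fun i => (AW i).cfc_real _
  have βWs : ∀ i, Commute β (star (W i)) := fun i => by
    have := (βW i).star_star
    rwa [β_sa] at this
  have βK : ∀ i, Commute β (K i) := fun i => (AK i).cfc_real _
  have βKs : ∀ i, Commute β (star (K i)) := fun i => by
    have := (βK i).star_star
    rwa [β_sa] at this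
  have AEE : A * EE = EE * 1 := by
    have h1 : EE * A = EE := by
      simp only [hA, hEE]; rw [← map_mul]; congr 1; funext i; exact Eα
    have := congrArg star h1
    rw [star_mul, A_sa, EE_sa] at this
    rw [this, mul_one]
  have βEE : β * EE = 0 := by
    rw [hβ, cfc_intertwine A 1 EE A_isa (IsSelfAdjoint.one G) AEE φ hφc, cfc_apply_one,
      hφ]
    simp
  have EEβ : EE * β = 0 := by
    have := congrArg star βEE
    rwa [star_mul, EE_sa, β_sa, star_zero] at this
  have EEW : ∀ i, EE * W i = 0 := by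
    intro i; simp only [hW, hEE]; rw [← map_mul]
    exact L.prodHom_eq_zero _ i (by simp [hce, EV])
  have WWE : ∀ i, star (W i) * W i * EE = EE := by
    intro i; rw [Ws]; simp only [hW, hEE]
    rw [← map_mul, ← map_mul, upd_mul_upd]
    congr 1
    have hαE : α * E = E := by
      have := congrArg star Eα
      rwa [star_mul, E_sa, α_sa] at this
    ext j; by_cases h : j = i
    · subst h; simp only [hce, Pi.mul_apply, Function.update_self, VE]
    · simp only [Pi.mul_apply, Function.update_of_ne h, hca, hce]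
      rw [mul_assoc, hαE, hαE]
  let dd : Fin (N ^ l) → G := fun r => L.prodHom (fun i => d (finFunctionFinEquiv.symm r i))
  have hfull : ∑ r, star (dd r) * (EE * EE) * dd r = 1 := by
    have e1 : ∀ r, star (dd r) * (EE * EE) * dd r
        = L.prodHom (fun i => star (d (finFunctionFinEquiv.symm r i)) * (E * E)
            * d (finFunctionFinEquiv.symm r i)) := by
      intro r
      simp only [dd, hEE]
      rw [L.star_prodHom, ← map_mul, ← map_mul, ← map_mul]
      rfl
    rw [Finset.sum_congr rfl fun r _ => e1 r]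
    rw [Equiv.sum_comp finFunctionFinEquiv.symm
      (fun f : Fin l → Fin N => L.prodHom (fun i => star (d (f i)) * (E * E) * d (f i)))]
    rw [← L.prodHom_sum (fun _ j => star (d j) * (E * E) * d j)]
    rw [full]
    exact map_one L.prodHom
  have cβP : ∀ (i : Fin l) (x : G), Commute x β → Commute x (K i) → Commute x (β * K i) :=
    fun i x h1 h2 => h1.mul_right h2
  refine ⟨{ V := W, P := fun i => β * K i, β := β, E := EE, N := N ^ l, d := dd,
            β_sa := β_sa, E_sa := EE_sa, VV := WW0, VP := ?_, VsP := ?_, PsP := ?_, PPs := ?_,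
            VsV := ?_, cVV := WWc, cVVs := WWsc, cVP := ?_, cVPs := ?_, cPP := ?_, cPPs := ?_,
            βV := βW, βP := ?_, Eβ := EEβ, EV := EEW, VE := WWE, full := hfull }⟩
  · intro i
    calc W i * (β * K i) = β * (W i * K i) := by rw [← mul_assoc, ← (βW i).eq, mul_assoc]
      _ = β * W i := by rw [WK]
      _ = -(β * K i * W i) := by rw [mul_assoc, KW]; simp
  · intro i
    calc star (W i) * (β * K i) = β * (star (W i) * K i) := by
          rw [← mul_assoc, ← (βWs i).eq, mul_assoc]
      _ = -(β * star (W i)) := by rw [WsK]; simp only [mul_neg]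
      _ = -(β * K i * star (W i)) := by rw [mul_assoc, KWs]
  · intro i
    calc star (β * K i) * (β * K i) = star (K i) * (β * (β * K i)) := by
          rw [star_mul, β_sa]; noncomm_ring
      _ = star (K i) * (K i * (β * β)) := by
          rw [(βK i).eq, ← mul_assoc β (K i), (βK i).eq, mul_assoc]
      _ = β * β := by rw [← mul_assoc, KsK, one_mul]
  · intro i
    calc β * K i * star (β * K i) = β * (K i * star (K i)) * β := by
          rw [star_mul, β_sa]; noncomm_ring
      _ = β * β := by rw [KKs, mul_one]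
  · intro i; rw [WsW, ββ]; abel
  · intro i j hij; exact (βW i).symm.mul_right (WKc i j hij)
  · intro i j hij; rw [star_mul, β_sa]; exact (WKsc i j hij).mul_right (βW i).symm
  · intro i j hij
    exact ((Commute.refl β).mul_left (βK i).symm).mul_right ((βK j).mul_left (KKc i j hij))
  · intro i j hij
    rw [star_mul, β_sa]
    exact ((βKs j).mul_left (KKsc i j hij)).mul_right ((Commute.refl β).mul_left (βK i).symm)
  · intro i; exact (Commute.refl β).mul_right (βK i)

end Vale.Agent.P101
end

section

/-! General version of step 7: `l` modes. -/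

open scoped BigOperators

namespace Vale.Agent.P101

universe u v

namespace Tower

variable {G : Type v} [Ring G] [StarRing G] (T : Tower G)

/-- `Y` commutes with all `V`, `P` of the tower and their adjoints. -/
structure Mode (T : Tower G) (Y : G) : Prop where
  V : ∀ k, Commute Y (T.V k)
  Vs : ∀ k, Commute Y (star (T.V k))
  P : ∀ k, Commute Y (T.P k)
  Ps : ∀ k, Commute Y (star (T.P k))

namespace Mode

variable {T} {Y Z : G}

theorem star_ (h : T.Mode Y) : T.Mode (star Y) where
  V k := by simpa only [star_star] using (h.Vs k).star_star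
  Vs k := (h.V k).star_star
  P k := by simpa only [star_star] using (h.Ps k).star_star
  Ps k := (h.P k).star_star

theorem mul (h : T.Mode Y) (h' : T.Mode Z) : T.Mode (Y * Z) where
  V k := (h.V k).mul_left (h'.V k)
  Vs k := (h.Vs k).mul_left (h'.Vs k)
  P k := (h.P k).mul_left (h'.P k)
  Ps k := (h.Ps k).mul_left (h'.Ps k)

theorem add (h : T.Mode Y) (h' : T.Mode Z) : T.Mode (Y + Z) where
  V k := (h.V k).add_left (h'.V k)
  Vs k := (h.Vs k).add_left (h'.Vs k)
  P k := (h.P k).add_left (h'.P k)
  Ps k := (h.Ps k).add_left (h'.Ps k)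

theorem one : T.Mode 1 where
  V _ := Commute.one_left _
  Vs _ := Commute.one_left _
  P _ := Commute.one_left _
  Ps _ := Commute.one_left _

theorem zero : T.Mode 0 where
  V _ := Commute.zero_left _
  Vs _ := Commute.zero_left _
  P _ := Commute.zero_left _
  Ps _ := Commute.zero_left _

theorem A (h : T.Mode Y) (k : ℕ) : Commute Y (T.A k) := T.commute_A_of h.P h.V k

theorem Q (h : T.Mode Y) (k : ℕ) : Commute Y (T.Q k) := T.commute_Q_of h.P k

theorem As (h : T.Mode Y) (k : ℕ) : Commute Y (star (T.A k)) := by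
  simpa only [star_star] using (h.star_.A k).star_star

theorem Qs (h : T.Mode Y) (k : ℕ) : Commute Y (star (T.Q k)) := by
  simpa only [star_star] using (h.star_.Q k).star_star

theorem BB (h : T.Mode Y) (k : ℕ) : Commute Y (T.B k * T.B k) := by
  rw [← T.QsQ k]
  exact (h.Qs k).mul_right (h.Q k)

end Mode

theorem mode_B (k : ℕ) : T.Mode (T.B k) where
  V i := T.BV k i
  Vs i := by
    have := (T.BV k i).star_star
    rwa [B_sa] at this
  P i := T.BP k i
  Ps i := by
    have := (T.BP k i).star_star
    rwa [B_sa] at this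

/-- key computation of step 7 with a spectator `Y` -/
theorem EYE (k n : ℕ) (h : k < n) {Y : G} (hY : T.Mode Y) :
    T.E k * ((star (T.A n) * T.A n) * Y) * T.E k
      = (star (T.A k) * T.A k + T.B k * T.B k) * (T.E k * Y * T.E k) := by
  have x1 : ∀ Y : G, T.Mode Y → star (T.A k * T.E k) * Y * (T.Q k * T.V k * T.E k) = 0 := by
    intro Y hY
    have cEs := (T.commAs k k le_rfl _ (T.hE k)).eq
    have cQE' := (T.commQ k k le_rfl _ (T.hE k)).eq
    calc star (T.A k * T.E k) * Y * (T.Q k * T.V k * T.E k)
        = (T.E k * star (T.A k)) * (Y * (T.Q k * T.V k)) * T.E k := by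
          rw [star_mul, T.E_sa]; simp only [mul_assoc]
      _ = (star (T.A k) * T.E k) * ((T.Q k * T.V k) * Y) * T.E k := by
          rw [cEs, ((hY.Q k).mul_right (hY.V k)).eq]
      _ = star (T.A k) * (T.E k * T.Q k) * (T.V k * Y) * T.E k := by simp only [mul_assoc]
      _ = star (T.A k) * (T.Q k * T.E k) * (T.V k * Y) * T.E k := by rw [cQE']
      _ = star (T.A k) * T.Q k * (T.E k * T.V k) * Y * T.E k := by simp only [mul_assoc]
      _ = 0 := by rw [T.EV]; simp only [mul_zero, zero_mul]
  have x2 : star (T.Q k * T.V k * T.E k) * Y * (T.A k * T.E k) = 0 := by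
    have := congrArg star (x1 _ hY.star_)
    simpa only [mul_assoc, star_mul, star_star, star_zero] using this
  have d1 : star (T.A k * T.E k) * Y * (T.A k * T.E k)
      = star (T.A k) * T.A k * (T.E k * Y * T.E k) := by
    have cEs := (T.commAs k k le_rfl _ (T.hE k)).eq
    have cE := (T.commA k k le_rfl _ (T.hE k)).eq
    calc star (T.A k * T.E k) * Y * (T.A k * T.E k)
        = (T.E k * star (T.A k)) * (Y * T.A k) * T.E k := by
          rw [star_mul, T.E_sa]; simp only [mul_assoc]
      _ = (star (T.A k) * T.E k) * (T.A k * Y) * T.E k := by rw [cEs, (hY.A k).eq]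
      _ = star (T.A k) * (T.E k * T.A k) * Y * T.E k := by simp only [mul_assoc]
      _ = star (T.A k) * (T.A k * T.E k) * Y * T.E k := by rw [cE]
      _ = _ := by simp only [mul_assoc]
  have d2 : star (T.Q k * T.V k * T.E k) * Y * (T.Q k * T.V k * T.E k)
      = T.B k * T.B k * (T.E k * Y * T.E k) := by
    have c1 : Commute (T.B k * T.B k) (star (T.V k)) :=
      (T.commB k k le_rfl _ (T.star_mem k _ (T.hV k))).mul_left
        (T.commB k k le_rfl _ (T.star_mem k _ (T.hV k)))
    have c2 : Commute (T.B k * T.B k) (T.E k * Y) :=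
      ((T.commB k k le_rfl _ (T.hE k)).mul_left (T.commB k k le_rfl _ (T.hE k))).mul_right
        (hY.BB k).symm
    have c3 : Commute (star (T.V k) * star (T.Q k)) Y := ((hY.Vs k).mul_right (hY.Qs k)).symm
    calc star (T.Q k * T.V k * T.E k) * Y * (T.Q k * T.V k * T.E k)
        = T.E k * ((star (T.V k) * star (T.Q k)) * Y) * T.Q k * T.V k * T.E k := by
          rw [star_mul, star_mul, T.E_sa]; simp only [mul_assoc]
      _ = T.E k * Y * (star (T.V k) * (star (T.Q k) * T.Q k)) * T.V k * T.E k := by
          rw [c3.eq]; simp only [mul_assoc]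
      _ = T.E k * Y * ((T.B k * T.B k) * star (T.V k)) * T.V k * T.E k := by
          rw [T.QsQ, c1.eq]
      _ = (T.E k * Y * (T.B k * T.B k)) * (star (T.V k) * T.V k * T.E k) := by
          simp only [mul_assoc]
      _ = (T.B k * T.B k * (T.E k * Y)) * T.E k := by rw [← c2.eq, T.VE]
      _ = _ := by simp only [mul_assoc]
  have cY : Commute (T.A n) Y := (hY.A n).symm
  calc T.E k * ((star (T.A n) * T.A n) * Y) * T.E k
      = T.E k * (star (T.A n) * (T.A n * Y)) * T.E k := by simp only [mul_assoc]
    _ = star (T.A n * T.E k) * Y * (T.A n * T.E k) := by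
        rw [cY.eq, star_mul, T.E_sa]; simp only [mul_assoc]
    _ = star (T.A k * T.E k) * Y * (T.A k * T.E k)
        + star (T.A k * T.E k) * Y * (T.Q k * T.V k * T.E k)
        + star (T.Q k * T.V k * T.E k) * Y * (T.A k * T.E k)
        + star (T.Q k * T.V k * T.E k) * Y * (T.Q k * T.V k * T.E k) := by
        rw [T.AE k n h, star_add, add_mul, add_mul, mul_add, mul_add]; abel
    _ = _ := by rw [x1 _ hY, x2, d1, d2]; noncomm_ring

end Tower

/-- Several towers with common `β`, `E` whose modes commute. -/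
structure MTower (l : ℕ) (G : Type v) [Ring G] [StarRing G] where
  T : Fin l → Tower G
  i0 : Fin l
  hβ : ∀ i k, (T i).β k = (T i0).β k
  hE : ∀ i k, (T i).E k = (T i0).E k
  hleg : ∀ i k, (T i).leg k = (T i0).leg k
  cV : ∀ i j, i ≠ j → ∀ k, (T i).Mode ((T j).V k)
  cP : ∀ i j, i ≠ j → ∀ k, (T i).Mode ((T j).P k)

namespace MTower

variable {l : ℕ} {G : Type v} [Ring G] [StarRing G] (M : MTower l G)

theorem hB (i : Fin l) (k : ℕ) : (M.T i).B k = (M.T M.i0).B k := by
  induction k with
  | zero => rfl
  | succ k ih => rw [Tower.B_succ, Tower.B_succ, ih, M.hβ]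

theorem mode_Q (i j : Fin l) (h : i ≠ j) (k : ℕ) : (M.T i).Mode ((M.T j).Q k) := by
  induction k with
  | zero => exact Tower.Mode.one
  | succ k ih => exact ih.mul (M.cP i j h k)

theorem mode_A (i j : Fin l) (h : i ≠ j) (k : ℕ) : (M.T i).Mode ((M.T j).A k) := by
  induction k with
  | zero => exact Tower.Mode.zero
  | succ k ih => exact ih.add ((M.mode_Q i j h k).mul (M.cV i j h k))

theorem mode_As (i j : Fin l) (h : i ≠ j) (k : ℕ) : (M.T i).Mode (star ((M.T j).A k)) :=
  (M.mode_A i j h k).star_

theorem mode_B (i : Fin l) (k : ℕ) : (M.T i).Mode ((M.T M.i0).B k) := by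
  rw [← M.hB i k]
  exact (M.T i).mode_B k

/-- the product of the `A n` over a list of modes -/
def Qs (n : ℕ) (ls : List (Fin l)) : G := (ls.map fun i => (M.T i).A n).prod

/-- the building blocks of the lower bound -/
def C (κ : ℕ) (i : Fin l) : G :=
  star ((M.T i).A κ) * (M.T i).A κ + (M.T M.i0).B κ * (M.T M.i0).B κ

/-- the product of the `C κ i` over a list of modes -/
def R (κ : ℕ) (ls : List (Fin l)) : G := (ls.map fun i => M.C κ i).prod

@[simp] theorem Qs_nil (n : ℕ) : M.Qs n [] = 1 := rfl
@[simp] theorem R_nil (n : ℕ) : M.R n [] = 1 := rfl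
theorem Qs_cons (n : ℕ) (i : Fin l) (ls : List (Fin l)) :
    M.Qs n (i :: ls) = (M.T i).A n * M.Qs n ls := by simp [Qs]
theorem R_cons (n : ℕ) (i : Fin l) (ls : List (Fin l)) :
    M.R n (i :: ls) = M.C n i * M.R n ls := by simp [R]

theorem mode_Qs (n : ℕ) (i : Fin l) (ls : List (Fin l)) (h : i ∉ ls) :
    (M.T i).Mode (M.Qs n ls) := by
  induction ls with
  | nil => exact Tower.Mode.one
  | cons j ls ih =>
    rw [Qs_cons]
    simp only [List.mem_cons, not_or] at h
    exact (M.mode_A i j h.1 n).mul (ih h.2)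

theorem mode_C (n : ℕ) (i j : Fin l) (h : i ≠ j) : (M.T i).Mode (M.C n j) :=
  ((M.mode_As i j h n).mul (M.mode_A i j h n)).add ((M.mode_B i n).mul (M.mode_B i n))

theorem mode_R (n : ℕ) (i : Fin l) (ls : List (Fin l)) (h : i ∉ ls) :
    (M.T i).Mode (M.R n ls) := by
  induction ls with
  | nil => exact Tower.Mode.one
  | cons j ls ih =>
    rw [R_cons]
    simp only [List.mem_cons, not_or] at h
    exact (M.mode_C n i j h.1).mul (ih h.2)

theorem E_Qs (κ n : ℕ) (hκ : κ < n) (ls : List (Fin l)) (hls : ls.Nodup) :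
    (M.T M.i0).E κ * (star (M.Qs n ls) * M.Qs n ls) * (M.T M.i0).E κ
      = M.R κ ls * ((M.T M.i0).E κ * (M.T M.i0).E κ) := by
  induction ls with
  | nil => simp
  | cons i ls ih =>
    rw [List.nodup_cons] at hls
    have hm := M.mode_Qs n i ls hls.1
    have c : Commute (star (M.Qs n ls)) (star ((M.T i).A n) * (M.T i).A n) :=
      (hm.star_.As n).mul_right (hm.star_.A n)
    have e : star (M.Qs n (i :: ls)) * M.Qs n (i :: ls)
        = (star ((M.T i).A n) * (M.T i).A n) * (star (M.Qs n ls) * M.Qs n ls) := by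
      rw [Qs_cons, star_mul]
      calc star (M.Qs n ls) * star ((M.T i).A n) * ((M.T i).A n * M.Qs n ls)
          = (star (M.Qs n ls) * (star ((M.T i).A n) * (M.T i).A n)) * M.Qs n ls := by
            simp only [mul_assoc]
        _ = _ := by rw [c.eq]; simp only [mul_assoc]
    rw [e, ← M.hE i κ, (M.T i).EYE κ n hκ (hm.star_.mul hm), M.hE i κ, ih hls.2, R_cons, C,
      M.hB i κ]
    simp only [mul_assoc]

theorem commute_R_of {x : G} (κ : ℕ) (hA : ∀ i, Commute x ((M.T i).A κ))
    (hAs : ∀ i, Commute x (star ((M.T i).A κ))) (hB : Commute x ((M.T M.i0).B κ))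
    (ls : List (Fin l)) : Commute x (M.R κ ls) := by
  induction ls with
  | nil => exact Commute.one_right _
  | cons j ls ih =>
    rw [R_cons]
    exact (((hAs j).mul_right (hA j)).add_right (hB.mul_right hB)).mul_right ih

theorem commute_Qs_of {x : G} (n : ℕ) (hA : ∀ i, Commute x ((M.T i).A n))
    (ls : List (Fin l)) : Commute x (M.Qs n ls) := by
  induction ls with
  | nil => exact Commute.one_right _
  | cons j ls ih =>
    rw [Qs_cons]
    exact (hA j).mul_right ih

theorem B_A (k n : ℕ) (i : Fin l) : Commute ((M.T M.i0).B k) ((M.T i).A n) := by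
  rw [← M.hB i k]; exact (M.T i).BA k n

theorem B_As (k n : ℕ) (i : Fin l) : Commute ((M.T M.i0).B k) (star ((M.T i).A n)) := by
  rw [← M.hB i k]; exact (M.T i).BAs k n

theorem β_A (k n : ℕ) (i : Fin l) : Commute ((M.T M.i0).β k) ((M.T i).A n) := by
  rw [← M.hβ i k]; exact (M.T i).βA k n

theorem β_As (k n : ℕ) (i : Fin l) : Commute ((M.T M.i0).β k) (star ((M.T i).A n)) := by
  rw [← M.hβ i k]; exact (M.T i).βAs k n

theorem commB (k j : ℕ) (h : k ≤ j) (y : G) (hy : y ∈ (M.T M.i0).leg j) :
    Commute ((M.T M.i0).B k) y := (M.T M.i0).commB k j h y hy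

theorem commA (i : Fin l) (k j : ℕ) (h : k ≤ j) (y : G) (hy : y ∈ (M.T M.i0).leg j) :
    Commute ((M.T i).A k) y := (M.T i).commA k j h y (by rw [M.hleg]; exact hy)

theorem commAs (i : Fin l) (k j : ℕ) (h : k ≤ j) (y : G) (hy : y ∈ (M.T M.i0).leg j) :
    Commute (star ((M.T i).A k)) y := (M.T i).commAs k j h y (by rw [M.hleg]; exact hy)

section

variable {M} {N n : ℕ} (X : Tower.Extra (M.T M.i0) N n)

/-- The extra legs commute with every mode. -/
def ExComm : Prop := ∀ i, ∀ x ∈ X.ex, (M.T i).Mode x

theorem ExComm.commA (h : ExComm X) {x : G} (hx : x ∈ X.ex) (i : Fin l) (k : ℕ) :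
    Commute x ((M.T i).A k) := (h i x hx).A k

theorem ExComm.commAs (h : ExComm X) {x : G} (hx : x ∈ X.ex) (i : Fin l) (k : ℕ) :
    Commute x (star ((M.T i).A k)) := (h i x hx).As k

end

section Order

variable [PartialOrder G] [StarOrderedRing G]

theorem pow_mul_self_nonneg {b : G} (hb : star b = b) (m : ℕ) : 0 ≤ (b * b) ^ m := by
  have : (b * b) ^ m = star (b ^ m) * b ^ m := by
    rw [star_pow, hb, (Commute.refl b).mul_pow]
  rw [this]
  exact star_mul_self_nonneg _

theorem R_ge (κ : ℕ) (ls : List (Fin l)) (hls : ls.Nodup) :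
    ((M.T M.i0).B κ * (M.T M.i0).B κ) ^ ls.length ≤ M.R κ ls := by
  have hb := (M.T M.i0).B_sa κ
  induction ls with
  | nil => simp
  | cons i ls ih =>
    rw [List.nodup_cons] at hls
    have ih' := ih hls.2
    have hR0 : 0 ≤ M.R κ ls := (pow_mul_self_nonneg hb _).trans ih'
    have c1 := ((M.mode_R κ i ls hls.1).A κ).eq
    have c2 : Commute ((M.T M.i0).B κ)
        (M.R κ ls - ((M.T M.i0).B κ * (M.T M.i0).B κ) ^ ls.length) :=
      (M.commute_R_of κ (fun i => M.B_A κ κ i) (fun i => M.B_As κ κ i) (Commute.refl _)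
        ls).sub_right (((Commute.refl _).mul_right (Commute.refl _)).pow_right _)
    rw [List.length_cons, R_cons, ← sub_nonneg, C]
    have e : (star ((M.T i).A κ) * (M.T i).A κ + (M.T M.i0).B κ * (M.T M.i0).B κ) * M.R κ ls
        - ((M.T M.i0).B κ * (M.T M.i0).B κ) ^ (ls.length + 1)
        = star ((M.T i).A κ) * M.R κ ls * (M.T i).A κ
          + star ((M.T M.i0).B κ) *
            (M.R κ ls - ((M.T M.i0).B κ * (M.T M.i0).B κ) ^ ls.length) * (M.T M.i0).B κ := by
      rw [mul_assoc (star ((M.T i).A κ)) (M.R κ ls), c1,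
        mul_assoc (star ((M.T M.i0).B κ)), ← c2.eq, hb, pow_succ']
      noncomm_ring
    rw [e]
    exact add_nonneg (star_left_conjugate_nonneg hR0 _)
      (star_left_conjugate_nonneg (sub_nonneg.2 ih') _)

theorem pow_le_pow_of_commute {b c : G} (hb : star b = b) (hc : star c = c) (hbc : Commute b c)
    (h : b * b ≤ c * c) (m : ℕ) : (b * b) ^ m ≤ (c * c) ^ m := by
  induction m with
  | zero => simp
  | succ m ih =>
    rw [← sub_nonneg]
    have c1 : Commute (c ^ m) (c * c - b * b) :=
      ((Commute.refl c).mul_right (Commute.refl c)).pow_left m |>.sub_right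
        ((hbc.symm.mul_right hbc.symm).pow_left m)
    have c2 : Commute b ((c * c) ^ m - (b * b) ^ m) :=
      ((hbc.mul_right hbc).pow_right m).sub_right
        (((Commute.refl b).mul_right (Commute.refl b)).pow_right m)
    have e : (c * c) ^ (m + 1) - (b * b) ^ (m + 1)
        = star (c ^ m) * (c * c - b * b) * c ^ m
          + star b * ((c * c) ^ m - (b * b) ^ m) * b := by
      rw [star_pow, hc, hb, mul_assoc (c ^ m), ← c1.eq, ← mul_assoc (c ^ m),
        c2.eq, ← (Commute.refl c).mul_pow, pow_succ, pow_succ]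
      noncomm_ring
    rw [e]
    exact add_nonneg (star_left_conjugate_nonneg (sub_nonneg.2 h) _)
      (star_left_conjugate_nonneg (sub_nonneg.2 ih) _)

variable {M} {N n : ℕ} (X : Tower.Extra (M.T M.i0) N n)

theorem le_main (hex : ExComm X) :
    (M.T M.i0).B n ^ (2 * (l + 1)) ≤
      star X.S * (star (M.Qs n (List.finRange l)) * M.Qs n (List.finRange l)) * X.S := by
  have cQ : ∀ x : G, (∀ i, Commute x ((M.T i).A n)) → (∀ i, Commute x (star ((M.T i).A n))) →
      Commute x (star (M.Qs n (List.finRange l)) * M.Qs n (List.finRange l)) := by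
    intro x h1 h2
    refine Commute.mul_right ?_ (M.commute_Qs_of n h1 _)
    have h3 : ∀ i, Commute (star x) ((M.T i).A n) := fun i => by
      simpa only [star_star] using (h2 i).star_star
    simpa only [star_star] using (M.commute_Qs_of n h3 (List.finRange l)).star_star
  have h := X.SYS (Y := star (M.Qs n (List.finRange l)) * M.Qs n (List.finRange l))
    (fun x hx => cQ x (fun i => hex.commA X hx i n) (fun i => hex.commAs X hx i n))
    (fun k => cQ _ (fun i => M.β_A k n i) (fun i => M.β_As k n i))
  rw [h]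
  have e : ∀ κ : Fin n, ((M.T M.i0).B n * (∑ r, star (X.d κ r) * ((M.T M.i0).E κ *
      (star (M.Qs n (List.finRange l)) * M.Qs n (List.finRange l)) * (M.T M.i0).E κ)
      * X.d κ r) * (M.T M.i0).B n)
      = (M.T M.i0).B n * M.R κ (List.finRange l) * (M.T M.i0).B n := by
    intro κ
    have c : ∀ r, Commute (star (X.d κ r)) (M.R κ (List.finRange l)) := fun r =>
      M.commute_R_of κ
        (fun i => (M.commA i κ κ le_rfl _ ((M.T M.i0).star_mem κ _ (X.d_mem κ r))).symm)
        (fun i => (M.commAs i κ κ le_rfl _ ((M.T M.i0).star_mem κ _ (X.d_mem κ r))).symm)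
        (M.commB κ κ le_rfl _ ((M.T M.i0).star_mem κ _ (X.d_mem κ r))).symm _
    have e3 : ∑ r, star (X.d κ r) * ((M.T M.i0).E κ *
        (star (M.Qs n (List.finRange l)) * M.Qs n (List.finRange l)) * (M.T M.i0).E κ) * X.d κ r
        = M.R κ (List.finRange l) := by
      calc ∑ r, star (X.d κ r) * ((M.T M.i0).E κ *
            (star (M.Qs n (List.finRange l)) * M.Qs n (List.finRange l)) * (M.T M.i0).E κ)
              * X.d κ r
          = ∑ r, M.R κ (List.finRange l) *
              (star (X.d κ r) * ((M.T M.i0).E κ * (M.T M.i0).E κ) * X.d κ r) := by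
            refine Finset.sum_congr rfl fun r _ => ?_
            rw [M.E_Qs κ n κ.2 _ (List.nodup_finRange l), ← mul_assoc, (c r).eq]
            simp only [mul_assoc]
        _ = _ := by rw [← Finset.mul_sum, X.d_sum κ κ.2, mul_one]
    rw [e3]
  rw [Finset.sum_congr rfl fun κ _ => by rw [e κ]]
  have e4 : (M.T M.i0).B n ^ (2 * (l + 1)) = ∑ κ, (star (X.h κ) * (star X.τ * X.τ) * X.h κ) *
      ((M.T M.i0).B n ^ (2 * (l + 1))) := by
    rw [← Finset.sum_mul, X.h_sum, one_mul]
  rw [e4]
  refine Finset.sum_le_sum fun κ _ => ?_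
  rw [← sub_nonneg, ← mul_sub]
  have hb := (M.T M.i0).B_sa n
  have hpow : (M.T M.i0).B n ^ (2 * (l + 1))
      = (M.T M.i0).B n * ((M.T M.i0).B n * (M.T M.i0).B n) ^ l * (M.T M.i0).B n := by
    rw [← pow_two, ← pow_mul, ← pow_succ', ← pow_succ]
    congr 1
  have e5 : (M.T M.i0).B n * M.R κ (List.finRange l) * (M.T M.i0).B n
      - (M.T M.i0).B n ^ (2 * (l + 1))
      = star ((M.T M.i0).B n) * (M.R κ (List.finRange l)
        - ((M.T M.i0).B n * (M.T M.i0).B n) ^ l) * (M.T M.i0).B n := by
    rw [hb, hpow]; noncomm_ring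
  have hRge : ((M.T M.i0).B n * (M.T M.i0).B n) ^ l ≤ M.R κ (List.finRange l) := by
    have h1 := M.R_ge κ (List.finRange l) (List.nodup_finRange l)
    rw [List.length_finRange] at h1
    refine le_trans ?_ h1
    refine pow_le_pow_of_commute hb ((M.T M.i0).B_sa κ) ?_ ((M.T M.i0).B_anti κ n κ.2.le) l
    exact Tower.commute_B_of (fun k => by
      refine Commute.symm (Tower.commute_B_of (fun j => ?_) n)
      by_cases hkj : k = j
      · subst hkj; exact Commute.refl _
      · exact (M.T M.i0).comm k j hkj _ ((M.T M.i0).hβ k) _ ((M.T M.i0).hβ j)) κ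
  have h5 : 0 ≤ (M.T M.i0).B n * M.R κ (List.finRange l) * (M.T M.i0).B n
      - (M.T M.i0).B n ^ (2 * (l + 1)) := by
    rw [e5]
    exact star_left_conjugate_nonneg (sub_nonneg.2 hRge) _
  have c6 : ∀ x ∈ X.ex, Commute x
      ((M.T M.i0).B n * M.R κ (List.finRange l) * (M.T M.i0).B n
        - (M.T M.i0).B n ^ (2 * (l + 1))) := fun x hx =>
    (((X.commB hx n).mul_right (M.commute_R_of κ (fun i => hex.commA X hx i κ)
      (fun i => hex.commAs X hx i κ) (X.commB hx κ) _)).mul_right (X.commB hx n)).sub_right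
      ((X.commB hx n).pow_right _)
  have e7 : star (X.h κ) * (star X.τ * X.τ) * X.h κ *
      ((M.T M.i0).B n * M.R κ (List.finRange l) * (M.T M.i0).B n
        - (M.T M.i0).B n ^ (2 * (l + 1)))
      = star (X.τ * X.h κ) *
      ((M.T M.i0).B n * M.R κ (List.finRange l) * (M.T M.i0).B n
        - (M.T M.i0).B n ^ (2 * (l + 1))) * (X.τ * X.h κ) := by
    rw [mul_assoc (star (X.τ * X.h κ)), ← ((c6 _ X.hτ).mul_left (c6 _ (X.hh κ))).eq, star_mul]
    simp only [mul_assoc]
  rw [e7]
  exact star_left_conjugate_nonneg h5 _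

/-- The output of the general step 7 from a tower with extra legs. -/
noncomputable def absData (hex : ExComm X) : ModeAbsData l G where
  w i := (M.T i).A n
  Q := M.Qs n (List.finRange l)
  S := X.S
  b := (M.T M.i0).B n
  b_sa := (M.T M.i0).B_sa n
  ww i := (M.T i).AA n
  sum_eq i := by rw [← M.hB i n]; exact (M.T i).AsA_add n
  comm i j h := ((M.mode_A i j h n).A n).symm
  comms i j h := ((M.mode_As i j h n).A n).symm
  bw i := M.B_A n n i
  Q_eq := by rw [List.ofFn_eq_map]; rfl
  bS := X.bS
  le := le_main X hex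

end Order

end MTower

section Final

variable {F : Type u} {G : Type v} [CStarAlgebra F] [CStarAlgebra G]

/-- `V i`, `P i` of one mode as leg data. -/
def ModeData.toLegData {l : ℕ} (D : ModeData l F) (i : Fin l) : LegData F where
  V := D.V i
  P := D.P i
  β := D.β
  E := D.E
  N := D.N
  d := D.d
  β_sa := D.β_sa
  E_sa := D.E_sa
  VV := D.VV i
  VP := D.VP i
  VsP := D.VsP i
  PsP := D.PsP i
  PPs := D.PPs i
  VsV := D.VsV i
  βV := D.βV i
  βP := D.βP i
  Eβ := D.Eβ
  EV := D.EV i
  VE := D.VE i
  full := D.full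

theorem towerOf_commute {n : ℕ} (σ : Fin n → F →⋆ₐ[ℂ] G)
    (hσ : ∀ i j, i ≠ j → ∀ x y, Commute (σ i x) (σ j y)) (k k' : ℕ) (x y : F) (c c' : G)
    (hc : c = 0 ∨ c = 1) (hc' : c' = 0 ∨ c' = 1) (hxy : Commute x y) :
    Commute (if h : k < n then σ ⟨k, h⟩ x else c) (if h : k' < n then σ ⟨k', h⟩ y else c') := by
  have hc1 : ∀ z, Commute c z := fun z => by
    rcases hc with rfl | rfl
    · exact Commute.zero_left _
    · exact Commute.one_left _
  have hc2 : ∀ z, Commute z c' := fun z => by
    rcases hc' with rfl | rfl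
    · exact Commute.zero_right _
    · exact Commute.one_right _
  by_cases h : k < n
  · by_cases h' : k' < n
    · simp only [h, h', dif_pos]
      by_cases hk : k = k'
      · subst hk
        exact hxy.map (σ ⟨k, h⟩)
      · exact hσ _ _ (by simpa using hk) x y
    · simp only [h', dif_neg, not_false_eq_true]
      exact hc2 _
  · simp only [h, dif_neg, not_false_eq_true]
    exact hc1 _

theorem star_dite' {n : ℕ} (σ : Fin n → F →⋆ₐ[ℂ] G) (k : ℕ) (x : F) (c : G) (hc : star c = c) :
    star (if h : k < n then σ ⟨k, h⟩ x else c) = if h : k < n then σ ⟨k, h⟩ (star x) else c := by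
  by_cases h : k < n
  · simp only [h, ↓reduceDIte, map_star]
  · simp [h, hc]

/-- All the towers together. -/
noncomputable def mtowerOf {l : ℕ} (i0 : Fin l) (D : ModeData l F) {n : ℕ}
    (σ : Fin n → F →⋆ₐ[ℂ] G)
    (hσ : ∀ i j, i ≠ j → ∀ x y, Commute (σ i x) (σ j y)) : MTower l G where
  T i := towerOf (D.toLegData i) σ hσ
  i0 := i0
  hβ _ _ := rfl
  hE _ _ := rfl
  hleg _ _ := rfl
  cV i j h k :=
    { V := fun k' => towerOf_commute σ hσ k k' _ _ _ _ (Or.inl rfl) (Or.inl rfl)
        (D.cVV j i h.symm)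
      Vs := fun k' => by
        have e := star_dite' σ k' (D.V i) 0 (star_zero _)
        change Commute _ (star (if h : k' < n then σ ⟨k', h⟩ (D.V i) else 0))
        rw [e]
        exact towerOf_commute σ hσ k k' _ _ _ _ (Or.inl rfl) (Or.inl rfl)
          (D.cVVs j i h.symm)
      P := fun k' => towerOf_commute σ hσ k k' _ _ _ _ (Or.inl rfl) (Or.inr rfl)
        (D.cVP j i h.symm)
      Ps := fun k' => by
        have e := star_dite' σ k' (D.P i) 1 (star_one _)
        change Commute _ (star (if h : k' < n then σ ⟨k', h⟩ (D.P i) else 1))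
        rw [e]
        exact towerOf_commute σ hσ k k' _ _ _ _ (Or.inl rfl) (Or.inr rfl)
          (D.cVPs j i h.symm) }
  cP i j h k :=
    { V := fun k' => towerOf_commute σ hσ k k' _ _ _ _ (Or.inr rfl) (Or.inl rfl)
        (D.cVP i j h).symm
      Vs := fun k' => by
        have e := star_dite' σ k' (D.V i) 0 (star_zero _)
        change Commute _ (star (if h : k' < n then σ ⟨k', h⟩ (D.V i) else 0))
        rw [e]
        refine towerOf_commute σ hσ k k' _ _ _ _ (Or.inr rfl) (Or.inl rfl) ?_
        have := (D.cVPs i j h).star_star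
        change Commute (D.P j) (star (D.V i))
        simpa using this.symm
      P := fun k' => towerOf_commute σ hσ k k' _ _ _ _ (Or.inr rfl) (Or.inr rfl)
        (D.cPP j i h.symm)
      Ps := fun k' => by
        have e := star_dite' σ k' (D.P i) 1 (star_one _)
        change Commute _ (star (if h : k' < n then σ ⟨k', h⟩ (D.P i) else 1))
        rw [e]
        exact towerOf_commute σ hσ k k' _ _ _ _ (Or.inr rfl) (Or.inr rfl)
          (D.cPPs j i h.symm) }

theorem step7G [PartialOrder G] [StarOrderedRing G] (l : ℕ) (hl : 0 < l) (D : ModeData l F)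
    (L : Legs (Fin (D.N ^ D.N) ⊕ Fin D.N) F G) :
    Nonempty (ModeAbsData l G) := by
  classical
  set n := D.N ^ D.N with hn
  let i0 : Fin l := ⟨0, hl⟩
  let σ : Fin n → F →⋆ₐ[ℂ] G := fun i => L.σ (Sum.inl i)
  have hσ : ∀ i j, i ≠ j → ∀ x y, Commute (σ i x) (σ j y) := fun i j h x y =>
    L.comm _ _ (by simpa using h) x y
  let K : Legs (Fin D.N) F G := ⟨fun j => L.σ (Sum.inr j), fun i j h x y =>
    L.comm _ _ (by simpa using h) x y⟩
  let M := mtowerOf i0 D σ hσ
  obtain ⟨X, hX⟩ := exists_extra (D.toLegData i0) σ hσ K hn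
    (fun i j x y => L.comm _ _ (by simp) x y)
  have hex : MTower.ExComm (M := M) X := by
    intro i x hx
    have h := hX x hx
    exact
      { V := fun k => h k _ ((M.T i).hV k)
        Vs := fun k => h k _ ((M.T i).star_mem k _ ((M.T i).hV k))
        P := fun k => h k _ ((M.T i).hP k)
        Ps := fun k => h k _ ((M.T i).star_mem k _ ((M.T i).hP k)) }
  exact ⟨MTower.absData (M := M) X hex⟩

end Final

end Vale.Agent.P101
end

section

/-! Stage 1 of the gluing theorem: the cone homomorphism. -/

open scoped BigOperators Kronecker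

namespace Vale.Agent.P101

universe u

namespace GlueA

section Tau

variable {G : Type u} [CStarAlgebra G]

/-- real part of the extension to the line -/
noncomputable def rp (h : C(unitInterval, ℂ)) (t : ℝ) : ℝ :=
  (h (Set.projIcc 0 1 zero_le_one t)).re

/-- imaginary part of the extension to the line -/
noncomputable def ip (h : C(unitInterval, ℂ)) (t : ℝ) : ℝ :=
  (h (Set.projIcc 0 1 zero_le_one t)).im

theorem rp_cont (h : C(unitInterval, ℂ)) : Continuous (rp h) :=
  Complex.continuous_re.comp (h.continuous.comp continuous_projIcc)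

theorem ip_cont (h : C(unitInterval, ℂ)) : Continuous (ip h) :=
  Complex.continuous_im.comp (h.continuous.comp continuous_projIcc)

/-- functional calculus of a self-adjoint element, for complex functions on the unit interval. -/
noncomputable def tauFun (z : G) (h : C(unitInterval, ℂ)) : G :=
  cfc (rp h) z + Complex.I • cfc (ip h) z

theorem tauFun_mul (z : G) (h k : C(unitInterval, ℂ)) :
    tauFun z (h * k) = tauFun z h * tauFun z k := by
  have c1 := rp_cont h
  have c2 := ip_cont h
  have c3 := rp_cont k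
  have c4 := ip_cont k
  have e1 : rp (h * k) = fun t => rp h t * rp k t - ip h t * ip k t := by
    funext t; simp [rp, ip, Complex.mul_re]
  have e2 : ip (h * k) = fun t => rp h t * ip k t + ip h t * rp k t := by
    funext t; simp [rp, ip, Complex.mul_im]
  unfold tauFun
  rw [e1, e2, cfc_sub (fun t => rp h t * rp k t) (fun t => ip h t * ip k t) z (by fun_prop)
      (by fun_prop),
    cfc_add z (fun t => rp h t * ip k t) (fun t => ip h t * rp k t) (by (clear * - c1 c4; fun_prop)) (by fun_prop),
    cfc_mul (rp h) (rp k) z (by fun_prop) (by fun_prop),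
    cfc_mul (ip h) (ip k) z (by fun_prop) (by fun_prop),
    cfc_mul (rp h) (ip k) z (by fun_prop) (by fun_prop),
    cfc_mul (ip h) (rp k) z (by fun_prop) (by fun_prop)]
  simp only [add_mul, mul_add, smul_mul_assoc, mul_smul_comm, smul_add, smul_smul,
    Complex.I_mul_I, neg_smul, one_smul]
  abel

theorem tauFun_add (z : G) (h k : C(unitInterval, ℂ)) :
    tauFun z (h + k) = tauFun z h + tauFun z k := by
  have c1 := rp_cont h
  have c2 := ip_cont h
  have c3 := rp_cont k
  have c4 := ip_cont k
  have e1 : rp (h + k) = fun t => rp h t + rp k t := by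
    funext t; simp [rp]
  have e2 : ip (h + k) = fun t => ip h t + ip k t := by
    funext t; simp [ip]
  unfold tauFun
  rw [e1, e2, cfc_add z (rp h) (rp k) (by (clear * - c1; fun_prop)) (by fun_prop),
    cfc_add z (ip h) (ip k) (by (clear * - c2; fun_prop)) (by fun_prop), smul_add]
  abel

theorem tauFun_const (z : G) (hz : IsSelfAdjoint z) (r : ℂ) :
    tauFun z (algebraMap ℂ C(unitInterval, ℂ) r) = algebraMap ℂ G r := by
  have e1 : rp (algebraMap ℂ C(unitInterval, ℂ) r) = fun _ => r.re := by
    funext t; simp [rp]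
  have e2 : ip (algebraMap ℂ C(unitInterval, ℂ) r) = fun _ => r.im := by
    funext t; simp [ip]
  unfold tauFun
  rw [e1, e2, cfc_const r.re z hz, cfc_const r.im z hz]
  rw [Algebra.algebraMap_eq_smul_one, Algebra.algebraMap_eq_smul_one,
    Algebra.algebraMap_eq_smul_one]
  rw [← Complex.coe_smul r.re (1 : G), ← Complex.coe_smul r.im (1 : G), smul_smul, ← add_smul]
  congr 1
  rw [mul_comm]; exact Complex.re_add_im r

theorem tauFun_star (z : G) (h : C(unitInterval, ℂ)) :
    tauFun z (star h) = star (tauFun z h) := by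
  have c2 := ip_cont h
  have e1 : rp (star h) = rp h := by
    funext t; simp only [rp, ContinuousMap.star_apply, RCLike.star_def, Complex.conj_re]
  have e2 : ip (star h) = fun t => - ip h t := by
    funext t; simp only [ip, ContinuousMap.star_apply, RCLike.star_def, Complex.conj_im]
  unfold tauFun
  rw [e1, e2, cfc_neg (ip h) z, star_add, star_smul, Step6.star_cfc_real, Step6.star_cfc_real]
  simp only [smul_neg, RCLike.star_def, Complex.conj_I, neg_smul]

/-- `τ`: functional calculus as a star homomorphism from `C([0,1])`. -/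
noncomputable def tau (z : G) (hz : IsSelfAdjoint z) : C(unitInterval, ℂ) →⋆ₐ[ℂ] G where
  toFun := tauFun z
  map_one' := by
    have := tauFun_const z hz 1
    rwa [map_one, map_one] at this
  map_mul' := tauFun_mul z
  map_zero' := by
    have := tauFun_const z hz 0
    rwa [map_zero, map_zero] at this
  map_add' := tauFun_add z
  commutes' := tauFun_const z hz
  map_star' := tauFun_star z

theorem tau_apply (z : G) (hz : IsSelfAdjoint z) (h : C(unitInterval, ℂ)) :
    tau z hz h = cfc (rp h) z + Complex.I • cfc (ip h) z := rfl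

theorem tau_commute (z : G) (hz : IsSelfAdjoint z) (h : C(unitInterval, ℂ)) {x : G}
    (hx : Commute x z) : Commute x (tau z hz h) := by
  rw [tau_apply]
  exact (hx.symm.cfc_real _).symm.add_right ((hx.symm.cfc_real _).symm.smul_right _)

theorem tau_mul_of_mul_eq_zero (z : G) (hz : IsSelfAdjoint z) (h : C(unitInterval, ℂ)) {x : G}
    (hx : z * x = 0) : tau z hz h * x = h 0 • x := by
  rw [tau_apply, add_mul, smul_mul_assoc,
    Step6.cfc_mul_of_mul_eq_zero z x hz hx _ (rp_cont h),
    Step6.cfc_mul_of_mul_eq_zero z x hz hx _ (ip_cont h)]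
  have e0 : Set.projIcc (0 : ℝ) 1 zero_le_one 0 = 0 := Set.projIcc_left _
  have e1 : rp h 0 = (h 0).re := by unfold rp; rw [e0]
  have e2 : ip h 0 = (h 0).im := by unfold ip; rw [e0]
  rw [e1, e2, ← Complex.coe_smul (h 0).re x, ← Complex.coe_smul (h 0).im x, smul_smul, ← add_smul]
  congr 1
  rw [mul_comm]; exact Complex.re_add_im _

/-- the coordinate function -/
noncomputable def idc : C(unitInterval, ℂ) := ⟨fun t => ((t : ℝ) : ℂ), by fun_prop⟩

theorem tau_id (z : G) (hz : IsSelfAdjoint z) (hsp : ∀ t ∈ spectrum ℝ z, t ∈ Set.Icc (0 : ℝ) 1) :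
    tau z hz idc = z := by
  rw [tau_apply]
  have e1 : cfc (rp idc) z = z := by
    have : cfc (rp idc) z = cfc (fun t : ℝ => t) z := by
      refine cfc_congr fun t ht => ?_
      simp only [rp, idc, ContinuousMap.coe_mk, Complex.ofReal_re]
      rw [Set.projIcc_of_mem zero_le_one (hsp t ht)]
    rw [this, cfc_id' ℝ z]
  have e2 : cfc (ip idc) z = 0 := by
    have : ip idc = fun _ => (0 : ℝ) := by
      funext t; simp [ip, idc]
    rw [this, cfc_const_zero ℝ z]
  rw [e1, e2]; simp

end Tau

section Cone

variable {α : Type} [Fintype α] [DecidableEq α] [Nonempty α]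

/-- the scalar value at the right end -/
noncomputable def sc (F : coneAlg α) : ℂ :=
  (F : C(unitInterval, Matrix α α ℂ)) 1 (Classical.arbitrary α) (Classical.arbitrary α)

theorem sc_spec (F : coneAlg α) (t : unitInterval) (ht : 2 / 3 ≤ (t : ℝ)) :
    (F : C(unitInterval, Matrix α α ℂ)) t = sc F • (1 : Matrix α α ℂ) := by
  obtain ⟨c, hc⟩ := F.2
  have h1 := hc 1 (by (clear * -; norm_num))
  have : sc F = c := by unfold sc; rw [h1]; simp
  rw [this]; exact hc t ht

theorem sc_eq (F : coneAlg α) (c : ℂ)
    (h : (F : C(unitInterval, Matrix α α ℂ)) 1 = c • (1 : Matrix α α ℂ)) : sc F = c := by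
  unfold sc; rw [h]; simp

theorem sc_one_eq (F : coneAlg α) :
    (F : C(unitInterval, Matrix α α ℂ)) 1 = sc F • (1 : Matrix α α ℂ) :=
  sc_spec F 1 (by norm_num)

theorem sc_mul (F H : coneAlg α) : sc (F * H) = sc F * sc H := by
  apply sc_eq
  show (F : C(unitInterval, Matrix α α ℂ)) 1 * (H : C(unitInterval, Matrix α α ℂ)) 1 = _
  rw [sc_one_eq F, sc_one_eq H]; simp only [Algebra.mul_smul_comm, mul_one, smul_smul, mul_comm]

theorem sc_add (F H : coneAlg α) : sc (F + H) = sc F + sc H := by
  apply sc_eq
  show (F : C(unitInterval, Matrix α α ℂ)) 1 + (H : C(unitInterval, Matrix α α ℂ)) 1 = _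
  rw [sc_one_eq F, sc_one_eq H, add_smul]

theorem sc_star (F : coneAlg α) : sc (star F) = star (sc F) := by
  apply sc_eq
  show star ((F : C(unitInterval, Matrix α α ℂ)) 1) = _
  rw [sc_one_eq F]; simp only [star_smul, RCLike.star_def, star_one]

theorem sc_algebraMap (r : ℂ) : sc (algebraMap ℂ (coneAlg α) r) = r := by
  apply sc_eq
  show (algebraMap ℂ C(unitInterval, Matrix α α ℂ) r) 1 = _
  rw [Algebra.algebraMap_eq_smul_one]; rfl

/-- matrix entries minus the scalar part -/
noncomputable def en (F : coneAlg α) (k l : α) : C(unitInterval, ℂ) where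
  toFun t := (F : C(unitInterval, Matrix α α ℂ)) t k l - if k = l then sc F else 0
  continuous_toFun := by
    refine Continuous.sub ?_ continuous_const
    exact ((F : C(unitInterval, Matrix α α ℂ)).continuous.matrix_elem k l)

theorem en_apply (F : coneAlg α) (k l : α) (t : unitInterval) :
    en F k l t = (F : C(unitInterval, Matrix α α ℂ)) t k l - if k = l then sc F else 0 := rfl

theorem en_eq_zero (F : coneAlg α) (k l : α) (t : unitInterval) (ht : 2 / 3 ≤ (t : ℝ)) :
    en F k l t = 0 := by
  rw [en_apply, sc_spec F t ht, Matrix.smul_apply, Matrix.one_apply]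
  split_ifs <;> simp

theorem en_mul (F H : coneAlg α) (k l : α) :
    en (F * H) k l = ∑ j, en F k j * en H j l + sc H • en F k l + sc F • en H k l := by
  ext t
  simp only [en_apply, sc_mul, ContinuousMap.add_apply, ContinuousMap.coe_sum, Finset.sum_apply, ContinuousMap.mul_apply, ContinuousMap.smul_apply, smul_eq_mul]
  have e : ((F * H : coneAlg α) : C(unitInterval, Matrix α α ℂ)) t k l
      = ∑ j, (F : C(unitInterval, Matrix α α ℂ)) t k j * (H : C(unitInterval, Matrix α α ℂ)) t j l := by
    show ((F : C(unitInterval, Matrix α α ℂ)) t * (H : C(unitInterval, Matrix α α ℂ)) t) k l = _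
    rw [Matrix.mul_apply]
  rw [e]
  simp only [sub_mul, mul_sub, Finset.sum_sub_distrib, mul_ite, ite_mul, mul_zero, zero_mul,
    Finset.sum_ite_eq, Finset.sum_ite_eq', Finset.mem_univ, if_true]
  split_ifs with h
  · subst h; ring
  · ring

theorem en_add (F H : coneAlg α) (k l : α) : en (F + H) k l = en F k l + en H k l := by
  ext t
  simp only [ContinuousMap.add_apply, en_apply, sc_add]
  have e : ((F + H : coneAlg α) : C(unitInterval, Matrix α α ℂ)) t k l
      = (F : C(unitInterval, Matrix α α ℂ)) t k l + (H : C(unitInterval, Matrix α α ℂ)) t k l := rfl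
  rw [e]; split_ifs <;> ring

theorem en_star (F : coneAlg α) (k l : α) : en (star F) k l = star (en F l k) := by
  ext t
  simp only [ContinuousMap.star_apply, en_apply, sc_star]
  have e : ((star F : coneAlg α) : C(unitInterval, Matrix α α ℂ)) t k l
      = star ((F : C(unitInterval, Matrix α α ℂ)) t l k) := rfl
  rw [e, star_sub]
  by_cases h : k = l
  · subst h; simp only [RCLike.star_def, ↓reduceIte]
  · have h' : ¬ l = k := fun h' => h h'.symm
    simp only [RCLike.star_def, h, ↓reduceIte, sub_zero, h', star_zero]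

theorem en_algebraMap (r : ℂ) (k l : α) : en (algebraMap ℂ (coneAlg α) r) k l = 0 := by
  ext t
  rw [en_apply, sc_algebraMap]
  have e : ((algebraMap ℂ (coneAlg α) r : coneAlg α) : C(unitInterval, Matrix α α ℂ)) t
      = r • (1 : Matrix α α ℂ) := by
    show (algebraMap ℂ C(unitInterval, Matrix α α ℂ) r) t = _
    rw [Algebra.algebraMap_eq_smul_one]; rfl
  rw [e, Matrix.smul_apply, Matrix.one_apply]
  split_ifs <;> simp

/-- `1 / max (1 - t, 1/3)` -/
noncomputable def q1 : C(unitInterval, ℂ) :=
  ⟨fun t => (((max (1 - (t : ℝ)) (1 / 3))⁻¹ : ℝ) : ℂ), by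
    refine Complex.continuous_ofReal.comp (Continuous.inv₀ (by fun_prop) fun t => ?_)
    exact (lt_max_of_lt_right (by norm_num)).ne'⟩

/-- `1 / sqrt (max (t, 1/3))` -/
noncomputable def q2 : C(unitInterval, ℂ) :=
  ⟨fun t => (((Real.sqrt (max (t : ℝ) (1 / 3)))⁻¹ : ℝ) : ℂ), by
    refine Complex.continuous_ofReal.comp (Continuous.inv₀ (by fun_prop) fun t => ?_)
    exact (Real.sqrt_pos.2 (lt_max_of_lt_right (by norm_num))).ne'⟩

/-- `t / max (t, 1/3)` -/
noncomputable def mm : C(unitInterval, ℂ) :=
  ⟨fun t => (((t : ℝ) * (max (t : ℝ) (1 / 3))⁻¹ : ℝ) : ℂ), by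
    refine Complex.continuous_ofReal.comp (Continuous.mul (by fun_prop)
      (Continuous.inv₀ (by fun_prop) fun t => ?_))
    exact (lt_max_of_lt_right (by norm_num)).ne'⟩

theorem q1_star : star q1 = q1 := by ext t; simp only [q1, one_div, Complex.ofReal_inv, ContinuousMap.star_apply, ContinuousMap.coe_mk, star_inv₀, RCLike.star_def, Complex.conj_ofReal]

theorem q2_star : star q2 = q2 := by ext t; simp only [q2, one_div, Complex.ofReal_inv, ContinuousMap.star_apply, ContinuousMap.coe_mk, star_inv₀, RCLike.star_def, Complex.conj_ofReal]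

theorem q1_key (h : C(unitInterval, ℂ)) (hh : ∀ t : unitInterval, 2 / 3 ≤ (t : ℝ) → h t = 0) :
    q1 * h * (1 - idc) = h := by
  ext t
  by_cases ht : 2 / 3 ≤ (t : ℝ)
  · simp only [ContinuousMap.mul_apply, hh t ht, mul_zero, ContinuousMap.sub_apply, ContinuousMap.one_apply, zero_mul]
  · push Not at ht
    have h1 : max (1 - (t : ℝ)) (1 / 3) = 1 - t := max_eq_left (by linarith only [ht])
    have h2 : (1 - (t : ℝ)) ≠ 0 := by have : 0 < 1 - (t : ℝ) := by linarith only [ht]
                                      exact this.ne'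
    have h3 : (1 - ((t : ℝ) : ℂ)) ≠ 0 := by exact_mod_cast h2
    simp only [ContinuousMap.mul_apply, ContinuousMap.sub_apply, ContinuousMap.one_apply, q1, idc,
      ContinuousMap.coe_mk, h1]
    push_cast
    field_simp

theorem q2_key : q2 * q2 * idc = mm := by
  ext t
  have h1 : 0 < max (t : ℝ) (1 / 3) := lt_max_of_lt_right (by norm_num)
  have h2 : Real.sqrt (max (t : ℝ) (1 / 3)) * Real.sqrt (max (t : ℝ) (1 / 3))
      = max (t : ℝ) (1 / 3) := Real.mul_self_sqrt h1.le
  simp only [ContinuousMap.mul_apply, q2, idc, mm, ContinuousMap.coe_mk]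
  rw [← Complex.ofReal_mul, ← Complex.ofReal_mul, ← mul_inv, h2, mul_comm]

end Cone

end GlueA

open GlueA in
theorem glueA {G : Type u} [CStarAlgebra G] {α : Type} [Fintype α] [DecidableEq α] [Nonempty α]
    (D : GlueData α Unit G) : Nonempty (ConeData α G) := by
  let _ : PartialOrder G := CStarAlgebra.spectralOrder G
  have _ : StarOrderedRing G := CStarAlgebra.spectralOrderedRing G
  obtain ⟨g, e, z, s', gg, sum_eq, gz, ss, es⟩ := D
  set s : G := s' () with hs
  have ss' : star s * s = z := by simpa only [↓reduceIte] using ss () ()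
  have es' : e * s = s := es ()
  have z0 : 0 ≤ z := by rw [← ss']; exact star_mul_self_nonneg _
  have z_sa : IsSelfAdjoint z := z0.isSelfAdjoint
  have z1 : z ≤ 1 := by
    have : 0 ≤ ∑ k, g k * star (g k) := Finset.sum_nonneg fun k _ => mul_star_self_nonneg _
    rw [sum_eq] at this
    exact sub_nonneg.1 this
  have hsp : ∀ t ∈ spectrum ℝ z, t ∈ Set.Icc (0 : ℝ) 1 := by
    intro t ht
    refine ⟨spectrum_nonneg_of_nonneg z0 ht, ?_⟩
    rcases subsingleton_or_nontrivial G with hG | hG
    · exact absurd ht (by simp [spectrum.of_subsingleton])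
    · have h1 := spectrum.norm_le_norm_of_mem ht
      have h2 : ‖z‖ ≤ 1 := (CStarAlgebra.norm_le_one_iff_of_nonneg z z0).2 z1
      exact (le_abs_self t).trans (h1.trans h2)
  have gzs : ∀ k, Commute (star (g k)) z := fun k => by
    have := (gz k).star_star
    rwa [z_sa.star_eq] at this
  set k0 : α := Classical.arbitrary α with hk0
  have e_def : e = star (g k0) * g k0 := by simpa only [↓reduceIte] using (gg k0 k0).symm
  have e_sa : star e = e := by rw [e_def]; simp only [star_mul, star_star]
  have ez : Commute e z := by rw [e_def]; exact (gzs k0).mul_left (gz k0)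
  have ge : ∀ l, g l * e = (1 - z) * g l := by
    intro l
    have h1 : (∑ k, g k * star (g k)) * g l = g l * e := by
      rw [Finset.sum_mul, Finset.sum_eq_single l]
      · rw [mul_assoc, gg, if_pos rfl]
      · intro k _ hk
        rw [mul_assoc, gg, if_neg hk, mul_zero]
      · intro h; exact absurd (Finset.mem_univ l) h
    rw [← h1, sum_eq]
  have egs : ∀ l, e * star (g l) = (1 - z) * star (g l) := by
    intro l
    have h1 := congrArg star (ge l)
    rw [star_mul, star_mul, e_sa, star_sub, star_one, z_sa.star_eq] at h1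
    rw [h1, mul_sub, sub_mul, mul_one, one_mul, (gzs l).eq]
  have ee : e * e = (1 - z) * e := by
    have h1 : e * e = star (g k0) * (g k0 * e) := by
      conv_lhs => rw [e_def, mul_assoc]
      rw [← e_def]
    rw [h1, ge, ← mul_assoc]
    have h2 : star (g k0) * (1 - z) = (1 - z) * star (g k0) := by
      rw [mul_sub, sub_mul, mul_one, one_mul, (gzs k0).eq]
    rw [h2, mul_assoc, ← e_def]
  have zs : z * s = 0 := by
    have h1 : e * e * s = s := by rw [mul_assoc, es', es']
    rw [ee, mul_assoc, es', sub_mul, one_mul] at h1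
    simpa only [sub_eq_self] using h1
  set τ := tau z z_sa with hτ
  have τid : τ idc = z := tau_id z z_sa hsp
  have τg : ∀ h k, Commute (g k) (τ h) := fun h k => tau_commute z z_sa h (gz k)
  have τgs : ∀ h k, Commute (star (g k)) (τ h) := fun h k => tau_commute z z_sa h (gzs k)
  have τe : ∀ h, Commute e (τ h) := fun h => tau_commute z z_sa h ez
  have τz : τ (1 - idc) = 1 - z := by rw [map_sub, map_one, τid]
  have τs : ∀ h, τ h * s = h 0 • s := fun h => tau_mul_of_mul_eq_zero z z_sa h zs
  -- the linear part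
  let Λ : coneAlg α → G := fun F => ∑ k, ∑ l, g k * τ (q1 * en F k l) * star (g l)
  have Λ_add : ∀ F H, Λ (F + H) = Λ F + Λ H := by
    intro F H
    simp only [Λ, en_add, mul_add, map_add, add_mul, Finset.sum_add_distrib]
  have Λ_alg : ∀ r, Λ (algebraMap ℂ (coneAlg α) r) = 0 := by
    intro r
    simp only [Λ, en_algebraMap, mul_zero, map_zero, zero_mul, Finset.sum_const_zero]
  have Λ_star : ∀ F, Λ (star F) = star (Λ F) := by
    intro F
    simp only [Λ, star_sum, star_mul, star_star]
    rw [Finset.sum_comm]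
    refine Finset.sum_congr rfl fun l _ => Finset.sum_congr rfl fun k _ => ?_
    rw [← map_star, star_mul, q1_star, en_star, mul_comm (star (en F l k)) q1, mul_assoc]
  have Λ_mul : ∀ F H, Λ (F * H) = Λ F * Λ H + sc H • Λ F + sc F • Λ H := by
    intro F H
    have h1 : Λ F * Λ H = ∑ k, ∑ l, ∑ j, g k * τ (q1 * (en F k j * en H j l)) * star (g l) := by
      simp only [Λ]
      rw [Finset.sum_mul]
      refine Finset.sum_congr rfl fun k _ => ?_
      have h2 : ∀ j, (g k * τ (q1 * en F k j) * star (g j)) *
          (∑ k', ∑ l, g k' * τ (q1 * en H k' l) * star (g l))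
          = ∑ l, g k * τ (q1 * (en F k j * en H j l)) * star (g l) := by
        intro j
        rw [Finset.mul_sum, Finset.sum_eq_single j]
        · rw [Finset.mul_sum]
          refine Finset.sum_congr rfl fun l _ => ?_
          have h3 : (g k * τ (q1 * en F k j) * star (g j)) * (g j * τ (q1 * en H j l) * star (g l))
              = g k * τ (q1 * en F k j) * (star (g j) * g j) * τ (q1 * en H j l) * star (g l) := by
            noncomm_ring
          have h4 : q1 * en F k j * (q1 * en H j l) * (1 - idc) = q1 * (en F k j * en H j l) := by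
            have := q1_key (en F k j * en H j l) (fun t ht => by
              rw [ContinuousMap.mul_apply, en_eq_zero F k j t ht, zero_mul])
            calc q1 * en F k j * (q1 * en H j l) * (1 - idc)
                = q1 * (q1 * (en F k j * en H j l) * (1 - idc)) := by ring
              _ = _ := by rw [this]
          have h6 : τ (q1 * (en F k j * en H j l))
              = τ (q1 * en F k j) * τ (q1 * en H j l) * (1 - z) := by
            rw [← h4, map_mul τ (q1 * en F k j * (q1 * en H j l)) (1 - idc),
              map_mul τ (q1 * en F k j) (q1 * en H j l), τz]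
          rw [h3, gg, if_pos rfl, h6]
          have h5 : e * τ (q1 * en H j l) * star (g l) = τ (q1 * en H j l) * ((1 - z) * star (g l)) := by
            rw [(τe _).eq, mul_assoc, egs]
          calc g k * τ (q1 * en F k j) * e * τ (q1 * en H j l) * star (g l)
              = g k * τ (q1 * en F k j) * (e * τ (q1 * en H j l) * star (g l)) := by noncomm_ring
            _ = _ := by rw [h5]; noncomm_ring
        · intro k' _ hk'
          rw [Finset.mul_sum]
          refine Finset.sum_eq_zero fun l _ => ?_
          calc (g k * τ (q1 * en F k j) * star (g j)) * (g k' * τ (q1 * en H k' l) * star (g l))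
              = g k * τ (q1 * en F k j) * (star (g j) * g k') * τ (q1 * en H k' l) * star (g l) := by
                noncomm_ring
            _ = 0 := by rw [gg, if_neg (Ne.symm hk')]; simp only [map_mul, mul_zero, zero_mul]
        · intro h; exact absurd (Finset.mem_univ j) h
      rw [Finset.sum_mul, Finset.sum_congr rfl fun j _ => h2 j, Finset.sum_comm]
    rw [h1]
    simp only [Λ, en_mul, Finset.smul_sum]
    rw [← Finset.sum_add_distrib, ← Finset.sum_add_distrib]
    refine Finset.sum_congr rfl fun k _ => ?_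
    rw [← Finset.sum_add_distrib, ← Finset.sum_add_distrib]
    refine Finset.sum_congr rfl fun l _ => ?_
    rw [mul_add, mul_add, Finset.mul_sum, mul_smul_comm, mul_smul_comm, map_add, map_add, map_sum,
      map_smul, map_smul]
    simp only [mul_add, add_mul, Finset.mul_sum, Finset.sum_mul, mul_smul_comm, smul_mul_assoc]
  let Γ : coneAlg α →⋆ₐ[ℂ] G :=
    { toFun := fun F => algebraMap ℂ G (sc F) + Λ F
      map_one' := by
        have h1 := sc_algebraMap (α := α) 1
        have h2 := Λ_alg 1
        rw [map_one] at h1 h2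
        rw [h1, h2, map_one, add_zero]
      map_mul' := fun F H => by
        rw [sc_mul, Λ_mul, map_mul]
        simp only [Algebra.algebraMap_eq_smul_one, add_mul, mul_add, smul_mul_assoc, one_mul,
          mul_smul_comm, mul_one, smul_add]
        abel
      map_zero' := by
        have h1 := sc_algebraMap (α := α) 0
        have h2 := Λ_alg 0
        rw [map_zero] at h1 h2
        rw [h1, h2, map_zero, add_zero]
      map_add' := fun F H => by
        rw [sc_add, Λ_add, map_add]; abel
      commutes' := fun r => by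
        rw [sc_algebraMap, Λ_alg, add_zero]
      map_star' := fun F => by
        rw [sc_star, Λ_star, star_add]
        congr 1
        rw [Algebra.algebraMap_eq_smul_one, Algebra.algebraMap_eq_smul_one, star_smul, star_one] }
  have Γ_apply : ∀ F, Γ F = algebraMap ℂ G (sc F) + Λ F := fun F => rfl
  -- the function `m`
  let mC : C(unitInterval, Matrix α α ℂ) :=
    ⟨fun t => mm t • (1 : Matrix α α ℂ), mm.continuous.smul continuous_const⟩
  have mC_mem : mC ∈ coneAlg α := by
    refine ⟨1, fun t ht => ?_⟩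
    show mm t • (1 : Matrix α α ℂ) = _
    congr 1
    simp only [mm, ContinuousMap.coe_mk]
    have h1 : max (t : ℝ) (1 / 3) = t := max_eq_left (by linarith only [ht])
    have h2 : (t : ℝ) ≠ 0 := by have : 0 < (t : ℝ) := by linarith only [ht]
                                exact this.ne'
    rw [h1, mul_inv_cancel₀ h2]; simp
  let m : coneAlg α := ⟨mC, mC_mem⟩
  have m_sc : sc m = 1 := by
    apply sc_eq
    show mm 1 • (1 : Matrix α α ℂ) = _
    congr 1
    simp only [mm, ContinuousMap.coe_mk]
    norm_num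
  have Γm : Γ m = τ mm := by
    rw [Γ_apply, m_sc, map_one]
    have h1 : ∀ k l, en m k l = if k = l then mm - 1 else 0 := by
      intro k l
      ext t
      rw [en_apply, m_sc]
      show (mm t • (1 : Matrix α α ℂ)) k l - _ = _
      rw [Matrix.smul_apply, Matrix.one_apply]
      split_ifs <;> simp
    have h2 : Λ m = τ (mm - 1) := by
      simp only [h1, Λ]
      have h3 : ∀ k, ∑ l, g k * τ (q1 * if k = l then mm - 1 else 0) * star (g l)
          = τ (q1 * (mm - 1)) * (g k * star (g k)) := by
        intro k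
        rw [Finset.sum_eq_single k]
        · rw [if_pos rfl, (τg _ _).eq, mul_assoc]
        · intro l _ hl
          rw [if_neg (Ne.symm hl)]; simp only [mul_zero, map_zero, zero_mul]
        · intro h; exact absurd (Finset.mem_univ k) h
      rw [Finset.sum_congr rfl fun k _ => h3 k, ← Finset.mul_sum, sum_eq, ← τz, ← map_mul]
      rw [q1_key (mm - 1)]
      intro t ht
      simp only [ContinuousMap.sub_apply, ContinuousMap.one_apply, mm, ContinuousMap.coe_mk]
      have h1 : max (t : ℝ) (1 / 3) = t := max_eq_left (by linarith only [ht])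
      have h2 : (t : ℝ) ≠ 0 := by have : 0 < (t : ℝ) := by linarith only [ht]
                                  exact this.ne'
      rw [h1, mul_inv_cancel₀ h2]; simp
    rw [h2, map_sub, map_one]; abel
  refine ⟨{ Γ := Γ, u := fun k => g k * s * τ q2, m := m, m_eq := ?_, uu := ?_, Γu := ?_ }⟩
  · intro t ht
    show mm t • (1 : Matrix α α ℂ) = 1
    simp only [mm, ContinuousMap.coe_mk]
    have h1 : max (t : ℝ) (1 / 3) = t := max_eq_left (by linarith only [ht])
    have h2 : (t : ℝ) ≠ 0 := by have : 0 < (t : ℝ) := by linarith only [ht]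
                                exact this.ne'
    rw [h1, mul_inv_cancel₀ h2]; simp
  · intro k l
    have h1 : star (g k * s * τ q2) * (g l * s * τ q2)
        = τ q2 * (star s * ((star (g k) * g l) * s)) * τ q2 := by
      rw [star_mul, star_mul, ← map_star, q2_star]; noncomm_ring
    rw [h1, gg]
    split_ifs
    · rw [es', ss', Γm, ← τid, ← map_mul, ← map_mul, ← q2_key]
      congr 1; ring
    · simp only [zero_mul, mul_zero]
  · intro F k
    rw [Γ_apply, add_mul]
    have h1 : Λ F * (g k * s * τ q2) = ∑ j, en F j k 0 • (g j * s * τ q2) := by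
      simp only [Finset.sum_mul, Λ]
      refine Finset.sum_congr rfl fun j _ => ?_
      rw [Finset.sum_eq_single k]
      · calc g j * τ (q1 * en F j k) * star (g k) * (g k * s * τ q2)
            = g j * (τ (q1 * en F j k) * ((star (g k) * g k) * s)) * τ q2 := by noncomm_ring
          _ = _ := by
            rw [gg, if_pos rfl, es', τs]
            have : (q1 * en F j k) 0 = en F j k 0 := by
              rw [ContinuousMap.mul_apply]
              simp only [q1, ContinuousMap.coe_mk]
              (clear g e z s' gg sum_eq gz ss es s hs ss' es' z0 z_sa z1 hsp gzs k0 hk0 e_def e_sa ez ge egs ee zs τ hτ τid τg τgs τe τz τs Λ Λ_add Λ_alg Λ_star Λ_mul Γ Γ_apply mC mC_mem m m_sc Γm; norm_num)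
            rw [this, mul_smul_comm, smul_mul_assoc]
      · intro l _ hl
        calc g j * τ (q1 * en F j l) * star (g l) * (g k * s * τ q2)
            = g j * τ (q1 * en F j l) * (star (g l) * g k) * (s * τ q2) := by noncomm_ring
          _ = 0 := by rw [gg, if_neg hl]; simp only [map_mul, mul_zero, zero_mul]
      · intro h; exact absurd (Finset.mem_univ k) h
    rw [h1, Algebra.algebraMap_eq_smul_one, smul_mul_assoc, one_mul]
    have h2 : ∀ j, en F j k 0 • (g j * s * τ q2)
        = (F : C(unitInterval, Matrix α α ℂ)) 0 j k • (g j * s * τ q2)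
          - if j = k then sc F • (g j * s * τ q2) else 0 := by
      intro j
      rw [en_apply, sub_smul]
      split_ifs <;> simp
    rw [Finset.sum_congr rfl fun j _ => h2 j, Finset.sum_sub_distrib,
      Finset.sum_ite_eq' Finset.univ k, if_pos (Finset.mem_univ k)]
    abel

end Vale.Agent.P101
end
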