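import Vale.Agent.P095.MathlibUsed
import Vale.Agent.P095.Defs
import Vale.Agent.P095.Bdl.B1
import Vale.Agent.P095.Bdl.B3

set_option linter.all false

namespace AFast4745ecx7a
theorem a0 {x1 : ℕ} {x2 : ℕ} : StarModule ℂ C(↑unitInterval, Matrix (Fin x1 × Fin x2) (Fin x1 × Fin x2) ℂ) := inferInstance
theorem a1 {x1 : ℕ} {x2 : ℕ} : SubringClass (StarSubalgebra ℂ C(↑unitInterval, Matrix (Fin x1 × Fin x2) (Fin x1 × Fin x2) ℂ)) C(↑unitInterval, Matrix (Fin x1 × Fin x2) (Fin x1 × Fin x2) ℂ) := inferInstance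
@[reducible] noncomputable def a2 {x1 : ℕ} {x2 : ℕ} : Ring C(↑unitInterval, Matrix (Fin x1 × Fin x2) (Fin x1 × Fin x2) ℂ) := inferInstance
@[reducible] noncomputable def a3 {x1 : ℕ} {x2 : ℕ} : Semiring C(↑unitInterval, Matrix (Fin x1 × Fin x2) (Fin x1 × Fin x2) ℂ) := inferInstance
theorem a4 {x1 : ℕ} {x2 : ℕ} : ContinuousConstSMul ℂ (Matrix (Fin x1 × Fin x2) (Fin x1 × Fin x2) ℂ) := inferInstance
@[reducible] noncomputable def a5 {x1 : ℕ} {x2 : ℕ} : One ↥(Vale.Agent.P101.dimDrop x1 x2) := inferInstance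
theorem a6 : IsTopologicalSemiring ℂ := inferInstance
theorem a7 {x1 : ℕ} {x2 : ℕ} : IsTopologicalSemiring (Matrix (Fin x1 × Fin x2) (Fin x1 × Fin x2) ℂ) := inferInstance
theorem a8 : IsTopologicalRing ℂ := inferInstance
@[reducible] noncomputable def a9 {x1 : ℕ} {x2 : ℕ} : Star ↥(Vale.Agent.P101.dimDrop x1 x2) := inferInstance
@[reducible] noncomputable def a10 {x1 : ℕ} {x2 : ℕ} : Zero ↥(Vale.Agent.P101.dimDrop x1 x2) := inferInstance
theorem a11 {x1 : ℕ} {x2 : ℕ} : IsTopologicalRing (Matrix (Fin x1 × Fin x2) (Fin x1 × Fin x2) ℂ) := inferInstance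
@[reducible] noncomputable def a12 {x1 : ℕ} {x2 : ℕ} : Algebra ℂ ↥(Vale.Agent.P101.dimDrop x1 x2) := inferInstance
@[reducible] noncomputable def a13 {x1 : ℕ} {x2 : ℕ} : SetLike (StarSubalgebra ℂ C(↑unitInterval, Matrix (Fin x1 × Fin x2) (Fin x1 × Fin x2) ℂ)) C(↑unitInterval, Matrix (Fin x1 × Fin x2) (Fin x1 × Fin x2) ℂ) := inferInstance
@[reducible] noncomputable def a14 {x1 : ℕ} {x2 : ℕ} : Algebra ℂ C(↑unitInterval, Matrix (Fin x1 × Fin x2) (Fin x1 × Fin x2) ℂ) := inferInstance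
theorem a15 {x1 : ℕ} {x2 : ℕ} : StarMemClass (StarSubalgebra ℂ C(↑unitInterval, Matrix (Fin x1 × Fin x2) (Fin x1 × Fin x2) ℂ)) C(↑unitInterval, Matrix (Fin x1 × Fin x2) (Fin x1 × Fin x2) ℂ) := inferInstance
theorem a16 : IsTopologicalDivisionRing ℂ := inferInstance
theorem a17 {x1 : ℕ} {x2 : ℕ} : StarModule ℂ (Matrix (Fin x1 × Fin x2) (Fin x1 × Fin x2) ℂ) := inferInstance
theorem a18 : CharZero ℝ := inferInstance
@[reducible] def a19 {x1 : Type} {x2 : Type} {x3 : Type} {x4 : Type} [x5 : DecidableEq x4] [x6 : DecidableEq x3] [x7 : DecidableEq x1] [x8 : DecidableEq x2] [x9 : Fintype x1] [x10 : Fintype x2] [x11 : Fintype x3] [x12 : Fintype x4] : Semiring (Matrix (x1 × x2 ⊕ x3 × x4) (x1 × x2 ⊕ x3 × x4) ℂ) := inferInstance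
theorem a20 : IsSemitopologicalSemiring ℂ := inferInstance
theorem a21 : IsSemitopologicalRing ℂ := inferInstance
theorem a22.{u1} {x1 : Type u1} [x2 : CStarAlgebra x1] : AddMonoidHomClass (x1 →ₗ[ℂ] ℂ) x1 ℂ := inferInstance
theorem a23.{u1} {x1 : Type u1} [x2 : CStarAlgebra x1] : DistribMulActionSemiHomClass (x1 →ₗ[ℂ] ℂ) (⇑(RingHom.id ℂ)) x1 ℂ := inferInstance
@[reducible] noncomputable def a24 {x1 : ℕ} {x2 : ℕ} : NonAssocSemiring C(↑unitInterval, Matrix (Fin x1 × Fin x2) (Fin x1 × Fin x2) ℂ) := inferInstance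
theorem a25 : ContinuousAdd ℂ := inferInstance
theorem a26 : SeparatelyContinuousMul ℂ := inferInstance
@[reducible] noncomputable def a27 {x1 : ℕ} {x2 : ℕ} : Star C(↑unitInterval, Matrix (Fin x1 × Fin x2) (Fin x1 × Fin x2) ℂ) := inferInstance
@[reducible] def a28 {x1 : Type} : SMulZeroClass ℂ (Matrix (x1 × Option x1) (x1 × Option x1) ℂ) := inferInstance
theorem a29 {x1 : ℕ} {x2 : ℕ} : SubsemiringClass (StarSubalgebra ℂ C(↑unitInterval, Matrix (Fin x1 × Fin x2) (Fin x1 × Fin x2) ℂ)) C(↑unitInterval, Matrix (Fin x1 × Fin x2) (Fin x1 × Fin x2) ℂ) := inferInstance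
@[reducible] noncomputable def a30 {x1 : ℕ} {x2 : ℕ} : AddCommMonoid C(↑unitInterval, Matrix (Fin x1 × Fin x2) (Fin x1 × Fin x2) ℂ) := inferInstance
theorem a31 : ContinuousConstSMul ℂ ℂ := inferInstance
@[reducible] noncomputable def a32 {x1 : ℕ} {x2 : ℕ} : NonUnitalNonAssocSemiring C(↑unitInterval, Matrix (Fin x1 × Fin x2) (Fin x1 × Fin x2) ℂ) := inferInstance
@[reducible] noncomputable def a33 {x1 : ℕ} {x2 : ℕ} : Module ℂ C(↑unitInterval, Matrix (Fin x1 × Fin x2) (Fin x1 × Fin x2) ℂ) := inferInstance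
theorem a34 : ContinuousMul ℂ := inferInstance
theorem a35 : AddRightReflectLE ℝ := inferInstance
theorem a36 {x1 : Type} {x2 : Type} [x3 : Fintype x1] [x4 : Fintype x2] [x5 : DecidableEq x1] [x6 : DecidableEq x2] : StarModule ℂ C(↑unitInterval, Matrix (x1 × x2) (x1 × x2) ℂ) := inferInstance
end AFast4745ecx7a
attribute [local instance] AFast4745ecx7a.a0 AFast4745ecx7a.a1 AFast4745ecx7a.a2 AFast4745ecx7a.a3
  AFast4745ecx7a.a4 AFast4745ecx7a.a5 AFast4745ecx7a.a6 AFast4745ecx7a.a7 AFast4745ecx7a.a8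
  AFast4745ecx7a.a9 AFast4745ecx7a.a10 AFast4745ecx7a.a11 AFast4745ecx7a.a12 AFast4745ecx7a.a13
  AFast4745ecx7a.a14 AFast4745ecx7a.a15 AFast4745ecx7a.a16 AFast4745ecx7a.a17 AFast4745ecx7a.a18
  AFast4745ecx7a.a19 AFast4745ecx7a.a20 AFast4745ecx7a.a21 AFast4745ecx7a.a22 AFast4745ecx7a.a23
  AFast4745ecx7a.a24 AFast4745ecx7a.a25 AFast4745ecx7a.a26 AFast4745ecx7a.a27 AFast4745ecx7a.a28
  AFast4745ecx7a.a29 AFast4745ecx7a.a30 AFast4745ecx7a.a31 AFast4745ecx7a.a32 AFast4745ecx7a.a33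
  AFast4745ecx7a.a34 AFast4745ecx7a.a35 AFast4745ecx7a.a36
namespace AFast4745ecx7b
@[reducible] noncomputable def a0 {x1 : ℕ} {x2 : ℕ} : Semiring ↥(Vale.Agent.P101.dimDrop x1 x2) := inferInstance
@[reducible] noncomputable def a1 {x1 : ℕ} {x2 : ℕ} : Ring ↥(Vale.Agent.P101.dimDrop x1 x2) := inferInstance
@[reducible] noncomputable def a2 {x1 : ℕ} {x2 : ℕ} : Module ℂ ↥(Vale.Agent.P101.dimDrop x1 x2) := inferInstance
theorem a3 {x1 : ℕ} {x2 : ℕ} : AddHomClass (↥(Vale.Agent.P101.dimDrop x1 x2) →⋆ₐ[ℂ] Matrix (Fin x1 × Fin x2) (Fin x1 × Fin x2) ℂ) (↥(Vale.Agent.P101.dimDrop x1 x2)) (Matrix (Fin x1 × Fin x2) (Fin x1 × Fin x2) ℂ) := inferInstance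
theorem a4 {x1 : ℕ} {x2 : ℕ} : LinearMapClass (↥(Vale.Agent.P101.dimDrop x1 x2) →⋆ₐ[ℂ] Matrix (Fin x1 × Fin x2) (Fin x1 × Fin x2) ℂ) ℂ (↥(Vale.Agent.P101.dimDrop x1 x2)) (Matrix (Fin x1 × Fin x2) (Fin x1 × Fin x2) ℂ) := inferInstance
@[reducible] noncomputable def a5 {x1 : ℕ} {x2 : ℕ} : NonAssocSemiring ↥(Vale.Agent.P101.dimDrop x1 x2) := inferInstance
@[reducible] noncomputable def a6 {x1 : ℕ} {x2 : ℕ} : MulOne ↥(Vale.Agent.P101.dimDrop x1 x2) := inferInstance
@[reducible] noncomputable def a7 {x1 : ℕ} {x2 : ℕ} : MulOneClass ↥(Vale.Agent.P101.dimDrop x1 x2) := inferInstance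
@[reducible] noncomputable def a8 {x1 : ℕ} {x2 : ℕ} : MulZeroOneClass ↥(Vale.Agent.P101.dimDrop x1 x2) := inferInstance
@[reducible] noncomputable def a9 {x1 : ℕ} {x2 : ℕ} : AddCommMonoidWithOne ↥(Vale.Agent.P101.dimDrop x1 x2) := inferInstance
@[reducible] noncomputable def a10 {x1 : ℕ} {x2 : ℕ} : AddZero ↥(Vale.Agent.P101.dimDrop x1 x2) := inferInstance
@[reducible] noncomputable def a11 {x1 : ℕ} {x2 : ℕ} : AddZeroClass ↥(Vale.Agent.P101.dimDrop x1 x2) := inferInstance
@[reducible] noncomputable def a12 {x1 : ℕ} {x2 : ℕ} : AddMonoid ↥(Vale.Agent.P101.dimDrop x1 x2) := inferInstance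
@[reducible] noncomputable def a13 {x1 : ℕ} {x2 : ℕ} : AddMonoidWithOne ↥(Vale.Agent.P101.dimDrop x1 x2) := inferInstance
theorem a14 {x1 : ℕ} {x2 : ℕ} : OneHomClass (↥(Vale.Agent.P101.dimDrop x1 x2) →⋆ₐ[ℂ] Matrix (Fin x1 × Fin x2) (Fin x1 × Fin x2) ℂ) (↥(Vale.Agent.P101.dimDrop x1 x2)) (Matrix (Fin x1 × Fin x2) (Fin x1 × Fin x2) ℂ) := inferInstance
theorem a15 {x1 : ℕ} {x2 : ℕ} : MonoidHomClass (↥(Vale.Agent.P101.dimDrop x1 x2) →⋆ₐ[ℂ] Matrix (Fin x1 × Fin x2) (Fin x1 × Fin x2) ℂ) (↥(Vale.Agent.P101.dimDrop x1 x2)) (Matrix (Fin x1 × Fin x2) (Fin x1 × Fin x2) ℂ) := inferInstance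
theorem a16 {x1 : ℕ} {x2 : ℕ} : ZeroHomClass (↥(Vale.Agent.P101.dimDrop x1 x2) →⋆ₐ[ℂ] Matrix (Fin x1 × Fin x2) (Fin x1 × Fin x2) ℂ) (↥(Vale.Agent.P101.dimDrop x1 x2)) (Matrix (Fin x1 × Fin x2) (Fin x1 × Fin x2) ℂ) := inferInstance
theorem a17 {x1 : ℕ} {x2 : ℕ} : MonoidWithZeroHomClass (↥(Vale.Agent.P101.dimDrop x1 x2) →⋆ₐ[ℂ] Matrix (Fin x1 × Fin x2) (Fin x1 × Fin x2) ℂ) (↥(Vale.Agent.P101.dimDrop x1 x2)) (Matrix (Fin x1 × Fin x2) (Fin x1 × Fin x2) ℂ) := inferInstance
@[reducible] noncomputable def a18 {x1 : ℕ} {x2 : ℕ} : Add ↥(Vale.Agent.P101.dimDrop x1 x2) := inferInstance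
@[reducible] noncomputable def a19 {x1 : ℕ} {x2 : ℕ} : Mul ↥(Vale.Agent.P101.dimDrop x1 x2) := inferInstance
theorem a20 {x1 : ℕ} {x2 : ℕ} : NonUnitalAlgHomClass (↥(Vale.Agent.P101.dimDrop x1 x2) →⋆ₐ[ℂ] Matrix (Fin x1 × Fin x2) (Fin x1 × Fin x2) ℂ) ℂ (↥(Vale.Agent.P101.dimDrop x1 x2)) (Matrix (Fin x1 × Fin x2) (Fin x1 × Fin x2) ℂ) := inferInstance
theorem a21 {x1 : ℕ} {x2 : ℕ} : NonUnitalSubsemiringClass (StarSubalgebra ℂ C(↑unitInterval, Matrix (Fin x1 × Fin x2) (Fin x1 × Fin x2) ℂ)) C(↑unitInterval, Matrix (Fin x1 × Fin x2) (Fin x1 × Fin x2) ℂ) := inferInstance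
@[reducible] noncomputable def a22 {x1 : ℕ} {x2 : ℕ} : NonUnitalNonAssocSemiring ↥(Vale.Agent.P101.dimDrop x1 x2) := inferInstance
@[reducible] noncomputable def a23 {x1 : ℕ} {x2 : ℕ} : NonUnitalNonAssocRing ↥(Vale.Agent.P101.dimDrop x1 x2) := inferInstance
@[reducible] noncomputable def a24 {x1 : ℕ} {x2 : ℕ} : NonAssocRing ↥(Vale.Agent.P101.dimDrop x1 x2) := inferInstance
@[reducible] noncomputable def a25.{u1} {x1 : Type u1} [x2 : CStarAlgebra x1] {x3 : Type u1} {x4 : Filter x3} : StarAddMonoid (Vale.Agent.P101.Bq x1 x4) := inferInstance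
theorem a26.{u1, u2} {x1 : Type u1} {x2 : Type u2} [x3 : CStarAlgebra x1] [x4 : CStarAlgebra x2] : MulActionSemiHomClass (x1 →⋆ₐ[ℂ] x2) (⇑(RingHom.id ℂ)) x1 x2 := inferInstance
theorem a27.{u1, u2} {x1 : Type u1} {x2 : Type u2} [x3 : CStarAlgebra x1] [x4 : CStarAlgebra x2] [x5 : PartialOrder x1] [x6 : StarOrderedRing x1] [x7 : PartialOrder x2] [x8 : StarOrderedRing x2] : ContinuousLinearMapClass (x1 →⋆ₐ[ℂ] x2) ℂ x1 x2 := inferInstance
theorem a28.{u1, u2} {x1 : Type u1} {x2 : Type u2} [x3 : CStarAlgebra x1] [x4 : CStarAlgebra x2] : SemilinearMapClass (x1 →⋆ₐ[ℂ] x2) (RingHom.id ℂ) x1 x2 := inferInstance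
theorem a29.{u1, u2} {x1 : Type u1} {x2 : Type u2} [x3 : CStarAlgebra x1] [x4 : CStarAlgebra x2] : LinearMapClass (x1 →⋆ₐ[ℂ] x2) ℂ x1 x2 := inferInstance
theorem a30 {x1 : ℕ} {x2 : ℕ} {x3 : Type} {x4 : Type} [x5 : Fintype x3] [x6 : Fintype x4] [x7 : DecidableEq x3] [x8 : DecidableEq x4] : NonUnitalAlgHomClass (↥(Vale.Agent.P101.dimDrop x1 x2) →⋆ₐ[ℂ] Matrix (x3 × x4) (x3 × x4) ℂ) ℂ (↥(Vale.Agent.P101.dimDrop x1 x2)) (Matrix (x3 × x4) (x3 × x4) ℂ) := inferInstance
theorem a31.{u1, u2} {x1 : Type u1} {x2 : Type u2} [x3 : CStarAlgebra x1] [x4 : CStarAlgebra x2] [x5 : PartialOrder x1] [x6 : PartialOrder x2] [x7 : StarOrderedRing x2] [x8 : StarOrderedRing x1] : OrderHomClass (x1 →⋆ₐ[ℂ] x2) x1 x2 := inferInstance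
theorem a32 {x1 : ℕ} {x2 : ℕ} : MulHomClass (↥(Vale.Agent.P101.dimDrop x1 x2) →⋆ₐ[ℂ] Matrix (Fin x1 × Fin x2) (Fin x1 × Fin x2) ℂ) (↥(Vale.Agent.P101.dimDrop x1 x2)) (Matrix (Fin x1 × Fin x2) (Fin x1 × Fin x2) ℂ) := inferInstance
theorem a33.{u1} {x1 : Type u1} {x2 : Type} [x3 : Semiring x1] [x4 : Algebra ℂ x1] [x5 : Star x1] [x6 : Fintype x2] [x7 : DecidableEq x2] : AddHomClass (x1 →⋆ₐ[ℂ] Matrix x2 x2 ℂ) x1 (Matrix x2 x2 ℂ) := inferInstance
theorem a34.{u1} {x1 : Type u1} {x2 : Type} [x3 : Semiring x1] [x4 : Algebra ℂ x1] [x5 : Star x1] [x6 : Fintype x2] [x7 : DecidableEq x2] : LinearMapClass (x1 →⋆ₐ[ℂ] Matrix x2 x2 ℂ) ℂ x1 (Matrix x2 x2 ℂ) := inferInstance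
@[reducible] noncomputable def a35 {x1 : Type} {x2 : Type} [x3 : Fintype x1] [x4 : Fintype x2] [x5 : DecidableEq x1] [x6 : DecidableEq x2] : Semiring ↥(Vale.Agent.P101.glueAlg x1 x2) := inferInstance
@[reducible] noncomputable def a36 {x1 : Type} {x2 : Type} [x3 : Fintype x1] [x4 : Fintype x2] [x5 : DecidableEq x1] [x6 : DecidableEq x2] : Ring ↥(Vale.Agent.P101.glueAlg x1 x2) := inferInstance
end AFast4745ecx7b
attribute [local instance] AFast4745ecx7b.a0 AFast4745ecx7b.a1 AFast4745ecx7b.a2 AFast4745ecx7b.a3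
  AFast4745ecx7b.a4 AFast4745ecx7b.a5 AFast4745ecx7b.a6 AFast4745ecx7b.a7 AFast4745ecx7b.a8
  AFast4745ecx7b.a9 AFast4745ecx7b.a10 AFast4745ecx7b.a11 AFast4745ecx7b.a12 AFast4745ecx7b.a13
  AFast4745ecx7b.a14 AFast4745ecx7b.a15 AFast4745ecx7b.a16 AFast4745ecx7b.a17 AFast4745ecx7b.a18
  AFast4745ecx7b.a19 AFast4745ecx7b.a20 AFast4745ecx7b.a21 AFast4745ecx7b.a22 AFast4745ecx7b.a23
  AFast4745ecx7b.a24 AFast4745ecx7b.a25 AFast4745ecx7b.a26 AFast4745ecx7b.a27 AFast4745ecx7b.a28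
  AFast4745ecx7b.a29 AFast4745ecx7b.a30 AFast4745ecx7b.a31 AFast4745ecx7b.a32 AFast4745ecx7b.a33
  AFast4745ecx7b.a34 AFast4745ecx7b.a35 AFast4745ecx7b.a36
section

/-! Definitions for the norm part: simplicity, nuclearity, strict comparison. -/

set_option linter.unusedSectionVars false

open scoped CStarAlgebra ComplexOrder

namespace Vale.Agent.P095

universe u w

section aux

variable {A : Type u} [CStarAlgebra A]

/-- `d` absorbs `h` up to `ε`: `‖(1 - h) d z‖ ≤ ε ‖d z‖` in every algebra containing `A`. -/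
def Absb {B : Type u} [CStarAlgebra B] [PartialOrder B] (d h : B) (ε : ℝ) : Prop :=
  star d * (star (1 - h) * (1 - h)) * d ≤ (ε ^ 2 : ℝ) • (star d * d)

variable {G : Type w} [Group G] (α : G →* (A ≃⋆ₐ[ℂ] A))

/-- The element whose vanishing under a character is contradictory. -/
noncomputable def defect (w : A) : A :=
  (1 / 2 : ℂ) • (star (w * w) * (w * w) +
    (1 - star w * w - w * star w) * (1 - star w * w - w * star w))

end aux

end Vale.Agent.P095
end

section

/-! From the algebra of functions constant near the ends to the flipped version: conjugation by a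
path of unitaries. -/

open scoped BigOperators Kronecker ComplexConjugate

namespace Vale.Agent.P101

namespace GlueC

theorem flip_symm (α : Type) : (flipEquiv α).symm = flipEquiv α :=
  Equiv.ext (by rintro ⟨k, _ | l⟩ <;> rfl)

/-- the permutation matrix of the flip -/
def σ (α : Type) [DecidableEq α] : Matrix (α × Option α) (α × Option α) ℂ :=
  (flipEquiv α).toPEquiv.toMatrix

theorem star_σ (α : Type) [DecidableEq α] : star (σ α) = σ α := by
  ext i j
  rcases i with ⟨k, _ | l⟩ <;> rcases j with ⟨k', _ | l'⟩ <;>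
    simp [σ, flipEquiv, PEquiv.toMatrix_apply, Matrix.star_apply, and_comm, eq_comm]

theorem σ_mul (α : Type) [Fintype α] [DecidableEq α]
    (M : Matrix (α × Option α) (α × Option α) ℂ) :
    σ α * M = M.submatrix (flipEquiv α) id := PEquiv.toMatrix_toPEquiv_mul _ _

theorem mul_σ (α : Type) [Fintype α] [DecidableEq α]
    (M : Matrix (α × Option α) (α × Option α) ℂ) :
    M * σ α = M.submatrix id (flipEquiv α) := by
  have h := PEquiv.mul_toMatrix_toPEquiv M (flipEquiv α)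
  rw [flip_symm] at h
  exact h

theorem σσ (α : Type) [Fintype α] [DecidableEq α] : σ α * σ α = 1 := by
  rw [σ_mul]
  ext i j
  rcases i with ⟨k, _ | l⟩ <;> rcases j with ⟨k', _ | l'⟩ <;>
    simp [σ, flipEquiv, PEquiv.toMatrix_apply, Matrix.one_apply, and_comm]

theorem σ_conj (α : Type) [Fintype α] [DecidableEq α] (x : Matrix α α ℂ) :
    σ α * (x ⊗ₖ (1 : Matrix (Option α) (Option α) ℂ)) * σ α = flipMat x := by
  rw [σ_mul, mul_σ, flipMat_eq, Matrix.reindex_apply, flip_symm]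
  rfl

/-- `θ` equals `π` on `[0,1/3]` and `0` on `[2/3,1]`. -/
noncomputable def θ (t : unitInterval) : ℝ := Real.pi * max 0 (min 1 (2 - 3 * (t : ℝ)))

theorem θ_cont : Continuous θ := by
  unfold θ
  fun_prop

theorem θ_left (t : unitInterval) (ht : (t : ℝ) ≤ 1 / 3) : θ t = Real.pi := by
  unfold θ
  rw [min_eq_left (by linarith only [ht]), max_eq_right (by norm_num), mul_one]

theorem θ_right (t : unitInterval) (ht : 2 / 3 ≤ (t : ℝ)) : θ t = 0 := by
  unfold θ
  rw [max_eq_left ((min_le_right _ _).trans (by linarith only [ht])), mul_zero]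

/-- the path of unitaries -/
noncomputable def U (α : Type) [Fintype α] [DecidableEq α] :
    C(unitInterval, Matrix (α × Option α) (α × Option α) ℂ) where
  toFun t := (1 / 2 : ℂ) • (1 + σ α) +
    (Complex.exp (θ t * Complex.I) * (1 / 2 : ℂ)) • (1 - σ α)
  continuous_toFun := by
    have h : Continuous fun t : unitInterval => Complex.exp (θ t * Complex.I) * (1 / 2 : ℂ) := by
      have := θ_cont
      fun_prop
    exact continuous_const.add (h.smul continuous_const)

theorem U_apply (α : Type) [Fintype α] [DecidableEq α] (t : unitInterval) :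
    U α t = (1 / 2 : ℂ) • (1 + σ α) +
      (Complex.exp (θ t * Complex.I) * (1 / 2 : ℂ)) • (1 - σ α) := rfl

theorem conj_exp (r : ℝ) : conj (Complex.exp (r * Complex.I)) = Complex.exp (-(r * Complex.I)) := by
  rw [← Complex.exp_conj]
  simp

theorem star_U_apply (α : Type) [Fintype α] [DecidableEq α] (t : unitInterval) :
    star (U α t) = (1 / 2 : ℂ) • (1 + σ α) +
      (Complex.exp (-(θ t * Complex.I)) * (1 / 2 : ℂ)) • (1 - σ α) := by
  rw [U_apply, star_add, star_smul, star_smul, star_add, star_sub, star_one, star_σ, star_mul',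
    Complex.star_def, conj_exp, show conj (1 / 2 : ℂ) = 1 / 2 by
      rw [map_div₀, map_one, Complex.conj_ofNat]]

theorem plus_minus (α : Type) [Fintype α] [DecidableEq α] (a b c d : ℂ) :
    (a • (1 + σ α) + b • (1 - σ α)) * (c • (1 + σ α) + d • (1 - σ α))
      = (2 * (a * c)) • (1 + σ α) + (2 * (b * d)) • (1 - σ α) := by
  have h := σσ α
  have h1 : (1 + σ α) * (1 + σ α) = (2 : ℂ) • (1 + σ α) := by
    rw [show (1 + σ α) * (1 + σ α) = 1 + σ α + σ α + σ α * σ α by noncomm_ring, h, two_smul]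
    abel
  have h2 : (1 - σ α) * (1 - σ α) = (2 : ℂ) • (1 - σ α) := by
    rw [show (1 - σ α) * (1 - σ α) = 1 - σ α - σ α + σ α * σ α by noncomm_ring, h, two_smul]
    abel
  have h3 : (1 + σ α) * (1 - σ α) = 0 := by
    rw [show (1 + σ α) * (1 - σ α) = 1 - σ α * σ α by noncomm_ring, h, sub_self]
  have h4 : (1 - σ α) * (1 + σ α) = 0 := by
    rw [show (1 - σ α) * (1 + σ α) = 1 - σ α * σ α by noncomm_ring, h, sub_self]
  rw [add_mul, mul_add, mul_add, smul_mul_smul_comm, smul_mul_smul_comm, smul_mul_smul_comm,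
    smul_mul_smul_comm, h1, h2, h3, h4, smul_zero, smul_zero, smul_smul, smul_smul, add_zero,
    zero_add, mul_comm (a * c) 2, mul_comm (b * d) 2]

theorem half_sum (α : Type) [Fintype α] [DecidableEq α] :
    (1 / 2 : ℂ) • (1 + σ α) + (1 / 2 : ℂ) • (1 - σ α) = 1 := by
  rw [← smul_add, show (1 + σ α) + (1 - σ α) = (2 : ℂ) • (1 : Matrix _ _ ℂ) by
    rw [two_smul]; abel, smul_smul]
  norm_num

theorem U_unitary (α : Type) [Fintype α] [DecidableEq α] :
    U α ∈ unitary C(unitInterval, Matrix (α × Option α) (α × Option α) ℂ) := by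
  constructor
  · ext t : 1
    show star (U α t) * U α t = 1
    rw [star_U_apply, U_apply, plus_minus, show (2 * ((1 / 2 : ℂ) * (1 / 2 : ℂ))) = 1 / 2 by
      norm_num, show (2 * (Complex.exp (-(θ t * Complex.I)) * (1 / 2 : ℂ) *
        (Complex.exp (θ t * Complex.I) * (1 / 2 : ℂ)))) = 1 / 2 by
      rw [show (2 * (Complex.exp (-(θ t * Complex.I)) * (1 / 2 : ℂ) *
        (Complex.exp (θ t * Complex.I) * (1 / 2 : ℂ)))) = (Complex.exp (-(θ t * Complex.I)) *
        Complex.exp (θ t * Complex.I)) * (1 / 2) by ring, ← Complex.exp_add, neg_add_cancel,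
        Complex.exp_zero, one_mul], half_sum]
  · ext t : 1
    show U α t * star (U α t) = 1
    rw [star_U_apply, U_apply, plus_minus, show (2 * ((1 / 2 : ℂ) * (1 / 2 : ℂ))) = 1 / 2 by
      norm_num, show (2 * (Complex.exp (θ t * Complex.I) * (1 / 2 : ℂ) *
        (Complex.exp (-(θ t * Complex.I)) * (1 / 2 : ℂ)))) = 1 / 2 by
      rw [show (2 * (Complex.exp (θ t * Complex.I) * (1 / 2 : ℂ) *
        (Complex.exp (-(θ t * Complex.I)) * (1 / 2 : ℂ)))) = (Complex.exp (θ t * Complex.I) *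
        Complex.exp (-(θ t * Complex.I))) * (1 / 2) by ring, ← Complex.exp_add, add_neg_cancel,
        Complex.exp_zero, one_mul], half_sum]

theorem U_left (α : Type) [Fintype α] [DecidableEq α] (t : unitInterval) (ht : (t : ℝ) ≤ 1 / 3) :
    U α t = σ α := by
  rw [U_apply, θ_left t ht, Complex.exp_pi_mul_I, show (-1 * (1 / 2 : ℂ)) = -(1 / 2) by ring,
    neg_smul, ← sub_eq_add_neg, ← smul_sub, show (1 + σ α) - (1 - σ α) = (2 : ℂ) • σ α by
    rw [two_smul]; abel, smul_smul]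
  norm_num

theorem U_right (α : Type) [Fintype α] [DecidableEq α] (t : unitInterval) (ht : 2 / 3 ≤ (t : ℝ)) :
    U α t = 1 := by
  rw [U_apply, θ_right t ht, Complex.ofReal_zero, zero_mul, Complex.exp_zero, one_mul, half_sum]

end GlueC

theorem glueC (α : Type) [Fintype α] [DecidableEq α] :
    Nonempty (glueAlg α (Option α) →⋆ₐ[ℂ] flipAlg α) := by
  let u : unitary C(unitInterval, Matrix (α × Option α) (α × Option α) ℂ) :=
    ⟨GlueC.U α, GlueC.U_unitary α⟩
  let φ₁ : C(unitInterval, Matrix (α × Option α) (α × Option α) ℂ) →⋆ₐ[ℂ]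
      C(unitInterval, Matrix (α × Option α) (α × Option α) ℂ) :=
    (Unitary.conjStarAlgAut ℂ C(unitInterval, Matrix (α × Option α) (α × Option α) ℂ) u :
      C(unitInterval, Matrix (α × Option α) (α × Option α) ℂ) ≃⋆ₐ[ℂ]
        C(unitInterval, Matrix (α × Option α) (α × Option α) ℂ))
  let φ : glueAlg α (Option α) →⋆ₐ[ℂ]
      C(unitInterval, Matrix (α × Option α) (α × Option α) ℂ) :=
    φ₁.comp (glueAlg α (Option α)).subtype
  have hφ : ∀ (f : glueAlg α (Option α)) (t : unitInterval),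
      φ f t = GlueC.U α t *
        (f : C(unitInterval, Matrix (α × Option α) (α × Option α) ℂ)) t * star (GlueC.U α t) :=
    fun f t => rfl
  refine ⟨StarAlgHom.codRestrict φ (flipAlg α) ?_⟩
  rintro ⟨f, ⟨x, hx⟩, ⟨y, hy⟩⟩
  refine ⟨⟨x, fun t ht => ?_⟩, ⟨y, fun t ht => ?_⟩⟩
  · rw [hφ, GlueC.U_left α t ht, GlueC.star_σ]
    show GlueC.σ α * f t * GlueC.σ α = _
    rw [hx t ht, GlueC.σ_conj]
  · rw [hφ, GlueC.U_right α t ht, star_one]
    show 1 * f t * 1 = _
    rw [hy t ht, one_mul, mul_one]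

end Vale.Agent.P101
end

section

/-! Unital homomorphisms from prime dimension drop algebras to `glueAlg α β`. -/

open scoped BigOperators Kronecker

namespace Vale.Agent.P101

namespace S9H

universe u

/-! ### Paths of unitaries to permutation matrices -/

section Path

variable {K : Type u} [Fintype K] [DecidableEq K]

/-- `σ` is implemented by the end point of a path of unitaries that starts at `1`. -/
def PathTo (σ : Equiv.Perm K) : Prop :=
  ∃ V : unitInterval → Matrix K K ℂ, Continuous V ∧ (∀ t, V t * star (V t) = 1) ∧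
    (∀ t, star (V t) * V t = 1) ∧ V 0 = 1 ∧
    ∀ M : Matrix K K ℂ, V 1 * M * star (V 1) = M.submatrix σ σ

theorem pathTo_one : PathTo (1 : Equiv.Perm K) :=
  ⟨fun _ => 1, continuous_const, fun _ => by simp, fun _ => by simp, rfl, fun M => by
    simp⟩

theorem PathTo.mul {σ τ : Equiv.Perm K} (hσ : PathTo σ) (hτ : PathTo τ) : PathTo (σ * τ) := by
  obtain ⟨V, hVc, hV1, hV2, hV3, hV4⟩ := hσ
  obtain ⟨W, hWc, hW1, hW2, hW3, hW4⟩ := hτ
  refine ⟨fun t => W t * V t, hWc.matrix_mul hVc, fun t => ?_, fun t => ?_, by simp [hV3, hW3],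
    fun M => ?_⟩
  · rw [star_mul, mul_assoc, ← mul_assoc (V t), hV1, one_mul, hW1]
  · rw [star_mul, mul_assoc, ← mul_assoc (star (W t)), hW2, one_mul, hV2]
  · have : W 1 * V 1 * M * star (W 1 * V 1) = W 1 * (V 1 * M * star (V 1)) * star (W 1) := by
      rw [star_mul]; simp only [mul_assoc]
    rw [this, hV4, hW4, Matrix.submatrix_submatrix]
    rfl

theorem pathTo_swap (a b : K) : PathTo (Equiv.swap a b) := by
  set P : Matrix K K ℂ := (Equiv.swap a b).toPEquiv.toMatrix with hP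
  have hPmul : ∀ M : Matrix K K ℂ, P * M = M.submatrix (Equiv.swap a b) id := fun M => by
    rw [hP, PEquiv.toMatrix_toPEquiv_mul]
  have hmulP : ∀ M : Matrix K K ℂ, M * P = M.submatrix id (Equiv.swap a b) := fun M => by
    rw [hP, PEquiv.mul_toMatrix_toPEquiv, Equiv.symm_swap]
  have hPP : P * P = 1 := by
    rw [hPmul, hP]
    ext i j
    simp [PEquiv.toMatrix_apply, Matrix.one_apply]
  have hPs : star P = P := by
    rw [hP]
    ext i j
    simp only [Matrix.star_apply, PEquiv.toMatrix_apply, Equiv.toPEquiv_apply, Option.mem_some_iff]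
    have : (Equiv.swap a b j = i) ↔ (Equiv.swap a b i = j) := by
      constructor
      · intro h; rw [← h, Equiv.swap_apply_self]
      · intro h; rw [← h, Equiv.swap_apply_self]
    by_cases h : Equiv.swap a b i = j
    · rw [if_pos h, if_pos (this.2 h)]; simp
    · rw [if_neg h, if_neg (fun h' => h (this.1 h'))]; simp
  set c : unitInterval → ℂ := fun t => Complex.exp (((Real.pi * (t : ℝ) : ℝ) : ℂ) * Complex.I) with hc
  have hcc : ∀ t, c t * star (c t) = 1 := by
    intro t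
    have h1 : ‖c t‖ = 1 := by rw [hc]; exact Complex.norm_exp_ofReal_mul_I _
    have h2 : c t * star (c t) = ((‖c t‖ ^ 2 : ℝ) : ℂ) := by
      have := Complex.mul_conj' (c t)
      rw [starRingEnd_apply] at this
      rw [this]
      push_cast
      rfl
    rw [h2, h1]; simp
  have hc0 : c 0 = 1 := by simp only [hc, Complex.ofReal_mul, Set.Icc.coe_zero, Complex.ofReal_zero, mul_zero, zero_mul, Complex.exp_zero]
  have hc1 : c 1 = -1 := by simp only [hc, Complex.ofReal_mul, Set.Icc.coe_one, Complex.ofReal_one, mul_one, Complex.exp_pi_mul_I]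
  have hstar : ∀ t, star (((1 + c t) / 2) • (1 : Matrix K K ℂ) + ((1 - c t) / 2) • P)
      = ((1 + star (c t)) / 2) • (1 : Matrix K K ℂ) + ((1 - star (c t)) / 2) • P := by
    intro t
    rw [star_add, star_smul, star_smul, hPs, star_one]
    congr 2
    · simp only [star_div₀, star_add, star_one, RCLike.star_def, star_ofNat]
    · simp only [star_div₀, star_sub, star_one, RCLike.star_def, star_ofNat]
  refine ⟨fun t => ((1 + c t) / 2) • (1 : Matrix K K ℂ) + ((1 - c t) / 2) • P, ?_, ?_, ?_, ?_, ?_⟩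
  · have hcont : Continuous c := by
      rw [hc]; fun_prop
    exact ((continuous_const.add hcont).div_const 2).smul continuous_const |>.add
      (((continuous_const.sub hcont).div_const 2).smul continuous_const)
  · intro t
    rw [hstar t]
    simp only [add_mul, mul_add, smul_mul_smul_comm, mul_one, one_mul, hPP]
    have e1 : (1 + c t) / 2 * ((1 + star (c t)) / 2) + (1 - c t) / 2 * ((1 - star (c t)) / 2) = 1 := by
      linear_combination (1 / 2 : ℂ) * hcc t
    have e2 : (1 + c t) / 2 * ((1 - star (c t)) / 2) + (1 - c t) / 2 * ((1 + star (c t)) / 2) = 0 := by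
      linear_combination (-1 / 2 : ℂ) * hcc t
    calc _ = ((1 + c t) / 2 * ((1 + star (c t)) / 2) + (1 - c t) / 2 * ((1 - star (c t)) / 2)) •
            (1 : Matrix K K ℂ) + ((1 + c t) / 2 * ((1 - star (c t)) / 2)
              + (1 - c t) / 2 * ((1 + star (c t)) / 2)) • P := by
          rw [add_smul, add_smul]; abel
      _ = 1 := by rw [e1, e2]; simp
  · intro t
    rw [hstar t]
    simp only [mul_add, add_mul, smul_mul_smul_comm, mul_one, one_mul, hPP]
    have e1 : (1 + star (c t)) / 2 * ((1 + c t) / 2) + (1 - star (c t)) / 2 * ((1 - c t) / 2) = 1 := by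
      linear_combination (1 / 2 : ℂ) * hcc t
    have e2 : (1 + star (c t)) / 2 * ((1 - c t) / 2) + (1 - star (c t)) / 2 * ((1 + c t) / 2) = 0 := by
      linear_combination (-1 / 2 : ℂ) * hcc t
    calc _ = ((1 + star (c t)) / 2 * ((1 + c t) / 2) + (1 - star (c t)) / 2 * ((1 - c t) / 2)) •
            (1 : Matrix K K ℂ) + ((1 + star (c t)) / 2 * ((1 - c t) / 2)
              + (1 - star (c t)) / 2 * ((1 + c t) / 2)) • P := by
          rw [add_smul, add_smul]; abel
      _ = 1 := by rw [e1, e2]; simp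
  · simp [hc0]
  · intro M
    rw [hstar 1]
    have : ((1 + (-1 : ℂ)) / 2) • (1 : Matrix K K ℂ) + ((1 - (-1 : ℂ)) / 2) • P = P := by
      norm_num
    simp only [hc1, star_neg, star_one]
    rw [this, hPmul, hmulP, Matrix.submatrix_submatrix]
    rfl

theorem pathTo (σ : Equiv.Perm K) : PathTo σ := by
  induction σ using Equiv.Perm.swap_induction_on with
  | one => exact pathTo_one
  | swap_mul f x y _ hf => exact (pathTo_swap x y).mul hf

end Path

/-! ### Homomorphisms to matrices, up to relabelling -/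

section Rep

variable {p q : ℕ}

/-- evaluation at `s` -/
noncomputable def evH (p q : ℕ) (s : unitInterval) :
    dimDrop p q →⋆ₐ[ℂ] Matrix (Fin p × Fin q) (Fin p × Fin q) ℂ where
  toFun f := (f : C(unitInterval, Matrix (Fin p × Fin q) (Fin p × Fin q) ℂ)) s
  map_one' := rfl
  map_mul' _ _ := rfl
  map_zero' := rfl
  map_add' _ _ := rfl
  commutes' _ := rfl
  map_star' _ := rfl

/-- the left end-point representation -/
noncomputable def piL (p q : ℕ) (hq : 0 < q) : dimDrop p q →⋆ₐ[ℂ] Matrix (Fin p) (Fin p) ℂ where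
  toFun f := (evH p q 0 f).submatrix (fun i => (i, ⟨0, hq⟩)) (fun i => (i, ⟨0, hq⟩))
  map_one' := by
    ext i j
    simp [Matrix.one_apply]
  map_mul' f g := by
    obtain ⟨x, hx⟩ := f.2.1
    obtain ⟨y, hy⟩ := g.2.1
    have h1 : evH p q 0 f = x ⊗ₖ (1 : Matrix (Fin q) (Fin q) ℂ) := hx
    have h2 : evH p q 0 g = y ⊗ₖ (1 : Matrix (Fin q) (Fin q) ℂ) := hy
    rw [map_mul, h1, h2, ← Matrix.mul_kronecker_mul]
    ext i j
    simp [Matrix.kroneckerMap_apply, Matrix.mul_apply]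
  map_zero' := by
    ext i j
    simp
  map_add' f g := by
    ext i j
    simp
  commutes' r := by
    rw [AlgHomClass.commutes (evH p q 0) r]
    ext i j
    simp [Matrix.algebraMap_matrix_apply]
  map_star' f := by
    ext i j
    simp [map_star, Matrix.star_apply]

/-- the right end-point representation -/
noncomputable def piR (p q : ℕ) (hp : 0 < p) : dimDrop p q →⋆ₐ[ℂ] Matrix (Fin q) (Fin q) ℂ where
  toFun f := (evH p q 1 f).submatrix (fun i => (⟨0, hp⟩, i)) (fun i => (⟨0, hp⟩, i))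
  map_one' := by
    ext i j
    simp [Matrix.one_apply]
  map_mul' f g := by
    obtain ⟨x, hx⟩ := f.2.2
    obtain ⟨y, hy⟩ := g.2.2
    have h1 : evH p q 1 f = (1 : Matrix (Fin p) (Fin p) ℂ) ⊗ₖ x := hx
    have h2 : evH p q 1 g = (1 : Matrix (Fin p) (Fin p) ℂ) ⊗ₖ y := hy
    rw [map_mul, h1, h2, ← Matrix.mul_kronecker_mul]
    ext i j
    simp [Matrix.kroneckerMap_apply, Matrix.mul_apply]
  map_zero' := by
    ext i j
    simp
  map_add' f g := by
    ext i j
    simp
  commutes' r := by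
    rw [AlgHomClass.commutes (evH p q 1) r]
    ext i j
    simp [Matrix.algebraMap_matrix_apply]
  map_star' f := by
    ext i j
    simp [map_star, Matrix.star_apply]

theorem evH_zero (hq : 0 < q) (f : dimDrop p q) :
    evH p q 0 f = piL p q hq f ⊗ₖ (1 : Matrix (Fin q) (Fin q) ℂ) := by
  obtain ⟨x, hx⟩ := f.2.1
  have h1 : evH p q 0 f = x ⊗ₖ (1 : Matrix (Fin q) (Fin q) ℂ) := hx
  have h2 : piL p q hq f = x := by
    ext i j
    change evH p q 0 f (i, ⟨0, hq⟩) (j, ⟨0, hq⟩) = x i j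
    rw [h1]
    simp [Matrix.kroneckerMap_apply]
  rw [h1, h2]

theorem evH_one (hp : 0 < p) (f : dimDrop p q) :
    evH p q 1 f = (1 : Matrix (Fin p) (Fin p) ℂ) ⊗ₖ piR p q hp f := by
  obtain ⟨x, hx⟩ := f.2.2
  have h1 : evH p q 1 f = (1 : Matrix (Fin p) (Fin p) ℂ) ⊗ₖ x := hx
  have h2 : piR p q hp f = x := by
    ext i j
    change evH p q 1 f (⟨0, hp⟩, i) (⟨0, hp⟩, j) = x i j
    rw [h1]
    simp [Matrix.kroneckerMap_apply]
  rw [h1, h2]

variable {A : Type*} [Semiring A] [Algebra ℂ A] [Star A]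

/-- direct sum of `K₀` copies of `φ` and `K₁` copies of `ψ` -/
noncomputable def sumRep {X Y : Type} [Fintype X] [DecidableEq X] [Fintype Y] [DecidableEq Y]
    (K₀ K₁ : Type) [Fintype K₀] [DecidableEq K₀] [Fintype K₁] [DecidableEq K₁]
    (φ : A →⋆ₐ[ℂ] Matrix X X ℂ) (ψ : A →⋆ₐ[ℂ] Matrix Y Y ℂ) :
    A →⋆ₐ[ℂ] Matrix ((K₀ × X) ⊕ (K₁ × Y)) ((K₀ × X) ⊕ (K₁ × Y)) ℂ where
  toFun f := Matrix.fromBlocks ((1 : Matrix K₀ K₀ ℂ) ⊗ₖ φ f) 0 0 ((1 : Matrix K₁ K₁ ℂ) ⊗ₖ ψ f)
  map_one' := by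
    rw [map_one, map_one, Matrix.one_kronecker_one, Matrix.one_kronecker_one,
      Matrix.fromBlocks_one]
  map_mul' f g := by
    rw [map_mul, map_mul, Matrix.fromBlocks_multiply, ← Matrix.mul_kronecker_mul,
      ← Matrix.mul_kronecker_mul]
    simp
  map_zero' := by
    simp [Matrix.fromBlocks_zero]
  map_add' f g := by
    simp [Matrix.fromBlocks_add, Matrix.kronecker_add]
  commutes' r := by
    rw [AlgHomClass.commutes φ r, AlgHomClass.commutes ψ r]
    ext i j
    rcases i with ⟨i, i'⟩ | ⟨i, i'⟩ <;> rcases j with ⟨j, j'⟩ | ⟨j, j'⟩ <;>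
      simp [Matrix.algebraMap_matrix_apply, Matrix.kroneckerMap_apply, Matrix.one_apply,
        ite_and, Prod.ext_iff] <;> split_ifs <;> rfl
  map_star' f := by
    rw [map_star, map_star, Matrix.star_eq_conjTranspose, Matrix.star_eq_conjTranspose,
      Matrix.star_eq_conjTranspose, Matrix.fromBlocks_conjTranspose,
      Matrix.conjTranspose_kronecker, Matrix.conjTranspose_kronecker]
    simp

/-- two matrix valued functions agree after relabelling -/
def Relab {A I J : Type*} (R : A → Matrix I I ℂ) (S : A → Matrix J J ℂ) : Prop :=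
  ∃ e : I ≃ J, ∀ f, R f = (S f).submatrix e e

theorem Relab.symm {A I J : Type*} {R : A → Matrix I I ℂ} {S : A → Matrix J J ℂ}
    (h : Relab R S) : Relab S R := by
  obtain ⟨e, he⟩ := h
  refine ⟨e.symm, fun f => ?_⟩
  rw [he, Matrix.submatrix_submatrix]
  simp

theorem Relab.trans {A I J L : Type*} {R : A → Matrix I I ℂ} {S : A → Matrix J J ℂ}
    {T : A → Matrix L L ℂ} (h : Relab R S) (h' : Relab S T) : Relab R T := by
  obtain ⟨e, he⟩ := h
  obtain ⟨e', he'⟩ := h'
  refine ⟨e.trans e', fun f => ?_⟩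
  rw [he, he', Matrix.submatrix_submatrix]
  rfl

section RelabLemmas

variable {X Y : Type} [Fintype X] [DecidableEq X] [Fintype Y] [DecidableEq Y]
    {K₀ K₁ K₀' K₁' L : Type} [Fintype K₀] [DecidableEq K₀] [Fintype K₁] [DecidableEq K₁]
    [Fintype K₀'] [DecidableEq K₀'] [Fintype K₁'] [DecidableEq K₁'] [Fintype L] [DecidableEq L]
    (φ : A →⋆ₐ[ℂ] Matrix X X ℂ) (ψ : A →⋆ₐ[ℂ] Matrix Y Y ℂ)

theorem sumRep_inl_inl (f : A) (k k' : K₀) (x x' : X) :
    sumRep K₀ K₁ φ ψ f (Sum.inl (k, x)) (Sum.inl (k', x')) = if k = k' then φ f x x' else 0 := by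
  change (Matrix.fromBlocks ((1 : Matrix K₀ K₀ ℂ) ⊗ₖ φ f) 0 0 ((1 : Matrix K₁ K₁ ℂ) ⊗ₖ ψ f))
    (Sum.inl (k, x)) (Sum.inl (k', x')) = _
  rw [Matrix.fromBlocks_apply₁₁]
  simp [Matrix.kroneckerMap_apply, Matrix.one_apply]

theorem sumRep_inr_inr (f : A) (k k' : K₁) (x x' : Y) :
    sumRep K₀ K₁ φ ψ f (Sum.inr (k, x)) (Sum.inr (k', x')) = if k = k' then ψ f x x' else 0 := by
  change (Matrix.fromBlocks ((1 : Matrix K₀ K₀ ℂ) ⊗ₖ φ f) 0 0 ((1 : Matrix K₁ K₁ ℂ) ⊗ₖ ψ f))
    (Sum.inr (k, x)) (Sum.inr (k', x')) = _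
  rw [Matrix.fromBlocks_apply₂₂]
  simp [Matrix.kroneckerMap_apply, Matrix.one_apply]

theorem sumRep_inl_inr (f : A) (i : K₀ × X) (j : K₁ × Y) :
    sumRep K₀ K₁ φ ψ f (Sum.inl i) (Sum.inr j) = 0 := by
  change (Matrix.fromBlocks ((1 : Matrix K₀ K₀ ℂ) ⊗ₖ φ f) 0 0 ((1 : Matrix K₁ K₁ ℂ) ⊗ₖ ψ f))
    (Sum.inl i) (Sum.inr j) = _
  rw [Matrix.fromBlocks_apply₁₂]
  rfl

theorem sumRep_inr_inl (f : A) (i : K₀ × X) (j : K₁ × Y) :
    sumRep K₀ K₁ φ ψ f (Sum.inr j) (Sum.inl i) = 0 := by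
  change (Matrix.fromBlocks ((1 : Matrix K₀ K₀ ℂ) ⊗ₖ φ f) 0 0 ((1 : Matrix K₁ K₁ ℂ) ⊗ₖ ψ f))
    (Sum.inr j) (Sum.inl i) = _
  rw [Matrix.fromBlocks_apply₂₁]
  rfl

theorem relab_kron_right :
    Relab (fun f => sumRep K₀ K₁ φ ψ f ⊗ₖ (1 : Matrix L L ℂ)) (sumRep (K₀ × L) (K₁ × L) φ ψ) := by
  refine ⟨{
    toFun := fun i => match i with
      | (Sum.inl (k, x), l) => Sum.inl ((k, l), x)
      | (Sum.inr (k, x), l) => Sum.inr ((k, l), x)
    invFun := fun i => match i with
      | Sum.inl ((k, l), x) => (Sum.inl (k, x), l)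
      | Sum.inr ((k, l), x) => (Sum.inr (k, x), l)
    left_inv := by rintro ⟨⟨k, x⟩ | ⟨k, x⟩, l⟩ <;> rfl
    right_inv := by rintro (⟨⟨k, l⟩, x⟩ | ⟨⟨k, l⟩, x⟩) <;> rfl }, fun f => ?_⟩
  ext ⟨i, l⟩ ⟨j, l'⟩
  rcases i with ⟨k, x⟩ | ⟨k, x⟩ <;> rcases j with ⟨k', x'⟩ | ⟨k', x'⟩ <;>
    simp only [Matrix.kroneckerMap_apply, Matrix.submatrix_apply, Equiv.coe_fn_mk,
      sumRep_inl_inl, sumRep_inr_inr, sumRep_inl_inr, sumRep_inr_inl, Matrix.one_apply,
      Prod.mk.injEq, ite_and, mul_ite, mul_one, mul_zero] <;> split_ifs <;> rfl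

theorem relab_kron_left :
    Relab (fun f => (1 : Matrix L L ℂ) ⊗ₖ sumRep K₀ K₁ φ ψ f) (sumRep (L × K₀) (L × K₁) φ ψ) := by
  refine ⟨{
    toFun := fun i => match i with
      | (l, Sum.inl (k, x)) => Sum.inl ((l, k), x)
      | (l, Sum.inr (k, x)) => Sum.inr ((l, k), x)
    invFun := fun i => match i with
      | Sum.inl ((l, k), x) => (l, Sum.inl (k, x))
      | Sum.inr ((l, k), x) => (l, Sum.inr (k, x))
    left_inv := by rintro ⟨l, ⟨k, x⟩ | ⟨k, x⟩⟩ <;> rfl
    right_inv := by rintro (⟨⟨k, l⟩, x⟩ | ⟨⟨k, l⟩, x⟩) <;> rfl }, fun f => ?_⟩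
  ext ⟨l, i⟩ ⟨l', j⟩
  rcases i with ⟨k, x⟩ | ⟨k, x⟩ <;> rcases j with ⟨k', x'⟩ | ⟨k', x'⟩ <;>
    simp only [Matrix.kroneckerMap_apply, Matrix.submatrix_apply, Equiv.coe_fn_mk,
      sumRep_inl_inl, sumRep_inr_inr, sumRep_inl_inr, sumRep_inr_inl, Matrix.one_apply,
      Prod.mk.injEq, ite_and, mul_zero, ite_mul, one_mul, zero_mul]

theorem relab_card (h₀ : Fintype.card K₀ = Fintype.card K₀')
    (h₁ : Fintype.card K₁ = Fintype.card K₁') :
    Relab (sumRep K₀ K₁ φ ψ) (sumRep K₀' K₁' φ ψ) := by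
  let e₀ := Fintype.equivOfCardEq h₀
  let e₁ := Fintype.equivOfCardEq h₁
  refine ⟨{
    toFun := fun i => match i with
      | Sum.inl (k, x) => Sum.inl (e₀ k, x)
      | Sum.inr (k, x) => Sum.inr (e₁ k, x)
    invFun := fun i => match i with
      | Sum.inl (k, x) => Sum.inl (e₀.symm k, x)
      | Sum.inr (k, x) => Sum.inr (e₁.symm k, x)
    left_inv := by rintro (⟨k, x⟩ | ⟨k, x⟩) <;> simp
    right_inv := by rintro (⟨k, x⟩ | ⟨k, x⟩) <;> simp }, fun f => ?_⟩
  ext i j
  rcases i with ⟨k, x⟩ | ⟨k, x⟩ <;> rcases j with ⟨k', x'⟩ | ⟨k', x'⟩ <;>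
    simp only [Matrix.submatrix_apply, Equiv.coe_fn_mk,
      sumRep_inl_inl, sumRep_inr_inr, sumRep_inl_inr, sumRep_inr_inl,
      EmbeddingLike.apply_eq_iff_eq]

/-- the remaining `L` copies specialize to copies of the left representation -/
theorem relab_left (θ : A →⋆ₐ[ℂ] Matrix (X × Y) (X × Y) ℂ)
    (hθ : ∀ f, θ f = φ f ⊗ₖ (1 : Matrix Y Y ℂ)) :
    Relab (sumRep Unit L (sumRep K₀ K₁ φ ψ) θ) (sumRep (K₀ ⊕ (L × Y)) K₁ φ ψ) := by
  refine ⟨{
    toFun := fun i => match i with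
      | Sum.inl (_, Sum.inl (k, x)) => Sum.inl (Sum.inl k, x)
      | Sum.inl (_, Sum.inr (k, x)) => Sum.inr (k, x)
      | Sum.inr (l, (x, y)) => Sum.inl (Sum.inr (l, y), x)
    invFun := fun i => match i with
      | Sum.inl (Sum.inl k, x) => Sum.inl ((), Sum.inl (k, x))
      | Sum.inr (k, x) => Sum.inl ((), Sum.inr (k, x))
      | Sum.inl (Sum.inr (l, y), x) => Sum.inr (l, (x, y))
    left_inv := by rintro (⟨_, ⟨k, x⟩ | ⟨k, x⟩⟩ | ⟨l, ⟨x, y⟩⟩) <;> rfl
    right_inv := by rintro (⟨k | ⟨l, y⟩, x⟩ | ⟨k, x⟩) <;> rfl }, fun f => ?_⟩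
  ext i j
  rcases i with ⟨_, ⟨k, x⟩ | ⟨k, x⟩⟩ | ⟨l, ⟨x, y⟩⟩ <;>
    rcases j with ⟨_, ⟨k', x'⟩ | ⟨k', x'⟩⟩ | ⟨l', ⟨x', y'⟩⟩ <;>
    simp only [Matrix.submatrix_apply, Equiv.coe_fn_mk, hθ, Matrix.kroneckerMap_apply,
      sumRep_inl_inl, sumRep_inr_inr, sumRep_inl_inr, sumRep_inr_inl, Matrix.one_apply,
      Sum.inl.injEq, Sum.inr.injEq, reduceCtorEq, if_true, if_false, Prod.mk.injEq, ite_and,
      mul_ite, mul_one, mul_zero]

/-- the remaining `L` copies specialize to copies of the right representation -/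
theorem relab_right (θ : A →⋆ₐ[ℂ] Matrix (X × Y) (X × Y) ℂ)
    (hθ : ∀ f, θ f = (1 : Matrix X X ℂ) ⊗ₖ ψ f) :
    Relab (sumRep Unit L (sumRep K₀ K₁ φ ψ) θ) (sumRep K₀ (K₁ ⊕ (L × X)) φ ψ) := by
  refine ⟨{
    toFun := fun i => match i with
      | Sum.inl (_, Sum.inl (k, x)) => Sum.inl (k, x)
      | Sum.inl (_, Sum.inr (k, x)) => Sum.inr (Sum.inl k, x)
      | Sum.inr (l, (x, y)) => Sum.inr (Sum.inr (l, x), y)
    invFun := fun i => match i with
      | Sum.inl (k, x) => Sum.inl ((), Sum.inl (k, x))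
      | Sum.inr (Sum.inl k, x) => Sum.inl ((), Sum.inr (k, x))
      | Sum.inr (Sum.inr (l, x), y) => Sum.inr (l, (x, y))
    left_inv := by rintro (⟨_, ⟨k, x⟩ | ⟨k, x⟩⟩ | ⟨l, ⟨x, y⟩⟩) <;> rfl
    right_inv := by rintro (⟨k, x⟩ | ⟨k | ⟨l, x⟩, y⟩) <;> rfl }, fun f => ?_⟩
  ext i j
  rcases i with ⟨_, ⟨k, x⟩ | ⟨k, x⟩⟩ | ⟨l, ⟨x, y⟩⟩ <;>
    rcases j with ⟨_, ⟨k', x'⟩ | ⟨k', x'⟩⟩ | ⟨l', ⟨x', y'⟩⟩ <;>
    simp only [Matrix.submatrix_apply, Equiv.coe_fn_mk, hθ, Matrix.kroneckerMap_apply,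
      sumRep_inl_inl, sumRep_inr_inr, sumRep_inl_inr, sumRep_inr_inl, Matrix.one_apply,
      Sum.inl.injEq, Sum.inr.injEq, reduceCtorEq, if_true, if_false, Prod.mk.injEq, ite_and,
      ite_mul, one_mul, zero_mul]

end RelabLemmas

end Rep

/-! ### Multiplicities -/

theorem exists_mult (p q : ℕ) (hp : 0 < p) (hq : 0 < q) (hpq : Nat.Coprime p q) (n m : ℕ)
    (hn : 2 * (p * q) ≤ n) (hm : 2 * (p * q) ≤ m) :
    ∃ a₀ b₀ a₁ b₁ r : ℕ, n = a₀ * p + b₀ * q ∧ m = a₁ * p + b₁ * q ∧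
      a₀ * m = n * a₁ + r * q ∧ n * b₁ = b₀ * m + r * p := by
  have hcop : IsCoprime (p : ℤ) (q : ℤ) := Nat.isCoprime_iff_coprime.2 hpq
  obtain ⟨u, v, huv⟩ := hcop
  have hp' : (0 : ℤ) < p := by exact_mod_cast hp
  have hq' : (0 : ℤ) < q := by exact_mod_cast hq
  have hn' : 2 * ((p : ℤ) * q) ≤ n := by exact_mod_cast hn
  have hm' : 2 * ((p : ℤ) * q) ≤ m := by exact_mod_cast hm
  have hpq0 : (0 : ℤ) < (p : ℤ) * q := mul_pos hp' hq'
  -- coefficients for `n`
  obtain ⟨a₀, b₀, hb0, hb1, hnab⟩ : ∃ a b : ℤ, 0 ≤ b ∧ b < p ∧ (n : ℤ) = a * p + b * q := by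
    refine ⟨n * u + q * ((n * v) / p), (n * v) % p, Int.emod_nonneg _ hp'.ne',
      Int.emod_lt_of_pos _ hp', ?_⟩
    have h1 : (n * v) % p + p * ((n * v) / p) = n * v := Int.emod_add_mul_ediv _ _
    linear_combination (-(n : ℤ)) * huv - (q : ℤ) * h1
  obtain ⟨a₁, b₁, ha0, ha1, hmab⟩ : ∃ a b : ℤ, 0 ≤ a ∧ a < q ∧ (m : ℤ) = a * p + b * q := by
    refine ⟨(m * u) % q, m * v + p * ((m * u) / q), Int.emod_nonneg _ hq'.ne',
      Int.emod_lt_of_pos _ hq', ?_⟩
    have h1 : (m * u) % q + q * ((m * u) / q) = m * u := Int.emod_add_mul_ediv _ _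
    linear_combination (-(m : ℤ)) * huv - (p : ℤ) * h1
  have h2 : (q : ℤ) * (n * b₁ - b₀ * m) = p * (a₀ * m - n * a₁) := by
    linear_combination (m : ℤ) * hnab - (n : ℤ) * hmab
  have h3 : (q : ℤ) ∣ a₀ * m - n * a₁ := by
    have : (q : ℤ) ∣ p * (a₀ * m - n * a₁) := ⟨_, h2.symm⟩
    exact IsCoprime.dvd_of_dvd_mul_left ((Nat.isCoprime_iff_coprime.2 hpq).symm) this
  obtain ⟨r, hr⟩ := h3
  have h4 : n * b₁ - b₀ * m = p * r := by
    have : (q : ℤ) * (n * b₁ - b₀ * m) = q * (p * r) := by rw [h2, hr]; ring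
    exact mul_left_cancel₀ hq'.ne' this
  have hbq : b₀ * q ≤ p * q := by nlinarith only [hb1]
  have hap : a₁ * p ≤ p * q := by nlinarith only [ha1]
  have ha₀ : 0 ≤ a₀ := by
    have : 0 < a₀ * p := by nlinarith only [hn, hpq0, hnab, hbq]
    exact ((pos_iff_pos_of_mul_pos this).2 hp').le
  have hb₁ : 0 ≤ b₁ := by
    have : 0 < b₁ * q := by linarith
    exact ((pos_iff_pos_of_mul_pos this).2 hq').le
  have hr0 : 0 ≤ r := by
    have h5 : 0 ≤ (p : ℤ) * (q * r) := by
      rw [← hr]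
      have e1 : (p : ℤ) * (a₀ * m - n * a₁) = (n - b₀ * q) * m - (a₁ * p) * n := by
        linear_combination (-(m : ℤ)) * hnab
      rw [e1]
      have e2 : (n : ℤ) ≤ 2 * (n - b₀ * q) := by linarith only [hn, hbq]
      have e3 : (n : ℤ) * m ≤ 2 * ((n - b₀ * q) * m) := by
        have : (0 : ℤ) ≤ m := by (clear * -; positivity)
        nlinarith only [hn, hbq]
      have e4 : 2 * ((a₁ * p) * n) ≤ (n : ℤ) * m := by
        have : (0 : ℤ) ≤ n := by (clear * -; positivity)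
        nlinarith only [hm, hap]
      linarith only [e3, e4]
    have h6 : 0 ≤ (p * q : ℤ) * r := by rw [mul_assoc]; exact h5
    exact nonneg_of_mul_nonneg_right h6 hpq0
  lift a₀ to ℕ using ha₀
  lift b₀ to ℕ using hb0
  lift a₁ to ℕ using ha0
  lift b₁ to ℕ using hb₁
  lift r to ℕ using hr0
  refine ⟨a₀, b₀, a₁, b₁, r, by exact_mod_cast hnab, by exact_mod_cast hmab, ?_, ?_⟩
  · zify
    linear_combination hr
  · zify
    linear_combination h4

/-! ### Assembly -/

section Assembly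

variable {p q : ℕ}

/-- the path of diagonal representations -/
noncomputable def pathRep (p q : ℕ) (hp : 0 < p) (hq : 0 < q) (K₀ K₁ L : Type) [Fintype K₀]
    [DecidableEq K₀] [Fintype K₁] [DecidableEq K₁] [Fintype L] [DecidableEq L]
    (s : unitInterval) :=
  sumRep Unit L (sumRep K₀ K₁ (piL p q hq) (piR p q hp)) (evH p q s)

theorem continuous_pathRep (hp : 0 < p) (hq : 0 < q) (K₀ K₁ L : Type) [Fintype K₀]
    [DecidableEq K₀] [Fintype K₁] [DecidableEq K₁] [Fintype L] [DecidableEq L]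
    (f : dimDrop p q) : Continuous fun s => pathRep p q hp hq K₀ K₁ L s f := by
  refine continuous_matrix fun i j => ?_
  unfold pathRep
  rcases i with ⟨k, x⟩ | ⟨k, x⟩ <;> rcases j with ⟨k', x'⟩ | ⟨k', x'⟩
  · simp only [sumRep_inl_inl]
    exact continuous_const
  · simp only [sumRep_inl_inr]
    exact continuous_const
  · simp only [sumRep_inr_inl]
    exact continuous_const
  · simp only [sumRep_inr_inr]
    split_ifs
    · have h : Continuous fun s => (f : C(unitInterval, Matrix (Fin p × Fin q) (Fin p × Fin q) ℂ)) s :=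
        (f : C(unitInterval, Matrix (Fin p × Fin q) (Fin p × Fin q) ℂ)).continuous
      exact h.matrix_elem x x'
    · exact continuous_const

/-- conjugation by a unitary after relabelling -/
noncomputable def conjRep {A : Type*} [Semiring A] [Algebra ℂ A] [Star A] {I J : Type}
    [Fintype I] [DecidableEq I] [Fintype J] [DecidableEq J] (V : Matrix I I ℂ)
    (h1 : V * star V = 1) (h2 : star V * V = 1) (e : I ≃ J) (φ : A →⋆ₐ[ℂ] Matrix J J ℂ) :
    A →⋆ₐ[ℂ] Matrix I I ℂ where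
  toFun f := V * (φ f).submatrix e e * star V
  map_one' := by
    rw [map_one, Matrix.submatrix_one_equiv, mul_one, h1]
  map_mul' f g := by
    have : (φ (f * g)).submatrix e e = (φ f).submatrix e e * (φ g).submatrix e e := by
      rw [map_mul, Matrix.submatrix_mul_equiv]
    rw [this]
    calc V * ((φ f).submatrix e e * (φ g).submatrix e e) * star V
        = V * (φ f).submatrix e e * 1 * ((φ g).submatrix e e * star V) := by
          simp only [mul_assoc, mul_one]
      _ = V * (φ f).submatrix e e * (star V * V) * ((φ g).submatrix e e * star V) := by rw [h2]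
      _ = _ := by simp only [mul_assoc]
  map_zero' := by
    rw [map_zero, Matrix.submatrix_zero]
    simp
  map_add' f g := by
    rw [map_add, Matrix.submatrix_add]
    simp only [Pi.add_apply, mul_add, add_mul]
  commutes' r := by
    have : (φ (algebraMap ℂ A r)).submatrix e e = algebraMap ℂ (Matrix I I ℂ) r := by
      rw [AlgHomClass.commutes]
      ext i j
      simp [Matrix.algebraMap_matrix_apply]
    rw [this, ← Algebra.commutes, mul_assoc, h1, mul_one]
  map_star' f := by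
    have : (φ (star f)).submatrix e e = star ((φ f).submatrix e e) := by
      rw [map_star]
      rfl
    rw [this, star_mul, star_mul, star_star, mul_assoc]

theorem assemble {α β : Type} [Fintype α] [DecidableEq α] [Fintype β] [DecidableEq β]
    {I : Type} [Fintype I] [DecidableEq I] (D : unitInterval → (dimDrop p q →⋆ₐ[ℂ] Matrix I I ℂ))
    (hD : ∀ f, Continuous fun s => D s f) (ρ₀ : dimDrop p q → Matrix α α ℂ)
    (ρ₁ : dimDrop p q → Matrix β β ℂ)
    (R0 : Relab (fun f => ρ₀ f ⊗ₖ (1 : Matrix β β ℂ)) (D 0))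
    (R1 : Relab (fun f => (1 : Matrix α α ℂ) ⊗ₖ ρ₁ f) (D 1)) :
    Nonempty (dimDrop p q →⋆ₐ[ℂ] glueAlg α β) := by
  obtain ⟨e₀, he₀⟩ := R0
  obtain ⟨e₁, he₁⟩ := R1
  obtain ⟨V, hVc, hV1, hV2, hV3, hV4⟩ := pathTo (e₁.trans e₀.symm)
  let Ψ : unitInterval → (dimDrop p q →⋆ₐ[ℂ] Matrix (α × β) (α × β) ℂ) := fun s =>
    conjRep (V s) (hV1 s) (hV2 s) e₀ (D s)
  have hΨ : ∀ s f, Ψ s f = V s * (D s f).submatrix e₀ e₀ * star (V s) := fun s f => rfl
  have hΨ0 : ∀ f, Ψ 0 f = ρ₀ f ⊗ₖ (1 : Matrix β β ℂ) := by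
    intro f
    have h := he₀ f
    simp only at h
    rw [hΨ, hV3, h]
    simp only [one_mul, star_one, mul_one]
  have hΨ1 : ∀ f, Ψ 1 f = (1 : Matrix α α ℂ) ⊗ₖ ρ₁ f := by
    intro f
    have h := he₁ f
    simp only at h
    rw [hΨ, hV4, h, Matrix.submatrix_submatrix]
    congr 1 <;>
    · funext x
      simp
  have hΨc : ∀ f, Continuous fun s => Ψ s f := by
    intro f
    have h : Continuous fun s => (D s f).submatrix e₀ e₀ := (hD f).matrix_submatrix _ _
    exact (hVc.matrix_mul h).matrix_mul hVc.star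
  let σ : unitInterval → unitInterval := fun t =>
    Set.projIcc 0 1 zero_le_one (3 * (t : ℝ) - 1)
  have hσc : Continuous σ := by
    refine continuous_projIcc.comp ?_
    fun_prop
  have hσ0 : ∀ t : unitInterval, (t : ℝ) ≤ 1 / 3 → σ t = 0 := by
    intro t ht
    exact Set.projIcc_of_le_left _ (by linarith only [ht])
  have hσ1 : ∀ t : unitInterval, 2 / 3 ≤ (t : ℝ) → σ t = 1 := by
    intro t ht
    exact Set.projIcc_of_right_le _ (by linarith only [ht])
  refine ⟨{
    toFun := fun f => ⟨⟨fun t => Ψ (σ t) f, (hΨc f).comp hσc⟩,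
      ⟨ρ₀ f, fun t ht => ?_⟩, ⟨ρ₁ f, fun t ht => ?_⟩⟩
    map_one' := ?_
    map_mul' := fun f g => ?_
    map_zero' := ?_
    map_add' := fun f g => ?_
    commutes' := fun r => ?_
    map_star' := fun f => ?_ }⟩
  · change Ψ (σ t) f = _
    rw [hσ0 t ht, hΨ0]
  · change Ψ (σ t) f = _
    rw [hσ1 t ht, hΨ1]
  · apply Subtype.ext
    ext1 t
    exact map_one (Ψ (σ t))
  · apply Subtype.ext
    ext1 t
    exact map_mul (Ψ (σ t)) f g
  · apply Subtype.ext
    ext1 t
    exact map_zero (Ψ (σ t))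
  · apply Subtype.ext
    ext1 t
    exact map_add (Ψ (σ t)) f g
  · apply Subtype.ext
    ext1 t
    exact AlgHomClass.commutes (Ψ (σ t)) r
  · apply Subtype.ext
    ext1 t
    exact map_star (Ψ (σ t)) f

end Assembly

end S9H

open S9H

/-- unital homomorphisms from prime dimension drop algebras to large `glueAlg`s -/
theorem step9H (p q : ℕ) (hp : 0 < p) (hq : 0 < q) (hpq : Nat.Coprime p q) (α β : Type)
    [Fintype α] [DecidableEq α] [Fintype β] [DecidableEq β]
    (hα : 2 * (p * q) ≤ Fintype.card α) (hβ : 2 * (p * q) ≤ Fintype.card β) :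
    Nonempty (dimDrop p q →⋆ₐ[ℂ] glueAlg α β) := by
  obtain ⟨a₀, b₀, a₁, b₁, r, hn, hm, h0, h1⟩ :=
    exists_mult p q hp hq hpq (Fintype.card α) (Fintype.card β) hα hβ
  let φ := piL p q hq
  let ψ := piR p q hp
  let D := pathRep p q hp hq (α × Fin a₁) (Fin b₀ × β) (Fin r)
  let eα : α ≃ (Fin a₀ × Fin p) ⊕ (Fin b₀ × Fin q) := Fintype.equivOfCardEq (by
    simp only [hn, Fintype.card_sum, Fintype.card_prod, Fintype.card_fin, Nat.add_left_cancel_iff])
  let eβ : β ≃ (Fin a₁ × Fin p) ⊕ (Fin b₁ × Fin q) := Fintype.equivOfCardEq (by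
    simp only [hm, Fintype.card_sum, Fintype.card_prod, Fintype.card_fin, Nat.add_left_cancel_iff])
  let ρ₀ : dimDrop p q → Matrix α α ℂ := fun f =>
    (sumRep (Fin a₀) (Fin b₀) φ ψ f).submatrix eα eα
  let ρ₁ : dimDrop p q → Matrix β β ℂ := fun f =>
    (sumRep (Fin a₁) (Fin b₁) φ ψ f).submatrix eβ eβ
  have R0 : Relab (fun f => ρ₀ f ⊗ₖ (1 : Matrix β β ℂ)) (D 0) := by
    have s1 : Relab (fun f => ρ₀ f ⊗ₖ (1 : Matrix β β ℂ))
        (fun f => sumRep (Fin a₀) (Fin b₀) φ ψ f ⊗ₖ (1 : Matrix β β ℂ)) := by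
      refine ⟨Equiv.prodCongr eα (Equiv.refl β), fun f => ?_⟩
      ext ⟨i, j⟩ ⟨i', j'⟩
      simp only [Matrix.kroneckerMap_apply, Matrix.submatrix_apply, Matrix.one_apply, mul_ite, mul_one, mul_zero, Equiv.prodCongr_apply, Equiv.coe_refl, Prod.map_apply, id_eq, ρ₀]
    have s2 := relab_kron_right (K₀ := Fin a₀) (K₁ := Fin b₀) (L := β) φ ψ
    have s3 := relab_left (K₀ := α × Fin a₁) (K₁ := Fin b₀ × β) (L := Fin r) φ ψ (evH p q 0)
      (evH_zero hq)
    have s4 : Relab (sumRep (Fin a₀ × β) (Fin b₀ × β) φ ψ)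
        (sumRep ((α × Fin a₁) ⊕ (Fin r × Fin q)) (Fin b₀ × β) φ ψ) :=
      relab_card φ ψ (by simp only [Fintype.card_prod, Fintype.card_fin, h0, Fintype.card_sum, Nat.add_left_cancel_iff]) rfl
    exact ((s1.trans s2).trans s4).trans s3.symm
  have R1 : Relab (fun f => (1 : Matrix α α ℂ) ⊗ₖ ρ₁ f) (D 1) := by
    have s1 : Relab (fun f => (1 : Matrix α α ℂ) ⊗ₖ ρ₁ f)
        (fun f => (1 : Matrix α α ℂ) ⊗ₖ sumRep (Fin a₁) (Fin b₁) φ ψ f) := by
      refine ⟨Equiv.prodCongr (Equiv.refl α) eβ, fun f => ?_⟩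
      ext ⟨i, j⟩ ⟨i', j'⟩
      simp [ρ₁, Matrix.kroneckerMap_apply, Matrix.one_apply]
    have s2 := relab_kron_left (K₀ := Fin a₁) (K₁ := Fin b₁) (L := α) φ ψ
    have s3 := relab_right (K₀ := α × Fin a₁) (K₁ := Fin b₀ × β) (L := Fin r) φ ψ (evH p q 1)
      (evH_one hp)
    have s4 : Relab (sumRep (α × Fin a₁) (α × Fin b₁) φ ψ)
        (sumRep (α × Fin a₁) ((Fin b₀ × β) ⊕ (Fin r × Fin p)) φ ψ) :=
      relab_card φ ψ rfl (by simp only [Fintype.card_prod, Fintype.card_fin, h1, Fintype.card_sum, Nat.add_left_cancel_iff])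
    exact ((s1.trans s2).trans s4).trans s3.symm
  let i1 : DecidableEq (Unit × (((α × Fin a₁) × Fin p) ⊕ ((Fin b₀ × β) × Fin q))) :=
    inferInstance
  let i2 : DecidableEq
      ((Unit × (((α × Fin a₁) × Fin p) ⊕ ((Fin b₀ × β) × Fin q))) ⊕ (Fin r × Fin p × Fin q)) :=
    inferInstance
  exact assemble D (continuous_pathRep hp hq (α × Fin a₁) (Fin b₀ × β) (Fin r)) ρ₀ ρ₁ R0 R1

end Vale.Agent.P101
end

section

/-! Simplicity, nets, and the norm of products with central elements. -/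

set_option linter.unusedSectionVars false

open Filter Topology

namespace Vale.Agent.P095

universe u v w

open Vale.Agent.P101

/-- Saturation: choosing a net. -/
theorem exists_net {X : Type v} {Y : Type w} (Q : Finset X → ℝ → Y → Prop)
    (hmono : ∀ (F F' : Finset X) (ε ε' : ℝ) (y : Y), F ⊆ F' → ε' ≤ ε → Q F' ε' y → Q F ε y)
    (h : ∀ (F : Finset X) (ε : ℝ), 0 < ε → ∃ y, Q F ε y) :
    ∃ (ι : Type v) (μ : Filter ι) (_ : NeBot μ) (y : ι → Y),
      ∀ (F : Finset X) (ε : ℝ), 0 < ε → ∀ᶠ i in μ, Q F ε (y i) := by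
  classical
  have : Nonempty Y := ⟨(h ∅ 1 one_pos).choose⟩
  choose! y hy using h
  refine ⟨Finset X × ℕ, atTop, inferInstance, fun i => y i.1 (1 / ((i.2 : ℝ) + 1)), ?_⟩
  intro F ε hε
  obtain ⟨N, hN⟩ := exists_nat_one_div_lt hε
  filter_upwards [eventually_ge_atTop (F, N)] with i hi
  have h1 : F ⊆ i.1 := hi.1
  have h2 : N ≤ i.2 := hi.2
  refine hmono F i.1 ε _ _ h1 ?_ (hy i.1 _ (by (clear * -; positivity)))
  refine le_trans ?_ hN.le
  have : (N : ℝ) ≤ i.2 := by exact_mod_cast h2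
  gcongr

section
variable {A : Type u} [CStarAlgebra A] [PartialOrder A] [StarOrderedRing A]

end

end Vale.Agent.P095
end

section

/-! Spectral cuts at the top of the spectrum. -/

set_option linter.unusedSectionVars false

open Filter Topology

namespace Vale.Agent.P095

universe u v w

section
variable {A : Type u} [CStarAlgebra A] [PartialOrder A] [StarOrderedRing A]

/-- cutting a positive element at the top of its spectrum -/
theorem top_cut_general (T : A) (h0 : 0 ≤ T) (κ : ℝ) (hκ : 0 < κ) (hκT : κ < ‖T‖) :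
    ∃ d z : A, 0 ≤ d ∧ ‖d‖ = 1 ∧ d = T * z ∧ d = z * T ∧
      ((‖T‖ - κ : ℝ) • (d * d)) ≤ d * T * d := by
  set c : ℝ := ‖T‖ - κ with hc
  have hc0 : 0 < c := by rw [hc]; linarith only [hκT]
  have hTne : T ≠ 0 := by
    intro h; rw [h, norm_zero] at hκT; linarith only [hκ, hκT]
  have : Nontrivial A := ⟨⟨T, 0, hTne⟩⟩
  have hsa : IsSelfAdjoint T := IsSelfAdjoint.of_nonneg h0
  let F : ℝ → ℝ := fun t => max 0 (min 1 ((t - c) / κ))
  let g : ℝ → ℝ := fun t => F t / max t c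
  have hFc : Continuous F := by
    dsimp only [F]; (clear * -; fun_prop)
  have hgc : Continuous g := by
    dsimp only [g]
    refine hFc.div (by fun_prop) (fun t => ?_)
    exact (lt_of_lt_of_le hc0 (le_max_right _ _)).ne'
  have hF0 : ∀ t, 0 ≤ F t := fun t => le_max_left _ _
  have hF1 : ∀ t, F t ≤ 1 := fun t => max_le zero_le_one (min_le_left _ _)
  have hFz : ∀ t, t ≤ c → F t = 0 := by
    intro t ht
    dsimp only [F]
    apply max_eq_left
    apply (min_le_right _ _).trans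
    exact div_nonpos_of_nonpos_of_nonneg (by linarith only [ht]) hκ.le
  have hFt : F ‖T‖ = 1 := by
    dsimp only [F]
    rw [hc]
    have : (‖T‖ - (‖T‖ - κ)) / κ = 1 := by
      rw [show ‖T‖ - (‖T‖ - κ) = κ by ring, div_self hκ.ne']
    rw [this]; simp only [min_self, zero_le_one, sup_of_le_right]
  have htg : ∀ t, t * g t = F t := by
    intro t
    dsimp only [g]
    rcases le_total t c with h | h
    · rw [hFz t h]; simp only [zero_div, mul_zero]
    · rw [max_eq_left h]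
      have : t ≠ 0 := (lt_of_lt_of_le hc0 h).ne'
      (clear * - this; field_simp)
  have hid : cfc (fun t : ℝ => t) T = T := cfc_id' ℝ T
  refine ⟨cfc F T, cfc g T, cfc_nonneg (fun t _ => hF0 t), ?_, ?_, ?_, ?_⟩
  · apply le_antisymm
    · apply norm_cfc_le zero_le_one
      intro t _
      rw [Real.norm_eq_abs, abs_of_nonneg (hF0 t)]
      exact hF1 t
    · have hmem : ‖T‖ ∈ spectrum ℝ T := CStarAlgebra.norm_mem_spectrum_of_nonneg
      have := norm_apply_le_norm_cfc F T hmem hFc.continuousOn hsa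
      rw [hFt] at this
      simpa only [ge_iff_le, norm_one] using this
  · have h1 : T * cfc g T = cfc (fun t : ℝ => t) T * cfc g T := by rw [hid]
    rw [h1, ← cfc_mul (fun t => t) g T (by fun_prop) hgc.continuousOn]
    congr 1
    funext t
    rw [htg]
  · have h1 : cfc g T * T = cfc g T * cfc (fun t : ℝ => t) T := by rw [hid]
    rw [h1, ← cfc_mul g (fun t => t) T hgc.continuousOn (by fun_prop)]
    congr 1
    funext t
    rw [mul_comm, htg]
  · have h1 : cfc F T * T * cfc F T = cfc (fun t => F t * t * F t) T := by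
      conv_lhs => rw [show cfc F T * T * cfc F T = cfc F T * cfc (fun t : ℝ => t) T * cfc F T by
        rw [hid]]
      rw [← cfc_mul F (fun t => t) T hFc.continuousOn (by fun_prop),
        ← cfc_mul (fun t => F t * t) F T (by (clear * -; fun_prop)) hFc.continuousOn]
    have h2 : c • (cfc F T * cfc F T) = cfc (fun t => c • (F t * F t)) T := by
      rw [← cfc_mul F F T hFc.continuousOn hFc.continuousOn,
        ← cfc_smul c (fun t => F t * F t) T (by fun_prop)]
    rw [h1, h2]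
    apply cfc_mono
    · intro t _
      simp only [smul_eq_mul]
      rcases le_total t c with h | h
      · rw [hFz t h]; simp
      · nlinarith only [h]
    · exact ((hFc.mul hFc).const_smul c).continuousOn
    · exact ((hFc.mul continuous_id).mul hFc).continuousOn

theorem absb_mul {d h : A} {ε : ℝ} (H : Absb d h ε) (z : A) : Absb (d * z) h ε := by
  have h1 := star_left_conjugate_le_conjugate H z
  unfold Absb
  have e1 : star (d * z) * (star (1 - h) * (1 - h)) * (d * z) =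
      star z * (star d * (star (1 - h) * (1 - h)) * d) * z := by
    rw [star_mul]; noncomm_ring
  have e2 : (ε ^ 2 : ℝ) • (star (d * z) * (d * z)) =
      star z * ((ε ^ 2 : ℝ) • (star d * d)) * z := by
    rw [star_mul, mul_smul_comm, smul_mul_assoc]
    congr 1
    noncomm_ring
  rw [e1, e2]
  exact h1

theorem absb_map {B : Type v} [CStarAlgebra B] [PartialOrder B] [StarOrderedRing B]
    (f : A →⋆ₐ[ℂ] B) {d h : A} {ε : ℝ} (hε : 0 ≤ ε) (H : Absb d h ε) (v : B) :
    ‖f h * (f d * v) - f d * v‖ ≤ ε * ‖f d * v‖ := by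
  have hmono : f (star d * (star (1 - h) * (1 - h)) * d) ≤ f ((ε ^ 2 : ℝ) • (star d * d)) :=
    OrderHomClass.mono f H
  have hsm : f ((ε ^ 2 : ℝ) • (star d * d)) = (ε ^ 2 : ℝ) • (star (f d) * f d) := by
    have : ((ε ^ 2 : ℝ) • (star d * d)) = ((ε ^ 2 : ℝ) : ℂ) • (star d * d) := by
      rw [Complex.coe_smul]
    rw [this, map_smul, map_mul, map_star, Complex.coe_smul]
  rw [hsm] at hmono
  simp only [map_mul, map_star, map_sub, map_one] at hmono
  have h2 := star_left_conjugate_le_conjugate hmono v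
  set u : B := f d * v with hu
  have e1 : star v * (star (f d) * ((star 1 - star (f h)) * (1 - f h)) * f d) * v =
      star ((1 - f h) * u) * ((1 - f h) * u) := by
    rw [hu]; simp only [star_mul, star_sub]; noncomm_ring
  have e2 : star v * ((ε ^ 2 : ℝ) • (star (f d) * f d)) * v = (ε ^ 2 : ℝ) • (star u * u) := by
    rw [hu, star_mul, mul_smul_comm, smul_mul_assoc]
    congr 1
    noncomm_ring
  have h3 : star ((1 - f h) * u) * ((1 - f h) * u) ≤ (ε ^ 2 : ℝ) • (star u * u) := by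
    rw [← e1, ← e2]
    simpa only [star_one, Algebra.mul_smul_comm, Algebra.smul_mul_assoc, star_sub] using h2
  have h4 := CStarAlgebra.norm_le_norm_of_nonneg_of_le (star_mul_self_nonneg _) h3
  rw [CStarRing.norm_star_mul_self, norm_smul, CStarRing.norm_star_mul_self] at h4
  have h5 : ‖(1 - f h) * u‖ ≤ ε * ‖u‖ := by
    have h6 : ‖(1 - f h) * u‖ ^ 2 ≤ (ε * ‖u‖) ^ 2 := by
      rw [Real.norm_eq_abs, abs_of_nonneg (sq_nonneg ε)] at h4
      linarith
    exact le_of_sq_le_sq h6 (by (clear * - hε; positivity))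
  have e3 : f h * u - u = -((1 - f h) * u) := by noncomm_ring
  rw [e3, norm_neg]
  exact h5

lemma one_sub_sq_le {h : A} (h0 : 0 ≤ h) (h1 : h ≤ 1) : (1 - h) * (1 - h) ≤ 1 - h := by
  have := CStarAlgebra.pow_antitone (sub_nonneg.mpr h1) (sub_le_self 1 h0) (show 1 ≤ 2 by norm_num)
  simpa only [ge_iff_le, sq, pow_one] using this

/-- if `d` is selfadjoint-conjugated: `d (1 - h) d ≤ ε² d²` gives `Absb`. -/
lemma absb_of_le {d h : A} (hd : 0 ≤ d) (h0 : 0 ≤ h) (h1 : h ≤ 1) {ε : ℝ}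
    (H : d * (1 - h) * d ≤ (ε ^ 2 : ℝ) • (d * d)) : Absb d h ε := by
  unfold Absb
  have hsd : star d = d := (IsSelfAdjoint.of_nonneg hd).star_eq
  have hsh : star (1 - h) = 1 - h :=
    (IsSelfAdjoint.of_nonneg (sub_nonneg.mpr h1)).star_eq
  rw [hsd, hsh]
  refine le_trans ?_ H
  have := star_left_conjugate_le_conjugate (one_sub_sq_le h0 h1) d
  rwa [hsd] at this

lemma le_one_of_norm_le {h : A} (h0 : 0 ≤ h) (h1 : ‖h‖ ≤ 1) : h ≤ 1 :=
  (CStarAlgebra.norm_le_one_iff_of_nonneg h h0).mp h1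

lemma smul_le_of_le {r s : ℝ} (hrs : r ≤ s) {p : A} (hp : 0 ≤ p) : r • p ≤ s • p := by
  have : 0 ≤ (s - r) • p := smul_nonneg (sub_nonneg.mpr hrs) hp
  rw [sub_smul] at this
  exact sub_nonneg.mp this

end

end Vale.Agent.P095
end

section

/-! Excision of states in an arbitrary unital C*-algebra. -/

set_option linter.unusedSectionVars false

open Filter Topology

namespace Vale.Agent.P095

universe u v w

section
variable {M : Type u} [CStarAlgebra M] [PartialOrder M] [StarOrderedRing M]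

/-- on the right ideal `q M` the element `X` is compressed to the scalar `c`, up to `ε` -/
def Exc (q X : M) (c : ℂ) (ε : ℝ) : Prop :=
  ∀ z : M, ‖star (q * z) * X * (q * z) - c • (star (q * z) * (q * z))‖ ≤ ε * ‖q * z‖ ^ 2

theorem exc_mul {q X : M} {c : ℂ} {ε : ℝ} (h : Exc q X c ε) (z : M) : Exc (q * z) X c ε := by
  intro w
  have := h (z * w)
  simpa only [← mul_assoc] using this

/-- if `0 ≤ D ≤ κ B` then `‖D‖ ≤ κ ‖B‖` -/
theorem nexc_norm_le {D B : M} {κ : ℝ} (hκ : 0 ≤ κ) (h0 : 0 ≤ D) (h1 : D ≤ κ • B) :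
    ‖D‖ ≤ κ * ‖B‖ := by
  have h2 := CStarAlgebra.norm_le_norm_of_nonneg_of_le h0 h1
  rwa [norm_smul, Real.norm_of_nonneg hκ] at h2

theorem nexc_le_norm (X : M) (hX : IsSelfAdjoint X) : X ≤ ‖X‖ • (1 : M) := by
  have := hX.le_algebraMap_norm_self
  rwa [Algebra.algebraMap_eq_smul_one] at this

theorem nexc_conj_le {a b : M} (h : a ≤ b) (v : M) : star v * a * v ≤ star v * b * v :=
  star_left_conjugate_le_conjugate h v

theorem nexc_conj_one (v : M) (r : ℝ) : star v * (r • (1 : M)) * v = r • (star v * v) := by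
  rw [mul_smul_comm, mul_one, smul_mul_assoc]

theorem nexc_star_mul_self_norm (v : M) : ‖star v * v‖ = ‖v‖ ^ 2 := by
  rw [CStarRing.norm_star_mul_self, sq]

theorem exc_top [Nontrivial M] (X : M) (hX : 0 ≤ X) (ε : ℝ) (hε : 0 < ε) :
    ∃ q : M, q ≠ 0 ∧ Exc q X (‖X‖ : ℂ) ε := by
  by_cases h0 : X = 0
  · refine ⟨1, one_ne_zero, fun z => ?_⟩
    subst h0
    simp only [mul_zero, zero_mul, norm_zero, Complex.ofReal_zero, zero_smul, sub_zero]
    (clear * - hε; positivity)
  have hpos : 0 < ‖X‖ := norm_pos_iff.mpr h0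
  set κ : ℝ := min ε (‖X‖ / 2) with hκd
  have hκ : 0 < κ := lt_min hε (by linarith only [hpos])
  have hκε : κ ≤ ε := min_le_left _ _
  have hκX : κ < ‖X‖ := lt_of_le_of_lt (min_le_right _ _) (by linarith only [hpos])
  obtain ⟨d, z, hd0, hd1, -, -, hd⟩ := top_cut_general X hX κ hκ hκX
  refine ⟨d, by rintro rfl; simp at hd1, fun z => ?_⟩
  have hsd : star d = d := (IsSelfAdjoint.of_nonneg hd0).star_eq
  have e1 : star (d * z) * X * (d * z) = star z * (d * X * d) * z := by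
    rw [star_mul, hsd]; simp only [mul_assoc]
  have e2 : star (d * z) * (d * z) = star z * (d * d) * z := by
    rw [star_mul, hsd]; simp only [mul_assoc]
  have l1 : star (d * z) * X * (d * z) ≤ ‖X‖ • (star (d * z) * (d * z)) := by
    have := nexc_conj_le (nexc_le_norm X (IsSelfAdjoint.of_nonneg hX)) (d * z)
    rwa [nexc_conj_one] at this
  have l2 : (‖X‖ - κ) • (star (d * z) * (d * z)) ≤ star (d * z) * X * (d * z) := by
    have := nexc_conj_le hd z
    rw [e1, e2]
    rwa [mul_smul_comm, smul_mul_assoc] at this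
  have key : ‖‖X‖ • (star (d * z) * (d * z)) - star (d * z) * X * (d * z)‖
      ≤ κ * ‖star (d * z) * (d * z)‖ := by
    apply nexc_norm_le hκ.le (sub_nonneg.mpr l1)
    rw [sub_smul] at l2
    rw [sub_le_iff_le_add] at l2 ⊢
    rwa [add_comm]
  rw [norm_sub_rev] at key
  rw [Complex.coe_smul]
  refine key.trans ?_
  rw [nexc_star_mul_self_norm]
  exact mul_le_mul_of_nonneg_right hκε (by (clear * -; positivity))

/-- the inverse square root trick -/
theorem nexc_upper (v X : M) (hX : 0 ≤ X) (m : ℝ)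
    (hm : ∀ s : M, ‖v * s‖ ≤ 1 → ‖star (v * s) * X * (v * s)‖ ≤ m) :
    star v * X * v ≤ m • (star v * v) := by
  have ha0 : 0 ≤ star v * v := star_mul_self_nonneg v
  have hsa : IsSelfAdjoint (star v * v) := IsSelfAdjoint.of_nonneg ha0
  have hspec : ∀ t ∈ spectrum ℝ (star v * v), 0 ≤ t := fun t ht =>
    spectrum_nonneg_of_nonneg ha0 ht
  have main : ∀ r : ℝ, 0 < r → star v * X * v ≤ m • (star v * v) + (m * r) • (1 : M) := by
    intro r hr
    have hp : ∀ t : ℝ, 0 < max t 0 + r := fun t => by (clear * - hr; positivity)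
    have hps : ∀ t : ℝ, 0 < Real.sqrt (max t 0 + r) := fun t => Real.sqrt_pos.mpr (hp t)
    have hgc : Continuous (fun t : ℝ => Real.sqrt (max t 0 + r)) := by fun_prop
    have hfc : Continuous (fun t : ℝ => (Real.sqrt (max t 0 + r))⁻¹) :=
      hgc.inv₀ (fun t => (hps t).ne')
    set s := cfc (fun t : ℝ => (Real.sqrt (max t 0 + r))⁻¹) (star v * v) with hs
    set c := cfc (fun t : ℝ => Real.sqrt (max t 0 + r)) (star v * v) with hc
    have hsc : s * c = 1 := by
      rw [hs, hc, ← cfc_mul _ _ _ hfc.continuousOn hgc.continuousOn, ← cfc_one ℝ (star v * v)]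
      exact cfc_congr fun t _ => inv_mul_cancel₀ (hps t).ne'
    have hcc : c * c = star v * v + r • (1 : M) := by
      rw [hc, ← cfc_mul _ _ _ hgc.continuousOn hgc.continuousOn]
      have h1 : star v * v + r • (1 : M) = cfc (fun t : ℝ => t + r) (star v * v) := by
        rw [cfc_add_const r (fun t => t) (star v * v), cfc_id' ℝ (star v * v),
          Algebra.algebraMap_eq_smul_one]
      rw [h1]
      refine cfc_congr fun t ht => ?_
      have := hspec t ht
      rw [Real.mul_self_sqrt (hp t).le, max_eq_left this]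
    have hsS : star s = s := by
      rw [hs]; exact (cfc_predicate _ _ : IsSelfAdjoint _).star_eq
    have hcS : star c = c := by
      rw [hc]; exact (cfc_predicate _ _ : IsSelfAdjoint _).star_eq
    have hnorm : ‖v * s‖ ≤ 1 := by
      have h1 : ‖v * s‖ ^ 2 ≤ 1 := by
        rw [← nexc_star_mul_self_norm, star_mul, hsS]
        have h2 : s * star v * (v * s) = cfc (fun t : ℝ => (Real.sqrt (max t 0 + r))⁻¹ * t *
            (Real.sqrt (max t 0 + r))⁻¹) (star v * v) := by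
          rw [cfc_mul (fun t : ℝ => (Real.sqrt (max t 0 + r))⁻¹ * t) _ _
            (hfc.mul continuous_id).continuousOn hfc.continuousOn,
            cfc_mul _ (fun t : ℝ => t) _ hfc.continuousOn continuous_id.continuousOn,
            cfc_id' ℝ (star v * v)]
          simp only [mul_assoc, hs]
        rw [h2]
        refine norm_cfc_le zero_le_one fun t ht => ?_
        have ht0 := hspec t ht
        rw [Real.norm_of_nonneg (by (clear * - ht0 hr; positivity)), mul_right_comm, ← mul_inv,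
          Real.mul_self_sqrt (hp t).le, max_eq_left ht0, inv_mul_le_one₀ (by linarith only [hr, ht0])]
        linarith only [hr]
      nlinarith only [h1]
    have h3 := hm s hnorm
    have h4 : star (v * s) * X * (v * s) ≤ m • (1 : M) := by
      have h5 := nexc_le_norm (star (v * s) * X * (v * s))
        (IsSelfAdjoint.of_nonneg (star_left_conjugate_nonneg hX _))
      refine h5.trans ?_
      have h6 : (0 : M) ≤ 1 := zero_le_one
      exact smul_le_smul_of_nonneg_right h3 h6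
    have h7 := nexc_conj_le h4 c
    rw [nexc_conj_one, hcS, hcc] at h7
    have h8 : c * (star (v * s) * X * (v * s)) * c = star v * X * v := by
      have hcs : c * s = 1 := by
        have := congrArg star hsc
        rwa [star_mul, hsS, hcS, star_one] at this
      rw [star_mul, hsS]
      calc c * (s * star v * X * (v * s)) * c = (c * s) * (star v * X * v) * (s * c) := by
            simp only [mul_assoc]
        _ = star v * X * v := by rw [hcs, hsc, one_mul, mul_one]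
    rw [h8] at h7
    refine h7.trans (le_of_eq ?_)
    rw [smul_add, smul_smul]
  -- let r tend to zero
  have hlim : Tendsto (fun r : ℝ => m • (star v * v) + (m * r) • (1 : M)) (𝓝[>] 0)
      (𝓝 (m • (star v * v))) := by
    have h1 : Continuous (fun r : ℝ => m • (star v * v) + (m * r) • (1 : M)) := by fun_prop
    have h2 := h1.tendsto 0
    simp only [mul_zero, zero_smul, add_zero] at h2
    exact h2.mono_left nhdsWithin_le_nhds
  refine ge_of_tendsto hlim ?_
  filter_upwards [self_mem_nhdsWithin] with r hr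
  exact main r hr

/-- excision step for positive elements -/
theorem nexc_step_pos (q : M) (hq : q ≠ 0) (X : M) (hX : 0 ≤ X) (ε : ℝ) (hε : 0 < ε) :
    ∃ z : M, q * z ≠ 0 ∧ ∃ c : ℝ, Exc (q * z) X (c : ℂ) ε := by
  set S : Set ℝ := {x | ∃ z : M, ‖q * z‖ ≤ 1 ∧ x = ‖star (q * z) * X * (q * z)‖} with hS
  have hbdd : BddAbove S := by
    refine ⟨‖X‖, ?_⟩
    rintro x ⟨z, hz, rfl⟩
    calc ‖star (q * z) * X * (q * z)‖ ≤ ‖star (q * z)‖ * ‖X‖ * ‖q * z‖ :=
          (norm_mul_le _ _).trans (mul_le_mul_of_nonneg_right (norm_mul_le _ _) (norm_nonneg _))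
      _ ≤ 1 * ‖X‖ * 1 := by
          rw [norm_star]
          (clear * - hz; gcongr)
      _ = ‖X‖ := by ring
  have hne : S.Nonempty := ⟨_, 0, by simp only [mul_zero, norm_zero, zero_le_one], rfl⟩
  set m := sSup S with hm
  have hle : ∀ z : M, ‖q * z‖ ≤ 1 → ‖star (q * z) * X * (q * z)‖ ≤ m := fun z hz =>
    le_csSup hbdd ⟨z, hz, rfl⟩
  have hm0 : 0 ≤ m := (norm_nonneg _).trans (hle 0 (by simp only [mul_zero, norm_zero, zero_le_one]))
  have hup : ∀ z : M, star (q * z) * X * (q * z) ≤ m • (star (q * z) * (q * z)) := by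
    intro z
    refine nexc_upper (q * z) X hX m fun s hs => ?_
    have hqs : q * z * s = q * (z * s) := mul_assoc _ _ _
    rw [hqs] at hs ⊢
    exact hle _ hs
  have hpos : ∀ z : M, 0 ≤ star (q * z) * X * (q * z) := fun z => star_left_conjugate_nonneg hX _
  rcases eq_or_lt_of_le hm0 with h0 | hmpos
  · refine ⟨1, by rwa [mul_one], 0, fun z => ?_⟩
    rw [mul_one, Complex.ofReal_zero, zero_smul, sub_zero]
    have h1 := hup z
    rw [← h0, zero_smul] at h1
    rw [le_antisymm h1 (hpos z), norm_zero]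
    (clear * - hε; positivity)
  · set κ : ℝ := min (m / 4) (ε / 4) with hκd
    have hκ : 0 < κ := lt_min (by linarith only [hmpos]) (by linarith only [hε])
    have hκm : κ ≤ m / 4 := min_le_left _ _
    have hκε : κ ≤ ε / 4 := min_le_right _ _
    obtain ⟨x, ⟨z0, hz0, rfl⟩, hx⟩ := exists_lt_of_lt_csSup hne (show m - κ < sSup S by
      rw [← hm]; linarith only [hκ])
    set u := q * z0 with hu
    set T := star u * X * u with hT
    have hT0 : 0 ≤ T := star_left_conjugate_nonneg hX _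
    obtain ⟨g, g', hg0, hg1, -, -, hg⟩ := top_cut_general T hT0 κ hκ (by linarith only [hκ, hκm, hx])
    have hgS : star g = g := (IsSelfAdjoint.of_nonneg hg0).star_eq
    have hgg : ‖g * g‖ = 1 := by
      have := nexc_star_mul_self_norm g
      rw [hgS, hg1] at this
      rw [this]; norm_num
    refine ⟨z0 * g, ?_, m, ?_⟩
    · intro h
      rw [← mul_assoc, ← hu] at h
      have h1 : g * T * g = 0 := by
        rw [hT]
        calc g * (star u * X * u) * g = g * star u * X * (u * g) := by simp only [mul_assoc]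
          _ = 0 := by rw [h, mul_zero]
      rw [h1] at hg
      have hgn : 0 ≤ g * g := by
        have := star_mul_self_nonneg g
        rwa [hgS] at this
      have h2 : (0 : M) ≤ (‖T‖ - κ) • (g * g) :=
        smul_nonneg (by linarith only [hκ, hκm, hx]) hgn
      have h3 := le_antisymm hg h2
      have h4 : ‖(‖T‖ - κ) • (g * g)‖ = 0 := by rw [h3, norm_zero]
      rw [norm_smul, hgg, mul_one, Real.norm_of_nonneg (by linarith only [hκ, hκm, hx])] at h4
      linarith only [hκ, hκm, hx, h4]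
    · intro w
      have e0 : q * (z0 * g) * w = q * (z0 * g * w) := by simp only [mul_assoc]
      set v := q * (z0 * g) * w with hv
      have hvu : v = u * (g * w) := by rw [hv, hu]; simp only [mul_assoc]
      have l1 : star v * X * v ≤ m • (star v * v) := by
        have := hup (z0 * g * w)
        rwa [← e0] at this
      have l2 : (m - 2 * κ) • (star (g * w) * (g * w)) ≤ star v * X * v := by
        have h1 := nexc_conj_le hg w
        have h2 : star w * (g * T * g) * w = star v * X * v := by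
          rw [hvu, hT]
          simp only [mul_assoc, star_mul, hgS]
        have h3 : star w * ((‖T‖ - κ) • (g * g)) * w = (‖T‖ - κ) • (star (g * w) * (g * w)) := by
          rw [mul_smul_comm, smul_mul_assoc, star_mul, hgS]
          simp only [mul_assoc]
        rw [h2, h3] at h1
        refine le_trans ?_ h1
        exact smul_le_smul_of_nonneg_right (by linarith only [hx]) (star_mul_self_nonneg _)
      have l3 : star v * v ≤ star (g * w) * (g * w) := by
        have h1 : star u * u ≤ 1 := by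
          have h2 := nexc_le_norm (star u * u) (IsSelfAdjoint.star_mul_self u)
          refine h2.trans ?_
          have h3 : ‖star u * u‖ ≤ 1 := by
            rw [nexc_star_mul_self_norm]
            nlinarith only [hz0, norm_nonneg u]
          calc ‖star u * u‖ • (1 : M) ≤ (1 : ℝ) • (1 : M) :=
                smul_le_smul_of_nonneg_right h3 zero_le_one
            _ = 1 := one_smul _ _
        have h4 := nexc_conj_le h1 (g * w)
        have h5 : star (g * w) * (star u * u) * (g * w) = star v * v := by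
          rw [hvu, star_mul u]
          simp only [mul_assoc]
        rwa [h5, mul_one] at h4
      -- norms
      have n1 : ‖m • (star v * v) - star v * X * v‖ ≤ (2 * κ) * ‖star (g * w) * (g * w)‖ := by
        apply nexc_norm_le (by linarith only [hκ]) (sub_nonneg.mpr l1)
        have h1 : m • (star v * v) ≤ m • (star (g * w) * (g * w)) :=
          smul_le_smul_of_nonneg_left l3 hm0
        calc m • (star v * v) - star v * X * v
            ≤ m • (star (g * w) * (g * w)) - (m - 2 * κ) • (star (g * w) * (g * w)) :=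
              sub_le_sub h1 l2
          _ = (2 * κ) • (star (g * w) * (g * w)) := by rw [← sub_smul]; congr 1; ring
      have n2 : (m - 2 * κ) * ‖star (g * w) * (g * w)‖ ≤ m * ‖star v * v‖ := by
        have h0 : (0 : M) ≤ (m - 2 * κ) • (star (g * w) * (g * w)) :=
          smul_nonneg (by linarith only [hκ, hκm]) (star_mul_self_nonneg _)
        have h1 := CStarAlgebra.norm_le_norm_of_nonneg_of_le h0 (l2.trans l1)
        rwa [norm_smul, norm_smul, Real.norm_of_nonneg (by linarith only [hκ, hκm]), Real.norm_of_nonneg hm0] at h1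
      rw [nexc_star_mul_self_norm v] at n2
      rw [Complex.coe_smul, norm_sub_rev]
      refine n1.trans ?_
      set N := ‖star (g * w) * (g * w)‖ with hN
      have hN0 : 0 ≤ N := norm_nonneg _
      have n3 : N ≤ 2 * ‖v‖ ^ 2 := by
        have h1 : m / 2 * N ≤ m * ‖v‖ ^ 2 :=
          (mul_le_mul_of_nonneg_right (by linarith only [hκm]) hN0).trans n2
        have h2 : m * N ≤ m * (2 * ‖v‖ ^ 2) := by linarith only [h1]
        exact le_of_mul_le_mul_left h2 hmpos
      calc 2 * κ * N ≤ 2 * κ * (2 * ‖v‖ ^ 2) := mul_le_mul_of_nonneg_left n3 (by linarith only [hκ])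
        _ = (4 * κ) * ‖v‖ ^ 2 := by ring
        _ ≤ ε * ‖v‖ ^ 2 := mul_le_mul_of_nonneg_right (by linarith only [hκε]) (by (clear * -; positivity))

theorem exc_step (q : M) (hq : q ≠ 0) (X : M) (hX : IsSelfAdjoint X) (ε : ℝ) (hε : 0 < ε) :
    ∃ z : M, q * z ≠ 0 ∧ ∃ c : ℝ, Exc (q * z) X (c : ℂ) ε := by
  have hX0 : 0 ≤ X + ‖X‖ • (1 : M) := by
    have := hX.neg_algebraMap_norm_le_self
    rw [Algebra.algebraMap_eq_smul_one] at this
    rw [← sub_le_iff_le_add]
    simpa only [zero_sub] using this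
  obtain ⟨z, hz, c, hc⟩ := nexc_step_pos q hq _ hX0 ε hε
  refine ⟨z, hz, c - ‖X‖, fun w => ?_⟩
  have h1 := hc w
  have h2 : star (q * z * w) * (X + ‖X‖ • (1 : M)) * (q * z * w)
      - (c : ℂ) • (star (q * z * w) * (q * z * w))
      = star (q * z * w) * X * (q * z * w)
        - ((c - ‖X‖ : ℝ) : ℂ) • (star (q * z * w) * (q * z * w)) := by
    rw [mul_add, add_mul, nexc_conj_one, Complex.coe_smul, Complex.coe_smul, sub_smul]
    abel
  rwa [h2] at h1

theorem exc_list (q : M) (hq : q ≠ 0) (s : Finset M) (ε : ℝ) (hε : 0 < ε) :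
    ∃ z : M, q * z ≠ 0 ∧ ∃ ψ : M → ℂ, ∀ X ∈ s, Exc (q * z) X (ψ X) ε := by
  classical
  induction s using Finset.induction_on with
  | empty => exact ⟨1, by rwa [mul_one], fun _ => 0, by simp⟩
  | insert X s hXs ih =>
    obtain ⟨z1, h1, ψ, hψ⟩ := ih
    obtain ⟨z2, h2, r, hr⟩ := exc_step (q * z1) h1 (realPart X : M) (realPart X).2 (ε / 2)
      (by linarith)
    obtain ⟨z3, h3, t, ht⟩ := exc_step (q * z1 * z2) h2 (imaginaryPart X : M)
      (imaginaryPart X).2 (ε / 2) (by linarith)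
    have e : q * (z1 * z2 * z3) = q * z1 * z2 * z3 := by simp only [mul_assoc]
    refine ⟨z1 * z2 * z3, by rwa [e], Function.update ψ X (r + t * Complex.I), ?_⟩
    intro Y hY
    rw [e]
    rcases Finset.mem_insert.mp hY with rfl | hYs
    · rw [Function.update_self]
      have hr' := exc_mul hr z3
      intro w
      have a1 := hr' w
      have a2 := ht w
      set v := q * z1 * z2 * z3 * w with hv
      have hXe := realPart_add_I_smul_imaginaryPart Y
      have e2 : star v * Y * v - ((r : ℂ) + t * Complex.I) • (star v * v)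
          = (star v * (realPart Y : M) * v - (r : ℂ) • (star v * v))
            + Complex.I • (star v * (imaginaryPart Y : M) * v - (t : ℂ) • (star v * v)) := by
        conv_lhs => rw [← hXe]
        rw [mul_add, add_mul, mul_smul_comm, smul_mul_assoc, smul_sub, smul_smul, add_smul,
          mul_comm Complex.I]
        abel
      rw [e2]
      refine (norm_add_le _ _).trans ?_
      rw [norm_smul, Complex.norm_I, one_mul]
      linarith only [a1, a2]
    · have hne : Y ≠ X := by rintro rfl; exact hXs hYs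
      rw [Function.update_of_ne hne]
      exact exc_mul (exc_mul (hψ Y hYs) z2) z3

end

end Vale.Agent.P095
end

section

/-! Every state is, on finite sets, a convex combination of excised functionals. -/

set_option linter.unusedSectionVars false

open Filter Topology

namespace Vale.Agent.P095

universe u v w

section
variable {M : Type u} [CStarAlgebra M] [PartialOrder M] [StarOrderedRing M]

theorem stc_algebraMap (Φ : M →ₗ[ℂ] ℂ) (h1 : Φ 1 = 1) (r : ℝ) : Φ (algebraMap ℝ M r) = (r : ℂ) := by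
  have h2 : algebraMap ℝ M r = (r : ℂ) • (1 : M) := by
    rw [Algebra.algebraMap_eq_smul_one, ← Complex.coe_smul]
  rw [h2, map_smul, h1, smul_eq_mul, mul_one]

/-- a state is real on self-adjoint elements -/
theorem stc_im (Φ : M →ₗ[ℂ] ℂ) (him : ∀ x : M, (Φ (star x * x)).im = 0) (h1 : Φ 1 = 1) (x : M)
    (hx : IsSelfAdjoint x) : (Φ x).im = 0 := by
  have h2 : 0 ≤ x + algebraMap ℝ M ‖x‖ := by
    have := hx.neg_algebraMap_norm_le_self
    rw [neg_le_iff_add_nonneg] at this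
    exact this
  obtain ⟨b, hb⟩ := CStarAlgebra.nonneg_iff_eq_star_mul_self.1 h2
  have h3 := him b
  rw [← hb, map_add, stc_algebraMap Φ h1, Complex.add_im, Complex.ofReal_im, add_zero] at h3
  exact h3

theorem stc_le_norm (Φ : M →ₗ[ℂ] ℂ) (hpos : ∀ x : M, 0 ≤ (Φ (star x * x)).re) (h1 : Φ 1 = 1)
    (x : M) (hx : IsSelfAdjoint x) : (Φ x).re ≤ ‖x‖ := by
  have h2 : 0 ≤ algebraMap ℝ M ‖x‖ - x := sub_nonneg.2 hx.le_algebraMap_norm_self
  obtain ⟨b, hb⟩ := CStarAlgebra.nonneg_iff_eq_star_mul_self.1 h2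
  have h3 := hpos b
  rw [← hb, map_sub, stc_algebraMap Φ h1, Complex.sub_re, Complex.ofReal_re] at h3
  linarith

theorem stc_re_star (Φ : M →ₗ[ℂ] ℂ) (him : ∀ x : M, (Φ (star x * x)).im = 0) (h1 : Φ 1 = 1)
    (x : M) : (Φ (star x)).re = (Φ x).re := by
  have hK : IsSelfAdjoint (Complex.I • (x - star x)) := by
    rw [IsSelfAdjoint, star_smul, star_sub, star_star, RCLike.star_def, Complex.conj_I, neg_smul,
      ← smul_neg, neg_sub]
  have h2 := stc_im Φ him h1 _ hK
  rw [map_smul, map_sub, smul_eq_mul, Complex.I_mul_im, Complex.sub_re] at h2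
  linarith only [h2]

theorem exc_mono {q X : M} {c : ℂ} {ε ε' : ℝ} (h : Exc q X c ε) (hε : ε ≤ ε') : Exc q X c ε' :=
  fun z => (h z).trans (by (clear * - hε; gcongr))

/-- the separation step -/
theorem exc_sep [Nontrivial M] (Φ : M →ₗ[ℂ] ℂ) (hpos : ∀ x : M, 0 ≤ (Φ (star x * x)).re)
    (him : ∀ x : M, (Φ (star x * x)).im = 0) (h1 : Φ 1 = 1) (s : Finset M) (ε : ℝ) (hε : 0 < ε)
    (lam : s → ℂ) (δ : ℝ) (hδ : 0 < δ) :
    ∃ q : M, q ≠ 0 ∧ ∃ ψ : M → ℂ, (∀ X ∈ s, Exc q X (ψ X) ε) ∧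
      (∑ X : s, lam X * ψ X).re ≤ (∑ X : s, lam X * Φ X).re + δ := by
  set L : ℝ := ∑ X : s, ‖lam X‖ with hL
  have hL0 : 0 ≤ L := Finset.sum_nonneg fun _ _ => norm_nonneg _
  set ε₁ : ℝ := min ε (δ / (1 + L)) with hε₁
  have hε₁0 : 0 < ε₁ := lt_min hε (by (clear * - hδ; positivity))
  have hε₁δ : (1 + L) * ε₁ ≤ δ := by
    have h2 : ε₁ ≤ δ / (1 + L) := min_le_right _ _
    rw [le_div_iff₀ (by positivity)] at h2
    linarith only [h2]
  set Y : M := ∑ X : s, lam X • (X : M) with hY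
  set H0 : M := (-(1 / 2 : ℂ)) • (Y + star Y) with hH0
  have hH0sa : IsSelfAdjoint H0 := by
    rw [hH0, IsSelfAdjoint, star_smul, star_add, star_star, add_comm (star Y) Y]
    congr 1
    simp only [one_div, star_neg, star_inv₀, star_ofNat]
  set c : ℝ := ‖H0‖ with hc
  set H : M := H0 + algebraMap ℝ M c with hH
  have hHpos : 0 ≤ H := by
    have := hH0sa.neg_algebraMap_norm_le_self
    rw [neg_le_iff_add_nonneg] at this
    exact this
  have hHsa : IsSelfAdjoint H := hHpos.isSelfAdjoint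
  have hΦH : c - (∑ X : s, lam X * Φ X).re ≤ ‖H‖ := by
    have h2 := stc_le_norm Φ hpos h1 H hHsa
    have h3 : Φ Y = ∑ X : s, lam X * Φ X := by
      rw [hY, map_sum]
      exact Finset.sum_congr rfl fun X _ => by rw [map_smul, smul_eq_mul]
    have h4 : (Φ H).re = c - (∑ X : s, lam X * Φ X).re := by
      rw [hH, map_add, stc_algebraMap Φ h1, hH0, map_smul, map_add, smul_eq_mul, Complex.add_re,
        Complex.ofReal_re, ← h3]
      have h5 := stc_re_star Φ him h1 Y
      have h6 : ((-(1 / 2 : ℂ)) * (Φ Y + Φ (star Y))).re = -(1 / 2) * ((Φ Y).re + (Φ (star Y)).re) := by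
        simp only [one_div, neg_mul, Complex.neg_re, Complex.mul_re, Complex.inv_re, Complex.re_ofNat, Complex.normSq_ofNat, div_self_mul_self', Complex.add_re, Complex.inv_im, Complex.im_ofNat, neg_zero, zero_div, Complex.add_im, zero_mul, sub_zero]
      rw [h6, h5]
      ring
    linarith only [h2, h4]
  obtain ⟨q₁, hq₁, hq₁H⟩ := exc_top H hHpos ε₁ hε₁0
  obtain ⟨z, hz, ψ, hψ⟩ := exc_list q₁ hq₁ s ε₁ hε₁0
  refine ⟨q₁ * z, hz, ψ, fun X hX => exc_mono (hψ X hX) (min_le_left _ _), ?_⟩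
  have hqH := exc_mul hq₁H z 1
  set q : M := q₁ * z with hq
  rw [mul_one] at hqH
  clear_value q
  set N : M := star q * q with hN
  have hNn : ‖N‖ = ‖q‖ ^ 2 := by rw [hN, CStarRing.norm_star_mul_self, sq]
  have hNsa : star N = N := by rw [hN, star_mul, star_star]
  set ρ : ℂ := ∑ X : s, lam X * ψ X with hρ
  set P : M := ∑ X : s, lam X • (star q * (X : M) * q) with hP
  set Tt : M := ∑ X : s, lam X • (star q * (X : M) * q - ψ X • N) with hT
  have hTP : Tt = P - ρ • N := by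
    rw [hT, hP, hρ, Finset.sum_smul, ← Finset.sum_sub_distrib]
    exact Finset.sum_congr rfl fun X _ => by rw [smul_sub, smul_smul]
  have hTn : ‖Tt‖ ≤ L * (ε₁ * ‖q‖ ^ 2) := by
    rw [hT, hL, Finset.sum_mul]
    refine (norm_sum_le _ _).trans (Finset.sum_le_sum fun X _ => ?_)
    rw [norm_smul]
    have h2 := hψ X X.2 1
    rw [mul_one] at h2
    (clear * - h2; gcongr)
  have hYq : star q * Y * q = P := by
    rw [hY, hP, Finset.mul_sum, Finset.sum_mul]
    exact Finset.sum_congr rfl fun X _ => by rw [mul_smul_comm, smul_mul_assoc]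
  have hYq' : star q * star Y * q = star P := by
    rw [← hYq, star_mul, star_mul, star_star, mul_assoc]
  have hqHq : star q * H * q = (-(1 / 2 : ℂ)) • (P + star P) + (c : ℂ) • N := by
    have h2 : algebraMap ℝ M c = (c : ℂ) • (1 : M) := by
      rw [Algebra.algebraMap_eq_smul_one, ← Complex.coe_smul]
    rw [hH, hH0, h2, mul_add, add_mul, mul_smul_comm, smul_mul_assoc, mul_add, add_mul, hYq, hYq',
      mul_smul_comm, smul_mul_assoc, mul_one]
  have hid : ((‖H‖ - c + ρ.re : ℝ) : ℂ) • N =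
      -(star q * H * q - (‖H‖ : ℂ) • N) - (1 / 2 : ℂ) • (Tt + star Tt) := by
    rw [hqHq, hTP, star_sub, star_smul, hNsa]
    have h2 : (ρ + star ρ) = ((2 * ρ.re : ℝ) : ℂ) := by
      rw [RCLike.star_def, Complex.add_conj]
    have h3 : (1 / 2 : ℂ) • (P - ρ • N + (star P - star ρ • N)) =
        (1 / 2 : ℂ) • (P + star P) - (ρ.re : ℂ) • N := by
      have h4 : P - ρ • N + (star P - star ρ • N) = (P + star P) - (ρ + star ρ) • N := by
        rw [add_smul]; abel
      rw [h4, smul_sub, h2, smul_smul]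
      congr 2
      push_cast
      ring
    rw [h3]
    push_cast
    rw [add_smul, sub_smul, neg_smul]
    abel
  have hnorm : |‖H‖ - c + ρ.re| * ‖q‖ ^ 2 ≤ (1 + L) * ε₁ * ‖q‖ ^ 2 := by
    have h2 : ‖((‖H‖ - c + ρ.re : ℝ) : ℂ) • N‖ = |‖H‖ - c + ρ.re| * ‖q‖ ^ 2 := by
      rw [norm_smul, hNn, Complex.norm_real, Real.norm_eq_abs]
    rw [← h2, hid]
    have h3 : ‖(1 / 2 : ℂ) • (Tt + star Tt)‖ ≤ ‖Tt‖ := by
      rw [norm_smul]
      have h4 := norm_add_le Tt (star Tt)
      rw [norm_star] at h4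
      have h5 : ‖(1 / 2 : ℂ)‖ = 1 / 2 := by simp
      rw [h5]
      linarith only [h4]
    have h6 := norm_sub_le (-(star q * H * q - (‖H‖ : ℂ) • N)) ((1 / 2 : ℂ) • (Tt + star Tt))
    rw [norm_neg] at h6
    have h7 : (1 + L) * ε₁ * ‖q‖ ^ 2 = ε₁ * ‖q‖ ^ 2 + L * (ε₁ * ‖q‖ ^ 2) := by ring
    rw [h7]
    linarith only [hqH, hTn, h3, h6]
  have hq0 : 0 < ‖q‖ ^ 2 := by
    have : 0 < ‖q‖ := norm_pos_iff.2 hz
    positivity
  have h8 := le_of_mul_le_mul_right hnorm hq0
  have h9 := le_abs_self (‖H‖ - c + ρ.re)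
  linarith only [hε₁δ, hΦH, h8, h9]

/-- every state is, on finite sets, a convex combination of excised functionals -/
theorem exc_convex [Nontrivial M] (Φ : M →ₗ[ℂ] ℂ) (hpos : ∀ x : M, 0 ≤ (Φ (star x * x)).re)
    (him : ∀ x : M, (Φ (star x * x)).im = 0) (h1 : Φ 1 = 1) (s : Finset M) (ε : ℝ) (hε : 0 < ε) :
    ∃ (m : ℕ) (t : Fin m → ℝ) (q : Fin m → M) (ψ : Fin m → M → ℂ), (∀ j, 0 ≤ t j) ∧
      ∑ j, t j = 1 ∧ (∀ j, q j ≠ 0) ∧ (∀ j, ∀ X ∈ s, Exc (q j) X (ψ j X) ε) ∧
      ∀ X ∈ s, ‖Φ X - ∑ j, (t j : ℂ) * ψ j X‖ ≤ ε := by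
  classical
  set E : Set (s → ℂ) := {c | ∃ q : M, q ≠ 0 ∧ ∀ X : s, Exc q (X : M) (c X) ε} with hE
  set p : s → ℂ := fun X => Φ X with hp
  have hcl : p ∈ closure (convexHull ℝ E) := by
    by_contra hcon
    obtain ⟨f, u, hfp, hfu⟩ := geometric_hahn_banach_point_closed
      ((convex_convexHull ℝ E).closure) isClosed_closure hcon
    set lam : s → ℂ := fun X => (f (Pi.single X 1) : ℂ) - Complex.I * (f (Pi.single X Complex.I) : ℂ)
      with hlam
    have hf : ∀ c : s → ℂ, f c = (∑ X : s, lam X * c X).re := by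
      intro c
      have h2 : c = ∑ X : s, ((c X).re • (Pi.single X (1 : ℂ) : s → ℂ) +
          (c X).im • (Pi.single X Complex.I : s → ℂ)) := by
        funext Z
        rw [Finset.sum_apply, Finset.sum_eq_single Z]
        · simp [Complex.re_add_im]
        · intro Z' _ hne
          simp [Pi.single_eq_of_ne hne.symm]
        · intro h; exact absurd (Finset.mem_univ Z) h
      conv_lhs => rw [h2]
      rw [map_sum, Complex.re_sum]
      refine Finset.sum_congr rfl fun X _ => ?_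
      rw [map_add, map_smul, map_smul, hlam]
      simp only [smul_eq_mul, Complex.mul_re, Complex.sub_re, Complex.ofReal_re, Complex.I_re, zero_mul, Complex.I_im, Complex.ofReal_im, mul_zero, sub_self, sub_zero, Complex.sub_im, Complex.mul_im, one_mul, zero_add, zero_sub, neg_mul, sub_neg_eq_add]
      ring
    obtain ⟨q, hq, ψ, hψ, hle⟩ := exc_sep Φ hpos him h1 s ε hε lam ((u - f p) / 2) (by linarith only [hfp])
    have h3 : (fun X : s => ψ X) ∈ E := ⟨q, hq, fun X => hψ X X.2⟩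
    have h4 := hfu _ (subset_closure (subset_convexHull ℝ E h3))
    rw [hf] at h4
    have h5 : f p = (∑ X : s, lam X * Φ X).re := hf p
    rw [← h5] at hle
    linarith
  obtain ⟨p', hp', hdist⟩ := Metric.mem_closure_iff.1 hcl ε hε
  obtain ⟨ι, _, w, z, hw0, hw1, hz, hsum⟩ := mem_convexHull_iff_exists_fintype.1 hp'
  choose q hq hexc using hz
  let e := Fintype.equivFin ι
  refine ⟨Fintype.card ι, fun j => w (e.symm j), fun j => q (e.symm j),
    fun j X => if h : X ∈ s then z (e.symm j) ⟨X, h⟩ else 0, fun j => hw0 _, ?_, fun j => hq _,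
    ?_, ?_⟩
  · rw [← hw1]
    exact Equiv.sum_comp e.symm w
  · intro j X hX
    simp only [hX, dif_pos]
    exact hexc (e.symm j) ⟨X, hX⟩
  · intro X hX
    have h2 : ∑ j, ((w (e.symm j) : ℝ) : ℂ) *
        (if h : X ∈ s then z (e.symm j) ⟨X, h⟩ else 0) = p' ⟨X, hX⟩ := by
      rw [← hsum, Finset.sum_apply, ← Equiv.sum_comp e.symm]
      refine Finset.sum_congr rfl fun j _ => ?_
      simp [hX]
    rw [h2]
    have h3 : Φ X - p' ⟨X, hX⟩ = (p - p') ⟨X, hX⟩ := rfl
    rw [h3]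
    refine (norm_le_pi_norm (p - p') ⟨X, hX⟩).trans ?_
    rw [← dist_eq_norm]
    exact hdist.le

end

end Vale.Agent.P095
end

section

/-! The norm lemma and the cutting lemma relative to an ideal. -/

set_option linter.unusedSectionVars false

open Filter Topology

namespace Vale.Agent.P095M

open Vale.Agent.P133 (CIdeal)
open Vale.Agent.P095N (SimpleI)
open Vale.Agent.P095 Vale.Agent.P101

universe u v w

section
variable {M : Type u} [CStarAlgebra M] [PartialOrder M] [StarOrderedRing M]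

/-- Cutting a positive element near the top of its spectrum. -/
lemma rnorm_cut (x : M) (hx : 0 ≤ x) (c : ℝ) (hc0 : 0 ≤ c) :
    ∃ p : M, 0 ≤ p ∧ (∀ z : M, Commute z x → Commute z p) ∧
      c • (p * p) ≤ x * (p * p) ∧ ‖x - p‖ ≤ c ∧ ∀ I : CIdeal M, x ∈ I → p ∈ I := by
  have hxsa : IsSelfAdjoint x := .of_nonneg hx
  let F : ℝ → ℝ := fun t => max (t - c) 0
  have hF : Continuous F := by fun_prop
  refine ⟨cfc F x, cfc_nonneg fun t _ => le_max_right _ _, fun z hz => ?_, ?_, ?_, ?_⟩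
  · exact (hz.symm.cfc_real F).symm
  · rw [← cfc_mul F F x, ← cfc_smul c _ x]
    conv_rhs => rw [show x * cfc (fun t => F t * F t) x =
      cfc (fun t : ℝ => t) x * cfc (fun t => F t * F t) x by rw [cfc_id' ℝ x]]
    rw [← cfc_mul (fun t => t) (fun t => F t * F t) x]
    rw [cfc_le_iff _ _ _]
    intro t _
    simp only [smul_eq_mul]
    by_cases ht : t ≤ c
    · have : F t = 0 := max_eq_right (by linarith)
      rw [this]
      simp
    · have h1 : c ≤ t := by linarith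
      exact mul_le_mul_of_nonneg_right h1 (mul_self_nonneg _)
  · have h1 : x - cfc F x = cfc (fun t : ℝ => t - F t) x := by
      rw [cfc_sub (fun t : ℝ => t) F x (by fun_prop) (by fun_prop), cfc_id' ℝ x]
    rw [h1]
    refine norm_cfc_le hc0 fun t ht => ?_
    have ht0 : 0 ≤ t := spectrum_nonneg_of_nonneg hx ht
    rw [Real.norm_eq_abs, abs_le]
    simp only [F]
    rcases le_total (t - c) 0 with h5 | h5
    · rw [max_eq_right h5]
      constructor <;> linarith
    · rw [max_eq_left h5]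
      constructor <;> linarith
  · intro I hI
    exact P133.K.cfc_mem_ideal I hF (max_eq_right (by linarith)) hxsa hI

theorem norm_mul_central_rel {I : CIdeal M} (hI : SimpleI I) {B : Type v} [CStarAlgebra B]
    [PartialOrder B] [StarOrderedRing B] (ι : M →⋆ₐ[ℂ] B) (a b : M) (haI : a ∈ I) (hbI : b ∈ I)
    (hb1 : ‖b‖ ≤ 1) (ha : 0 ≤ a) (y : B) (hy : 0 ≤ y) (hyb : 1 ≤ ‖y * ι b‖)
    (hc : ∀ c ∈ I, Commute (ι c) y) : ‖a‖ ^ 2 ≤ ‖ι a * y * ι a‖ := by
  have hasa : star a = a := ha.isSelfAdjoint.star_eq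
  have hle : ∀ b : M, ‖ι b‖ ≤ ‖b‖ := fun b => NonUnitalStarAlgHom.norm_apply_le ι b
  have hX : ι a * y * ι a = ι (a * a) * y := by
    rw [mul_assoc, ← (hc a haI).eq, ← mul_assoc, map_mul]
  have haa : ‖a * a‖ = ‖a‖ ^ 2 := by
    have := CStarRing.norm_star_mul_self (x := a)
    rw [hasa] at this
    rw [this, sq]
  have hy1 : 1 ≤ ‖y‖ := by
    have h1 : ‖y * ι b‖ ≤ ‖y‖ * 1 := (norm_mul_le _ _).trans
      (mul_le_mul_of_nonneg_left ((hle b).trans hb1) (norm_nonneg _))
    linarith only [hyb, h1]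
  rcases eq_or_ne a 0 with rfl | ha0
  · simp
  have haa0 : 0 ≤ a * a := by
    have := star_mul_self_nonneg a
    rwa [hasa] at this
  -- the estimate with cut-offs
  have key : ∀ s : ℝ, 0 < s → s < 1 → s * s * ‖a‖ ^ 2 ≤ ‖ι a * y * ι a‖ := by
    intro s hs0 hs1
    have hn1 : 0 < ‖a * a‖ := by rw [haa]; have := norm_pos_iff.2 ha0; positivity
    obtain ⟨p, hp0, hpc, hp, hpn, hpI⟩ := rnorm_cut (a * a) haa0 (s * ‖a * a‖) (by (clear * - hs0 hn1; positivity))
    obtain ⟨q, hq0, hqc, hq, hqn⟩ : ∃ q : B, 0 ≤ q ∧ (∀ z : B, Commute z y → Commute z q) ∧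
        s • (q * q) ≤ y * (q * q) ∧ ‖y - q‖ ≤ s := by
      obtain ⟨q, h1, h2, h3, h4, -⟩ := rnorm_cut y hy s hs0.le
      exact ⟨q, h1, h2, h3, h4⟩
    have hpne : p ≠ 0 := by
      rintro rfl
      rw [sub_zero] at hpn
      nlinarith only [hpn, hs1, hn1]
    have hcq : ∀ b ∈ I, Commute (ι b) q := fun b hb => hqc _ (hc b hb)
    have hpI' : p ∈ I := hpI I (P133.CIdeal.left_mem I _ haI)
    have hpsa : star p = p := hp0.isSelfAdjoint.star_eq
    have hqsa : star q = q := hq0.isSelfAdjoint.star_eq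
    -- nonvanishing
    have hne : ι p * q ≠ 0 := by
      intro h0
      have h1 : ∀ c ∈ I, ∀ δ : ℝ, 0 < δ → ‖ι c * q‖ ≤ δ * ‖q‖ := by
        intro c hcI δ hδ
        obtain ⟨n, l, r, hl, hr, e⟩ := hI p hpI' hpne c hcI δ hδ
        have h2 : ι (∑ i, l i * p * r i) * q = 0 := by
          rw [map_sum, Finset.sum_mul]
          refine Finset.sum_eq_zero fun i _ => ?_
          rw [map_mul, map_mul, mul_assoc (ι (l i) * ι p), (hcq (r i) (hr i)).eq]
          calc ι (l i) * ι p * (q * ι (r i)) = ι (l i) * ((ι p * q) * ι (r i)) := by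
                noncomm_ring
            _ = 0 := by rw [h0]; simp
        have h3 : ι c * q = -(ι (∑ i, l i * p * r i - c) * q) := by
          rw [map_sub, sub_mul, h2]; simp
        rw [h3, norm_neg]
        exact (norm_mul_le _ _).trans (mul_le_mul_of_nonneg_right ((hle _).trans e)
          (norm_nonneg _))
      have h4 : ι b * q = 0 := by
        rw [← norm_le_zero_iff]
        refine le_of_forall_pos_le_add fun δ hδ => ?_
        have h5 := h1 b hbI (δ / (1 + ‖q‖)) (by (clear * - hδ; positivity))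
        refine h5.trans ?_
        rw [zero_add, div_mul_eq_mul_div, div_le_iff₀ (by (clear * -; positivity))]
        nlinarith only [hδ]
      have h6 : q * ι b = 0 := by rw [← (hcq b hbI).eq, h4]
      have h7 : y * ι b = (y - q) * ι b := by rw [sub_mul, h6, sub_zero]
      have h8 : ‖y * ι b‖ ≤ s * 1 := by
        rw [h7]
        exact (norm_mul_le _ _).trans (mul_le_mul hqn ((hle b).trans hb1) (norm_nonneg _) hs0.le)
      linarith
    set P := ι (p * p) * (q * q) with hP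
    have hPstar : P = star (ι p * q) * (ι p * q) := by
      rw [star_mul, hqsa, ← map_star, hpsa, hP, map_mul]
      have h1 : ι p * q = q * ι p := (hcq p hpI').eq
      calc ι p * ι p * (q * q) = ι p * (ι p * q) * q := by noncomm_ring
        _ = ι p * (q * ι p) * q := by rw [h1]
        _ = (ι p * q) * (ι p * q) := by noncomm_ring
        _ = (q * ι p) * (ι p * q) := by rw [← h1]
    have hPn : 0 < ‖P‖ := by
      rw [hPstar, CStarRing.norm_star_mul_self]
      have := norm_pos_iff.2 hne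
      positivity
    have hP0 : 0 ≤ P := by rw [hPstar]; exact star_mul_self_nonneg _
    -- the main inequality
    have hcqq : ∀ b ∈ I, Commute (ι b) (q * q) := fun b hb => (hcq b hb).mul_right (hcq b hb)
    have hpp0 : 0 ≤ p * p := by
      have := star_mul_self_nonneg p
      rwa [hpsa] at this
    have hqq0 : 0 ≤ q * q := by
      have := star_mul_self_nonneg q
      rwa [hqsa] at this
    have hyq : Commute y (q * q) := (hqc y (Commute.refl y)).mul_right (hqc y (Commute.refl y))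
    have hyqq0 : 0 ≤ y * (q * q) := hyq.mul_nonneg hy hqq0
    have hcy : ∀ b ∈ I, Commute (ι b) (y * (q * q)) := fun b hb =>
      (hc b hb).mul_right (hcqq b hb)
    have haaI : a * a ∈ I := P133.CIdeal.left_mem I _ haI
    have hppI : p * p ∈ I := P133.CIdeal.left_mem I _ hpI'
    have hUI : a * a * (p * p) - (s * ‖a * a‖) • (p * p) ∈ I :=
      P133.CIdeal.sub_mem I (P133.CIdeal.left_mem I _ hppI) (P133.CIdeal.smul_mem I _ hppI)
    have hU : 0 ≤ ι (a * a * (p * p) - (s * ‖a * a‖) • (p * p)) := by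
      have := sub_nonneg.2 hp
      exact map_nonneg ι this
    have hV : 0 ≤ y * (q * q) - s • (q * q) := sub_nonneg.2 hq
    have hmain : (s * ‖a * a‖ * s) • P ≤ ι (a * a) * y * P := by
      have h1 : 0 ≤ ι (a * a * (p * p) - (s * ‖a * a‖) • (p * p)) * (y * (q * q)) :=
        (hcy _ hUI).mul_nonneg hU hyqq0
      have h2 : 0 ≤ ι (p * p) * (y * (q * q) - s • (q * q)) := by
        refine Commute.mul_nonneg (map_nonneg ι hpp0) hV ?_
        exact ((hcy _ hppI).sub_right ((hcqq _ hppI).smul_right _))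
      have h3 : 0 ≤ (s * ‖a * a‖) • (ι (p * p) * (y * (q * q) - s • (q * q))) :=
        smul_nonneg (by (clear * - hs0 hn1; positivity)) h2
      have h4 := add_nonneg h1 h3
      rw [← sub_nonneg]
      refine h4.trans (le_of_eq ?_)
      have hsm : ∀ (c : ℝ) (b : M), ι (c • b) = c • ι b := by
        intro c b
        have : c • b = (c : ℂ) • b := (Complex.coe_smul _ _).symm
        rw [this, map_smul]
        exact Complex.coe_smul _ _
      have hyp : y * ι (p * p) = ι (p * p) * y := ((hc (p * p) hppI).eq).symm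
      rw [map_sub, hsm, hP, map_mul ι (a * a) (p * p)]
      simp only [sub_mul, smul_mul_assoc, mul_sub, mul_smul_comm, smul_sub, smul_smul]
      have h5 : ι (a * a) * ι (p * p) * (y * (q * q)) =
          ι (a * a) * y * (ι (p * p) * (q * q)) := by
        calc ι (a * a) * ι (p * p) * (y * (q * q)) = ι (a * a) * (ι (p * p) * y) * (q * q) := by
              noncomm_ring
          _ = ι (a * a) * (y * ι (p * p)) * (q * q) := by rw [hyp]
          _ = _ := by noncomm_ring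
      rw [h5]
      abel
    have hnorm : (s * ‖a * a‖ * s) * ‖P‖ ≤ ‖ι (a * a) * y‖ * ‖P‖ := by
      have h1 : 0 ≤ (s * ‖a * a‖ * s) • P := smul_nonneg (by (clear * - hs0 hn1; positivity)) hP0
      have h2 := CStarAlgebra.norm_le_norm_of_nonneg_of_le h1 hmain
      rw [norm_smul, Real.norm_of_nonneg (by (clear * - hs0 hn1; positivity))] at h2
      exact h2.trans (norm_mul_le _ _)
    have h3 := le_of_mul_le_mul_right hnorm hPn
    rw [hX]
    refine le_trans (le_of_eq ?_) h3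
    rw [haa]
    ring
  have hlim : Tendsto (fun s : ℝ => s * s * ‖a‖ ^ 2) (𝓝[<] 1)
      (𝓝 (1 * 1 * ‖a‖ ^ 2)) := by
    apply Tendsto.mono_left _ nhdsWithin_le_nhds
    have : Continuous (fun s : ℝ => s * s * ‖a‖ ^ 2) := by fun_prop
    exact this.tendsto 1
  rw [one_mul, one_mul] at hlim
  refine le_of_tendsto hlim ?_
  have h0 : ∀ᶠ s : ℝ in 𝓝[<] 1, 0 < s := by
    apply Filter.Eventually.filter_mono nhdsWithin_le_nhds
    exact lt_mem_nhds one_pos
  filter_upwards [h0, self_mem_nhdsWithin] with s hs0 hs1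
  exact key s hs0 hs1

/-- the local norm lemma -/
theorem norm_lemma_rel {I : CIdeal M} (hI : SimpleI I) (b : M) (hbI : b ∈ I) (hb1 : ‖b‖ ≤ 1)
    (a : M) (haI : a ∈ I) (ha : 0 ≤ a) (ε : ℝ) (hε : 0 < ε) :
    ∃ (F : Finset M) (δ : ℝ), 0 < δ ∧ ∀ y : M, AlmC I b F δ y → ‖a‖ ^ 2 - ε ≤ ‖a * y * a‖ := by
  classical
  by_contra hcon
  push Not at hcon
  obtain ⟨ι, μ, hμ, y, hy⟩ := exists_net (X := M) (Y := M)
    (fun F δ y => AlmC I b F δ y ∧ ‖a * y * a‖ < ‖a‖ ^ 2 - ε) (by
      rintro F F' δ δ' y hF hδ ⟨⟨h1, h2, h3, h4⟩, h5⟩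
      exact ⟨⟨h1, h2, by linarith only [hδ, h3], fun b hb hbI => (h4 b (hF hb) hbI).trans hδ⟩, h5⟩)
    (fun F δ hδ => hcon F δ hδ)
  -- bounded positive modification
  let z : ι → M := fun i => if 0 ≤ y i ∧ ‖y i‖ ≤ 1 then y i else 0
  have hz0 : ∀ i, 0 ≤ z i := by
    intro i
    by_cases h : 0 ≤ y i ∧ ‖y i‖ ≤ 1
    · simp only [z, if_pos h]; exact h.1
    · simp only [z, if_neg h]; exact le_rfl
  have hz1 : ∀ i, ‖z i‖ ≤ 1 := by
    intro i
    by_cases h : 0 ≤ y i ∧ ‖y i‖ ≤ 1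
    · simp only [z, if_pos h]; exact h.2
    · simp only [z, if_neg h, norm_zero]; exact zero_le_one
  have hzy : ∀ (F : Finset M) (δ : ℝ), 0 < δ →
      ∀ᶠ i in μ, AlmC I b F δ (z i) ∧ ‖a * z i * a‖ < ‖a‖ ^ 2 - ε := by
    intro F δ hδ
    filter_upwards [hy F δ hδ] with i hi
    have : z i = y i := if_pos ⟨hi.1.1, hi.1.2.1⟩
    rw [this]
    exact hi
  choose c hcz using fun i => CStarAlgebra.nonneg_iff_eq_star_mul_self.1 (hz0 i)
  have hc1 : ∀ i, ‖c i‖ ≤ 1 := by
    intro i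
    have h1 := CStarRing.norm_star_mul_self (x := c i)
    rw [← hcz i] at h1
    have h2 := hz1 i
    nlinarith only [h1, h2]
  let Z : bddSeq M ι := ⟨z, 1, hz1⟩
  let C : bddSeq M ι := ⟨c, 1, hc1⟩
  have hZC : Z = star C * C := Subtype.ext (funext fun i => hcz i)
  let _ : PartialOrder (Bq M μ) := CStarAlgebra.spectralOrder (Bq M μ)
  have : StarOrderedRing (Bq M μ) := CStarAlgebra.spectralOrderedRing (Bq M μ)
  have hY0 : 0 ≤ Bq.mk μ Z := by
    rw [hZC, Bq.mk_mul, Bq.mk_star]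
    exact star_mul_self_nonneg _
  have hcomm : ∀ b ∈ I, Commute (Bq.constHom μ b) (Bq.mk μ Z) := by
    intro b hbI
    change Bq.mk μ (Bq.const b) * Bq.mk μ Z = Bq.mk μ Z * Bq.mk μ (Bq.const b)
    rw [← Bq.mk_mul, ← Bq.mk_mul, Bq.mk_eq_iff, Metric.tendsto_nhds]
    intro δ hδ
    filter_upwards [hzy {b} (δ / 2) (by positivity)] with i hi
    have h1 := hi.1.2.2.2 b (Finset.mem_singleton_self b) hbI
    rw [dist_zero_right, norm_norm]
    change ‖b * z i - z i * b‖ < δ
    rw [norm_sub_rev]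
    linarith only [hδ, h1]
  have hY1 : 1 ≤ ‖Bq.mk μ Z * Bq.constHom μ b‖ := by
    by_contra h
    rw [not_le] at h
    change ‖Bq.mk μ Z * Bq.mk μ (Bq.const b)‖ < 1 at h
    rw [← Bq.mk_mul] at h
    have h1 := Bq.eventually_norm_lt μ (Z * Bq.const b)
      (c := (‖Bq.mk μ (Z * Bq.const b)‖ + 1) / 2) (by linarith only [h])
    have h2 := hzy ∅ ((1 - ‖Bq.mk μ (Z * Bq.const b)‖) / 2) (by linarith only [h])
    obtain ⟨i, hi1, hi2⟩ := (h1.and h2).exists
    have h3 := hi2.1.2.2.1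
    change ‖z i * b‖ < _ at hi1
    linarith only [h3, hi1]
  have hn := norm_mul_central_rel hI (Bq.constHom μ) a b haI hbI hb1 ha (Bq.mk μ Z) hY0 hY1 hcomm
  have h0 : 0 ≤ ‖a‖ ^ 2 - ε := by
    obtain ⟨i, hi⟩ := (hzy ∅ 1 one_pos).exists
    exact (norm_nonneg _).trans hi.2.le
  have h1 : ‖Bq.constHom μ a * Bq.mk μ Z * Bq.constHom μ a‖ ≤ ‖a‖ ^ 2 - ε := by
    change ‖Bq.mk μ (Bq.const a) * Bq.mk μ Z * Bq.mk μ (Bq.const a)‖ ≤ _
    rw [← Bq.mk_mul, ← Bq.mk_mul, Bq.norm_mk]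
    refine SeqQuot.nrm_le h0 ?_
    filter_upwards [hzy ∅ 1 one_pos] with i hi
    exact hi.2.le
  linarith only [hε, hn, h1]

end

end Vale.Agent.P095M
end
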