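import Vale.Agent.P095.MathlibUsed
import Vale.Agent.P095.Bdl.B1
import Vale.Agent.P095.Bdl.B2
import Vale.Agent.P095.Defs
import Vale.Agent.P083.NuclearDef
import Vale.Agent.P083.Stable2
import Vale.Agent.P095.Bdl.B3

set_option linter.all false

section

/-! Step 3: hat functions of a self-adjoint element. -/

open scoped BigOperators

namespace Vale.Agent.P101

universe u

namespace Step3

/-- Hat function with peak at `k`. -/
noncomputable def hat (k : ℕ) (v : ℝ) : ℝ := max 0 (1 - |v - k|)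

/-- Clamp to `[0,1]`. -/
noncomputable def clamp (t : ℝ) : ℝ := max 0 (min 1 t)

lemma continuous_hat (k : ℕ) : Continuous (hat k) := by
  unfold hat; (clear * -; fun_prop)

lemma hat_nonneg (k : ℕ) (v : ℝ) : 0 ≤ hat k v := le_max_left _ _

lemma hat_le_one (k : ℕ) (v : ℝ) : hat k v ≤ 1 := by
  unfold hat
  apply max_le zero_le_one
  linarith only [abs_nonneg (v - k)]

lemma hat_mul_hat (s t : ℕ) (h : 2 ≤ |(s : ℤ) - (t : ℤ)|) (v : ℝ) : hat s v * hat t v = 0 := by
  have h' : (2 : ℝ) ≤ |(s : ℝ) - t| := by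
    have : ((2 : ℤ) : ℝ) ≤ ((|(s : ℤ) - (t : ℤ)| : ℤ) : ℝ) := by exact_mod_cast h
    simpa only [ge_iff_le, Int.cast_ofNat, Int.cast_abs, Int.cast_sub, Int.cast_natCast] using this
  unfold hat
  by_cases h1 : 1 ≤ |v - s|
  · rw [max_eq_left (by linarith only [h1]), zero_mul]
  · have h2 : 1 ≤ |v - t| := by
      push Not at h1
      have : |(s : ℝ) - t| ≤ |v - s| + |v - t| := by
        have := abs_sub_le (s : ℝ) v t
        rwa [abs_sub_comm (s : ℝ) v] at this
      linarith only [h', h1, this]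
    rw [max_eq_left (a := 0) (b := 1 - |v - t|) (by linarith only [h2]), mul_zero]

lemma hat_succ (K : ℕ) (v : ℝ) : hat (K + 1) v = clamp (v - K) - clamp (v - (K + 1)) := by
  unfold hat clamp
  push_cast
  rcases le_total (v - (K + 1)) 0 with h | h
  · rw [abs_of_nonpos h, min_eq_right (by linarith only [h] : v - K ≤ 1),
      min_eq_right (by linarith only [h] : v - ((K : ℝ) + 1) ≤ 1), max_eq_left h]
    rw [sub_zero]
    congr 1
    ring
  · rw [abs_of_nonneg h, min_eq_left (by linarith : 1 ≤ v - K), max_eq_right (zero_le_one)]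
    rcases le_total (v - ((K : ℝ) + 1)) 1 with h' | h'
    · rw [min_eq_right h', max_eq_right h, max_eq_right (by linarith only [h'])]
    · rw [min_eq_left h', max_eq_right (zero_le_one), max_eq_left (by linarith only [h'])]
      ring

lemma sum_hat (K : ℕ) (v : ℝ) (h0 : 0 ≤ v) :
    ∑ k ∈ Finset.range (K + 1), hat k v = 1 - clamp (v - K) := by
  induction K with
  | zero =>
    simp only [zero_add, Finset.range_one, Finset.sum_singleton]
    unfold hat clamp
    simp only [Nat.cast_zero, sub_zero]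
    rw [abs_of_nonneg h0]
    rcases le_total v 1 with h | h
    · rw [max_eq_right (by linarith), min_eq_right h, max_eq_right h0]
    · rw [max_eq_left (by linarith only [h]), min_eq_left h, max_eq_right zero_le_one]
      ring
  | succ K ih =>
    rw [Finset.sum_range_succ, ih, hat_succ]
    push_cast
    ring

lemma sum_mul_hat (K : ℕ) (v : ℝ) (h0 : 0 ≤ v) :
    ∑ k ∈ Finset.range (K + 1), (k : ℝ) * hat k v = min (K : ℝ) v - K * clamp (v - K) := by
  induction K with
  | zero => simp only [zero_add, Finset.range_one, Finset.sum_singleton, CharP.cast_eq_zero, zero_mul, h0, inf_of_le_left, sub_zero, sub_self]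
  | succ K ih =>
    rw [Finset.sum_range_succ, ih, hat_succ]
    push_cast
    have : min ((K : ℝ) + 1) v = min (K : ℝ) v + clamp (v - K) := by
      unfold clamp
      rcases le_total v K with h | h
      · rw [min_eq_right h, min_eq_right (by linarith), min_eq_right (by linarith only [h]),
          max_eq_left (by linarith)]
        ring
      · rw [min_eq_left h]
        rcases le_total (v - K) 1 with h' | h'
        · rw [min_eq_right h', max_eq_right (by linarith only [h]), min_eq_right (by linarith)]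
          ring
        · rw [min_eq_left h', max_eq_right zero_le_one, min_eq_left (by linarith)]
    rw [this]
    ring

lemma clamp_of_nonpos {t : ℝ} (h : t ≤ 0) : clamp t = 0 := by
  unfold clamp
  rw [min_eq_right (by linarith only [h]), max_eq_left h]

lemma sum_hat_eq_one (K : ℕ) (v : ℝ) (h0 : 0 ≤ v) (h1 : v ≤ K) :
    ∑ k : Fin (K + 1), hat k v = 1 := by
  rw [Fin.sum_univ_eq_sum_range (fun k => hat k v), sum_hat K v h0,
    clamp_of_nonpos (by linarith)]
  ring

lemma sum_mul_hat_eq (K : ℕ) (v : ℝ) (h0 : 0 ≤ v) (h1 : v ≤ K) :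
    ∑ k : Fin (K + 1), ((k : ℕ) : ℝ) * hat k v = v := by
  rw [Fin.sum_univ_eq_sum_range (fun k => (k : ℝ) * hat k v), sum_mul_hat K v h0,
    clamp_of_nonpos (by linarith), min_eq_right h1]
  ring

/-- Row/column Cauchy-Schwarz. -/
lemma norm_sum_mul_le {F : Type u} [CStarAlgebra F] {ι : Type*} [Fintype ι] (u v : ι → F) :
    ‖∑ i, u i * v i‖ ≤ Real.sqrt ‖∑ i, u i * star (u i)‖ * Real.sqrt ‖∑ i, star (v i) * v i‖ := by
  let _ : PartialOrder F := CStarAlgebra.spectralOrder F
  have _ : StarOrderedRing F := CStarAlgebra.spectralOrderedRing F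
  have h := CStarModule.norm_inner_le (A := F) (E := WithCStarModule F (ι → F))
    (x := (WithCStarModule.equiv F (ι → F)).symm (fun i => star (v i)))
    (y := (WithCStarModule.equiv F (ι → F)).symm u)
  rw [WithCStarModule.pi_inner, WithCStarModule.pi_norm, WithCStarModule.pi_norm] at h
  simp only [WithCStarModule.equiv_symm_pi_apply, WithCStarModule.inner_def, star_star] at h
  rw [mul_comm]
  exact h

/-- The band indicator. -/
noncomputable def chi {M : ℕ} (p : Fin M × Fin M) : ℝ :=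
  if |((p.1 : ℕ) : ℤ) - ((p.2 : ℕ) : ℤ)| ≤ 6 then 1 else 0

/-- The band coefficient. -/
noncomputable def coe {M : ℕ} (p : Fin M × Fin M) : ℝ := ((p.1 : ℕ) : ℝ) - ((p.2 : ℕ) : ℝ)

lemma chi_symm {M : ℕ} (s t : Fin M) : chi (s, t) = chi (t, s) := by
  unfold chi; simp only [abs_sub_comm]

lemma sum_chi_le {M : ℕ} (s : Fin M) : ∑ t, chi (s, t) ≤ 13 := by
  classical
  unfold chi
  rw [Finset.sum_ite, Finset.sum_const_zero, add_zero, Finset.sum_const, nsmul_eq_mul, mul_one]
  have : (Finset.univ.filter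
      (fun t : Fin M => |((s : ℕ) : ℤ) - ((t : ℕ) : ℤ)| ≤ 6)).card ≤
      (Finset.Icc (((s : ℕ) : ℤ) - 6) (((s : ℕ) : ℤ) + 6)).card := by
    apply Finset.card_le_card_of_injOn (fun t : Fin M => ((t : ℕ) : ℤ))
    · intro t ht
      simp only [Finset.coe_filter, Finset.mem_univ, true_and, Set.mem_ofPred_eq] at ht
      simp only [Finset.coe_Icc, Set.mem_Icc]
      rw [abs_le] at ht
      constructor <;> linarith [ht.1, ht.2]
    · intro t _ t' _ h
      apply Fin.ext
      have h' : ((t : ℕ) : ℤ) = ((t' : ℕ) : ℤ) := h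
      exact_mod_cast h'
  have h13 : (Finset.Icc (((s : ℕ) : ℤ) - 6) (((s : ℕ) : ℤ) + 6)).card = 13 := by
    rw [Int.card_Icc]
    have : ((s : ℕ) : ℤ) + 6 + 1 - (((s : ℕ) : ℤ) - 6) = 13 := by ring
    rw [this]; rfl
  rw [h13] at this
  exact_mod_cast this

lemma chi_mul_coe_sq_le {M : ℕ} (p : Fin M × Fin M) : (chi p * coe p) ^ 2 ≤ 36 * chi p := by
  unfold chi coe
  split_ifs with h
  · have h' : |((p.1 : ℕ) : ℝ) - ((p.2 : ℕ) : ℝ)| ≤ 6 := by
      have : ((|((p.1 : ℕ) : ℤ) - ((p.2 : ℕ) : ℤ)| : ℤ) : ℝ) ≤ ((6 : ℤ) : ℝ) := by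
        exact_mod_cast h
      simpa only [ge_iff_le, Int.cast_abs, Int.cast_sub, Int.cast_natCast, Int.cast_ofNat] using this
    have := abs_le.mp h'
    nlinarith only [this]
  · simp

lemma sum_weight_le {M : ℕ} (W : Fin M × Fin M → ℝ) (hW : ∀ p, 0 ≤ W p) {B : ℝ}
    (hB : ∀ s, ∑ t, W (s, t) ≤ B) (H : Fin M → ℝ) (h0 : ∀ s, 0 ≤ H s) (h1 : ∀ s, H s ≤ 1)
    (hs : ∑ s, H s = 1) : ∑ p : Fin M × Fin M, W p * (H p.1 * H p.1) ≤ B := by
  rw [Fintype.sum_prod_type]
  calc ∑ s, ∑ t, W (s, t) * (H s * H s) = ∑ s, (∑ t, W (s, t)) * (H s * H s) := by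
        simp only [Finset.sum_mul]
    _ ≤ ∑ s, (∑ t, W (s, t)) * H s := by
        apply Finset.sum_le_sum
        intro s _
        apply mul_le_mul_of_nonneg_left _ (Finset.sum_nonneg fun t _ => hW _)
        (clear * - h0 h1; nlinarith [h0 s, h1 s])
    _ ≤ ∑ s, B * H s := by
        apply Finset.sum_le_sum
        intro s _
        exact mul_le_mul_of_nonneg_right (hB s) (h0 s)
    _ = B := by rw [← Finset.mul_sum, hs, mul_one]

section Main

variable {F : Type u} [CStarAlgebra F]

/-- The hat elements. -/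
noncomputable def fe (q : F) (ε : ℝ) (S : ℕ) (k : ℕ) : F :=
  cfc (fun x : ℝ => hat k (x / ε + S)) q

lemma continuous_hat_aff (ε : ℝ) (S k : ℕ) : Continuous (fun x : ℝ => hat k (x / ε + S)) := by
  have := continuous_hat k
  fun_prop

variable (q : F) (hq : IsSelfAdjoint q) (ε : ℝ) (hε : 0 < ε) (S : ℕ)

lemma fe_sa (k : ℕ) : IsSelfAdjoint (fe q ε S k) := cfc_predicate _ q

lemma fe_comm (s t : ℕ) : Commute (fe q ε S s) (fe q ε S t) := cfc_commute_cfc _ _ q

lemma fe_mul (s t : ℕ) : fe q ε S s * fe q ε S t =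
    cfc (fun x : ℝ => hat s (x / ε + S) * hat t (x / ε + S)) q := by
  unfold fe
  rw [cfc_mul _ _ q (continuous_hat_aff ε S s).continuousOn
    (continuous_hat_aff ε S t).continuousOn]

lemma fe_orth (s t : ℕ) (h : 2 ≤ |(s : ℤ) - (t : ℤ)|) : fe q ε S s * fe q ε S t = 0 := by
  rw [fe_mul q]
  have : (fun x : ℝ => hat s (x / ε + S) * hat t (x / ε + S)) = fun _ => (0 : ℝ) := by
    funext x
    exact hat_mul_hat s t h _
  rw [this]
  simp

include hε in
lemma spec_bound (hS : ‖q‖ ≤ S * ε) (x : ℝ) (hx : x ∈ spectrum ℝ q) :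
    0 ≤ x / ε + S ∧ x / ε + S ≤ ((2 * S : ℕ) : ℝ) := by
  have h1 : ‖x‖ ≤ ‖q‖ := by
    rcases subsingleton_or_nontrivial F with hF | hF
    · rw [spectrum.of_subsingleton] at hx
      exact absurd hx (Set.notMem_empty x)
    · exact spectrum.norm_le_norm_of_mem hx
  rw [Real.norm_eq_abs] at h1
  have h2 := abs_le.mp (h1.trans hS)
  have h3 : -(S : ℝ) ≤ x / ε := by
    rw [le_div_iff₀ hε]; linarith [h2.1]
  have h4 : x / ε ≤ S := by
    rw [div_le_iff₀ hε]; linarith only [h2]
  push_cast
  constructor <;> linarith only [h3, h4]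

include hq hε in
lemma sum_fe (hS : ‖q‖ ≤ S * ε) : ∑ k : Fin (2 * S + 1), fe q ε S k = 1 := by
  unfold fe
  rw [← cfc_sum_univ (fun k : Fin (2 * S + 1) => fun x : ℝ => hat k (x / ε + S)) q
    (fun k => (continuous_hat_aff ε S k).continuousOn)]
  rw [← cfc_const_one ℝ q]
  apply cfc_congr
  intro x hx
  obtain ⟨h0, h1⟩ := spec_bound q ε hε S hS x hx
  simpa only [Finset.sum_apply] using sum_hat_eq_one (2 * S) _ h0 h1

include hq hε in
lemma sum_mul_fe (hS : ‖q‖ ≤ S * ε) :
    ∑ k : Fin (2 * S + 1), ((k : ℕ) : ℝ) • fe q ε S k = (1 / ε) • q + (S : ℝ) • 1 := by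
  unfold fe
  have e1 : ∀ k : Fin (2 * S + 1), ((k : ℕ) : ℝ) • cfc (fun x : ℝ => hat k (x / ε + S)) q =
      cfc (fun x : ℝ => ((k : ℕ) : ℝ) * hat k (x / ε + S)) q := by
    intro k
    rw [cfc_const_mul _ _ q (continuous_hat_aff ε S k).continuousOn]
  simp only [e1]
  rw [← cfc_sum_univ (fun k : Fin (2 * S + 1) => fun x : ℝ =>
      ((k : ℕ) : ℝ) * hat k (x / ε + S)) q
    (fun k => ((continuous_hat_aff ε S k).const_mul _).continuousOn)]
  have e2 : (1 / ε) • q + (S : ℝ) • (1 : F) = cfc (fun x : ℝ => x / ε + S) q := by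
    have : (fun x : ℝ => x / ε + S) = fun x : ℝ => (1 / ε) * x + S := by
      funext x; ring
    rw [this, cfc_add_const _ _ q, cfc_const_mul _ _ q, cfc_id' ℝ q]
    rw [Algebra.algebraMap_eq_smul_one]
  rw [e2]
  apply cfc_congr
  intro x hx
  obtain ⟨h0, h1⟩ := spec_bound q ε hε S hS x hx
  simpa only [Finset.sum_apply] using sum_mul_hat_eq (2 * S) _ h0 h1

include hq hε in
lemma comm_eq (hS : ‖q‖ ≤ S * ε) (b : F) :
    q * b - b * q = ε • ∑ p : Fin (2 * S + 1) × Fin (2 * S + 1),
      coe p • (fe q ε S p.1 * b * fe q ε S p.2) := by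
  have h1 := sum_fe q hq ε hε S hS
  have h2 := sum_mul_fe q hq ε hε S hS
  have h3 : ∑ p : Fin (2 * S + 1) × Fin (2 * S + 1),
      coe p • (fe q ε S p.1 * b * fe q ε S p.2)
      = (∑ k : Fin (2 * S + 1), ((k : ℕ) : ℝ) • fe q ε S k) * b *
          (∑ k : Fin (2 * S + 1), fe q ε S k)
        - (∑ k : Fin (2 * S + 1), fe q ε S k) * b *
          (∑ k : Fin (2 * S + 1), ((k : ℕ) : ℝ) • fe q ε S k) := by
    rw [Fintype.sum_prod_type]
    simp only [Finset.sum_mul, Finset.mul_sum, ← Finset.sum_sub_distrib]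
    rw [Finset.sum_comm]
    apply Finset.sum_congr rfl
    intro t _
    apply Finset.sum_congr rfl
    intro s _
    unfold coe
    simp only [smul_mul_assoc, mul_smul_comm, sub_smul]
  rw [h3, h1, h2, mul_one, one_mul, add_mul, mul_add, smul_mul_assoc, mul_smul_comm,
    smul_mul_assoc, mul_smul_comm, one_mul, mul_one, add_sub_add_right_eq_sub, ← smul_sub,
    smul_smul, mul_one_div_cancel hε.ne', one_smul]

include hq hε in
/-- The near-diagonal part is small. -/
lemma norm_near_le (hS : ‖q‖ ≤ S * ε) (b : F) :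
    ‖∑ p : Fin (2 * S + 1) × Fin (2 * S + 1),
      (chi p * coe p) • (fe q ε S p.1 * b * fe q ε S p.2)‖ ≤ 78 * ‖b‖ := by
  let _ : PartialOrder F := CStarAlgebra.spectralOrder F
  have _ : StarOrderedRing F := CStarAlgebra.spectralOrderedRing F
  set P := Fin (2 * S + 1) × Fin (2 * S + 1) with hP
  let u : P → F := fun p => (chi p * coe p) • fe q ε S p.1
  let v : P → F := fun p => chi p • (b * fe q ε S p.2)
  have e0 : ∑ p : P, (chi p * coe p) • (fe q ε S p.1 * b * fe q ε S p.2) = ∑ p, u p * v p := by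
    apply Finset.sum_congr rfl
    intro p _
    simp only [u, v, smul_mul_assoc, mul_smul_comm, smul_smul]
    have : chi p * (chi p * coe p) = chi p * coe p := by
      unfold chi; split_ifs <;> ring
    rw [this, mul_assoc]
  have hH0 : ∀ x : ℝ, ∀ s : Fin (2 * S + 1), 0 ≤ hat (s : ℕ) (x / ε + S) :=
    fun x s => hat_nonneg _ _
  have hH1 : ∀ x : ℝ, ∀ s : Fin (2 * S + 1), hat (s : ℕ) (x / ε + S) ≤ 1 :=
    fun x s => hat_le_one _ _
  have hHs : ∀ x ∈ spectrum ℝ q, ∑ s : Fin (2 * S + 1), hat (s : ℕ) (x / ε + S) = 1 := by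
    intro x hx
    obtain ⟨h0, h1⟩ := spec_bound q ε hε S hS x hx
    exact sum_hat_eq_one (2 * S) _ h0 h1
  have hff : ∀ (W : P → ℝ) (g : P → Fin (2 * S + 1)),
      ∑ p : P, W p • (fe q ε S (g p) * fe q ε S (g p)) =
      cfc (fun x : ℝ => ∑ p : P, W p * (hat (g p : ℕ) (x / ε + S) *
        hat (g p : ℕ) (x / ε + S))) q := by
    intro W g
    have ef : (fun x : ℝ => ∑ p : P, W p * (hat (g p : ℕ) (x / ε + S) *
        hat (g p : ℕ) (x / ε + S))) = ∑ p : P, fun x : ℝ => W p * (hat (g p : ℕ) (x / ε + S) *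
        hat (g p : ℕ) (x / ε + S)) := by
      funext x; simp only [Finset.sum_apply]
    rw [ef, cfc_sum_univ (fun p : P => fun x : ℝ => W p * (hat (g p : ℕ) (x / ε + S) *
        hat (g p : ℕ) (x / ε + S))) q (fun p => ((((continuous_hat_aff ε S (g p)).mul
          (continuous_hat_aff ε S (g p))).const_mul _).continuousOn))]
    apply Finset.sum_congr rfl
    intro p _
    rw [cfc_const_mul (W p) (fun x : ℝ => hat (g p : ℕ) (x / ε + S) *
        hat (g p : ℕ) (x / ε + S)) q ((continuous_hat_aff ε S (g p)).mul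
          (continuous_hat_aff ε S (g p))).continuousOn, fe_mul q]
  have hu : ‖∑ p, u p * star (u p)‖ ≤ 468 := by
    have e1 : ∑ p, u p * star (u p) =
        ∑ p : P, ((chi p * coe p) ^ 2) • (fe q ε S p.1 * fe q ε S p.1) := by
      apply Finset.sum_congr rfl
      intro p _
      simp only [u]
      rw [star_smul, (fe_sa q ε S p.1).star_eq, star_trivial, smul_mul_smul_comm, ← sq]
    rw [e1, hff _ (fun p => p.1)]
    apply norm_cfc_le (by norm_num)
    intro x hx
    rw [Real.norm_of_nonneg (Finset.sum_nonneg fun p _ =>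
      mul_nonneg (sq_nonneg _) (mul_nonneg (hH0 x _) (hH0 x _)))]
    apply sum_weight_le _ (fun p => sq_nonneg _) _ _ (hH0 x) (hH1 x) (hHs x hx)
    intro s
    calc ∑ t, (chi (s, t) * coe (s, t)) ^ 2 ≤ ∑ t, 36 * chi (s, t) :=
          Finset.sum_le_sum fun t _ => chi_mul_coe_sq_le _
      _ = 36 * ∑ t, chi (s, t) := by rw [Finset.mul_sum]
      _ ≤ 36 * 13 := by
          apply mul_le_mul_of_nonneg_left (sum_chi_le s) (by norm_num)
      _ = 468 := by norm_num
  have hv : ‖∑ p, star (v p) * v p‖ ≤ 13 * ‖b‖ ^ 2 := by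
    have e1 : ∀ p, star (v p) * v p ≤
        (chi p ^ 2 * ‖b‖ ^ 2) • (fe q ε S p.2 * fe q ε S p.2) := by
      intro p
      have e2 : star (v p) * v p = (chi p ^ 2) •
          (star (fe q ε S p.2) * (star b * b) * fe q ε S p.2) := by
        simp only [v]
        rw [star_smul, star_trivial, smul_mul_smul_comm, ← sq, star_mul]
        simp only [mul_assoc]
      rw [e2, mul_smul]
      apply smul_le_smul_of_nonneg_left _ (sq_nonneg _)
      have e3 := star_left_conjugate_le_conjugate
        (CStarAlgebra.star_mul_le_algebraMap_norm_sq (a := b)) (fe q ε S p.2)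
      refine e3.trans (le_of_eq ?_)
      rw [Algebra.algebraMap_eq_smul_one, mul_smul_comm, mul_one, smul_mul_assoc,
        (fe_sa q ε S p.2).star_eq]
    have e4 : ∑ p, star (v p) * v p ≤
        ∑ p : P, (chi p ^ 2 * ‖b‖ ^ 2) • (fe q ε S p.2 * fe q ε S p.2) :=
      Finset.sum_le_sum fun p _ => e1 p
    refine (CStarAlgebra.norm_le_norm_of_nonneg_of_le
      (Finset.sum_nonneg fun p _ => star_mul_self_nonneg _) e4).trans ?_
    rw [hff _ (fun p => p.2)]
    apply norm_cfc_le (by (clear * -; positivity))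
    intro x hx
    rw [Real.norm_of_nonneg (Finset.sum_nonneg fun p _ =>
      mul_nonneg (by (clear * -; positivity)) (mul_nonneg (hH0 x _) (hH0 x _)))]
    have e5 : ∑ p : P, (chi p ^ 2 * ‖b‖ ^ 2) * (hat (p.2 : ℕ) (x / ε + S) *
        hat (p.2 : ℕ) (x / ε + S)) = ∑ p : P, (chi p ^ 2 * ‖b‖ ^ 2) *
        (hat (p.1 : ℕ) (x / ε + S) * hat (p.1 : ℕ) (x / ε + S)) := by
      rw [Fintype.sum_prod_type, Fintype.sum_prod_type, Finset.sum_comm]
      refine Finset.sum_congr rfl fun s _ => Finset.sum_congr rfl fun t _ => ?_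
      rw [chi_symm]
    rw [e5]
    apply sum_weight_le _ (fun p => by (clear * -; positivity)) _ _ (hH0 x) (hH1 x) (hHs x hx)
    intro s
    calc ∑ t, (chi (s, t) ^ 2 * ‖b‖ ^ 2) = (∑ t, chi (s, t)) * ‖b‖ ^ 2 := by
          rw [Finset.sum_mul]
          apply Finset.sum_congr rfl
          intro t _
          have : chi (s, t) ^ 2 = chi (s, t) := by
            unfold chi; split_ifs <;> norm_num
          rw [this]
      _ ≤ 13 * ‖b‖ ^ 2 := mul_le_mul_of_nonneg_right (sum_chi_le s) (sq_nonneg _)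
  rw [e0]
  refine (norm_sum_mul_le u v).trans ?_
  calc Real.sqrt ‖∑ p, u p * star (u p)‖ * Real.sqrt ‖∑ p, star (v p) * v p‖
      ≤ Real.sqrt 468 * Real.sqrt (13 * ‖b‖ ^ 2) :=
        mul_le_mul (Real.sqrt_le_sqrt hu) (Real.sqrt_le_sqrt hv) (Real.sqrt_nonneg _)
          (Real.sqrt_nonneg _)
    _ = 78 * ‖b‖ := by
        rw [← Real.sqrt_mul (by norm_num)]
        have : (468 : ℝ) * (13 * ‖b‖ ^ 2) = (78 * ‖b‖) ^ 2 := by ring
        rw [this, Real.sqrt_sq (by (clear * -; positivity))]

end Main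

end Step3

open Step3 in
theorem step3 {F : Type u} [CStarAlgebra F] (q : F) (hq : IsSelfAdjoint q)
    (h : Full {x : F | ∃ y, x = q * y - y * q}) : Nonempty (PartData F) := by
  obtain ⟨n, l, x, r, hx, hsum⟩ := h.exists_sum
  choose y hy using hx
  set K : ℝ := ∑ i, ‖l i‖ * ‖y i‖ * ‖r i‖ with hK
  have hK0 : 0 ≤ K := Finset.sum_nonneg fun i _ => by (clear * -; positivity)
  set ε : ℝ := 1 / (78 * K + 1) with hεdef
  have hε : 0 < ε := by (clear * -; positivity)
  obtain ⟨S, hS⟩ := exists_nat_ge (‖q‖ / ε)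
  rw [div_le_iff₀ hε] at hS
  set T : Set F := {x : F | ∃ (s t : Fin (2 * S + 1)) (b : F),
    7 ≤ |((s : ℕ) : ℤ) - ((t : ℕ) : ℤ)| ∧ x = fe q ε S s * b * fe q ε S t} with hT
  refine ⟨⟨2 * S + 1, fun k => fe q ε S k, fun s t => fe_comm q ε S s t,
    fun s t hst => fe_orth q ε S s t hst, sum_fe q hq ε hε S hS, ?_⟩⟩
  change Full T
  -- near part
  let near : F → F := fun b => ∑ p : Fin (2 * S + 1) × Fin (2 * S + 1),
    (chi p * coe p) • (fe q ε S p.1 * b * fe q ε S p.2)
  let far : F → F := fun b => ∑ p : Fin (2 * S + 1) × Fin (2 * S + 1),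
    ((1 - chi p) * coe p) • (fe q ε S p.1 * b * fe q ε S p.2)
  have hnf : ∀ b, q * b - b * q = ε • near b + ε • far b := by
    intro b
    rw [comm_eq q hq ε hε S hS b, ← smul_add]
    congr 1
    simp only [near, far]
    rw [← Finset.sum_add_distrib]
    refine Finset.sum_congr rfl fun p _ => ?_
    rw [← add_smul]
    congr 1
    ring
  have hfar : ∀ b, far b ∈ TwoSidedIdeal.span T := by
    intro b
    refine sum_mem fun p _ => ?_
    by_cases hp : |((p.1 : ℕ) : ℤ) - ((p.2 : ℕ) : ℤ)| ≤ 6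
    · have : chi p = 1 := by unfold chi; rw [if_pos hp]
      rw [this, sub_self, zero_mul, zero_smul]
      exact zero_mem _
    · have h7 : 7 ≤ |((p.1 : ℕ) : ℤ) - ((p.2 : ℕ) : ℤ)| := by omega
      have hmem : fe q ε S p.1 * b * fe q ε S p.2 ∈ TwoSidedIdeal.span T :=
        TwoSidedIdeal.subset_span ⟨p.1, p.2, b, h7, rfl⟩
      rw [← one_mul (fe q ε S p.1 * b * fe q ε S p.2), ← smul_mul_assoc]
      exact TwoSidedIdeal.mul_mem_left _ _ _ hmem
  set E : F := ∑ i, l i * (ε • near (y i)) * r i with hE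
  have hEnorm : ‖E‖ < 1 := by
    have h1 : ‖E‖ ≤ ∑ i, ε * (78 * (‖l i‖ * ‖y i‖ * ‖r i‖)) := by
      refine (norm_sum_le _ _).trans (Finset.sum_le_sum fun i _ => ?_)
      have h2 : ‖l i * (ε • near (y i)) * r i‖ ≤ ‖l i‖ * (ε * (78 * ‖y i‖)) * ‖r i‖ := by
        refine (norm_mul_le _ _).trans (mul_le_mul_of_nonneg_right ?_ (norm_nonneg _))
        refine (norm_mul_le _ _).trans (mul_le_mul_of_nonneg_left ?_ (norm_nonneg _))
        rw [norm_smul, Real.norm_of_nonneg hε.le]
        exact mul_le_mul_of_nonneg_left (norm_near_le q hq ε hε S hS (y i)) hε.le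
      refine h2.trans (le_of_eq ?_)
      ring
    rw [← Finset.mul_sum, ← Finset.mul_sum, ← hK] at h1
    refine lt_of_le_of_lt h1 ?_
    rw [hεdef, one_div, inv_mul_lt_iff₀ (by (clear * -; positivity))]
    linarith only []
  have hunit : IsUnit (1 - E) := (Units.oneSub E hEnorm).isUnit
  have hmem : 1 - E ∈ TwoSidedIdeal.span T := by
    have h1 : 1 - E = ∑ i, l i * (ε • far (y i)) * r i := by
      rw [← hsum, hE, ← Finset.sum_sub_distrib]
      refine Finset.sum_congr rfl fun i _ => ?_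
      rw [hy i, hnf]
      noncomm_ring
    rw [h1]
    refine sum_mem fun i _ => ?_
    apply TwoSidedIdeal.mul_mem_right
    apply TwoSidedIdeal.mul_mem_left
    rw [← one_mul (far (y i)), ← smul_mul_assoc]
    exact TwoSidedIdeal.mul_mem_left _ _ _ (hfar _)
  obtain ⟨w, hw⟩ := hunit
  have : (1 : F) = (↑w⁻¹ : F) * (1 - E) := by rw [← hw]; simp
  unfold Full
  rw [this]
  exact TwoSidedIdeal.mul_mem_left _ _ _ hmem

end Vale.Agent.P101
end

section

/-! Step 5: from nilpotent elements `x i` generating the algebra and two orthogonal full elements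
`ξ`, build one element `X` with `X * X = 0` that is full. -/

open scoped BigOperators

namespace Vale.Agent.P101

universe u v

theorem prodHom_absorb {κ : Type*} [Fintype κ] [DecidableEq κ] {F : Type u} {G : Type v}
    [Ring F] [StarRing F] [Algebra ℂ F] [Ring G] [StarRing G] [Algebra ℂ G]
    (L : Legs κ F G) (I : TwoSidedIdeal G) (s : Finset κ) (z : κ → F)
    (hz : ∀ k ∈ s, Full {z k}) (h : L.prodHom z ∈ I) :
    L.prodHom (fun k => if k ∈ s then 1 else z k) ∈ I := by
  induction s using Finset.induction_on with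
  | empty => simpa using h
  | insert k s hk ih =>
    have ih' := ih (fun j hj => hz j (Finset.mem_insert_of_mem hj))
    set z' : κ → F := fun k => if k ∈ s then 1 else z k with hz'
    have hz'k : z' k = z k := by simp [hz', hk]
    have e : (fun j => if j ∈ insert k s then (1 : F) else z j) = Function.update z' k 1 := by
      ext j
      by_cases hj : j = k
      · subst hj; simp
      · simp [hz', hj]
    rw [e]
    obtain ⟨m, l, x, r, hx, hsum⟩ := (hz k (Finset.mem_insert_self k s)).exists_sum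
    have hone : L.prodMul (Function.update z' k 1)
        = ∑ t : Fin m, L.prodMul (Function.update z' k (l t * x t * r t)) := by
      rw [← hsum, MultilinearMap.map_update_sum]
    have hone' : L.prodHom (Function.update z' k 1)
        = ∑ t : Fin m, L.prodHom (Function.update z' k (l t * x t * r t)) := hone
    rw [hone']
    refine sum_mem fun t _ => ?_
    have hxt : x t = z' k := by rw [hz'k]; exact hx t
    have e2 : Function.update z' k (l t * x t * r t)
        = Pi.mulSingle k (l t) * z' * Pi.mulSingle k (r t) := by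
      ext j
      by_cases hj : j = k
      · subst hj; simp [hxt]
      · simp [Function.update_of_ne hj, Pi.mulSingle_eq_of_ne hj]
    rw [e2, map_mul, map_mul]
    exact TwoSidedIdeal.mul_mem_right _ _ _ (TwoSidedIdeal.mul_mem_left _ _ _ ih')

theorem step5_aux {F : Type u} {G : Type v} [Ring F] [StarRing F] [Algebra ℂ F] [Ring G]
    [StarRing G] [Algebra ℂ G] (n : ℕ) (x : Fin n → F)
    (hx : ∀ i, x i * x i = 0) (hfull : Full (Set.range x)) (ξ : Bool → F)
    (hξ : ∀ i j, i ≠ j → ξ i * ξ j = 0) (hξf : ∀ i, Full {ξ i ^ 2})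
    (L : Legs (Fin (n + 1)) F G) :
    ∃ X : G, X * X = 0 ∧ Full {X} := by
  classical
  -- one-hot codes
  let c : Fin n → Fin n → F := fun i k => ξ (decide (k = i))
  have hc : ∀ i j, i ≠ j → c i i * c j i = 0 := by
    intro i j hij
    apply hξ
    simp [hij]
  let X : G := ∑ i, L.prodHom (Fin.cons (x i) (c i) : Fin (n + 1) → F)
  have hmul : ∀ (a b : F) (i j : Fin n), i ≠ j →
      L.prodHom (Fin.cons a (c i) : Fin (n + 1) → F)
        * L.prodHom (Fin.cons b (c j) : Fin (n + 1) → F) = 0 := by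
    intro a b i j hij
    rw [← map_mul]
    refine L.prodHom_eq_zero _ (Fin.succ i) ?_
    simpa only [Pi.mul_apply, Fin.cons_succ] using hc i j hij
  refine ⟨X, ?_, ?_⟩
  · rw [Finset.sum_mul_sum]
    refine Finset.sum_eq_zero fun i _ => Finset.sum_eq_zero fun j _ => ?_
    by_cases hij : i = j
    · subst hij
      rw [← map_mul]
      refine L.prodHom_eq_zero _ 0 ?_
      simpa only [Pi.mul_apply, Fin.cons_zero] using hx i
    · exact hmul _ _ i j hij
  · have hmem : ∀ i, L.σ 0 (x i) ∈ TwoSidedIdeal.span {X} := by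
      intro i
      have h1 : X * L.prodHom (Fin.cons 1 (c i) : Fin (n + 1) → F)
          = L.prodHom (Fin.cons (x i) (fun k => c i k ^ 2) : Fin (n + 1) → F) := by
        rw [Finset.sum_mul, Finset.sum_eq_single i]
        · rw [← map_mul]
          congr 1
          ext k
          refine Fin.cases ?_ (fun k => ?_) k
          · simp
          · simp [pow_two]
        · intro j _ hj
          exact hmul _ _ j i hj
        · intro h; exact absurd (Finset.mem_univ i) h
      have h2 : L.prodHom (Fin.cons (x i) (fun k => c i k ^ 2) : Fin (n + 1) → F)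
          ∈ TwoSidedIdeal.span {X} := by
        rw [← h1]
        exact TwoSidedIdeal.mul_mem_right _ _ _ (TwoSidedIdeal.subset_span rfl)
      have h3 := prodHom_absorb L (TwoSidedIdeal.span {X}) (Finset.univ.erase 0) _ (by
        intro k hk
        have hk0 : k ≠ 0 := Finset.ne_of_mem_erase hk
        obtain ⟨k, rfl⟩ := Fin.exists_succ_eq.2 hk0
        simpa using hξf (decide (k = i))) h2
      have e : (fun k : Fin (n + 1) => if k ∈ (Finset.univ.erase (0 : Fin (n + 1))) then (1 : F)
          else (Fin.cons (x i) (fun k => c i k ^ 2) : Fin (n + 1) → F) k)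
          = Pi.mulSingle 0 (x i) := by
        ext k
        refine Fin.cases ?_ (fun k => ?_) k
        · simp only [Finset.mem_erase, ne_eq, not_true_eq_false, Finset.mem_univ, and_true, ↓reduceIte, Fin.cons_zero, Pi.mulSingle_eq_same]
        · simp only [Finset.mem_erase, ne_eq, Fin.succ_ne_zero, not_false_eq_true, Finset.mem_univ, and_self, ↓reduceIte, Pi.mulSingle_eq_of_ne]
      rw [e, L.prodHom_mulSingle] at h3
      exact h3
    have h4 : Full ((L.σ 0 : F →+* G) '' Set.range x) := hfull.map (L.σ 0 : F →+* G)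
    refine h4.mono ?_
    rintro _ ⟨_, ⟨i, rfl⟩, rfl⟩
    exact hmem i

theorem step5 {F : Type u} {G : Type v} [CStarAlgebra F] [CStarAlgebra G] (n : ℕ) (x : Fin n → F)
    (hx : ∀ i, x i * x i = 0) (hfull : Full (Set.range x)) (ξ : Bool → F)
    (hξ : ∀ i j, i ≠ j → ξ i * ξ j = 0) (hξf : ∀ i, Full {ξ i ^ 2})
    (L : Legs (Fin (n + 1)) F G) :
    ∃ X : G, X * X = 0 ∧ Full {X} :=
  step5_aux n x hx hfull ξ hξ hξf L

end Vale.Agent.P101
end

section

/-! Limits of tracial states on algebras of bounded functions modulo null functions. -/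

open Filter Topology

namespace Vale.Agent.P095J

open Vale.Agent.P101 Vale.Agent.P101.SeqQuot Vale.Agent.P095

universe u v w

section

variable {A : Type u} [CStarAlgebra A] {ι : Type v} {μ : Filter ι}

end

end Vale.Agent.P095J
end

section

/-! Tracial estimates for the elements of a `GlueData`. -/

set_option linter.unusedSectionVars false

namespace Vale.Agent.P095

open Vale.Agent.P101 Finset

section
variable {α : Type} [Fintype α] [DecidableEq α] {Q : Type*} [Ring Q] [StarRing Q] [Algebra ℂ Q]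
  [StarModule ℂ Q] {q : Q →ₗ[ℂ] ℂ} (D : GlueData α Unit Q)

namespace GlueTr

theorem z_eq : star (D.s ()) * D.s () = D.z := by simpa only [↓reduceIte] using D.ss () ()

theorem z_star : star D.z = D.z := by
  rw [← z_eq D, star_mul, star_star]

theorem e_eq (k : α) : star (D.g k) * D.g k = D.e := by simpa only [↓reduceIte] using D.gg k k

theorem z_pow_star (m : ℕ) : star (D.z ^ m) = D.z ^ m := by rw [star_pow, z_star]

theorem zpow_mul_sub (m : ℕ) : D.z ^ m - D.z ^ (m + 1) =
    ∑ k, D.g k * D.z ^ m * star (D.g k) := by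
  have h1 : D.z ^ m - D.z ^ (m + 1) = D.z ^ m * (1 - D.z) := by
    rw [mul_sub, mul_one, pow_succ]
  rw [h1, ← D.sum_eq, Finset.mul_sum]
  refine Finset.sum_congr rfl fun k _ => ?_
  rw [← mul_assoc, ((D.gz k).pow_right m).eq]

variable (h : IsTracialState q)
include h

theorem re_pow_le (m : ℕ) : (q (D.z ^ (m + 1))).re ≤ (q (D.z ^ m)).re := by
  have h1 : (q (D.z ^ m)).re - (q (D.z ^ (m + 1))).re =
      ∑ k, (q (D.g k * D.z ^ m * star (D.g k))).re := by
    rw [← Complex.sub_re, ← map_sub, zpow_mul_sub, map_sum, Complex.re_sum]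
  have h2 : 0 ≤ ∑ k, (q (D.g k * D.z ^ m * star (D.g k))).re := by
    refine Finset.sum_nonneg fun k _ => ?_
    rcases Nat.even_or_odd' m with ⟨j, hj | hj⟩
    · have e : D.g k * D.z ^ m * star (D.g k) =
          star (D.z ^ j * star (D.g k)) * (D.z ^ j * star (D.g k)) := by
        rw [star_mul, star_star, z_pow_star, hj, two_mul, pow_add]
        simp only [mul_assoc]
      rw [e]
      exact h.re_nonneg _
    · have e : D.g k * D.z ^ m * star (D.g k) =
          star (D.s () * D.z ^ j * star (D.g k)) * (D.s () * D.z ^ j * star (D.g k)) := by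
        rw [star_mul, star_mul, star_star, z_pow_star, hj]
        have : D.z ^ (2 * j + 1) = D.z ^ j * (star (D.s ()) * D.s ()) * D.z ^ j := by
          rw [z_eq, ← pow_succ, ← pow_add]
          congr 1
          omega
        rw [this]
        simp only [mul_assoc]
      rw [e]
      exact h.re_nonneg _
  linarith only [h1, h2]

theorem re_z_nonneg : 0 ≤ (q D.z).re := by
  rw [← z_eq D]; exact h.re_nonneg _

theorem card_mul_re_z : (Fintype.card α : ℝ) * (q D.z).re ≤ 1 := by
  set n : ℝ := (Fintype.card α : ℝ) with hn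
  have hz0 := re_z_nonneg D h
  set t : α → Q := fun k => D.g k * D.s () with ht
  have htt : ∀ k l, star (t k) * t l = if k = l then D.z else 0 := by
    intro k l
    have e : star (t k) * t l = star (D.s ()) * (star (D.g k) * D.g l) * D.s () := by
      rw [ht]; simp only [star_mul, mul_assoc]
    rw [e, D.gg]
    split_ifs with hkl
    · rw [mul_assoc, D.es, z_eq]
    · rw [mul_zero, zero_mul]
  set T : Q := ∑ k, t k * star (t k) with hT
  have hTs : star T = T := by
    rw [hT, star_sum]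
    simp only [star_mul, star_star]
  have h1 : (q T).re = n * (q D.z).re := by
    rw [hT, map_sum, Complex.re_sum]
    have : ∀ k, (q (t k * star (t k))).re = (q D.z).re := by
      intro k
      rw [h.map_mul_comm, htt k k, if_pos rfl]
    simp only [this, Finset.sum_const, Finset.card_univ, nsmul_eq_mul, hn]
  have h2 : nrm q T ^ 2 = n * (q (D.z ^ 2)).re := by
    rw [nrm_sq h, hTs]
    have e : T * T = ∑ k, t k * D.z * star (t k) := by
      rw [hT, Finset.sum_mul]
      refine Finset.sum_congr rfl fun k _ => ?_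
      rw [Finset.mul_sum, Finset.sum_eq_single k]
      · rw [mul_assoc (t k), ← mul_assoc (star (t k)), htt k k, if_pos rfl, ← mul_assoc]
      · intro l _ hl
        rw [mul_assoc (t k), ← mul_assoc (star (t k)), htt k l, if_neg hl.symm, zero_mul,
          mul_zero]
      · intro hk; exact absurd (Finset.mem_univ k) hk
    rw [e, map_sum, Complex.re_sum]
    have : ∀ k, (q (t k * D.z * star (t k))).re = (q (D.z ^ 2)).re := by
      intro k
      rw [h.map_mul_comm, ← mul_assoc, htt k k, if_pos rfl, pow_two]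
    simp only [this, Finset.sum_const, Finset.card_univ, nsmul_eq_mul, hn]
  have h3 : (q (D.z ^ 2)).re ≤ (q D.z).re := by
    simpa only [Nat.reduceAdd, pow_one] using re_pow_le D h 1
  have h4 : (q T).re ≤ nrm q T := (Complex.re_le_norm _).trans (norm_map_le h T)
  have hn0 : 0 ≤ n := Nat.cast_nonneg _
  have h5 : (n * (q D.z).re) ^ 2 ≤ n * (q D.z).re := by
    have h6 : 0 ≤ (q T).re := by rw [h1]; (clear * - hz0; positivity)
    calc (n * (q D.z).re) ^ 2 = (q T).re ^ 2 := by rw [h1]
      _ ≤ nrm q T ^ 2 := by (clear * - h6 h4; gcongr)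
      _ = n * (q (D.z ^ 2)).re := h2
      _ ≤ n * (q D.z).re := by (clear * - h3; gcongr)
  by_contra hc
  push Not at hc
  nlinarith only [h5, hc]

theorem nrm_z_sq : nrm q D.z ^ 2 ≤ (q D.z).re := by
  rw [nrm_sq h, z_star, ← pow_two]
  simpa only [Nat.reduceAdd, pow_one] using re_pow_le D h 1

theorem nrm_zz_sq : nrm q (D.z * D.z) ^ 2 ≤ (q D.z).re := by
  rw [nrm_sq h]
  have e : star (D.z * D.z) * (D.z * D.z) = D.z ^ 4 := by
    rw [star_mul, z_star]; noncomm_ring
  rw [e]
  have h1 := re_pow_le D h 3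
  have h2 := re_pow_le D h 2
  have h3 := re_pow_le D h 1
  norm_num at h1 h2 h3
  linarith only [h1, h2, h3]

/-- the bound for `z` in terms of `δ` -/
theorem nrm_z_le [Nonempty α] {δ : ℝ} (hδ : 0 < δ) (hn : 1 ≤ δ ^ 2 * Fintype.card α) :
    nrm q D.z ≤ δ ∧ nrm q (D.z * D.z) ≤ δ := by
  have h1 := card_mul_re_z D h
  have h0 := re_z_nonneg D h
  have hc : (0 : ℝ) < Fintype.card α := by exact_mod_cast Fintype.card_pos
  have h2 : (q D.z).re ≤ δ ^ 2 := by
    have h3 : (Fintype.card α : ℝ) * (q D.z).re ≤ δ ^ 2 * Fintype.card α := h1.trans hn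
    by_contra hc'
    push Not at hc'
    have : (Fintype.card α : ℝ) * δ ^ 2 < Fintype.card α * (q D.z).re :=
      mul_lt_mul_of_pos_left hc' hc
    linarith only [hn, h1, this]
  constructor
  · exact le_of_sq_le_sq ((nrm_z_sq D h).trans h2) hδ.le
  · exact le_of_sq_le_sq ((nrm_zz_sq D h).trans h2) hδ.le

omit h in
theorem sum_geg : ∑ k, D.g k * D.e * star (D.g k) = (1 - D.z) * (1 - D.z) := by
  rw [← D.sum_eq, Finset.sum_mul]
  refine Finset.sum_congr rfl fun k _ => ?_
  rw [Finset.mul_sum, Finset.sum_eq_single k]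
  · rw [mul_assoc (D.g k) (star (D.g k)), ← mul_assoc (star (D.g k)), e_eq D k, ← mul_assoc]
  · intro l _ hl
    rw [mul_assoc (D.g k), ← mul_assoc (star (D.g k)), D.gg, if_neg hl.symm, zero_mul, mul_zero]
  · intro hk; exact absurd (Finset.mem_univ k) hk

/-- the block element -/
def blk (B : Finset α) : Q := ∑ k ∈ B, D.g k * star (D.g k)

omit h in
theorem blk_star (B : Finset α) : star (blk D B) = blk D B := by
  unfold blk
  rw [star_sum]
  simp only [star_mul, star_star]

omit h in
theorem blk_mul (B C : Finset α) (hBC : Disjoint B C) : blk D B * blk D C = 0 := by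
  unfold blk
  rw [Finset.sum_mul]
  refine Finset.sum_eq_zero fun k hk => ?_
  rw [Finset.mul_sum]
  refine Finset.sum_eq_zero fun l hl => ?_
  have hkl : k ≠ l := fun e => (Finset.disjoint_left.1 hBC hk) (e ▸ hl)
  rw [mul_assoc (D.g k), ← mul_assoc (star (D.g k)), D.gg, if_neg hkl, zero_mul, mul_zero]

omit h in
theorem blk_sq (B : Finset α) : blk D B * blk D B = ∑ k ∈ B, D.g k * D.e * star (D.g k) := by
  unfold blk
  rw [Finset.sum_mul]
  refine Finset.sum_congr rfl fun k hk => ?_
  rw [Finset.mul_sum, Finset.sum_eq_single k]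
  · rw [mul_assoc (D.g k) (star (D.g k)), ← mul_assoc (star (D.g k)), e_eq D k, ← mul_assoc]
  · intro l _ hl
    rw [mul_assoc (D.g k), ← mul_assoc (star (D.g k)), D.gg, if_neg hl.symm, zero_mul, mul_zero]
  · intro hk'; exact absurd hk hk'

omit h in
theorem blk_z (B : Finset α) : blk D B - blk D B * blk D B = blk D B * D.z := by
  have h1 : blk D B * (1 - D.z) = blk D B * blk D B := by
    rw [← D.sum_eq, blk_sq]
    unfold blk
    rw [Finset.sum_mul]
    refine Finset.sum_congr rfl fun k hk => ?_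
    rw [Finset.mul_sum, Finset.sum_eq_single k]
    · rw [mul_assoc (D.g k) (star (D.g k)), ← mul_assoc (star (D.g k)), e_eq D k, ← mul_assoc]
    · intro l _ hl
      rw [mul_assoc (D.g k), ← mul_assoc (star (D.g k)), D.gg, if_neg hl.symm, zero_mul,
        mul_zero]
    · intro hk'; exact absurd (Finset.mem_univ k) hk'
  rw [← h1, mul_sub, mul_one]
  abel

theorem nrm_blk_z_le (B : Finset α) : nrm q (blk D B * D.z) ≤ nrm q (D.z - D.z * D.z) := by
  refine le_of_sq_le_sq ?_ (nrm_nonneg _)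
  rw [nrm_sq h, nrm_sq h]
  have e1 : star (blk D B * D.z) * (blk D B * D.z) =
      ∑ k ∈ B, star (D.g k * star (D.g k) * D.z) * (D.g k * star (D.g k) * D.z) := by
    rw [star_mul, blk_star, z_star, ← mul_assoc, mul_assoc D.z, blk_sq, Finset.mul_sum,
      Finset.sum_mul]
    refine Finset.sum_congr rfl fun k _ => ?_
    rw [star_mul, star_mul, star_star, z_star]
    rw [← e_eq D k]
    simp only [mul_assoc]
  have e2 : star (D.z - D.z * D.z) * (D.z - D.z * D.z) =
      ∑ k, star (D.g k * star (D.g k) * D.z) * (D.g k * star (D.g k) * D.z) := by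
    have e3 : star (D.z - D.z * D.z) * (D.z - D.z * D.z) =
        D.z * ((1 - D.z) * (1 - D.z)) * D.z := by
      rw [star_sub, star_mul, z_star]; noncomm_ring
    rw [e3, ← sum_geg, Finset.mul_sum, Finset.sum_mul]
    refine Finset.sum_congr rfl fun k _ => ?_
    rw [star_mul, star_mul, star_star, z_star]
    rw [← e_eq D k]
    simp only [mul_assoc]
  rw [e1, e2, map_sum, map_sum, Complex.re_sum, Complex.re_sum]
  exact Finset.sum_le_sum_of_subset_of_nonneg (Finset.subset_univ _)
    (fun k _ _ => h.re_nonneg _)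

/-- traces of blocks -/
theorem tr_blk (B : Finset α) (a : Q) (ha : ∀ k, a * D.g k = D.g k * a) :
    q (a * blk D B) = B.card * q (a * D.e) := by
  unfold blk
  rw [Finset.mul_sum, map_sum]
  have : ∀ k, q (a * (D.g k * star (D.g k))) = q (a * D.e) := by
    intro k
    rw [← mul_assoc, h.map_mul_comm, ← mul_assoc, ← e_eq D k, ← mul_assoc]
    have h1 : q (star (D.g k) * a * D.g k) = q (star (D.g k) * D.g k * a) := by
      rw [mul_assoc, ha, ← mul_assoc]
    rw [h1, h.map_mul_comm, ← mul_assoc]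
  simp only [this, Finset.sum_const, nsmul_eq_mul]

theorem tr_blk_le (B : Finset α) (a : Q) (ha : ∀ k, a * D.g k = D.g k * a) [Nonempty α] :
    ‖q (a * blk D B) - ((B.card : ℝ) / (Fintype.card α : ℝ) : ℝ) * q a‖ ≤
      nrm q a * nrm q D.z := by
  have hc : (0 : ℝ) < Fintype.card α := by exact_mod_cast Fintype.card_pos
  have hc' : (Fintype.card α : ℂ) ≠ 0 := by
    exact_mod_cast Fintype.card_ne_zero
  have h1 := tr_blk D h Finset.univ a ha
  have h2 : blk D (Finset.univ : Finset α) = 1 - D.z := D.sum_eq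
  rw [h2, Finset.card_univ, mul_sub, mul_one, map_sub] at h1
  have h3 := tr_blk D h B a ha
  have h4 : q (a * blk D B) - ((B.card : ℝ) / (Fintype.card α : ℝ) : ℝ) * q a =
      -(((B.card : ℝ) / (Fintype.card α : ℝ) : ℝ) : ℂ) * q (a * D.z) := by
    have h5 : q (a * D.e) = (q a - q (a * D.z)) / Fintype.card α := by
      rw [h1]; field_simp
    rw [h3, h5]
    push_cast
    field_simp
    ring
  rw [h4, norm_mul, norm_neg, Complex.norm_real]
  have h6 : ‖(B.card : ℝ) / (Fintype.card α : ℝ)‖ ≤ 1 := by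
    rw [Real.norm_of_nonneg (by positivity), div_le_one hc]
    exact_mod_cast Finset.card_le_univ B
  have h7 : ‖q (a * D.z)‖ ≤ nrm q a * nrm q D.z := norm_map_mul_le h a D.z
  calc _ ≤ 1 * (nrm q a * nrm q D.z) := by
        refine mul_le_mul h6 h7 (norm_nonneg _) zero_le_one
    _ = _ := one_mul _

end GlueTr

end

end Vale.Agent.P095
end

section

/-! Almost invariant distributions on coset spaces. -/

open scoped BigOperators

namespace Vale.Agent.P095J

open Vale.Agent.P095

universe w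

variable {G : Type w} [Group G] (N : Subgroup G)

open Classical in
/-- The distribution of the coset of a uniformly random element of `K`. -/
noncomputable def cosetDist (K : Finset G) (q : G ⧸ N) : ℝ :=
  (∑ k ∈ K, if (k : G ⧸ N) = q then (1 : ℝ) else 0) / K.card

theorem cosetDist_nonneg (K : Finset G) (q : G ⧸ N) : 0 ≤ cosetDist N K q := by
  classical
  refine div_nonneg (Finset.sum_nonneg fun k _ => ?_) (Nat.cast_nonneg _)
  split_ifs <;> norm_num

theorem cosetDist_le_one (K : Finset G) (q : G ⧸ N) : cosetDist N K q ≤ 1 := by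
  classical
  rcases K.eq_empty_or_nonempty with h | h
  · subst h; simp only [cosetDist, Finset.sum_boole, Finset.filter_empty, Finset.card_empty, CharP.cast_eq_zero, div_zero, zero_le_one]
  · have hK : (0 : ℝ) < K.card := by exact_mod_cast h.card_pos
    rw [cosetDist, div_le_one hK]
    calc ∑ k ∈ K, (if (k : G ⧸ N) = q then (1 : ℝ) else 0) ≤ ∑ _k ∈ K, (1 : ℝ) :=
          Finset.sum_le_sum fun k _ => by split_ifs <;> norm_num
      _ = K.card := by simp

open Classical in
theorem cosetDist_sum (K : Finset G) (hK : K.Nonempty) (P : Finset (G ⧸ N))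
    (hP : ∀ k ∈ K, (k : G ⧸ N) ∈ P) : ∑ q ∈ P, cosetDist N K q = 1 := by
  have hK0 : (K.card : ℝ) ≠ 0 := by exact_mod_cast hK.card_pos.ne'
  unfold cosetDist
  rw [← Finset.sum_div, Finset.sum_comm, div_eq_one_iff_eq hK0]
  calc ∑ k ∈ K, ∑ q ∈ P, (if (k : G ⧸ N) = q then (1 : ℝ) else 0) = ∑ _k ∈ K, (1 : ℝ) := by
        refine Finset.sum_congr rfl fun k hk => ?_
        rw [Finset.sum_ite_eq, if_pos (hP k hk)]
    _ = K.card := by simp

theorem cosetDist_eq_zero (K : Finset G) (q : G ⧸ N) (h : ∀ k ∈ K, (k : G ⧸ N) ≠ q) :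
    cosetDist N K q = 0 := by
  classical
  unfold cosetDist
  rw [Finset.sum_eq_zero fun k hk => if_neg (h k hk), zero_div]

open Classical in
theorem cosetDist_smul (K : Finset G) (s : G) (q : G ⧸ N) :
    cosetDist N K (s⁻¹ • q) =
      (∑ k ∈ K.image (fun k => s * k), if (k : G ⧸ N) = q then (1 : ℝ) else 0) / K.card := by
  unfold cosetDist
  rw [Finset.sum_image fun a _ b _ h => mul_left_cancel h]
  congr 1
  refine Finset.sum_congr rfl fun k _ => ?_
  have e : ((k : G ⧸ N) = s⁻¹ • q) ↔ (((s * k : G) : G ⧸ N) = q) := by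
    rw [eq_inv_smul_iff]
    rfl
  simp only [e]

open Classical in
theorem cosetDist_diff (K : Finset G) (s : G) (ε : ℝ)
    (hs : ((K.filter (fun g => s * g ∉ K)).card : ℝ) ≤ ε * (K.card : ℝ)) (hK : K.Nonempty)
    (P : Finset (G ⧸ N)) :
    ∑ q ∈ P, |cosetDist N K (s⁻¹ • q) - cosetDist N K q| ≤ 2 * ε := by
  have hK0 : (0 : ℝ) < K.card := by exact_mod_cast hK.card_pos
  set K' := K.image (fun k => s * k) with hK'
  have hcard : K'.card = K.card := Finset.card_image_of_injective _ (mul_right_injective s)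
  let f : G ⧸ N → G → ℝ := fun q k => if (k : G ⧸ N) = q then (1 : ℝ) else 0
  have hf0 : ∀ q k, 0 ≤ f q k := fun q k => by simp only [f]; split_ifs <;> norm_num
  have hdiff : ∀ q, |cosetDist N K (s⁻¹ • q) - cosetDist N K q| ≤
      (∑ k ∈ K' \ K, f q k + ∑ k ∈ K \ K', f q k) / K.card := by
    intro q
    rw [cosetDist_smul]
    have e : (∑ k ∈ K', f q k) / (K.card : ℝ) - (∑ k ∈ K, f q k) / (K.card : ℝ) =
        (∑ k ∈ K' \ K, f q k - ∑ k ∈ K \ K', f q k) / K.card := by
      rw [← sub_div]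
      congr 1
      have h1 := Finset.sum_sdiff_sub_sum_sdiff (s₁ := K) (s₂ := K') (f := f q)
      linarith only [h1]
    show |(∑ k ∈ K', f q k) / (K.card : ℝ) - (∑ k ∈ K, f q k) / (K.card : ℝ)| ≤ _
    rw [e, abs_div, abs_of_pos hK0]
    refine div_le_div_of_nonneg_right ?_ hK0.le
    refine (abs_sub _ _).trans ?_
    rw [abs_of_nonneg (Finset.sum_nonneg fun k _ => hf0 q k),
      abs_of_nonneg (Finset.sum_nonneg fun k _ => hf0 q k)]
  have hsum : ∀ T : Finset G, ∑ q ∈ P, ∑ k ∈ T, f q k ≤ T.card := by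
    intro T
    rw [Finset.sum_comm]
    calc ∑ k ∈ T, ∑ q ∈ P, f q k ≤ ∑ _k ∈ T, (1 : ℝ) := by
          refine Finset.sum_le_sum fun k _ => ?_
          simp only [f]
          rw [Finset.sum_ite_eq]
          split_ifs <;> norm_num
      _ = T.card := by simp
  have hc1 : (K' \ K).card = (K.filter (fun g => s * g ∉ K)).card := by
    have : K' \ K = (K.filter (fun g => s * g ∉ K)).image (fun k => s * k) := by
      ext x
      simp only [hK', Finset.mem_sdiff, Finset.mem_image, Finset.mem_filter]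
      constructor
      · rintro ⟨⟨k, hk, rfl⟩, h⟩
        exact ⟨k, ⟨hk, h⟩, rfl⟩
      · rintro ⟨k, ⟨hk, h⟩, rfl⟩
        exact ⟨⟨k, hk, rfl⟩, h⟩
    rw [this]
    exact Finset.card_image_of_injective _ (mul_right_injective s)
  have hc2 : (K \ K').card = (K' \ K).card := Finset.card_sdiff_comm hcard.symm
  calc ∑ q ∈ P, |cosetDist N K (s⁻¹ • q) - cosetDist N K q|
      ≤ ∑ q ∈ P, (∑ k ∈ K' \ K, f q k + ∑ k ∈ K \ K', f q k) / K.card :=
        Finset.sum_le_sum fun q _ => hdiff q
    _ = (∑ q ∈ P, ∑ k ∈ K' \ K, f q k + ∑ q ∈ P, ∑ k ∈ K \ K', f q k) / K.card := by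
        rw [← Finset.sum_div, Finset.sum_add_distrib]
    _ ≤ ((K' \ K).card + (K \ K').card) / K.card :=
        div_le_div_of_nonneg_right (add_le_add (hsum _) (hsum _)) hK0.le
    _ ≤ 2 * ε := by
        rw [hc2, hc1, div_le_iff₀ hK0]
        linarith only [hs]

end Vale.Agent.P095J
end

section

/-! One-sided approximate intertwining (Elliott). -/

open Filter Topology

namespace Vale.Agent.P101

universe u

end Vale.Agent.P101
end

section

open scoped InnerProductSpace ComplexConjugate ComplexOrder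
open Filter Topology

namespace Vale.Agent.P083

noncomputable section

universe u v

theorem exists_eq_star_mul_self {P : Type*} [CStarAlgebra P] [PartialOrder P]
    [StarOrderedRing P] {x : P} (hx : 0 ≤ x) : ∃ y : P, x = star y * y :=
  CStarAlgebra.nonneg_iff_eq_star_mul_self.1 hx

section Stinespring

variable {D : Type u} [CStarAlgebra D] {k : ℕ}

/-- the functional `[d_{ij}] ↦ ∑ α(d_{ij})_{ij}` -/
def cpFun (α : D →ₗ[ℂ] Matrix (Fin (k + 1)) (Fin (k + 1)) ℂ) :
    CStarMatrix (Fin (k + 1)) (Fin (k + 1)) D →ₗ[ℂ] ℂ where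
  toFun M := ∑ i, ∑ j, (α (M i j)) i j
  map_add' M N := by
    simp only [CStarMatrix.add_apply, map_add, Matrix.add_apply, Finset.sum_add_distrib]
  map_smul' c M := by
    simp only [CStarMatrix.smul_apply, map_smul, Matrix.smul_apply, smul_eq_mul,
      Finset.mul_sum, RingHom.id_apply]

theorem cpFun_apply (α : D →ₗ[ℂ] Matrix (Fin (k + 1)) (Fin (k + 1)) ℂ)
    (M : CStarMatrix (Fin (k + 1)) (Fin (k + 1)) D) :
    cpFun α M = ∑ i, ∑ j, (α (M i j)) i j := rfl

theorem cp_row {α : D →ₗ[ℂ] Matrix (Fin (k + 1)) (Fin (k + 1)) ℂ} (hα : IsCP α)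
    (x : Fin (k + 1) → D) : 0 ≤ ∑ i, ∑ j, (α (star (x i) * x j)) i j := by
  obtain ⟨X, hX⟩ : ∃ X : Matrix (Fin (k + 1)) (Fin (k + 1)) D,
      X = Matrix.of fun a b => if a = 0 then x b else 0 := ⟨_, rfl⟩
  obtain ⟨Y, hY⟩ := hα (k + 1) X
  have h1 : ∀ i j, (X.conjTranspose * X) i j = star (x i) * x j := by
    intro i j
    rw [Matrix.mul_apply, Finset.sum_eq_single 0]
    · simp only [hX, Matrix.conjTranspose_apply, Matrix.of_apply, ↓reduceIte]
    · intro b _ hb
      simp only [hX, Matrix.conjTranspose_apply, Matrix.of_apply, hb, ↓reduceIte, star_zero, mul_zero]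
    · simp only [Finset.mem_univ, not_true_eq_false, Matrix.conjTranspose_apply, IsEmpty.forall_iff]
  have h2 : ∀ i j, α (star (x i) * x j) = ∑ b, (Y b i).conjTranspose * Y b j := by
    intro i j
    rw [← h1, hY, Matrix.mul_apply]
    rfl
  have h3 : ∑ i, ∑ j, (α (star (x i) * x j)) i j =
      ∑ b, ∑ a, star (∑ i, (Y b i) a i) * (∑ j, (Y b j) a j) := by
    simp only [h2, Matrix.sum_apply, Matrix.mul_apply, Matrix.conjTranspose_apply, star_sum, Finset.mul_sum, Finset.sum_mul]
    calc ∑ i, ∑ j, ∑ b, ∑ a, star ((Y b i) a i) * (Y b j) a j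
        = ∑ i, ∑ b, ∑ j, ∑ a, star ((Y b i) a i) * (Y b j) a j :=
          Finset.sum_congr rfl fun i _ => Finset.sum_comm
      _ = ∑ b, ∑ i, ∑ j, ∑ a, star ((Y b i) a i) * (Y b j) a j := Finset.sum_comm
      _ = ∑ b, ∑ i, ∑ a, ∑ j, star ((Y b i) a i) * (Y b j) a j :=
          Finset.sum_congr rfl fun b _ => Finset.sum_congr rfl fun i _ => Finset.sum_comm
      _ = ∑ b, ∑ a, ∑ i, ∑ j, star ((Y b i) a i) * (Y b j) a j :=
          Finset.sum_congr rfl fun b _ => Finset.sum_comm
      _ = ∑ b, ∑ a, ∑ j, ∑ i, star ((Y b i) a i) * (Y b j) a j :=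
          Finset.sum_congr rfl fun b _ => Finset.sum_congr rfl fun a _ => Finset.sum_comm
  rw [h3]
  exact Finset.sum_nonneg fun b _ => Finset.sum_nonneg fun a _ => star_mul_self_nonneg _

theorem cpFun_nonneg {α : D →ₗ[ℂ] Matrix (Fin (k + 1)) (Fin (k + 1)) ℂ} (hα : IsCP α)
    (N : CStarMatrix (Fin (k + 1)) (Fin (k + 1)) D) : 0 ≤ cpFun α (star N * N) := by
  have h1 : cpFun α (star N * N) =
      ∑ c, ∑ i, ∑ j, (α (star (N c i) * N c j)) i j := by
    rw [cpFun_apply]
    simp only [CStarMatrix.mul_apply, CStarMatrix.star_apply, map_sum, Matrix.sum_apply]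
    calc ∑ i, ∑ j, ∑ c, (α (star (N c i) * N c j)) i j
        = ∑ i, ∑ c, ∑ j, (α (star (N c i) * N c j)) i j :=
          Finset.sum_congr rfl fun i _ => Finset.sum_comm
      _ = _ := Finset.sum_comm
  rw [h1]
  exact Finset.sum_nonneg fun c _ => cp_row hα (N c)

/-- scalar matrices -/
def scalHom [PartialOrder D] [StarOrderedRing D] :
    D →⋆ₐ[ℂ] CStarMatrix (Fin (k + 1)) (Fin (k + 1)) D where
  toFun d := CStarMatrix.ofMatrix (Matrix.diagonal fun _ => d)
  map_one' := by
    ext i j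
    show Matrix.diagonal (fun _ => (1 : D)) i j = (1 : Matrix (Fin (k + 1)) (Fin (k + 1)) D) i j
    rw [Matrix.one_apply, Matrix.diagonal_apply]
  map_mul' x y := by
    ext i j
    simp only [CStarMatrix.mul_apply, CStarMatrix.ofMatrix_apply, Matrix.diagonal_apply]
    rw [Finset.sum_eq_single i]
    · by_cases hij : i = j <;> simp [hij]
    · intro b _ hb
      simp [Ne.symm hb]
    · simp
  map_zero' := by
    ext i j
    simp [Matrix.diagonal_apply]
  map_add' x y := by
    ext i j
    by_cases hij : i = j <;> simp [Matrix.diagonal_apply, hij]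
  commutes' r := by
    ext i j
    simp only [CStarMatrix.ofMatrix_apply, Matrix.diagonal_apply, CStarMatrix.algebraMap_apply]
  map_star' x := by
    ext i j
    by_cases hij : i = j
    · simp [Matrix.diagonal_apply, CStarMatrix.star_apply, hij]
    · simp [Matrix.diagonal_apply, CStarMatrix.star_apply, hij, Ne.symm hij]

/-- Stinespring dilation of a completely positive map into matrices. -/
theorem exists_stinespring (α : D →ₗ[ℂ] Matrix (Fin (k + 1)) (Fin (k + 1)) ℂ) (hα : IsCP α) :
    ∃ (H : Type u) (_ : NormedAddCommGroup H) (_ : InnerProductSpace ℂ H) (_ : CompleteSpace H)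
      (f : D →⋆ₐ[ℂ] (H →L[ℂ] H)) (ξ : Fin (k + 1) → H),
      ∀ d i j, ⟪ξ i, f d (ξ j)⟫_ℂ = α d i j := by
  let _ := CStarAlgebra.spectralOrder D
  let _ := CStarAlgebra.spectralOrderedRing D
  let g : CStarMatrix (Fin (k + 1)) (Fin (k + 1)) D →ₚ[ℂ] ℂ :=
    PositiveLinearMap.mk₀ (cpFun α) fun M hM => by
      obtain ⟨N, rfl⟩ := exists_eq_star_mul_self hM
      exact cpFun_nonneg hα N
  have hg : ∀ M, g M = ∑ i, ∑ j, (α (M i j)) i j := fun M => rfl
  let E : Fin (k + 1) → CStarMatrix (Fin (k + 1)) (Fin (k + 1)) D := fun j a b =>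
    if a = 0 ∧ b = j then 1 else 0
  refine ⟨g.GNS, inferInstance, inferInstance, inferInstance, g.gnsStarAlgHom.comp scalHom,
    fun j => ((g.toPreGNS (E j) : g.PreGNS) : g.GNS), fun d i j => ?_⟩
  have h1 : (g.gnsStarAlgHom.comp scalHom) d ((g.toPreGNS (E j) : g.PreGNS) : g.GNS) =
      ((g.toPreGNS (scalHom d * E j) : g.PreGNS) : g.GNS) := by
    have h5 := g.gnsNonUnitalStarAlgHom_apply_coe (a := scalHom d) (b := g.toPreGNS (E j))
    rw [PositiveLinearMap.leftMulMapPreGNS_apply] at h5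
    exact h5
  rw [h1, UniformSpace.Completion.inner_coe, PositiveLinearMap.preGNS_inner_def,
    PositiveLinearMap.ofPreGNS_toPreGNS, PositiveLinearMap.ofPreGNS_toPreGNS, hg]
  have h2 : ∀ a b, (star (E i) * (scalHom d * E j) :
      CStarMatrix (Fin (k + 1)) (Fin (k + 1)) D) a b = if a = i ∧ b = j then d else 0 := by
    intro a b
    have h3 : ∀ c, (scalHom d * E j : CStarMatrix (Fin (k + 1)) (Fin (k + 1)) D) c b = if c = 0 ∧ b = j then d else 0 := by
      intro c
      rw [CStarMatrix.mul_apply, Finset.sum_eq_single c]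
      · show Matrix.diagonal (fun _ => d) c c * (if c = 0 ∧ b = j then 1 else 0) = _
        rw [Matrix.diagonal_apply_eq, mul_ite, mul_one, mul_zero]
      · intro e _ he
        show Matrix.diagonal (fun _ => d) c e * _ = 0
        rw [Matrix.diagonal_apply_ne _ (Ne.symm he), zero_mul]
      · simp only [Finset.mem_univ, not_true_eq_false, IsEmpty.forall_iff]
    rw [CStarMatrix.mul_apply, Finset.sum_eq_single 0]
    · rw [h3, CStarMatrix.star_apply]
      show star (if (0 : Fin (k + 1)) = 0 ∧ a = i then (1 : D) else 0) * _ = _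
      by_cases ha : a = i <;> by_cases hb : b = j <;> simp [ha, hb]
    · intro c _ hc
      rw [h3, if_neg (fun h => hc h.1), mul_zero]
    · simp only [Finset.mem_univ, not_true_eq_false, IsEmpty.forall_iff]
  have h4 : ∀ a b, (α ((star (E i) * (scalHom d * E j) :
      CStarMatrix (Fin (k + 1)) (Fin (k + 1)) D) a b)) a b =
      if a = i ∧ b = j then (α d) i j else 0 := by
    intro a b
    rw [h2]
    by_cases hab : a = i ∧ b = j
    · rw [if_pos hab, if_pos hab, hab.1, hab.2]
    · rw [if_neg hab, if_neg hab, map_zero]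
      rfl
  refine (Finset.sum_congr rfl fun a _ => Finset.sum_congr rfl fun b _ => h4 a b).trans ?_
  rw [Finset.sum_eq_single i, Finset.sum_eq_single j]
  · simp
  · intro b _ hb
    simp [hb]
  · simp
  · intro a _ ha
    simp [ha]
  · simp

end Stinespring

section Choi

variable {D : Type u} [CStarAlgebra D] {k : ℕ}

/-- Factorization of the Choi matrix. -/
theorem exists_choi (β : Matrix (Fin (k + 1)) (Fin (k + 1)) ℂ →ₗ[ℂ] D) (hβ : IsCP β) :
    ∃ Y : Fin (k + 1) → Fin (k + 1) → D,
      ∀ m, β m = ∑ l, ∑ i, ∑ j, m i j • (star (Y l i) * Y l j) := by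
  obtain ⟨X, hX⟩ : ∃ X : Matrix (Fin (k + 1)) (Fin (k + 1))
      (Matrix (Fin (k + 1)) (Fin (k + 1)) ℂ),
      X = Matrix.of fun a b => if a = 0 then Matrix.single 0 b 1 else 0 := ⟨_, rfl⟩
  obtain ⟨Y, hY⟩ := hβ (k + 1) X
  have h1 : ∀ i j, (X.conjTranspose * X) i j = Matrix.single i j 1 := by
    intro i j
    rw [Matrix.mul_apply, Finset.sum_eq_single 0]
    · rw [Matrix.conjTranspose_apply, hX, Matrix.of_apply, Matrix.of_apply, if_pos rfl,
        if_pos rfl, Matrix.star_eq_conjTranspose, Matrix.conjTranspose_single,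
        Matrix.single_mul_single_same]
      simp
    · intro b _ hb
      simp [hX, hb]
    · simp only [Finset.mem_univ, not_true_eq_false, Matrix.conjTranspose_apply, IsEmpty.forall_iff]
  have h2 : ∀ i j, β (Matrix.single i j 1) = ∑ l, star (Y l i) * Y l j := by
    intro i j
    rw [← h1, hY, Matrix.mul_apply]
    rfl
  refine ⟨fun l i => Y l i, fun m => ?_⟩
  conv_lhs => rw [Matrix.matrix_eq_sum_single m]
  rw [map_sum]
  simp only [map_sum]
  have h3 : ∀ i j, β (Matrix.single i j (m i j)) = ∑ l, m i j • (star (Y l i) * Y l j) := by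
    intro i j
    have : Matrix.single i j (m i j) = m i j • Matrix.single i j (1 : ℂ) := by
      rw [Matrix.smul_single, smul_eq_mul, mul_one]
    rw [this, map_smul, h2, Finset.smul_sum]
  simp only [h3]
  calc ∑ i, ∑ j, ∑ l, m i j • (star (Y l i) * Y l j)
      = ∑ i, ∑ l, ∑ j, m i j • (star (Y l i) * Y l j) :=
        Finset.sum_congr rfl fun i _ => Finset.sum_comm
    _ = _ := Finset.sum_comm

end Choi

section Dominate

variable {O : Type v} [CStarAlgebra O] [Nontrivial O] {s₁ s₂ : O} {ω : Ultrafilter ℕ}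

end Dominate

end

end Vale.Agent.P083
end

section

/-! Equivariant one-sided approximate intertwining. -/

open Filter Topology

namespace Vale.Agent.P095.ZS

universe u w

end Vale.Agent.P095.ZS
end

section

namespace Vale.Agent.P095

open Finset

namespace TCubeAux

/-- unnormalized sum of signs -/
def T {R : ℕ} (ω : Fin R → Bool) : ℝ := ∑ r, if ω r then 1 else -1

theorem T_cons {R : ℕ} (b : Bool) (ω : Fin R → Bool) :
    T (Fin.cons b ω : Fin (R + 1) → Bool) = (if b then 1 else -1) + T ω := by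
  unfold T
  rw [Fin.sum_univ_succ]
  simp only [Fin.cons_zero, Fin.cons_succ]

theorem sum_cons {R : ℕ} (F : (Fin (R + 1) → Bool) → ℝ) :
    ∑ ω, F ω = ∑ ω : Fin R → Bool, (F (Fin.cons true ω) + F (Fin.cons false ω)) := by
  rw [← (Fin.consEquiv (fun _ : Fin (R + 1) => Bool)).sum_comp, Fintype.sum_prod_type,
    Fintype.sum_bool, ← Finset.sum_add_distrib]
  rfl

theorem moments (R : ℕ) :
    ∑ ω : Fin R → Bool, T ω ^ 2 = 2 ^ R * (R : ℝ) ∧
    ∑ ω : Fin R → Bool, T ω ^ 4 = 2 ^ R * (3 * (R : ℝ) ^ 2 - 2 * R) ∧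
    ∑ ω : Fin R → Bool, T ω ^ 6 = 2 ^ R * (15 * (R : ℝ) ^ 3 - 30 * (R : ℝ) ^ 2 + 16 * R) := by
  induction R with
  | zero => simp only [univ_unique, T, univ_eq_empty, sum_empty, ne_eq, OfNat.ofNat_ne_zero, not_false_eq_true, zero_pow, sum_const_zero, pow_zero, CharP.cast_eq_zero, mul_zero, sub_self, add_zero, and_self]
  | succ R ih =>
      obtain ⟨h2, h4, h6⟩ := ih
      have h0 : ∑ _ω : Fin R → Bool, (1 : ℝ) = 2 ^ R := by simp only [sum_const, card_univ, Fintype.card_pi, Fintype.card_bool, prod_const, Fintype.card_fin, nsmul_eq_mul, Nat.cast_pow, Nat.cast_ofNat, mul_one]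
      refine ⟨?_, ?_, ?_⟩
      · rw [sum_cons]
        simp only [T_cons, if_true, Bool.false_eq_true, if_false]
        have : ∀ ω : Fin R → Bool, ((1 + T ω) ^ 2 + (-1 + T ω) ^ 2 : ℝ) = 2 * T ω ^ 2 + 2 * 1 := by
          intro ω; ring
        simp only [this]
        rw [Finset.sum_add_distrib, ← Finset.mul_sum, ← Finset.mul_sum, h2, h0]
        push_cast
        ring
      · rw [sum_cons]
        simp only [T_cons, if_true, Bool.false_eq_true, if_false]
        have : ∀ ω : Fin R → Bool, ((1 + T ω) ^ 4 + (-1 + T ω) ^ 4 : ℝ) =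
            2 * T ω ^ 4 + 12 * T ω ^ 2 + 2 * 1 := by
          intro ω; ring
        simp only [this]
        rw [Finset.sum_add_distrib, Finset.sum_add_distrib, ← Finset.mul_sum, ← Finset.mul_sum,
          ← Finset.mul_sum, h2, h4, h0]
        push_cast
        ring
      · rw [sum_cons]
        simp only [T_cons, if_true, Bool.false_eq_true, if_false]
        have : ∀ ω : Fin R → Bool, ((1 + T ω) ^ 6 + (-1 + T ω) ^ 6 : ℝ) =
            2 * T ω ^ 6 + 30 * T ω ^ 4 + 30 * T ω ^ 2 + 2 * 1 := by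
          intro ω; ring
        simp only [this]
        rw [Finset.sum_add_distrib, Finset.sum_add_distrib, Finset.sum_add_distrib,
          ← Finset.mul_sum, ← Finset.mul_sum, ← Finset.mul_sum, ← Finset.mul_sum, h2, h4, h6, h0]
        push_cast
        ring

theorem signSum_eq {R : ℕ} (ω : Fin R → Bool) : signSum ω = T ω * (Real.sqrt R)⁻¹ := by
  unfold signSum T
  rw [Finset.sum_mul]

theorem sixth (R : ℕ) (hR : 1 ≤ R) :
    (∑ ω : Fin R → Bool, signSum ω ^ 6) ≤ 15 * 2 ^ R := by
  have hRr : (1 : ℝ) ≤ R := by exact_mod_cast hR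
  have h1 : ∀ ω : Fin R → Bool, signSum ω ^ 6 = ((R : ℝ) ^ 3)⁻¹ * T ω ^ 6 := by
    intro ω
    rw [signSum_eq, mul_pow, inv_pow]
    have : Real.sqrt R ^ 6 = (R : ℝ) ^ 3 := by
      have h2 : Real.sqrt R ^ 2 = (R : ℝ) := Real.sq_sqrt (by positivity)
      calc Real.sqrt R ^ 6 = (Real.sqrt R ^ 2) ^ 3 := by ring
        _ = (R : ℝ) ^ 3 := by rw [h2]
    rw [this]; ring
  simp only [h1]
  rw [← Finset.mul_sum, (moments R).2.2]
  have h3 : (0 : ℝ) < (R : ℝ) ^ 3 := by positivity
  rw [inv_mul_le_iff₀ h3]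
  have h4 : (0 : ℝ) < 2 ^ R := by positivity
  have h5 : 15 * (R : ℝ) ^ 3 - 30 * (R : ℝ) ^ 2 + 16 * R ≤ 15 * (R : ℝ) ^ 3 := by nlinarith only [hRr]
  nlinarith only [h4, h5]

/-- the cube root bound for the sine -/
theorem sub_sin_sq_le (x : ℝ) : (x - Real.sin x) ^ 2 ≤ x ^ 6 / 36 := by
  have key : ∀ y : ℝ, 0 ≤ y → (y - Real.sin y) ^ 2 ≤ y ^ 6 / 36 := by
    intro y hy
    rcases hy.eq_or_lt with rfl | hy
    · simp
    · have h1 := Real.sin_gt_sub_cube hy
      have h2 := Real.sin_lt hy
      have h3 : 0 ≤ y - Real.sin y := by linarith only [h2]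
      have h4 : y - Real.sin y ≤ y ^ 3 / 6 := by linarith only [h1]
      calc (y - Real.sin y) ^ 2 ≤ (y ^ 3 / 6) ^ 2 := pow_le_pow_left₀ h3 h4 2
        _ = y ^ 6 / 36 := by ring
  rcases le_total 0 x with hx | hx
  · exact key x hx
  · have := key (-x) (by linarith only [hx])
    rw [Real.sin_neg] at this
    calc (x - Real.sin x) ^ 2 = (-x - -Real.sin x) ^ 2 := by ring
      _ ≤ (-x) ^ 6 / 36 := this
      _ = x ^ 6 / 36 := by ring

/-- one cell -/
theorem cell (a h ε : ℝ) (hh : 0 < h) (hε : 0 < ε) :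
    ∃ (M : ℕ) (P : Fin M → Polynomial ℝ),
      (∀ i, ∀ x ∈ Set.Icc (-1 : ℝ) 1, |(P i).eval x| ≤ 2 ∧ |1 - (P i).eval x| ≤ 2) ∧
      ∀ (R : ℕ) (X : (Fin R → Bool) → ℝ), (∀ ω, X ω ∈ Set.Icc (-1 : ℝ) 1) →
        ∃ (i : Fin M) (θ : ℝ), a ≤ θ ∧ θ ≤ a + h ∧
          ∑ ω, ((if θ ≤ X ω then (1 : ℝ) else 0) - (P i).eval (X ω)) ^ 2 ≤ ε * 2 ^ R := by
  classical
  obtain ⟨M, hM⟩ := exists_nat_ge (4 / ε + 1)
  have hM1 : (1 : ℝ) ≤ M := by
    have : 0 < 4 / ε := by positivity
    linarith
  have hM0 : (0 : ℝ) < M := by linarith only [hM1]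
  have hM2 : 4 / ε ≤ M := by linarith only [hM]
  have hMnat : 0 < M := by exact_mod_cast hM0
  set t : ℕ → ℝ := fun i => a + h * ((i : ℝ) / M) with ht
  set f : ℕ → ℝ → ℝ := fun i x => max 0 (min 1 ((x - t i) * (M / h))) with hf
  have hfc : ∀ i, Continuous (f i) := by
    intro i
    simp only [hf]
    fun_prop
  have hδ : 0 < min (Real.sqrt ε / 2) 1 := by positivity
  have hpoly : ∀ i : Fin M, ∃ p : Polynomial ℝ, ∀ x ∈ Set.Icc (-1 : ℝ) 1,
      |p.eval x - f i x| < min (Real.sqrt ε / 2) 1 := fun i =>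
    exists_polynomial_near_of_continuousOn (-1) 1 (f i) (hfc i).continuousOn _ hδ
  choose P hP using hpoly
  refine ⟨M, P, fun i x hx => ?_, fun R X hX => ?_⟩
  · have h1 := (hP i x hx).le.trans (min_le_right _ _)
    have hf0 : 0 ≤ f i x := le_max_left _ _
    have hf1 : f i x ≤ 1 := max_le zero_le_one (min_le_left _ _)
    rw [abs_le] at h1
    constructor
    · rw [abs_le]; constructor <;> linarith only [h1, hf0, hf1]
    · rw [abs_le]; constructor <;> linarith only [h1, hf0, hf1]
  have hcard : (Finset.card (univ : Finset (Fin R → Bool)) : ℝ) = 2 ^ R := by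
    simp only [card_univ, Fintype.card_pi, Fintype.card_bool, prod_const, Fintype.card_fin, Nat.cast_pow, Nat.cast_ofNat]
  set W : Fin M → Finset (Fin R → Bool) := fun i =>
    univ.filter (fun ω => t i ≤ X ω ∧ X ω < t (i + 1)) with hW
  have htmono : ∀ i j : ℕ, i ≤ j → t i ≤ t j := by
    intro i j hij
    simp only [ht]
    have h1 : (i : ℝ) ≤ j := by exact_mod_cast hij
    have h2 := div_le_div_of_nonneg_right h1 hM0.le
    have h3 := mul_le_mul_of_nonneg_left h2 hh.le
    linarith only [h3]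
  have hdisj : ∀ i ∈ (univ : Finset (Fin M)), ∀ j ∈ (univ : Finset (Fin M)), i ≠ j →
      Disjoint (W i) (W j) := by
    intro i _ j _ hij
    rw [Finset.disjoint_left]
    intro ω hi hj
    simp only [hW, Finset.mem_filter, Finset.mem_univ, true_and] at hi hj
    rcases lt_or_gt_of_ne hij with h | h
    · have h1 : (i : ℕ) + 1 ≤ j := h
      have h2 := htmono _ _ h1
      linarith only [hi, hj, h2]
    · have h1 : (j : ℕ) + 1 ≤ i := h
      have h2 := htmono _ _ h1
      linarith only [hi, hj, h2]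
  have hpig : ∃ i : Fin M, ((W i).card : ℝ) ≤ 2 ^ R / M := by
    by_contra hcon
    push Not at hcon
    have h1 : ∑ i : Fin M, ((W i).card : ℝ) ≤ 2 ^ R := by
      rw [← hcard]
      have := Finset.card_biUnion hdisj
      have h3 : (univ.biUnion W).card ≤ (univ : Finset (Fin R → Bool)).card :=
        Finset.card_le_card (Finset.subset_univ _)
      rw [this] at h3
      exact_mod_cast h3
    have h2 : ∑ _i : Fin M, (2 : ℝ) ^ R / M < ∑ i : Fin M, ((W i).card : ℝ) := by
      apply Finset.sum_lt_sum_of_nonempty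
      · exact ⟨⟨0, hMnat⟩, Finset.mem_univ _⟩
      · intro i _
        exact hcon i
    rw [Finset.sum_const, Finset.card_univ, Fintype.card_fin, nsmul_eq_mul] at h2
    rw [mul_div_cancel₀ _ hM0.ne'] at h2
    linarith only [h1, h2]
  obtain ⟨i, hi⟩ := hpig
  have hi0 : t 0 = a := by simp only [ht, CharP.cast_eq_zero, zero_div, mul_zero, add_zero]
  have hiM : t M = a + h := by simp only [ht, ne_eq, hM0.ne', not_false_eq_true, div_self, mul_one]
  refine ⟨i, t (i + 1), ?_, ?_, ?_⟩
  · rw [← hi0]; exact htmono _ _ (Nat.zero_le _)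
  · rw [← hiM]; exact htmono _ _ i.2
  · have hpt : ∀ ω : Fin R → Bool,
        ((if t (i + 1) ≤ X ω then (1 : ℝ) else 0) - (P i).eval (X ω)) ^ 2 ≤
          2 * (if ω ∈ W i then 1 else 0) + ε / 2 := by
      intro ω
      have hx : X ω ∈ Set.Icc (-1 : ℝ) 1 := hX ω
      have hq := (hP i _ hx).trans_le (min_le_left _ _)
      set x := X ω with hxdef
      set q := (P i).eval x with hqdef
      have hq2 : (q - f i x) ^ 2 ≤ ε / 4 := by
        have h1 : (q - f i x) ^ 2 = |q - f i x| ^ 2 := (sq_abs _).symm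
        rw [h1]
        have h2 : |q - f i x| ^ 2 ≤ (Real.sqrt ε / 2) ^ 2 :=
          pow_le_pow_left₀ (abs_nonneg _) hq.le 2
        have h3 : (Real.sqrt ε / 2) ^ 2 = ε / 4 := by
          rw [div_pow, Real.sq_sqrt hε.le]; norm_num
        linarith only [h2, h3]
      have hf0 : 0 ≤ f i x := le_max_left _ _
      have hf1 : f i x ≤ 1 := max_le zero_le_one (min_le_left _ _)
      have hgap : t (i + 1) - t i = h / M := by
        simp only [ht]
        push_cast
        ring
      have hmain : ((if t (i + 1) ≤ x then (1 : ℝ) else 0) - f i x) ^ 2 ≤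
          (if ω ∈ W i then 1 else 0) := by
        by_cases hw : ω ∈ W i
        · rw [if_pos hw]
          split_ifs <;> nlinarith only [hf0, hf1]
        · rw [if_neg hw]
          simp only [hW, Finset.mem_filter, Finset.mem_univ, true_and, not_and, not_lt] at hw
          by_cases hφ : t (i + 1) ≤ x
          · rw [if_pos hφ]
            have h1 : 1 ≤ (x - t i) * (M / h) := by
              have : h / (M : ℝ) ≤ x - t i := by linarith only [hgap, hφ]
              calc (1 : ℝ) = h / M * (M / h) := by field_simp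
                _ ≤ (x - t i) * (M / h) := mul_le_mul_of_nonneg_right this (by positivity)
            have h2 : f i x = 1 := by
              simp only [hf]
              rw [min_eq_left h1, max_eq_right zero_le_one]
            rw [h2]; norm_num
          · rw [if_neg hφ]
            push Not at hφ
            have h0 : x < t i := by
              by_contra hc
              push Not at hc
              exact absurd (hw hc) (not_le.mpr hφ)
            have h1 : (x - t i) * (M / h) ≤ 0 := by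
              apply mul_nonpos_of_nonpos_of_nonneg
              · linarith only [h0]
              · positivity
            have h2 : f i x = 0 := by
              simp only [hf]
              rw [min_eq_right (by linarith only [h1]), max_eq_left h1]
            rw [h2]; norm_num
      nlinarith only [hq2, hmain, sq_nonneg (((if t (i + 1) ≤ x then (1 : ℝ) else 0) - f i x) + (q - f i x))]
    calc ∑ ω, ((if t (i + 1) ≤ X ω then (1 : ℝ) else 0) - (P i).eval (X ω)) ^ 2
        ≤ ∑ ω : Fin R → Bool, (2 * (if ω ∈ W i then (1 : ℝ) else 0) + ε / 2) :=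
          Finset.sum_le_sum (fun ω _ => hpt ω)
      _ = 2 * (W i).card + ε / 2 * 2 ^ R := by
          rw [Finset.sum_add_distrib, ← Finset.mul_sum]
          simp only [Finset.sum_ite_mem, Finset.univ_inter, Finset.sum_const, nsmul_eq_mul,
            mul_one]
          rw [hcard]
          ring
      _ ≤ ε * 2 ^ R := by
          have h1 : (2 : ℝ) ^ R / M ≤ 2 ^ R * (ε / 4) := by
            rw [div_le_iff₀ hM0]
            have : 4 ≤ ε * M := by
              rw [div_le_iff₀ hε] at hM2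
              linarith only [hM2]
            have h2R : (0 : ℝ) < 2 ^ R := by positivity
            nlinarith only [this, hcard]
          linarith only [hi, h1]

theorem half_le {R : ℕ} (X : (Fin R → Bool) → ℝ) (hX : ∀ ω, X (fun r => !(ω r)) = -X ω) :
    (2 : ℝ) ^ R / 2 ≤ ((univ.filter fun ω => 0 ≤ X ω).card : ℝ) ∧
      (2 : ℝ) ^ R / 2 ≤ ((univ.filter fun ω => X ω ≤ 0).card : ℝ) := by
  have h1 : (univ.filter fun ω => 0 ≤ X ω).card = (univ.filter fun ω => X ω ≤ 0).card := by
    refine Finset.card_bij' (fun ω _ => fun r => !(ω r)) (fun ω _ => fun r => !(ω r)) ?_ ?_ ?_ ?_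
    · intro ω hω
      simp only [Finset.mem_filter, Finset.mem_univ, true_and] at hω ⊢
      rw [hX]; linarith only [hω]
    · intro ω hω
      simp only [Finset.mem_filter, Finset.mem_univ, true_and] at hω ⊢
      rw [hX]; linarith
    · intro ω _
      funext r
      simp
    · intro ω _
      funext r
      simp
  have h2 : (univ : Finset (Fin R → Bool)).card ≤
      (univ.filter fun ω => 0 ≤ X ω).card + (univ.filter fun ω => X ω ≤ 0).card := by
    refine (Finset.card_le_card ?_).trans (Finset.card_union_le _ _)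
    intro ω _
    simp only [Finset.mem_union, Finset.mem_filter, Finset.mem_univ, true_and]
    exact le_total _ _
  have hcard : (Finset.card (univ : Finset (Fin R → Bool)) : ℝ) = 2 ^ R := by
    simp only [card_univ, Fintype.card_pi, Fintype.card_bool, prod_const, Fintype.card_fin, Nat.cast_pow, Nat.cast_ofNat]
  have h3 : (2 : ℝ) ^ R ≤ ((univ.filter fun ω => 0 ≤ X ω).card : ℝ) +
      ((univ.filter fun ω => X ω ≤ 0).card : ℝ) := by
    rw [← hcard]
    exact_mod_cast h2
  have h4 : ((univ.filter fun ω => 0 ≤ X ω).card : ℝ) =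
      ((univ.filter fun ω => X ω ≤ 0).card : ℝ) := by exact_mod_cast h1
  constructor <;> linarith only [h3, h4]

/-- counting thresholds -/
theorem count_thr (J : ℕ) (hJ : 1 ≤ J) (θ : Fin J → ℝ)
    (h1 : ∀ j : Fin J, -1 + 2 * (j : ℝ) / J ≤ θ j)
    (h2 : ∀ j : Fin J, θ j ≤ -1 + 2 * (j : ℝ) / J + 2 / J) (x : ℝ) (hx : x ∈ Set.Icc (-1 : ℝ) 1) :
    |x - (-1 + ∑ j, (2 / J) * (if θ j ≤ x then (1 : ℝ) else 0))| ≤ 4 / J := by
  classical
  have hJ0 : (0 : ℝ) < J := by exact_mod_cast hJ
  set y : ℝ := (x + 1) * J / 2 with hy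
  have hy0 : 0 ≤ y := by
    have := hx.1
    have : 0 ≤ x + 1 := by linarith only [this]
    (clear * - this hJ; positivity)
  have hyJ : y ≤ J := by
    have := hx.2
    rw [hy, div_le_iff₀ (by norm_num)]
    nlinarith only [this]
  have hxy : x = -1 + 2 / J * y := by
    rw [hy]; field_simp; ring
  set A : Finset (Fin J) := univ.filter fun j => θ j ≤ x with hA
  have hsum : ∑ j, (2 / (J : ℝ)) * (if θ j ≤ x then (1 : ℝ) else 0) = 2 / J * (A.card : ℝ) := by
    rw [← Finset.mul_sum]
    congr 1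
    rw [Finset.sum_ite, Finset.sum_const_zero, add_zero, Finset.sum_const, nsmul_eq_mul, mul_one]
  have hup : (A.card : ℝ) ≤ y + 1 := by
    have h3 : A.card ≤ (Finset.range (⌊y⌋₊ + 1)).card := by
      refine Finset.card_le_card_of_injOn (fun j => (j : ℕ)) ?_ (fun a _ b _ h => Fin.ext h)
      intro j hj
      simp only [hA, Finset.coe_filter, Finset.mem_univ, true_and, Set.mem_ofPred_eq] at hj
      simp only [Finset.coe_range, Set.mem_Iio]
      have h4 : (j : ℝ) ≤ y := by
        have h5 := (h1 j).trans hj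
        rw [hxy] at h5
        have h6 : 2 / (J : ℝ) * j ≤ 2 / J * y := by
          have : 2 * (j : ℝ) / J = 2 / J * j := by ring
          linarith only [h5, this]
        exact le_of_mul_le_mul_left h6 (by positivity)
      have := Nat.le_floor h4
      omega
    rw [Finset.card_range] at h3
    have h5 : (A.card : ℝ) ≤ (⌊y⌋₊ : ℝ) + 1 := by exact_mod_cast h3
    have h6 := Nat.floor_le hy0
    linarith only [h5, h6]
  have hlow : y - 1 ≤ (A.card : ℝ) := by
    have hfl : ⌊y⌋₊ ≤ J := by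
      have := Nat.floor_le_floor hyJ
      simpa only [ge_iff_le, Nat.floor_natCast] using this
    have h3 : (Finset.univ : Finset (Fin ⌊y⌋₊)).card ≤ A.card := by
      refine Finset.card_le_card_of_injOn (fun j => Fin.castLE hfl j) ?_
        (fun a _ b _ h => Fin.castLE_injective hfl h)
      intro j _
      simp only [hA, Finset.coe_filter, Finset.mem_univ, true_and, Set.mem_ofPred_eq]
      have h4 : ((j : ℕ) : ℝ) + 1 ≤ y := by
        have h5 : (j : ℕ) + 1 ≤ ⌊y⌋₊ := j.2
        have h6 : (((j : ℕ) + 1 : ℕ) : ℝ) ≤ (⌊y⌋₊ : ℝ) := by exact_mod_cast h5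
        push_cast at h6
        exact h6.trans (Nat.floor_le hy0)
      have h5 := h2 (Fin.castLE hfl j)
      simp only [Fin.val_castLE] at h5
      refine h5.trans ?_
      rw [hxy]
      have h7 : 2 / (J : ℝ) * ((j : ℕ) + 1) ≤ 2 / J * y :=
        mul_le_mul_of_nonneg_left h4 (by positivity)
      have : 2 * ((j : ℕ) : ℝ) / J + 2 / J = 2 / J * ((j : ℕ) + 1) := by ring
      linarith only [h7, this]
    rw [Finset.card_univ, Fintype.card_fin] at h3
    have h5 : (⌊y⌋₊ : ℝ) ≤ A.card := by exact_mod_cast h3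
    have h6 := Nat.lt_floor_add_one y
    linarith only [h5, h6]
  rw [hsum]
  have h7 : x - (-1 + 2 / (J : ℝ) * A.card) = 2 / J * (y - A.card) := by
    rw [hxy]; ring
  rw [h7, abs_mul, abs_of_pos (by positivity : (0 : ℝ) < 2 / J)]
  have h8 : |y - (A.card : ℝ)| ≤ 2 := by
    rw [abs_le]; constructor <;> linarith only [hlow, hup]
  calc 2 / (J : ℝ) * |y - A.card| ≤ 2 / J * 2 := mul_le_mul_of_nonneg_left h8 (by positivity)
    _ = 4 / J := by ring

end TCubeAux

open TCubeAux

/-- sixth moment bound -/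
theorem cube_moment (R : ℕ) (hR : 1 ≤ R) (lam : ℝ) (h0 : 0 < lam) :
    (∑ ω : Fin R → Bool, (signSum ω - Real.sin (lam * signSum ω) / lam) ^ 2) / 2 ^ R
      ≤ lam ^ 4 := by
  have h2R : (0 : ℝ) < 2 ^ R := by positivity
  rw [div_le_iff₀ h2R]
  have h1 : ∀ ω : Fin R → Bool, (signSum ω - Real.sin (lam * signSum ω) / lam) ^ 2 ≤
      lam ^ 4 / 36 * signSum ω ^ 6 := by
    intro ω
    have h2 := sub_sin_sq_le (lam * signSum ω)
    have h3 : (signSum ω - Real.sin (lam * signSum ω) / lam) ^ 2 =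
        (lam * signSum ω - Real.sin (lam * signSum ω)) ^ 2 / lam ^ 2 := by
      (clear * - h0; field_simp)
    rw [h3, div_le_iff₀ (by positivity)]
    calc (lam * signSum ω - Real.sin (lam * signSum ω)) ^ 2 ≤ (lam * signSum ω) ^ 6 / 36 := h2
      _ = lam ^ 4 / 36 * signSum ω ^ 6 * lam ^ 2 := by ring
  calc ∑ ω : Fin R → Bool, (signSum ω - Real.sin (lam * signSum ω) / lam) ^ 2
      ≤ ∑ ω : Fin R → Bool, lam ^ 4 / 36 * signSum ω ^ 6 :=
        Finset.sum_le_sum fun ω _ => h1 ω
    _ = lam ^ 4 / 36 * ∑ ω : Fin R → Bool, signSum ω ^ 6 := by rw [Finset.mul_sum]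
    _ ≤ lam ^ 4 / 36 * (15 * 2 ^ R) :=
        mul_le_mul_of_nonneg_left (sixth R hR) (by positivity)
    _ ≤ lam ^ 4 * 2 ^ R := by
        have : (0 : ℝ) < lam ^ 4 * 2 ^ R := by positivity
        nlinarith only [this]

/-- `J` threshold events which together see `sin (lam * signSum ω)` up to `4 / J`, each of
probability at least `1/2` and L2-close to a polynomial (from a finite list which does not depend
on `R`) in `sin (lam * signSum ω)`. -/
theorem cube_grid (lam : ℝ) (h0 : 0 < lam) (J : ℕ) (hJ : 1 ≤ J) (ε : ℝ) (hε : 0 < ε) :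
    ∃ (M : ℕ) (Q : Fin M → Polynomial ℝ),
      (∀ i, ∀ x ∈ Set.Icc (-1 : ℝ) 1, |(Q i).eval x| ≤ 2) ∧
      ∀ R : ℕ, 1 ≤ R → ∃ (i : Fin J → Fin M) (Φ : Fin J → Finset (Fin R → Bool))
        (s : Fin J → ℝ) (c0 : ℝ),
        (∀ j, |s j| ≤ 2 / J) ∧
        (∀ j, (1 / 2 : ℝ) ≤ ((Φ j).card : ℝ) / 2 ^ R) ∧
        (∀ j, (∑ ω, ((if ω ∈ Φ j then (1 : ℝ) else 0) -
          (Q (i j)).eval (Real.sin (lam * signSum ω))) ^ 2) / 2 ^ R ≤ ε) ∧
        (∀ ω, |Real.sin (lam * signSum ω) -
          (c0 + ∑ j, s j * (if ω ∈ Φ j then (1 : ℝ) else 0))| ≤ 4 / J) := by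
  classical
  have hJ0 : (0 : ℝ) < J := by exact_mod_cast hJ
  have hcell := fun j : Fin J => cell (-1 + 2 * (j : ℝ) / J) (2 / J) ε (by positivity) hε
  choose M P hP1 hP2 using hcell
  let I := Σ j : Fin J, Fin (M j) × Bool
  let eI : I ≃ Fin (Fintype.card I) := Fintype.equivFin I
  let Qf : I → Polynomial ℝ := fun x =>
    if x.2.2 = true then P x.1 x.2.1 else 1 - P x.1 x.2.1
  let Q : Fin (Fintype.card I) → Polynomial ℝ := fun m => Qf (eI.symm m)
  have hQ : ∀ x : I, Q (eI x) = Qf x := fun x => congrArg Qf (eI.symm_apply_apply x)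
  refine ⟨Fintype.card I, Q, fun m x hx => ?_, fun R _ => ?_⟩
  · have h1 := hP1 (eI.symm m).1 (eI.symm m).2.1 x hx
    simp only [Q, Qf]
    split_ifs
    · exact h1.1
    · rw [Polynomial.eval_sub, Polynomial.eval_one]; exact h1.2
  set X : (Fin R → Bool) → ℝ := fun ω => Real.sin (lam * signSum ω) with hXdef
  have hX : ∀ ω, X ω ∈ Set.Icc (-1 : ℝ) 1 := fun ω =>
    ⟨Real.neg_one_le_sin _, Real.sin_le_one _⟩
  have hXs : ∀ ω, X (fun r => !(ω r)) = -X ω := by
    intro ω
    simp only [hXdef]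
    rw [signSum_not, mul_neg, Real.sin_neg]
  have hsel := fun j : Fin J => hP2 j R X hX
  choose i θ hθ1 hθ2 hθ3 using hsel
  obtain ⟨hhalf1, hhalf2⟩ := half_le X hXs
  have h2R : (0 : ℝ) < 2 ^ R := by positivity
  let Φ : Fin J → Finset (Fin R → Bool) := fun j =>
    if θ j ≤ 0 then univ.filter fun ω => θ j ≤ X ω else univ.filter fun ω => ¬ θ j ≤ X ω
  let s : Fin J → ℝ := fun j => if θ j ≤ 0 then 2 / J else -(2 / J)
  let c0 : ℝ := -1 + ∑ j, if θ j ≤ 0 then 0 else 2 / (J : ℝ)
  refine ⟨fun j => eI ⟨j, i j, decide (θ j ≤ 0)⟩, Φ, s, c0, fun j => ?_, fun j => ?_,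
    fun j => ?_, fun ω => ?_⟩
  · simp only [s]
    have hp : (0 : ℝ) < 2 / J := by (clear * - hJ; positivity)
    split_ifs
    · rw [abs_of_pos hp]
    · rw [abs_neg, abs_of_pos hp]
  · rw [le_div_iff₀ h2R]
    simp only [Φ]
    split_ifs with hθ
    · have h1 : (univ.filter fun ω => 0 ≤ X ω).card ≤ (univ.filter fun ω => θ j ≤ X ω).card := by
        apply Finset.card_le_card
        intro ω hω
        simp only [Finset.mem_filter, Finset.mem_univ, true_and] at hω ⊢
        linarith only [hθ, hω]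
      have h2 : ((univ.filter fun ω => 0 ≤ X ω).card : ℝ) ≤
          (univ.filter fun ω => θ j ≤ X ω).card := by exact_mod_cast h1
      linarith only [hhalf1, h2]
    · push Not at hθ
      have h1 : (univ.filter fun ω => X ω ≤ 0).card ≤ (univ.filter fun ω => ¬ θ j ≤ X ω).card := by
        apply Finset.card_le_card
        intro ω hω
        simp only [Finset.mem_filter, Finset.mem_univ, true_and, not_le] at hω ⊢
        linarith only [hθ, hω]
      have h2 : ((univ.filter fun ω => X ω ≤ 0).card : ℝ) ≤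
          (univ.filter fun ω => ¬ θ j ≤ X ω).card := by exact_mod_cast h1
      linarith only [hhalf2, h2]
  · rw [div_le_iff₀ h2R]
    refine le_trans (le_of_eq (Finset.sum_congr rfl fun ω _ => ?_)) (hθ3 j)
    have hXω : Real.sin (lam * signSum ω) = X ω := rfl
    rw [hQ, hXω]
    simp only [Qf, Φ]
    by_cases hθ : θ j ≤ 0
    · simp only [hθ, if_true, decide_true, Finset.mem_filter, Finset.mem_univ, true_and]
    · simp only [hθ, if_false, decide_false, Bool.false_eq_true, Finset.mem_filter,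
        Finset.mem_univ, true_and, Polynomial.eval_sub, Polynomial.eval_one]
      by_cases hx : θ j ≤ X ω
      · simp only [hx, if_true, not_true_eq_false, if_false]; ring
      · simp only [hx, if_false, not_false_eq_true, if_true]; ring
  · have h1 : c0 + ∑ j, s j * (if ω ∈ Φ j then (1 : ℝ) else 0) =
        -1 + ∑ j, (2 / J) * (if θ j ≤ X ω then (1 : ℝ) else 0) := by
      simp only [c0]
      rw [add_assoc, ← Finset.sum_add_distrib]
      congr 1
      refine Finset.sum_congr rfl fun j _ => ?_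
      simp only [s, Φ]
      by_cases hθ : θ j ≤ 0
      · simp only [hθ, if_true, Finset.mem_filter, Finset.mem_univ, true_and]
        ring
      · simp only [hθ, if_false, Finset.mem_filter, Finset.mem_univ, true_and]
        by_cases hx : θ j ≤ X ω
        · simp only [hx, if_true, not_true_eq_false, if_false]; ring
        · simp only [hx, if_false, not_false_eq_true, if_true]; ring
    rw [h1]
    exact count_thr J hJ θ hθ1 hθ2 (X ω) (hX ω)

end Vale.Agent.P095
end

section

set_option linter.unusedSectionVars false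
set_option linter.unusedVariables false
set_option linter.unusedSimpArgs false

namespace Vale.Agent.P095

open Filter Topology ComplexConjugate

section
variable {A : Type*} [CStarAlgebra A] {G : Type*} [Group G] (α : G →* (A ≃⋆ₐ[ℂ] A))

/-- the elements of which the partition has to be independent -/
def XSet (S : Finset G) (F : Finset (BSeq A)) {κ : Type*} {N k : ℕ}
    (fx fv : Fin N × κ → BSeq A) (tB : ℕ → BSeq A) (yB : Fin N → ℕ → BSeq A) : Set (BSeq A) :=
  {b | b ∈ F ∨ b ∈ Set.range fx ∨ b ∈ Set.range fv ∨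
    (∃ a ∈ F, ∃ j : Fin k, b = a * tB j) ∨
    (∃ i : Fin N × Fin k, b = yB i.1 i.2 * yB i.1 i.2) ∨
    (∃ i : Fin N × Fin k, b = star (yB i.1 i.2) * yB i.1 i.2 + yB i.1 i.2 * star (yB i.1 i.2)
      - tB i.2) ∨
    (∃ s ∈ S, ∃ i : Fin N × Fin k, b = actB (α s) (yB i.1 i.2) - yB i.1 i.2) ∨
    (∃ s ∈ S, ∃ a ∈ F, ∃ i : Fin N × Fin k, b = (actB (α s) (tB i.2) - tB i.2) * a) ∨
    (∃ s ∈ S, ∃ i : Fin N × κ, b = actB (α s) (fx i)) ∨
    (∃ s ∈ S, ∃ i : Fin N × κ, b = actB (α s) (fv i))}

theorem XSet_countable (S : Finset G) (F : Finset (BSeq A)) {κ : Type*} [Countable κ] {N k : ℕ}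
    (fx fv : Fin N × κ → BSeq A) (tB : ℕ → BSeq A) (yB : Fin N → ℕ → BSeq A) :
    (XSet α S F (k := k) fx fv tB yB).Countable := by
  have hF := Finset.countable_toSet F
  have hS := Finset.countable_toSet S
  have hsub : XSet α S F (k := k) fx fv tB yB ⊆ (((((((((F : Set (BSeq A)) ∪ Set.range fx) ∪
    Set.range fv) ∪
    (⋃ a ∈ (F : Set (BSeq A)), Set.range (fun j : Fin k => a * tB j))) ∪
    (Set.range fun i : Fin N × Fin k => yB i.1 i.2 * yB i.1 i.2)) ∪
    (Set.range fun i : Fin N × Fin k => star (yB i.1 i.2) * yB i.1 i.2 + yB i.1 i.2 *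
      star (yB i.1 i.2) - tB i.2)) ∪
    (⋃ s ∈ (S : Set G), Set.range fun i : Fin N × Fin k =>
      actB (α s) (yB i.1 i.2) - yB i.1 i.2)) ∪
    (⋃ s ∈ (S : Set G), ⋃ a ∈ (F : Set (BSeq A)), Set.range fun i : Fin N × Fin k =>
      (actB (α s) (tB i.2) - tB i.2) * a)) ∪
    (⋃ s ∈ (S : Set G), Set.range fun i : Fin N × κ => actB (α s) (fx i))) ∪
    (⋃ s ∈ (S : Set G), Set.range fun i : Fin N × κ => actB (α s) (fv i)) := by
    rintro b (h | h | h | ⟨a, ha, j, rfl⟩ | ⟨i, rfl⟩ | ⟨i, rfl⟩ | ⟨s, hs, i, rfl⟩ |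
      ⟨s, hs, a, ha, i, rfl⟩ | ⟨s, hs, i, rfl⟩ | ⟨s, hs, i, rfl⟩)
    · exact Or.inl (Or.inl (Or.inl (Or.inl (Or.inl (Or.inl (Or.inl (Or.inl (Or.inl h))))))))
    · exact Or.inl (Or.inl (Or.inl (Or.inl (Or.inl (Or.inl (Or.inl (Or.inl (Or.inr h))))))))
    · exact Or.inl (Or.inl (Or.inl (Or.inl (Or.inl (Or.inl (Or.inl (Or.inr h)))))))
    · exact Or.inl (Or.inl (Or.inl (Or.inl (Or.inl (Or.inl (Or.inr
        (Set.mem_iUnion₂.mpr ⟨a, ha, j, rfl⟩)))))))
    · exact Or.inl (Or.inl (Or.inl (Or.inl (Or.inl (Or.inr ⟨i, rfl⟩)))))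
    · exact Or.inl (Or.inl (Or.inl (Or.inl (Or.inr ⟨i, rfl⟩))))
    · exact Or.inl (Or.inl (Or.inl (Or.inr (Set.mem_iUnion₂.mpr ⟨s, hs, i, rfl⟩))))
    · exact Or.inl (Or.inl (Or.inr (Set.mem_iUnion₂.mpr
        ⟨s, hs, Set.mem_iUnion₂.mpr ⟨a, ha, i, rfl⟩⟩)))
    · exact Or.inl (Or.inr (Set.mem_iUnion₂.mpr ⟨s, hs, i, rfl⟩))
    · exact Or.inr (Set.mem_iUnion₂.mpr ⟨s, hs, i, rfl⟩)
  refine Set.Countable.mono hsub ?_
  refine Set.Countable.union (Set.Countable.union (Set.Countable.union (Set.Countable.union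
    (Set.Countable.union (Set.Countable.union (Set.Countable.union (Set.Countable.union
    (Set.Countable.union ?_ ?_) ?_) ?_) ?_) ?_) ?_) ?_) ?_) ?_
  · exact hF
  · exact Set.countable_range _
  · exact Set.countable_range _
  · exact hF.biUnion (fun b _ => Set.countable_range _)
  · exact Set.countable_range _
  · exact Set.countable_range _
  · exact hS.biUnion (fun b _ => Set.countable_range _)
  · exact hS.biUnion (fun b _ => hF.biUnion (fun b _ => Set.countable_range _))
  · exact hS.biUnion (fun b _ => Set.countable_range _)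
  · exact hS.biUnion (fun b _ => Set.countable_range _)

theorem num_aux {κ μ C : ℝ} {N k : ℕ} (hκ : 0 < κ) (hμ2 : 1 / 2 ≤ μ) (hC : 0 ≤ C)
    (hk : 0 < k) (hN0 : 0 < N) (hN : 32 * k * C / κ + 1 ≤ N) :
    (4 * (k : ℝ) ^ 2 * ((2 * C + N * (κ / (32 * k)) / μ) * μ ^ N)) / (N * k) ≤
      κ / 2 * μ ^ N := by
  have hμ : 0 < μ := by linarith only [hμ2]
  have hk0 : (0 : ℝ) < k := by exact_mod_cast hk
  have hNr : (0 : ℝ) < N := by exact_mod_cast hN0
  have hNk : (0 : ℝ) < N * k := by positivity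
  rw [div_le_iff₀ hNk]
  have hc0 : 0 < μ ^ N := by positivity
  set c := μ ^ N
  have h1 : 32 * k * C ≤ κ * N := by
    have : 32 * k * C / κ ≤ N := by linarith only [hN]
    rw [div_le_iff₀ hκ] at this
    linarith only [this]
  have h2 : N * (κ / (32 * k)) / μ ≤ 2 * (N * (κ / (32 * k))) := by
    rw [div_le_iff₀ hμ]
    have : 0 ≤ N * (κ / (32 * k)) := by positivity
    nlinarith only [hμ2, this]
  have h3 : (k : ℝ) * (N * (κ / (32 * k))) = N * κ / 32 := by (clear * - hk hκ hN0; field_simp)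
  have h4 : 4 * (k : ℝ) * (2 * C + N * (κ / (32 * k)) / μ) ≤ κ / 2 * N := by
    have h5 : 4 * (k : ℝ) * (2 * C + N * (κ / (32 * k)) / μ) ≤
        4 * (k : ℝ) * (2 * C + 2 * (N * (κ / (32 * k)))) := by
      apply mul_le_mul_of_nonneg_left _ (by positivity)
      linarith only [h2]
    nlinarith only [h1, h3, h5]
  have h6 : 4 * (k : ℝ) ^ 2 * ((2 * C + N * (κ / (32 * k)) / μ) * c) =
      (4 * (k : ℝ) * (2 * C + N * (κ / (32 * k)) / μ)) * (c * k) := by ring
  rw [h6]
  calc (4 * (k : ℝ) * (2 * C + N * (κ / (32 * k)) / μ)) * (c * k)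
      ≤ (κ / 2 * N) * (c * k) := mul_le_mul_of_nonneg_right h4 (by positivity)
    _ = κ / 2 * c * (N * k) := by ring

end

end Vale.Agent.P095
end
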