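import Vale.Agent.P095.MathlibUsed
import Vale.Agent.P095.Bdl.B1
import Vale.Agent.P095.Bdl.B8
import Vale.Agent.P095.Bdl.B4
import Vale.Agent.P095.Bdl.B9
import Vale.Agent.P095.Bdl.B5
import Vale.Agent.P095.Bdl.B2
import Vale.Agent.P095.Bdl.B7

set_option linter.all false

namespace AFast2318e7x11a
@[reducible] noncomputable def a0.{u1} {x1 : Type u1} [x2 : CStarAlgebra x1] : Sub ↥(Vale.Agent.P095.BSeq x1) := inferInstance
theorem a1.{u1} {x1 : Type u1} [x2 : CStarAlgebra x1] : AddSubgroupClass (StarSubalgebra ℂ (ℕ → x1)) (ℕ → x1) := inferInstance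
@[reducible] noncomputable def a2.{u1} {x1 : Type u1} [x2 : CStarAlgebra x1] : Mul ↥(Vale.Agent.P095.BSeq x1) := inferInstance
@[reducible] noncomputable def a3.{u1} {x1 : Type u1} [x2 : CStarAlgebra x1] : Add ↥(Vale.Agent.P095.BSeq x1) := inferInstance
@[reducible] noncomputable def a4.{u1} {x1 : Type u1} [x2 : CStarAlgebra x1] : Distrib ↥(Vale.Agent.P095.BSeq x1) := inferInstance
@[reducible] noncomputable def a5.{u1} {x1 : Type u1} [x2 : CStarAlgebra x1] : Semiring ↥(Vale.Agent.P095.BSeq x1) := inferInstance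
@[reducible] noncomputable def a6.{u1} {x1 : Type u1} [x2 : CStarAlgebra x1] : NonAssocSemiring ↥(Vale.Agent.P095.BSeq x1) := inferInstance
@[reducible] noncomputable def a7.{u1} {x1 : Type u1} [x2 : CStarAlgebra x1] : Ring ↥(Vale.Agent.P095.BSeq x1) := inferInstance
theorem a8.{u1} {x1 : Type u1} [x2 : CStarAlgebra x1] : StarModule ℂ ↥(Vale.Agent.P095.BSeq x1) := inferInstance
@[reducible] noncomputable def a9.{u1} {x1 : Type u1} [x2 : CStarAlgebra x1] : SetLike (StarSubalgebra ℂ (ℕ → x1)) (ℕ → x1) := inferInstance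
@[reducible] noncomputable def a10.{u1} {x1 : Type u1} [x2 : CStarAlgebra x1] : Star ↥(Vale.Agent.P095.BSeq x1) := inferInstance
@[reducible] noncomputable def a11.{u1} {x1 : Type u1} [x2 : CStarAlgebra x1] : AddCommMonoid ↥(Vale.Agent.P095.BSeq x1) := inferInstance
theorem a12.{u1} {x1 : Type u1} [x2 : CStarAlgebra x1] : SubringClass (StarSubalgebra ℂ (ℕ → x1)) (ℕ → x1) := inferInstance
@[reducible] noncomputable def a13.{u1} {x1 : Type u1} [x2 : CStarAlgebra x1] : StarRing ↥(Vale.Agent.P095.BSeq x1) := inferInstance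
@[reducible] noncomputable def a14.{u1} {x1 : Type u1} [x2 : CStarAlgebra x1] : AddGroupWithOne ↥(Vale.Agent.P095.BSeq x1) := inferInstance
theorem a15.{u1} {x1 : Type u1} [x2 : CStarAlgebra x1] : StarModule ℂ (ℕ → x1) := inferInstance
@[reducible] noncomputable def a16.{u1} {x1 : Type u1} [x2 : CStarAlgebra x1] : Algebra ℂ ↥(Vale.Agent.P095.BSeq x1) := inferInstance
theorem a17.{u1} {x1 : Type u1} [x2 : CStarAlgebra x1] : StarMemClass (StarSubalgebra ℂ (ℕ → x1)) (ℕ → x1) := inferInstance
@[reducible] noncomputable def a18.{u1} {x1 : Type u1} [x2 : CStarAlgebra x1] : MulOneClass ↥(Vale.Agent.P095.BSeq x1) := inferInstance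
@[reducible] noncomputable def a19.{u1} {x1 : Type u1} [x2 : CStarAlgebra x1] : MulZeroOneClass ↥(Vale.Agent.P095.BSeq x1) := inferInstance
@[reducible] noncomputable def a20.{u1} {x1 : Type u1} [x2 : CStarAlgebra x1] : One ↥(Vale.Agent.P095.BSeq x1) := inferInstance
@[reducible] noncomputable def a21.{u1} {x1 : Type u1} [x2 : CStarAlgebra x1] : SubNegMonoid ↥(Vale.Agent.P095.BSeq x1) := inferInstance
@[reducible] noncomputable def a22.{u1} {x1 : Type u1} [x2 : CStarAlgebra x1] : AddGroup ↥(Vale.Agent.P095.BSeq x1) := inferInstance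
@[reducible] noncomputable def a23.{u1} {x1 : Type u1} [x2 : CStarAlgebra x1] : AddCommGroup ↥(Vale.Agent.P095.BSeq x1) := inferInstance
@[reducible] noncomputable def a24.{u1} {x1 : Type u1} [x2 : CStarAlgebra x1] : NonUnitalNonAssocSemiring ↥(Vale.Agent.P095.BSeq x1) := inferInstance
@[reducible] def a25.{u1} {x1 : Type u1} {x2 : ℕ} [x3 : CStarAlgebra x1] : StarMul ((fun a => x1) x2) := inferInstance
@[reducible] noncomputable def a26.{u1} {x1 : Type u1} [x2 : CStarAlgebra x1] : AddZeroClass ↥(Vale.Agent.P095.BSeq x1) := inferInstance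
@[reducible] noncomputable def a27.{u1} {x1 : Type u1} [x2 : CStarAlgebra x1] : AddMonoid ↥(Vale.Agent.P095.BSeq x1) := inferInstance
@[reducible] noncomputable def a28.{u1} {x1 : Type u1} [x2 : CStarAlgebra x1] : AddMonoidWithOne ↥(Vale.Agent.P095.BSeq x1) := inferInstance
theorem a29.{u1, u2} {x1 : ℕ} {x2 : Type u1} {x3 : Type u2} [x4 : CStarAlgebra x2] [x5 : CStarAlgebra x3] : MulHomClass ((Fin (x1 + 1) → x2) →* x3) (Fin (x1 + 1) → x2) x3 := inferInstance
@[reducible] noncomputable def a30.{u1} {x1 : Type u1} [x2 : CStarAlgebra x1] : Zero ↥(Vale.Agent.P095.BSeq x1) := inferInstance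
theorem a31 : CharZero ℝ := inferInstance
theorem a32.{u1} {x1 : Type u1} [x2 : CStarAlgebra x1] : AddSubmonoidWithOneClass (StarSubalgebra ℂ (ℕ → x1)) (ℕ → x1) := inferInstance
theorem a33.{u1} {x1 : Type u1} [x2 : CStarAlgebra x1] : SubsemiringClass (StarSubalgebra ℂ (ℕ → x1)) (ℕ → x1) := inferInstance
@[reducible] noncomputable def a34.{u1} {x1 : Type u1} [x2 : CStarAlgebra x1] : AddCommMonoidWithOne ↥(Vale.Agent.P095.BSeq x1) := inferInstance
theorem a35.{u1} {x1 : Type u1} [x2 : CStarAlgebra x1] : OneMemClass (StarSubalgebra ℂ (ℕ → x1)) (ℕ → x1) := inferInstance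
@[reducible] def a36.{u1} {x1 : Type u1} {x2 : ℕ} [x3 : CStarAlgebra x1] : InvolutiveStar ((fun a => x1) x2) := inferInstance
@[reducible] def a37.{u1} {x1 : Type u1} [x2 : CStarAlgebra x1] : Star (ℕ → x1) := inferInstance
@[reducible] noncomputable def a38.{u1} {x1 : Type u1} [x2 : CStarAlgebra x1] : StarRing (ℕ → x1) := inferInstance
theorem a39.{u1} {x1 : Type u1} [x2 : CStarAlgebra x1] : MulHomClass (↥(Vale.Agent.P095.BSeq x1) →⋆ₐ[ℂ] ↥(Vale.Agent.P095.BSeq x1)) ↥(Vale.Agent.P095.BSeq x1) ↥(Vale.Agent.P095.BSeq x1) := inferInstance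
theorem a40 : IsTopologicalRing ℂ := inferInstance
@[reducible] def a41.{u1} {x1 : Type u1} [x2 : CStarAlgebra x1] : Algebra ℂ (ℕ → x1) := inferInstance
@[reducible] def a42.{u1} {x1 : Type u1} [x2 : CStarAlgebra x1] : MulOne (x1 ≃⋆ₐ[ℂ] x1) := inferInstance
theorem a43.{u1} {x1 : Type u1} [x2 : CStarAlgebra x1] : NonUnitalAlgHomClass (↥(Vale.Agent.P095.BSeq x1) →⋆ₐ[ℂ] ↥(Vale.Agent.P095.BSeq x1)) ℂ ↥(Vale.Agent.P095.BSeq x1) ↥(Vale.Agent.P095.BSeq x1) := inferInstance
@[reducible] def a44.{u1} {x1 : Type u1} [x2 : CStarAlgebra x1] : MulOneClass (x1 ≃⋆ₐ[ℂ] x1) := inferInstance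
theorem a45.{u1} {x1 : Type u1} [x2 : CStarAlgebra x1] : AddSubmonoidClass (StarSubalgebra ℂ (ℕ → x1)) (ℕ → x1) := inferInstance
@[reducible] def a46.{u1} {x1 : Type u1} [x2 : CStarAlgebra x1] : Semiring (ℕ → x1) := inferInstance
@[reducible] def a47.{u1} {x1 : Type u1} {x2 : ℕ} [x3 : CStarAlgebra x1] : NonUnitalSemiring ((fun a => x1) x2) := inferInstance
theorem a48 : PosMulReflectLT ℝ := inferInstance
theorem a49.{u1, u2} {x1 : Type u1} {x2 : Type u2} [x3 : CStarAlgebra x1] [x4 : CStarAlgebra x2] : MulHomClass (x1 →⋆ₐ[ℂ] x2) x1 x2 := inferInstance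
@[reducible] def a50.{u1} {x1 : Type u1} [x2 : CStarAlgebra x1] : Monoid (x1 ≃⋆ₐ[ℂ] x1) := inferInstance
theorem a51 : PosMulReflectLE ℝ := inferInstance
theorem a52 : PosMulStrictMono ℝ := inferInstance
theorem a53.{u1, u2} {x1 : Type u1} {x2 : Type u2} [x3 : CStarAlgebra x1] [x4 : CStarAlgebra x2] : NonUnitalAlgHomClass (x1 →⋆ₐ[ℂ] x2) ℂ x1 x2 := inferInstance
@[reducible] def a54.{u1} {x1 : Type u1} {x2 : ℕ} [x3 : CStarAlgebra x1] : NonUnitalNonAssocSemiring ((fun a => x1) x2) := inferInstance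
theorem a55 : AddRightReflectLE ℝ := inferInstance
@[reducible] noncomputable def a56.{u1} {x1 : Type u1} [x2 : CStarAlgebra x1] : NonUnitalNonAssocRing ↥(Vale.Agent.P095.BSeq x1) := inferInstance
@[reducible] noncomputable def a57.{u1} {x1 : Type u1} [x2 : CStarAlgebra x1] : MulOne ↥(Vale.Agent.P095.BSeq x1) := inferInstance
@[reducible] def a58.{u1} {x1 : Type u1} {x2 : ℕ} [x3 : CStarAlgebra x1] : Distrib ((fun a => x1) x2) := inferInstance
@[reducible] noncomputable def a59.{u1} {x1 : Type u1} [x2 : CStarAlgebra x1] : StarAddMonoid ↥(Vale.Agent.P095.BSeq x1) := inferInstance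
theorem a60 : IsRightCancelAdd ℝ := inferInstance
@[reducible] noncomputable def a61.{u1} {x1 : Type u1} [x2 : CStarAlgebra x1] : AddZero ↥(Vale.Agent.P095.BSeq x1) := inferInstance
@[reducible] noncomputable def a62.{u1} {x1 : Type u1} [x2 : CStarAlgebra x1] : NonAssocRing ↥(Vale.Agent.P095.BSeq x1) := inferInstance
theorem a63.{u1} {x1 : Type u1} [x2 : CStarAlgebra x1] : ZeroMemClass (StarSubalgebra ℂ (ℕ → x1)) (ℕ → x1) := inferInstance
@[reducible] noncomputable def a64.{u1} {x1 : Type u1} [x2 : CStarAlgebra x1] : SubtractionCommMonoid ↥(Vale.Agent.P095.BSeq x1) := inferInstance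
@[reducible] noncomputable def a65.{u1} {x1 : Type u1} [x2 : CStarAlgebra x1] : SubtractionMonoid ↥(Vale.Agent.P095.BSeq x1) := inferInstance
end AFast2318e7x11a
attribute [local instance] AFast2318e7x11a.a0 AFast2318e7x11a.a1 AFast2318e7x11a.a2
  AFast2318e7x11a.a3 AFast2318e7x11a.a4 AFast2318e7x11a.a5 AFast2318e7x11a.a6 AFast2318e7x11a.a7
  AFast2318e7x11a.a8 AFast2318e7x11a.a9 AFast2318e7x11a.a10 AFast2318e7x11a.a11
  AFast2318e7x11a.a12 AFast2318e7x11a.a13 AFast2318e7x11a.a14 AFast2318e7x11a.a15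
  AFast2318e7x11a.a16 AFast2318e7x11a.a17 AFast2318e7x11a.a18 AFast2318e7x11a.a19
  AFast2318e7x11a.a20 AFast2318e7x11a.a21 AFast2318e7x11a.a22 AFast2318e7x11a.a23
  AFast2318e7x11a.a24 AFast2318e7x11a.a25 AFast2318e7x11a.a26 AFast2318e7x11a.a27
  AFast2318e7x11a.a28 AFast2318e7x11a.a29 AFast2318e7x11a.a30 AFast2318e7x11a.a31
  AFast2318e7x11a.a32 AFast2318e7x11a.a33 AFast2318e7x11a.a34 AFast2318e7x11a.a35
  AFast2318e7x11a.a36 AFast2318e7x11a.a37 AFast2318e7x11a.a38 AFast2318e7x11a.a39
  AFast2318e7x11a.a40 AFast2318e7x11a.a41 AFast2318e7x11a.a42 AFast2318e7x11a.a43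
  AFast2318e7x11a.a44 AFast2318e7x11a.a45 AFast2318e7x11a.a46 AFast2318e7x11a.a47
  AFast2318e7x11a.a48 AFast2318e7x11a.a49 AFast2318e7x11a.a50 AFast2318e7x11a.a51
  AFast2318e7x11a.a52 AFast2318e7x11a.a53 AFast2318e7x11a.a54 AFast2318e7x11a.a55
  AFast2318e7x11a.a56 AFast2318e7x11a.a57 AFast2318e7x11a.a58 AFast2318e7x11a.a59
  AFast2318e7x11a.a60 AFast2318e7x11a.a61 AFast2318e7x11a.a62 AFast2318e7x11a.a63
  AFast2318e7x11a.a64 AFast2318e7x11a.a65
namespace AFast2318e7x11b
@[reducible] noncomputable def a0.{u1} {x1 : Type u1} [x2 : CStarAlgebra x1] : Module ℂ ↥(Vale.Agent.P095.BSeq x1) := inferInstance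
theorem a1.{u1} {x1 : Type u1} [x2 : CStarAlgebra x1] : MonoidWithZeroHomClass (↥(Vale.Agent.P095.BSeq x1) →⋆ₐ[ℂ] ↥(Vale.Agent.P095.BSeq x1)) ↥(Vale.Agent.P095.BSeq x1) ↥(Vale.Agent.P095.BSeq x1) := inferInstance
end AFast2318e7x11b
attribute [local instance] AFast2318e7x11b.a0 AFast2318e7x11b.a1
section

/-! Step 2: from finitely many self-adjoint elements with full commutators to one. -/

open scoped BigOperators

namespace Vale.Agent.P101

universe u v

section Alg

variable {F : Type u} {G : Type v} [CStarAlgebra F] [CStarAlgebra G] {n : ℕ}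

theorem comm_sum_leg {κ : Type*} [Fintype κ] [DecidableEq κ] (L : Legs κ F G) (a : F) (i : κ)
    (b : F) :
    (∑ k, L.σ k a) * L.σ i b = L.σ i b * (∑ k, L.σ k a) + L.σ i (a * b - b * a) := by
  have h : ∑ k, (L.σ k a * L.σ i b - L.σ i b * L.σ k a) = L.σ i (a * b - b * a) := by
    rw [Finset.sum_eq_single i]
    · simp
    · intro k _ hk
      rw [(L.comm k i hk a b).eq, sub_self]
    · intro h; exact absurd (Finset.mem_univ _) h
  rw [Finset.sum_sub_distrib, ← Finset.sum_mul, ← Finset.mul_sum] at h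
  rw [← h]; abel

theorem double_comm {R : Type*} [Ring R] (S Y Y' D D' : R) (h1 : S * Y = Y * S + D)
    (h2 : S * Y' = Y' * S + D') (h4 : D * Y' = Y' * D)
    (h5 : D * D' = D' * D) :
    (S * S * Y - Y * (S * S)) * Y' - Y' * (S * S * Y - Y * (S * S)) = D * D' + D * D' := by
  have e1 : S * S * Y - Y * (S * S) = S * D + D * S := by
    have : S * S * Y = S * (Y * S + D) := by rw [mul_assoc, h1]
    rw [this, mul_add, ← mul_assoc, h1]
    noncomm_ring
  rw [e1]
  have e2 : (S * D + D * S) * Y' = S * (Y' * D) + D * (Y' * S + D') := by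
    rw [add_mul, mul_assoc, mul_assoc, h4, h2]
  rw [e2, ← mul_assoc S Y' D, h2]
  have e3 : D * (Y' * S + D') = Y' * D * S + D * D' := by
    rw [mul_add, ← mul_assoc, h4]
  rw [e3, h5]
  noncomm_ring

/-- The contraction of two different legs lies in the ideal. -/
theorem contraction_mem {κ : Type*} [Fintype κ] [DecidableEq κ] (L : Legs κ F G) (a : Fin n → F)
    (I : TwoSidedIdeal G)
    (hI : ∀ y, (∑ j, (∑ i, L.σ i (a j)) * (∑ i, L.σ i (a j))) * y
      - y * (∑ j, (∑ i, L.σ i (a j)) * (∑ i, L.σ i (a j))) ∈ I)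
    (i l : κ) (hil : i ≠ l) (b b' : F) :
    ∑ c, L.σ i (a c * b - b * a c) * L.σ l (a c * b' - b' * a c) ∈ I := by
  set q := ∑ j, (∑ i, L.σ i (a j)) * (∑ i, L.σ i (a j)) with hq
  have h1 : (q * L.σ i b - L.σ i b * q) * L.σ l b' - L.σ l b' * (q * L.σ i b - L.σ i b * q)
      ∈ I :=
    I.sub_mem (I.mul_mem_right _ _ (hI _)) (I.mul_mem_left _ _ (hI _))
  have h2 : (q * L.σ i b - L.σ i b * q) * L.σ l b' - L.σ l b' * (q * L.σ i b - L.σ i b * q)
      = ∑ c, (L.σ i (a c * b - b * a c) * L.σ l (a c * b' - b' * a c)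
        + L.σ i (a c * b - b * a c) * L.σ l (a c * b' - b' * a c)) := by
    have e1 : q * L.σ i b - L.σ i b * q = ∑ c, ((∑ k, L.σ k (a c)) * (∑ k, L.σ k (a c)) * L.σ i b
        - L.σ i b * ((∑ k, L.σ k (a c)) * (∑ k, L.σ k (a c)))) := by
      rw [hq, Finset.sum_mul, Finset.mul_sum, ← Finset.sum_sub_distrib]
    rw [e1, Finset.sum_mul, Finset.mul_sum, ← Finset.sum_sub_distrib]
    refine Finset.sum_congr rfl fun c _ => ?_
    exact double_comm _ _ _ _ _ (comm_sum_leg L (a c) i b) (comm_sum_leg L (a c) l b')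
      (L.comm i l hil _ b').eq (L.comm i l hil _ _).eq
  rw [h2, Finset.sum_add_distrib] at h1
  have h3 := I.mul_mem_left ((2⁻¹ : ℂ) • (1 : G)) _ h1
  rwa [smul_mul_assoc, one_mul, ← two_smul ℂ (∑ c, L.σ i (a c * b - b * a c)
    * L.σ l (a c * b' - b' * a c)), smul_smul, inv_mul_cancel₀ two_ne_zero, one_smul] at h3

/-- The commutator vectors. -/
def cv (a : Fin n → F) (b : Fin (n + 1) → F) (i : Fin (n + 1)) (c : Fin n) : F :=
  a c * b i - b i * a c

theorem cv_star (a : Fin n → F) (ha : ∀ j, IsSelfAdjoint (a j)) (b : Fin (n + 1) → F)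
    (i : Fin (n + 1)) (c : Fin n) :
    star (cv a b i c) = a c * (-star (b i)) - (-star (b i)) * a c := by
  simp only [cv, star_sub, star_mul, (ha c).star_eq]
  noncomm_ring

/-- The off-diagonal terms of the antisymmetrizer lie in the ideal. -/
theorem perm_term_mem (L : Legs (Fin (n + 1)) F G) (a : Fin n → F)
    (ha : ∀ j, IsSelfAdjoint (a j)) (I : TwoSidedIdeal G)
    (hI : ∀ y, (∑ j, (∑ i, L.σ i (a j)) * (∑ i, L.σ i (a j))) * y
      - y * (∑ j, (∑ i, L.σ i (a j)) * (∑ i, L.σ i (a j))) ∈ I)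
    (b : Fin (n + 1) → F) (π : Equiv.Perm (Fin (n + 1))) (hπ : π ≠ 1) :
    ∑ j : Fin (n + 1) → Fin n,
      L.prodHom (fun i => star (cv a b i (j i)) * cv a b i (j (π i))) ∈ I := by
  obtain ⟨i, hi⟩ : ∃ i, π i ≠ i := by
    by_contra hcon
    push Not at hcon
    exact hπ (Equiv.ext hcon)
  set l := π i with hl
  have hπl : π l ≠ l := fun h => hi (π.injective (by rw [h]))
  rw [← Equiv.sum_comp (Equiv.funSplitAt l (Fin n)).symm, Fintype.sum_prod_type_right]
  refine sum_mem fun j' _ => ?_
  -- the common index function away from `l`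
  let J : Fin n → Fin (n + 1) → Fin n := fun c => (Equiv.funSplitAt l (Fin n)).symm (c, j')
  have hJl : ∀ c, J c l = c := fun c => by simp only [ne_eq, Equiv.funSplitAt, Equiv.piSplitAt, eq_rec_constant, Equiv.symm_mk, Equiv.coe_fn_mk, ↓reduceDIte, J]
  have hJne : ∀ c k (hk : k ≠ l), J c k = j' ⟨k, hk⟩ := fun c k hk => by
    simp [J, Equiv.funSplitAt, Equiv.piSplitAt, hk]
  have hne : i ≠ l := Ne.symm hi
  let A : Fin (n + 1) → F := fun k =>
    if hk : k = l then 1 else
      if k = i then star (cv a b k (j' ⟨k, hk⟩)) else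
        if hπk : π k = l then 1 else star (cv a b k (j' ⟨k, hk⟩)) * cv a b k (j' ⟨π k, hπk⟩)
  let B : Fin (n + 1) → F := Pi.mulSingle l (cv a b l (j' ⟨π l, hπl⟩))
  have hz : ∀ c, L.prodHom (fun k => star (cv a b k (J c k)) * cv a b k (J c (π k)))
      = L.prodHom A * (L.σ i (cv a b i c) * L.σ l (star (cv a b l c))) * L.prodHom B := by
    intro c
    have e : (fun k => star (cv a b k (J c k)) * cv a b k (J c (π k)))
        = A * (Pi.mulSingle i (cv a b i c) * Pi.mulSingle l (star (cv a b l c))) * B := by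
      funext k
      simp only [Pi.mul_apply]
      by_cases hk : k = l
      · subst hk
        rw [hJl, hJne c _ hπl]
        simp only [ne_eq, ↓reduceDIte, Pi.mulSingle_eq_of_ne hi, Pi.mulSingle_eq_same, one_mul, A, B]
      · by_cases hki : k = i
        · subst hki
          rw [hJne c k hk, ← hl, hJl]
          simp only [ne_eq, hk, ↓reduceDIte, ↓reduceIte, Pi.mulSingle_eq_same, not_false_eq_true, Pi.mulSingle_eq_of_ne, mul_one, A, B]
        · have hπk : π k ≠ l := fun h => hki (π.injective (by rw [h]))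
          rw [hJne c k hk, hJne c _ hπk]
          simp only [ne_eq, hk, ↓reduceDIte, hki, ↓reduceIte, hπk, not_false_eq_true, Pi.mulSingle_eq_of_ne, mul_one, A, B]
    rw [e, map_mul, map_mul, map_mul, L.prodHom_mulSingle, L.prodHom_mulSingle]
  have hgoal : ∑ c, L.prodHom (fun k => star (cv a b k (J c k)) * cv a b k (J c (π k)))
      = L.prodHom A * (∑ c, L.σ i (a c * b i - b i * a c)
        * L.σ l (a c * (-star (b l)) - (-star (b l)) * a c)) * L.prodHom B := by
    rw [Finset.mul_sum, Finset.sum_mul]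
    refine Finset.sum_congr rfl fun c _ => ?_
    rw [hz c, cv_star a ha b l c]
    rfl
  exact hgoal ▸ I.mul_mem_right _ _ (I.mul_mem_left _ _
    (contraction_mem L a I hI i l hne _ _))

/-- The alternating sum over permutations vanishes for each index function. -/
theorem alt_sum_eq_zero (L : Legs (Fin (n + 1)) F G) (a : Fin n → F) (b : Fin (n + 1) → F)
    (j : Fin (n + 1) → Fin n) :
    ∑ π : Equiv.Perm (Fin (n + 1)), ((Equiv.Perm.sign π : ℤˣ) : ℤ) •
      L.prodHom (fun i => cv a b i (j (π i))) = 0 := by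
  obtain ⟨p, q, hpq, hj⟩ : ∃ p q, p ≠ q ∧ j p = j q := by
    obtain ⟨p, q, hpq, h⟩ := Fintype.exists_ne_map_eq_of_card_lt j (by simp only [Fintype.card_fin, lt_add_iff_pos_right, Order.lt_one_iff])
    exact ⟨p, q, hpq, h⟩
  set Sg := ∑ π : Equiv.Perm (Fin (n + 1)), ((Equiv.Perm.sign π : ℤˣ) : ℤ) •
      L.prodHom (fun i => cv a b i (j (π i))) with hSg
  have h1 : Sg = -Sg := by
    conv_lhs => rw [hSg, ← Equiv.sum_comp (Equiv.mulLeft (Equiv.swap p q))]
    rw [hSg, ← Finset.sum_neg_distrib]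
    refine Finset.sum_congr rfl fun π _ => ?_
    have h2 : ∀ k, j ((Equiv.mulLeft (Equiv.swap p q) π) k) = j (π k) := by
      intro k
      simp only [Equiv.coe_mulLeft, Equiv.Perm.coe_mul, Function.comp_apply]
      by_cases hkp : π k = p
      · rw [hkp, Equiv.swap_apply_left, hj]
      · by_cases hkq : π k = q
        · rw [hkq, Equiv.swap_apply_right, hj]
        · rw [Equiv.swap_apply_of_ne_of_ne hkp hkq]
    simp only [h2]
    simp only [Equiv.coe_mulLeft, Equiv.Perm.sign_mul, Equiv.Perm.sign_swap hpq, neg_mul, one_mul, Units.val_neg, neg_smul, zsmul_eq_mul]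
  have h3 : (2 : ℂ) • Sg = 0 := by
    rw [two_smul]
    nth_rewrite 1 [h1]
    exact neg_add_cancel _
  exact (smul_eq_zero.1 h3).resolve_left two_ne_zero

/-- The Gram element. -/
def gram (a : Fin n → F) (b : F) : F := ∑ c, star (a c * b - b * a c) * (a c * b - b * a c)

theorem prod_gram_mem (L : Legs (Fin (n + 1)) F G) (a : Fin n → F)
    (ha : ∀ j, IsSelfAdjoint (a j)) (I : TwoSidedIdeal G)
    (hI : ∀ y, (∑ j, (∑ i, L.σ i (a j)) * (∑ i, L.σ i (a j))) * y
      - y * (∑ j, (∑ i, L.σ i (a j)) * (∑ i, L.σ i (a j))) ∈ I)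
    (b : Fin (n + 1) → F) :
    L.prodHom (fun i => gram a (b i)) ∈ I := by
  have h0 : (0 : G) = ∑ π : Equiv.Perm (Fin (n + 1)), ((Equiv.Perm.sign π : ℤˣ) : ℤ) •
      ∑ j : Fin (n + 1) → Fin n,
        L.prodHom (fun i => star (cv a b i (j i)) * cv a b i (j (π i))) := by
    have e1 : ∀ j : Fin (n + 1) → Fin n,
        star (L.prodHom (fun i => cv a b i (j i))) *
        ∑ π : Equiv.Perm (Fin (n + 1)), ((Equiv.Perm.sign π : ℤˣ) : ℤ) •
          L.prodHom (fun i => cv a b i (j (π i))) = 0 := fun j => by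
      rw [alt_sum_eq_zero L a b j, mul_zero]
    have e2 : (0 : G) = ∑ j : Fin (n + 1) → Fin n,
        star (L.prodHom (fun i => cv a b i (j i))) *
        ∑ π : Equiv.Perm (Fin (n + 1)), ((Equiv.Perm.sign π : ℤˣ) : ℤ) •
          L.prodHom (fun i => cv a b i (j (π i))) := by
      simp only [e1, Finset.sum_const_zero]
    rw [e2]
    simp only [Finset.mul_sum, Finset.smul_sum]
    rw [Finset.sum_comm]
    refine Finset.sum_congr rfl fun π _ => Finset.sum_congr rfl fun j _ => ?_
    rw [mul_smul_comm, L.star_prodHom, ← map_mul]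
    rfl
  rw [Fintype.sum_eq_add_sum_compl (1 : Equiv.Perm (Fin (n + 1)))] at h0
  have h1 : L.prodHom (fun i => gram a (b i)) = ∑ j : Fin (n + 1) → Fin n,
        L.prodHom (fun i => star (cv a b i (j i)) * cv a b i (j i)) := by
    rw [← L.prodHom_sum (α := fun _ => Fin n) (fun i c => star (cv a b i c) * cv a b i c)]
    rfl
  have h2 : L.prodHom (fun i => gram a (b i)) = - ∑ π ∈ ({1} : Finset (Equiv.Perm (Fin (n + 1))))ᶜ,
      ((Equiv.Perm.sign π : ℤˣ) : ℤ) •
      ∑ j : Fin (n + 1) → Fin n,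
        L.prodHom (fun i => star (cv a b i (j i)) * cv a b i (j (π i))) := by
    rw [eq_neg_iff_add_eq_zero, h0, h1]
    simp only [zsmul_eq_mul, Equiv.Perm.sign_one, Units.val_one, Equiv.Perm.coe_one, id_eq, one_smul]
  rw [h2]
  refine I.neg_mem (sum_mem fun π hπ => ?_)
  have hπ1 : π ≠ 1 := by simpa using hπ
  exact zsmul_mem (perm_term_mem L a ha I hI b π hπ1) _

end Alg

section CStar

variable {F : Type u} [CStarAlgebra F]

open scoped ComplexOrder in
/-- If `∑ l_r u_r = 1` then `∑ u_r⋆ u_r` dominates a positive multiple of one; with any family of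
positive elements dominating `u_r⋆ u_r` the sum is invertible. -/
theorem isUnit_sum_of_sum_eq_one {m : ℕ} (l u z : Fin m → F) (h : ∑ r, l r * u r = 1)
    (hz : ∀ r, ∃ w : ℕ, ∃ t : Fin w → F, z r = star (u r) * u r + ∑ k, star (t k) * t k) :
    IsUnit (∑ r, z r) := by
  let _ := CStarAlgebra.spectralOrder F
  have _ := CStarAlgebra.spectralOrderedRing F
  rcases subsingleton_or_nontrivial F with hs | hn
  · exact isUnit_of_subsingleton _
  -- `1 ≤ C ∑ u⋆u`
  have hpos : ∀ x : F, 0 ≤ star x * x := fun x => star_mul_self_nonneg x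
  have key : ∀ (s : Finset (Fin m)) (x : Fin m → F),
      star (∑ r ∈ s, x r) * (∑ r ∈ s, x r) ≤ ((2 : ℝ) ^ s.card) • ∑ r ∈ s, star (x r) * x r := by
    intro s x
    induction s using Finset.induction_on with
    | empty => simp only [Finset.sum_empty, star_zero, mul_zero, Finset.card_empty, pow_zero, smul_zero, Std.le_refl]
    | insert r s hr ih =>
      rw [Finset.sum_insert hr, Finset.sum_insert hr, Finset.card_insert_of_notMem hr]
      set X := x r
      set Y := ∑ r ∈ s, x r
      set W := ∑ r ∈ s, star (x r) * x r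
      have h1 : star (X + Y) * (X + Y) ≤ (2 : ℝ) • (star X * X) + (2 : ℝ) • (star Y * Y) := by
        have h2 := hpos (X - Y)
        have h3 : (2 : ℝ) • (star X * X) + (2 : ℝ) • (star Y * Y)
            = star (X + Y) * (X + Y) + star (X - Y) * (X - Y) := by
          rw [two_smul, two_smul, star_add, star_sub]; noncomm_ring
        rw [h3]
        exact le_add_of_nonneg_right h2
      refine h1.trans ?_
      rw [pow_succ, smul_add]
      refine add_le_add ?_ ?_
      · have h4 : (1 : ℝ) ≤ 2 ^ s.card := one_le_pow₀ (by norm_num)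
        have h5 : (2 : ℝ) ≤ 2 ^ s.card * 2 := by linarith only [h4]
        exact smul_le_smul_of_nonneg_right h5 (hpos X)
      · rw [mul_comm, mul_smul]
        exact smul_le_smul_of_nonneg_left ih (by norm_num)
  have h1 : (1 : F) ≤ ((2 : ℝ) ^ m) • ∑ r, star (l r * u r) * (l r * u r) := by
    have := key Finset.univ (fun r => l r * u r)
    rw [h] at this
    simpa only [star_mul, ge_iff_le, star_one, mul_one, Finset.card_univ, Fintype.card_fin] using this
  have h2 : ∀ r, star (l r * u r) * (l r * u r) ≤ ‖star (l r) * l r‖ • z r := by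
    intro r
    have h3 : star (l r * u r) * (l r * u r) = star (u r) * (star (l r) * l r) * u r := by
      rw [star_mul]; simp only [mul_assoc]
    rw [h3]
    refine (CStarAlgebra.star_left_conjugate_le_norm_smul
      (hb := IsSelfAdjoint.star_mul_self (l r))).trans ?_
    refine smul_le_smul_of_nonneg_left ?_ (norm_nonneg _)
    obtain ⟨w, t, ht⟩ := hz r
    rw [ht]
    exact le_add_of_nonneg_right (Finset.sum_nonneg fun k _ => hpos _)
  have hznn : ∀ r, 0 ≤ z r := by
    intro r
    obtain ⟨w, t, ht⟩ := hz r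
    rw [ht]
    exact add_nonneg (hpos _) (Finset.sum_nonneg fun k _ => hpos _)
  obtain ⟨C, hC0, hC⟩ : ∃ C : ℝ, 0 < C ∧ ∀ r, ‖star (l r) * l r‖ ≤ C := by
    refine ⟨1 + ∑ r, ‖star (l r) * l r‖, by positivity, fun r => ?_⟩
    have := Finset.single_le_sum (f := fun r => ‖star (l r) * l r‖)
      (fun i _ => norm_nonneg _) (Finset.mem_univ r)
    linarith
  have h3 : (1 : F) ≤ ((2 : ℝ) ^ m * C) • ∑ r, z r := by
    refine h1.trans ?_
    rw [mul_smul]
    refine smul_le_smul_of_nonneg_left ?_ (by positivity)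
    rw [Finset.smul_sum]
    exact Finset.sum_le_sum fun r _ => (h2 r).trans (smul_le_smul_of_nonneg_right (hC r) (hznn r))
  have h4 : IsUnit (((2 : ℝ) ^ m * C) • ∑ r, z r) :=
    CStarAlgebra.isUnit_of_le 1 h3 ⟨zero_le_one, isUnit_one⟩
  have h5 : ((2 : ℝ) ^ m * C) ≠ 0 := by positivity
  have h6 := (isUnit_smul_iff (Units.mk0 _ h5) (∑ r, z r)).1 (by simpa only [Units.mk0_mul, Units.smul_def, Units.val_mul, Units.val_mk0] using h4)
  exact h6

end CStar

theorem step2 {F : Type u} {G : Type v} [CStarAlgebra F] [CStarAlgebra G] (n : ℕ) (a : Fin n → F)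
    (ha : ∀ j, IsSelfAdjoint (a j)) (hfull : Full {x : F | ∃ j b, x = a j * b - b * a j})
    (L : Legs (Fin (n + 1)) F G) :
    ∃ q : G, IsSelfAdjoint q ∧ Full {x : G | ∃ y, x = q * y - y * q} := by
  refine ⟨∑ j, (∑ i, L.σ i (a j)) * (∑ i, L.σ i (a j)), ?_, ?_⟩
  · rw [IsSelfAdjoint, star_sum]
    refine Finset.sum_congr rfl fun j _ => ?_
    rw [star_mul, star_sum]
    simp only [← map_star, (ha j).star_eq]
  · refine Full.of_forall fun I hI => ?_
    have hI' : ∀ y, (∑ j, (∑ i, L.σ i (a j)) * (∑ i, L.σ i (a j))) * y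
      - y * (∑ j, (∑ i, L.σ i (a j)) * (∑ i, L.σ i (a j))) ∈ I := fun y => hI _ ⟨y, rfl⟩
    obtain ⟨m, l, x, r, hx, e⟩ := hfull.exists_sum
    choose j b hjb using hx
    have hu : IsUnit (∑ k, star (r k) * gram a (b k) * r k) := by
      refine isUnit_sum_of_sum_eq_one l (fun k => x k * r k) _ (by simpa only [mul_assoc] using e)
        fun k => ?_
      refine ⟨n, fun c => if c = j k then 0 else (a c * b k - b k * a c) * r k, ?_⟩
      rw [gram, Finset.mul_sum, Finset.sum_mul, ← Finset.add_sum_erase _ _ (Finset.mem_univ (j k)),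
        ← Finset.add_sum_erase Finset.univ (fun c => star (if c = j k then 0 else
          (a c * b k - b k * a c) * r k) * (if c = j k then 0 else
          (a c * b k - b k * a c) * r k)) (Finset.mem_univ (j k))]
      simp only [if_true, star_zero, zero_mul, zero_add]
      congr 1
      · rw [hjb, star_mul]; simp only [mul_assoc]
      · refine Finset.sum_congr rfl fun c hc => ?_
        rw [if_neg (Finset.ne_of_mem_erase hc), star_mul]; simp only [mul_assoc]
    have hmem : L.prodHom (fun _ => ∑ k, star (r k) * gram a (b k) * r k) ∈ I := by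
      rw [L.prodHom_sum (α := fun _ => Fin m) (fun _ k => star (r k) * gram a (b k) * r k)]
      refine sum_mem fun ρ _ => ?_
      have e2 : (fun i => star (r (ρ i)) * gram a (b (ρ i)) * r (ρ i))
          = (fun i => star (r (ρ i))) * (fun i => gram a (b (ρ i))) * (fun i => r (ρ i)) := rfl
      rw [e2, map_mul, map_mul]
      exact I.mul_mem_right _ _ (I.mul_mem_left _ _
        (prod_gram_mem L a ha I hI' (fun i => b (ρ i))))
    have hu2 : IsUnit (L.prodHom (fun _ => ∑ k, star (r k) * gram a (b k) * r k)) :=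
      (Pi.isUnit_iff.2 fun _ => hu).map L.prodHom
    obtain ⟨w, hw⟩ := hu2
    have := I.mul_mem_left (↑w⁻¹ : G) _ hmem
    rwa [← hw, Units.inv_mul] at this

end Vale.Agent.P101
end

section

/-! General step 8: from `ModeAbsData` to `GlueData`. -/

open scoped BigOperators

namespace Vale.Agent.P101

universe u

namespace Step8G

section Monoid

variable {M : Type*} [Monoid M]

theorem prod_ofFn_mul : ∀ (l : ℕ) (u v : Fin l → M), (∀ i j, i ≠ j → Commute (v i) (u j)) →
    (List.ofFn u).prod * (List.ofFn v).prod = (List.ofFn (fun i => u i * v i)).prod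
  | 0, u, v, _ => by simp
  | l + 1, u, v, h => by
    rw [List.ofFn_succ, List.ofFn_succ, List.ofFn_succ, List.prod_cons, List.prod_cons,
      List.prod_cons, ← prod_ofFn_mul l _ _ (fun i j hij => h _ _ (by simpa using hij))]
    have hc : Commute (v 0) (List.ofFn (fun i : Fin l => u i.succ)).prod := by
      refine Commute.list_prod_right _ _ fun x hx => ?_
      obtain ⟨i, rfl⟩ := (List.mem_ofFn' _ _).1 hx
      exact h _ _ (Fin.succ_ne_zero i).symm
    calc u 0 * (List.ofFn fun i : Fin l => u i.succ).prod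
          * (v 0 * (List.ofFn fun i : Fin l => v i.succ).prod)
        = u 0 * ((List.ofFn fun i : Fin l => u i.succ).prod * v 0)
          * (List.ofFn fun i : Fin l => v i.succ).prod := by simp only [mul_assoc]
      _ = _ := by rw [← hc.eq]; simp only [mul_assoc]

theorem star_prod_ofFn [StarMul M] : ∀ (l : ℕ) (u : Fin l → M),
    (∀ i j, i ≠ j → Commute (u i) (u j)) →
    star (List.ofFn u).prod = (List.ofFn (fun i => star (u i))).prod
  | 0, u, _ => by simp
  | l + 1, u, h => by
    rw [List.ofFn_succ, List.ofFn_succ, List.prod_cons, List.prod_cons, star_mul,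
      ← star_prod_ofFn l _ (fun i j hij => h _ _ (by simpa using hij))]
    have hc : Commute (u 0) (List.ofFn (fun i : Fin l => u i.succ)).prod := by
      refine Commute.list_prod_right _ _ fun x hx => ?_
      obtain ⟨i, rfl⟩ := (List.mem_ofFn' _ _).1 hx
      exact h _ _ (Fin.succ_ne_zero i).symm
    rw [← star_mul, hc.eq, star_mul]

theorem commute_prod_ofFn (l : ℕ) (a : M) (u : Fin l → M) (h : ∀ i, Commute a (u i)) :
    Commute a (List.ofFn u).prod := by
  refine Commute.list_prod_right _ _ fun x hx => ?_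
  obtain ⟨i, rfl⟩ := (List.mem_ofFn' _ _).1 hx
  exact h i

end Monoid

section CStar

variable {F : Type*} [CStarAlgebra F] [PartialOrder F] [StarOrderedRing F]

/-- square root -/
noncomputable def csq (a : F) : F := cfc Real.sqrt a

omit [PartialOrder F] [StarOrderedRing F] in
theorem star_csq (a : F) : star (csq a) = csq a := by
  unfold csq; rw [← cfc_star]; simp

theorem csq_mul_csq {a : F} (ha : 0 ≤ a) : csq a * csq a = a := by
  unfold csq
  have hsa : IsSelfAdjoint a := ha.isSelfAdjoint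
  rw [← cfc_mul _ _ a (by fun_prop) (by fun_prop)]
  conv_rhs => rw [← cfc_id' ℝ a]
  exact cfc_congr fun t ht => Real.mul_self_sqrt (spectrum_nonneg_of_nonneg ha ht)

omit [PartialOrder F] [StarOrderedRing F] in
theorem commute_csq {a x : F} (h : Commute a x) : Commute (csq a) x := h.cfc_real _

end CStar

end Step8G

open Step8G in
theorem step8G {G : Type u} [CStarAlgebra G] [PartialOrder G] [StarOrderedRing G] (l : ℕ)
    (D : ModeAbsData l G) : Nonempty (GlueData (Fin l → Bool) Unit G) := by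
  classical
  obtain ⟨w, Q, S, b, b_sa, ww, sum_eq, comm, comms, bw, Q_eq, bS, hle⟩ := D
  set y : G := b * b with hy
  have hysa : star y = y := by rw [hy, star_mul, b_sa]
  have y0 : 0 ≤ y := by
    have : y = star b * b := by rw [b_sa]
    rw [this]; exact star_mul_self_nonneg b
  have bws : ∀ i, Commute b (star (w i)) := fun i => by
    have := (bw i).star_star
    rwa [b_sa] at this
  have yw : ∀ i, Commute y (w i) := fun i => (bw i).mul_left (bw i)
  have yws : ∀ i, Commute y (star (w i)) := fun i => (bws i).mul_left (bws i)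
  have yS : y * S = 0 := by rw [hy, mul_assoc, bS, mul_zero]
  have commss : ∀ i j, i ≠ j → Commute (star (w i)) (star (w j)) := fun i j h =>
    (comm i j h).star_star
  have comms' : ∀ i j, i ≠ j → Commute (star (w i)) (w j) := fun i j h =>
    (comms j i (Ne.symm h)).symm
  -- the elements `c i`
  let c : Fin l → G := fun i => star (w i) * w i
  have hc : ∀ i, c i = star (w i) * w i := fun i => rfl
  have c0 : ∀ i, 0 ≤ c i := fun i => star_mul_self_nonneg _
  have yc : ∀ i, Commute y (c i) := fun i => (yws i).mul_right (yw i)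
  have hcc : ∀ i, c i * c i = c i * (1 - y) := by
    intro i
    have h1 : w i * star (w i) = 1 - y - c i := by rw [← sum_eq i]; simp only [hc]; abel
    calc c i * c i = star (w i) * (w i * star (w i)) * w i := by simp only [hc, mul_assoc]
      _ = star (w i) * (1 - y - c i) * w i := by rw [h1]
      _ = star (w i) * w i - star (w i) * (y * w i) - star (w i) * star (w i) * (w i * w i) := by
          simp only [hc]; noncomm_ring
      _ = c i * (1 - y) := by
          rw [ww, mul_zero, sub_zero, (yw i).eq, mul_sub, mul_one, ← mul_assoc]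
  -- the modes
  let x : Fin l → Bool → G := fun i k => if k then w i else csq (c i)
  have hxt : ∀ i, x i true = w i := fun i => rfl
  have hxf : ∀ i, x i false = csq (c i) := fun i => rfl
  have hsw : ∀ i, csq (c i) * w i = 0 := by
    intro i
    rw [← CStarRing.star_mul_self_eq_zero_iff, star_mul, star_csq]
    calc star (w i) * csq (c i) * (csq (c i) * w i)
        = star (w i) * (csq (c i) * csq (c i)) * w i := by simp only [mul_assoc]
      _ = star (w i) * star (w i) * (w i * w i) := by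
          rw [csq_mul_csq (c0 i)]; simp only [hc, mul_assoc]
      _ = 0 := by rw [ww, mul_zero]
  have hws : ∀ i, star (w i) * csq (c i) = 0 := by
    intro i
    have := congrArg star (hsw i)
    rwa [star_mul, star_csq, star_zero] at this
  have hxx : ∀ i j k, star (x i j) * x i k = if j = k then c i else 0 := by
    intro i j k
    cases j <;> cases k
    · simp [hxf, star_csq, csq_mul_csq (c0 i)]
    · simp [hxf, hxt, star_csq, hsw]
    · simp only [hxt, hxf, hws, Bool.true_eq_false, ↓reduceIte]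
    · simp only [hxt, ↓reduceIte, hc]
  have hxsum : ∀ i, ∑ k, x i k * star (x i k) = 1 - y := by
    intro i
    rw [Fintype.sum_bool, hxt, hxf, star_csq, csq_mul_csq (c0 i), ← sum_eq i, hc, add_comm]
  -- commutation between modes
  have cw : ∀ i j, i ≠ j → Commute (c i) (w j) := fun i j h =>
    (comms' i j h).mul_left (comm i j h)
  have cws : ∀ i j, i ≠ j → Commute (c i) (star (w j)) := fun i j h =>
    (commss i j h).mul_left (comms i j h)
  have ccc : ∀ i j, i ≠ j → Commute (c i) (c j) := fun i j h =>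
    (cws i j h).mul_right (cw i j h)
  have hxxc : ∀ i j, i ≠ j → ∀ k m, Commute (x i k) (x j m) := by
    intro i j h k m
    cases k <;> cases m
    · exact commute_csq (commute_csq (ccc i j h).symm).symm
    · exact commute_csq (cw i j h)
    · exact (commute_csq (cw j i h.symm)).symm
    · exact comm i j h
  have hxxs : ∀ i j, i ≠ j → ∀ k m, Commute (x i k) (star (x j m)) := by
    intro i j h k m
    cases k <;> cases m
    · rw [hxf, hxf, star_csq]
      exact commute_csq (commute_csq (ccc i j h).symm).symm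
    · exact commute_csq (cws i j h)
    · rw [hxt, hxf, star_csq]
      exact (commute_csq (cw j i h.symm)).symm
    · exact comms i j h
  have yx : ∀ i k, Commute y (x i k) := by
    intro i k
    cases k
    · exact (commute_csq (yc i).symm).symm
    · exact yw i
  have yxs : ∀ i k, Commute y (star (x i k)) := fun i k => by
    have := (yx i k).star_star
    rwa [hysa] at this
  -- products over the modes
  let X : (Fin l → Bool) → G := fun k => (List.ofFn (fun i => x i (k i))).prod
  let C : G := (List.ofFn c).prod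
  have hXs : ∀ k, star (X k) = (List.ofFn (fun i => star (x i (k i)))).prod := fun k =>
    star_prod_ofFn l _ (fun i j h => hxxc i j h _ _)
  have hXX : ∀ j k, star (X j) * X k = if j = k then C else 0 := by
    intro j k
    rw [hXs, prod_ofFn_mul l _ _ (fun i m h => hxxs i m h _ _)]
    by_cases hjk : j = k
    · subst hjk
      simp only [hxx, if_true]
      rfl
    · rw [if_neg hjk]
      obtain ⟨i, hi⟩ := Function.ne_iff.1 hjk
      have := (MultilinearMap.mkPiAlgebraFin ℂ l G).map_coord_zero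
        (m := fun i => star (x i (j i)) * x i (k i)) i (by simp only [hxx, if_neg hi])
      simpa only [MultilinearMap.mkPiAlgebraFin_apply] using this
  have hXsum : ∑ k, X k * star (X k) = (1 - y) ^ l := by
    have h1 : ∀ k, X k * star (X k) = (List.ofFn (fun i => x i (k i) * star (x i (k i)))).prod := by
      intro k
      rw [hXs]
      exact prod_ofFn_mul l _ _ (fun i m h => (hxxs m i h.symm _ _).symm)
    simp only [h1]
    have := (MultilinearMap.mkPiAlgebraFin ℂ l G).map_sum (fun i k => x i k * star (x i k))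
    simp only [MultilinearMap.mkPiAlgebraFin_apply] at this
    rw [← this]
    simp only [hxsum, List.ofFn_const, List.prod_replicate]
  have yX : ∀ k, Commute y (X k) := fun k => commute_prod_ofFn l y _ (fun i => yx i _)
  have yC : Commute y C := commute_prod_ofFn l y _ (fun i => yc i)
  have hCsa : star C = C := by
    show star (List.ofFn c).prod = (List.ofFn c).prod
    rw [star_prod_ofFn l _ ccc]
    simp only [hc, star_mul, star_star]
    rfl
  have hCC : C * C = C * (1 - y) ^ l := by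
    have h1 : C * C = (List.ofFn (fun i => c i * c i)).prod :=
      prod_ofFn_mul l c c (fun i j h => ccc i j h)
    have h2 : C * (List.ofFn (fun _ : Fin l => (1 - y))).prod
        = (List.ofFn (fun i => c i * (1 - y))).prod :=
      prod_ofFn_mul l c _ (fun i j _ => (Commute.one_left _).sub_left (yc j))
    rw [h1]
    simp only [hcc]
    rw [← h2, List.ofFn_const, List.prod_replicate]
  have hQQ : star Q * Q = C := by
    rw [Q_eq, star_prod_ofFn l _ comm, prod_ofFn_mul l _ _ (fun i j h => comms i j h)]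
  -- geometric sums
  set R : G := ∑ j ∈ Finset.range (l + 1), y ^ j with hR
  have R0 : 0 ≤ R := Finset.sum_nonneg fun j _ => CStarAlgebra.pow_nonneg y0 j
  have commR : ∀ {a : G}, Commute y a → Commute R a := fun {a} h =>
    Commute.sum_left _ _ _ (fun j _ => h.pow_left j)
  set t : G := y ^ (l + 1) with ht
  have t0 : 0 ≤ t := CStarAlgebra.pow_nonneg y0 _
  have hyR : (1 - y) * R = 1 - t := mul_neg_geom_sum y (l + 1)
  have commt : ∀ {a : G}, Commute y a → Commute t a := fun {a} h => h.pow_left _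
  set pp : G := ∑ j ∈ Finset.range l, (1 - t) ^ j with hpp
  have commpp : ∀ {a : G}, Commute y a → Commute pp a := fun {a} h =>
    Commute.sum_left _ _ _ (fun j _ => ((Commute.one_left a).sub_left (commt h)).pow_left j)
  have pp0 : 0 ≤ pp := by
    rcases Nat.eq_zero_or_pos l with rfl | hl
    · simp [hpp]
    · have h1y : 0 ≤ 1 - y := by
        rw [← sum_eq ⟨0, hl⟩]
        exact add_nonneg (star_mul_self_nonneg _) (mul_star_self_nonneg _)
      have h1t : 0 ≤ 1 - t := by
        rw [← hyR]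
        exact Commute.mul_nonneg h1y R0
          ((Commute.one_left _).sub_left (commR (Commute.refl y)).symm)
      exact Finset.sum_nonneg fun j _ => CStarAlgebra.pow_nonneg h1t j
  have htpp : t * pp = 1 - (1 - t) ^ l := by
    have := mul_neg_geom_sum (1 - t) l
    rw [sub_sub_cancel] at this
    exact this
  -- the roots
  set r : G := csq R with hr
  have hrr : r * r = R := csq_mul_csq R0
  have hrsa : star r = r := star_csq R
  have commr : ∀ {a : G}, Commute y a → Commute r a := fun h => commute_csq (commR h)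
  set q : G := csq pp with hq
  have hqq : q * q = pp := csq_mul_csq pp0
  have hqsa : star q = q := star_csq pp
  have commq : ∀ {a : G}, Commute y a → Commute q a := fun h => commute_csq (commpp h)
  have hrl : star (r ^ l) = r ^ l := by rw [star_pow, hrsa]
  have hrlrl : r ^ l * r ^ l = R ^ l := by
    rw [← (Commute.refl r).mul_pow, hrr]
  -- the polar element
  set T : G := C * S with hT
  have hyT : y * T = 0 := by rw [hT, ← mul_assoc, yC.eq, mul_assoc, yS, mul_zero]
  have hpowS : ∀ n : ℕ, (1 - y) ^ n * S = S := by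
    intro n
    induction n with
    | zero => simp
    | succ n ih => rw [pow_succ, mul_assoc, sub_mul, one_mul, yS, sub_zero, ih]
  have hCT : C * T = T := by
    rw [hT, ← mul_assoc, hCC, mul_assoc, hpowS]
  have hTT : star T * T = star S * (star Q * Q) * S := by
    rw [hT, star_mul, hCsa, hQQ, mul_assoc, ← mul_assoc C C S, hCC, mul_assoc C, hpowS,
      ← mul_assoc]
  have hbt : b ^ (2 * (l + 1)) = t := by
    rw [ht, hy, pow_mul, pow_two]
  obtain ⟨s, hs, hmem⟩ := Step8.exists_polar T t 1 t0 (by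
    rw [one_smul, hTT, ← hbt]; exact hle)
  have hys : y * s = 0 := by
    have hcl : IsClosed {x : G | y * x = 0} := isClosed_eq (by fun_prop) (by fun_prop)
    refine (hcl.closure_subset_iff.2 ?_) hmem
    rintro _ ⟨f, rfl⟩
    show y * (T * f) = 0
    rw [← mul_assoc, hyT, zero_mul]
  have hCs : C * s = s := by
    have hcl : IsClosed {x : G | C * x = x} := isClosed_eq (by fun_prop) (by fun_prop)
    refine (hcl.closure_subset_iff.2 ?_) hmem
    rintro _ ⟨f, rfl⟩
    show C * (T * f) = T * f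
    rw [← mul_assoc, hCT]
  have hRs : R * s = s := by
    rw [hR, Finset.sum_range_succ', pow_zero, add_mul, one_mul, Finset.sum_mul]
    rw [Finset.sum_eq_zero, zero_add]
    intro j _
    rw [pow_succ, mul_assoc, hys, mul_zero]
  have hRls : ∀ n : ℕ, R ^ n * s = s := by
    intro n
    induction n with
    | zero => simp
    | succ n ih => rw [pow_succ, mul_assoc, hRs, ih]
  refine ⟨⟨fun k => X k * r ^ l, C * R ^ l, 1 - (1 - t) ^ l, fun _ => s * q, ?_, ?_, ?_, ?_, ?_⟩⟩
  · intro j k
    have h1 : star (X j * r ^ l) * (X k * r ^ l) = r ^ l * (star (X j) * X k) * r ^ l := by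
      rw [star_mul, hrl]; simp only [mul_assoc]
    rw [h1, hXX]
    by_cases hjk : j = k
    · rw [if_pos hjk, if_pos hjk]
      rw [((commr yC).pow_left l).eq, mul_assoc, hrlrl]
    · rw [if_neg hjk, if_neg hjk, mul_zero, zero_mul]
  · have h1 : ∀ k, X k * r ^ l * star (X k * r ^ l) = X k * star (X k) * R ^ l := by
      intro k
      have hc1 : Commute (r ^ l) (star (X k)) := by
        have := ((commr (yX k)).pow_left l).star_star
        rwa [hrl] at this
      rw [star_mul, hrl, ← hrlrl]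
      calc X k * r ^ l * (r ^ l * star (X k)) = X k * (r ^ l * (r ^ l * star (X k))) := by
            simp only [mul_assoc]
        _ = X k * star (X k) * (r ^ l * r ^ l) := by
            rw [hc1.eq, ← mul_assoc (r ^ l), hc1.eq]; simp only [mul_assoc]
    simp only [h1]
    rw [← Finset.sum_mul, hXsum]
    have hc2 : Commute (1 - y) R := (Commute.one_left _).sub_left (commR (Commute.refl y)).symm
    rw [← hc2.mul_pow, hyR]
    abel
  · intro k
    have hc3 : Commute t (X k * r ^ l) :=
      (commt (yX k)).mul_right ((commt (commr (Commute.refl y)).symm).pow_right l)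
    exact ((Commute.one_left _).sub_left
      (((Commute.one_left _).sub_left hc3).pow_left l)).symm
  · intro a b'
    rw [if_pos (Subsingleton.elim a b')]
    calc star (s * q) * (s * q) = q * (star s * s) * q := by
          rw [star_mul, hqsa]; simp only [mul_assoc]
      _ = q * t * q := by rw [hs]
      _ = t * pp := by
          rw [← (commt (commq (Commute.refl y)).symm).eq, mul_assoc, hqq]
      _ = 1 - (1 - t) ^ l := htpp
  · intro a
    rw [← mul_assoc, mul_assoc C, hRls, hCs]

end Vale.Agent.P101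
end

section

/-! Assembly of the steps for the algebras `Fcs A μ`. -/

open Filter Topology

namespace Vale.Agent.P101

universe u

end Vale.Agent.P101
end

section

/-! If the central sequence algebra has no characters then the algebra has the uniform McDuff
property and uniform property Gamma. -/

set_option linter.unusedSectionVars false

open Filter Topology

namespace Vale.Agent.P095

universe u v w

open Vale.Agent.P101 Vale.Agent.P095J GlueTr

namespace NCG

section maps

variable {F : Type u} {H : Type v} [CStarAlgebra F] [CStarAlgebra H]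

/-- image of gluing data -/
def gmap {α γ : Type} [Fintype α] [DecidableEq α] [DecidableEq γ] (D : GlueData α γ F)
    (f : F →⋆ₐ[ℂ] H) : GlueData α γ H where
  g k := f (D.g k)
  e := f D.e
  z := f D.z
  s a := f (D.s a)
  gg k l := by rw [← map_star, ← map_mul, D.gg]; split_ifs <;> simp
  sum_eq := by
    rw [← map_one f, ← map_sub, ← D.sum_eq, map_sum]
    simp only [map_mul, map_star]
  gz k := (D.gz k).map f
  ss a b := by rw [← map_star, ← map_mul, D.ss]; split_ifs <;> simp
  es a := by rw [← map_mul, D.es]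

end maps

section lifts

variable {A : Type u} [CStarAlgebra A] {ι : Type v} (μ : Filter ι)

theorem exists_lift_one (x : Bq A μ) (hx : ‖x‖ ≤ 1) :
    ∃ X : bddSeq A ι, Bq.mk μ X = x ∧ ∀ i, ‖(X : ι → A) i‖ ≤ 1 := by
  obtain ⟨Y, rfl⟩ := Bq.mk_surjective μ x
  have h1 : ∀ i, ‖(((max 1 ‖(Y : ι → A) i‖)⁻¹ : ℝ) : ℂ) • (Y : ι → A) i‖ ≤ 1 := by
    intro i
    have h0 : (0 : ℝ) < max 1 ‖(Y : ι → A) i‖ := lt_of_lt_of_le one_pos (le_max_left _ _)
    rw [norm_smul, Complex.norm_real, Real.norm_of_nonneg (inv_nonneg.2 h0.le),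
      inv_mul_le_iff₀ h0, mul_one]
    exact le_max_right _ _
  refine ⟨⟨fun i => (((max 1 ‖(Y : ι → A) i‖)⁻¹ : ℝ) : ℂ) • (Y : ι → A) i, ⟨1, h1⟩⟩, ?_, h1⟩
  rw [Bq.mk_eq_iff, Metric.tendsto_nhds]
  intro ε hε
  filter_upwards [Bq.eventually_norm_lt μ Y (c := 1 + ε) (by linarith only [hx, hε])] with i hi
  rw [dist_zero_right, norm_norm]
  show ‖(((max 1 ‖(Y : ι → A) i‖)⁻¹ : ℝ) : ℂ) • (Y : ι → A) i - (Y : ι → A) i‖ < ε
  set m : ℝ := max 1 ‖(Y : ι → A) i‖ with hm
  have hm1 : 1 ≤ m := le_max_left _ _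
  have hm2 : m < 1 + ε := max_lt (by linarith only [hε]) hi
  have e : (((m)⁻¹ : ℝ) : ℂ) • (Y : ι → A) i - (Y : ι → A) i =
      (((m)⁻¹ - 1 : ℝ) : ℂ) • (Y : ι → A) i := by
    push_cast
    rw [sub_smul, one_smul]
  rw [e, norm_smul, Complex.norm_real, Real.norm_eq_abs, abs_sub_comm]
  have hinv : m⁻¹ ≤ 1 := inv_le_one_of_one_le₀ hm1
  rw [abs_of_nonneg (by linarith only [hinv])]
  have h3 : ‖(Y : ι → A) i‖ ≤ m := le_max_right _ _
  calc (1 - m⁻¹) * ‖(Y : ι → A) i‖ ≤ (1 - m⁻¹) * m :=
        mul_le_mul_of_nonneg_left h3 (by linarith)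
    _ = m - 1 := by (clear * - hm1; field_simp)
    _ < ε := by linarith

variable [NeBot μ]

end lifts

section core

variable {A : Type u} [CStarAlgebra A] {ι : Type} {μ : Filter ι} [NeBot μ]

end core

section order

variable {F : Type u} [CStarAlgebra F] {α : Type} [Fintype α] [DecidableEq α]
  (D : GlueData α Unit F)

theorem blk_le [PartialOrder F] [StarOrderedRing F] (B : Finset α) : 0 ≤ blk D B ∧
    blk D B ≤ 1 := by
  have h0 : ∀ C : Finset α, 0 ≤ blk D C := fun C => by
    unfold blk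
    exact Finset.sum_nonneg fun k _ => mul_star_self_nonneg _
  refine ⟨h0 B, ?_⟩
  have h1 : blk D Finset.univ = 1 - D.z := D.sum_eq
  have h2 : blk D Finset.univ = blk D B + blk D Bᶜ := by
    unfold blk
    exact (Finset.sum_add_sum_compl B _).symm
  have h3 : 0 ≤ D.z := by
    rw [← z_eq D]; exact star_mul_self_nonneg _
  have h4 : 1 - blk D B = D.z + blk D Bᶜ := by
    have : (1 : F) = blk D B + blk D Bᶜ + D.z := by
      rw [← h2, h1]; abel
    rw [this]; abel
  rw [← sub_nonneg, h4]
  exact add_nonneg h3 (h0 _)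

/-- the nilpotent -/
def nil {l : ℕ} (D : GlueData (Fin (l + 1) → Bool) Unit F) : F :=
  ∑ c : Fin l → Bool, D.g (Fin.cons false c) * star (D.g (Fin.cons true c))

theorem cons_inj {l : ℕ} {b b' : Bool} {c c' : Fin l → Bool} :
    (Fin.cons b c : Fin (l + 1) → Bool) = Fin.cons b' c' ↔ b = b' ∧ c = c' :=
  Fin.cons_inj

theorem nil_sq {l : ℕ} (D : GlueData (Fin (l + 1) → Bool) Unit F) : nil D * nil D = 0 := by
  unfold nil
  rw [Finset.sum_mul]
  refine Finset.sum_eq_zero fun c _ => ?_
  rw [Finset.mul_sum]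
  refine Finset.sum_eq_zero fun d _ => ?_
  rw [mul_assoc, ← mul_assoc (star (D.g (Fin.cons true c))), D.gg, if_neg, zero_mul, mul_zero]
  intro h
  exact absurd (cons_inj.1 h).1 (by decide)

theorem nil_star_mul {l : ℕ} (D : GlueData (Fin (l + 1) → Bool) Unit F) :
    star (nil D) * nil D = ∑ c : Fin l → Bool,
      D.g (Fin.cons true c) * D.e * star (D.g (Fin.cons true c)) := by
  unfold nil
  rw [star_sum, Finset.sum_mul]
  refine Finset.sum_congr rfl fun c _ => ?_
  rw [Finset.mul_sum, Finset.sum_eq_single c]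
  · rw [star_mul, star_star, mul_assoc, ← mul_assoc (star (D.g (Fin.cons false c))), e_eq,
      ← mul_assoc]
  · intro d _ hd
    rw [star_mul, star_star, mul_assoc, ← mul_assoc (star (D.g (Fin.cons false c))), D.gg,
      if_neg, zero_mul, mul_zero]
    intro h
    exact hd (cons_inj.1 h).2.symm
  · intro h; exact absurd (Finset.mem_univ c) h

theorem nil_mul_star {l : ℕ} (D : GlueData (Fin (l + 1) → Bool) Unit F) :
    nil D * star (nil D) = ∑ c : Fin l → Bool,
      D.g (Fin.cons false c) * D.e * star (D.g (Fin.cons false c)) := by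
  unfold nil
  rw [star_sum, Finset.sum_mul]
  refine Finset.sum_congr rfl fun c _ => ?_
  rw [Finset.mul_sum, Finset.sum_eq_single c]
  · rw [star_mul, star_star, mul_assoc, ← mul_assoc (star (D.g (Fin.cons true c))), e_eq,
      ← mul_assoc]
  · intro d _ hd
    rw [star_mul, star_star, mul_assoc, ← mul_assoc (star (D.g (Fin.cons true c))), D.gg,
      if_neg, zero_mul, mul_zero]
    intro h
    exact hd (cons_inj.1 h).2.symm
  · intro h; exact absurd (Finset.mem_univ c) h

theorem sum_cons {l : ℕ} {M : Type*} [AddCommMonoid M] (f : (Fin (l + 1) → Bool) → M) :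
    ∑ k, f k = ∑ c : Fin l → Bool, f (Fin.cons true c) +
      ∑ c : Fin l → Bool, f (Fin.cons false c) := by
  rw [← (Fin.consEquiv (fun _ => Bool)).sum_comp, Fintype.sum_prod_type]
  simp only [Fintype.sum_bool]
  rfl

theorem nil_sum {l : ℕ} (D : GlueData (Fin (l + 1) → Bool) Unit F) :
    star (nil D) * nil D + nil D * star (nil D) = (1 - D.z) * (1 - D.z) := by
  rw [nil_star_mul, nil_mul_star, ← sum_geg, sum_cons]

theorem norm_nil_le {l : ℕ} (D : GlueData (Fin (l + 1) → Bool) Unit F) : ‖nil D‖ ≤ 1 := by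
  let _ : PartialOrder F := CStarAlgebra.spectralOrder F
  have _ : StarOrderedRing F := CStarAlgebra.spectralOrderedRing F
  have h1 : ‖(1 : F) - D.z‖ ≤ 1 := by
    have h2 := blk_le D Finset.univ
    have h3 : blk D Finset.univ = 1 - D.z := D.sum_eq
    rw [h3] at h2
    rcases subsingleton_or_nontrivial F with hF | hF
    · rw [Subsingleton.elim ((1 : F) - D.z) 0, norm_zero]; exact zero_le_one
    · exact (CStarAlgebra.norm_le_norm_of_nonneg_of_le h2.1 h2.2).trans_eq norm_one
  have h4 : star (nil D) * nil D ≤ (1 - D.z) * (1 - D.z) := by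
    rw [← nil_sum, le_add_iff_nonneg_right]
    exact mul_star_self_nonneg _
  have h5 : ‖star (nil D) * nil D‖ ≤ 1 := by
    refine (CStarAlgebra.norm_le_norm_of_nonneg_of_le (star_mul_self_nonneg _) h4).trans ?_
    refine (norm_mul_le _ _).trans ?_
    exact mul_le_one₀ h1 (norm_nonneg _) h1
  rw [CStarRing.norm_star_mul_self] at h5
  nlinarith only [h5]

end order

section main

variable {A : Type u} [CStarAlgebra A] {ι : Type} {μ : Filter ι} [NeBot μ]

/-- a large power of two -/
theorem exists_pow (δ : ℝ) (hδ : 0 < δ) (k : ℝ) : ∃ l : ℕ,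
    1 ≤ δ ^ 2 * (2 : ℝ) ^ (l + 1) ∧ k ≤ (2 : ℝ) ^ (l + 1) := by
  obtain ⟨n, hn⟩ := pow_unbounded_of_one_lt (max (1 / δ ^ 2) k) (one_lt_two (α := ℝ))
  refine ⟨n, ?_, ?_⟩
  · have h1 : 1 / δ ^ 2 ≤ (2 : ℝ) ^ (n + 1) := by
      have : 1 / δ ^ 2 ≤ (2 : ℝ) ^ n := (le_max_left _ _).trans hn.le
      have h0 : 0 ≤ 1 / δ ^ 2 := by positivity
      have h1 : (2 : ℝ) ^ (n + 1) = 2 ^ n * 2 := pow_succ _ _
      rw [h1]
      linarith
    calc (1 : ℝ) = δ ^ 2 * (1 / δ ^ 2) := by field_simp
      _ ≤ δ ^ 2 * (2 : ℝ) ^ (n + 1) := by gcongr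
  · have : k ≤ (2 : ℝ) ^ n := (le_max_right _ _).trans hn.le
    have h0 : (0 : ℝ) ≤ (2 : ℝ) ^ n := by positivity
    have h1 : (2 : ℝ) ^ (n + 1) = 2 ^ n * 2 := pow_succ _ _
    rw [h1]; linarith only [this, h0]

theorem card_eq (l : ℕ) : (Fintype.card (Fin (l + 1) → Bool) : ℝ) = (2 : ℝ) ^ (l + 1) := by
  rw [Fintype.card_pi_const]; simp

/-- disjoint blocks -/
theorem exists_blocks (l k : ℕ) (hk : 1 ≤ k) : ∃ (B : Fin k → Finset (Fin (l + 1) → Bool)) (m : ℕ),
    (∀ i j, i ≠ j → Disjoint (B i) (B j)) ∧ (∀ i, (B i).card = m) ∧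
      |(m : ℝ) / (2 : ℝ) ^ (l + 1) - 1 / k| ≤ 1 / (2 : ℝ) ^ (l + 1) := by
  classical
  set n : ℕ := 2 ^ (l + 1) with hn
  have hcard : Fintype.card (Fin (l + 1) → Bool) = n := by
    rw [Fintype.card_pi_const]; simp [hn]
  let φ : (Fin (l + 1) → Bool) ≃ Fin n := Fintype.equivFinOfCardEq hcard
  set m : ℕ := n / k with hm
  have hmk : m * k ≤ n := Nat.div_mul_le_self n k
  have hlt : ∀ (i : Fin k) (j : Fin m), (i : ℕ) * m + (j : ℕ) < n := by
    intro i j
    have h1 : (i : ℕ) + 1 ≤ k := i.2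
    have h2 : ((i : ℕ) + 1) * m ≤ k * m := Nat.mul_le_mul_right m h1
    have h3 := j.2
    calc (i : ℕ) * m + (j : ℕ) < i * m + m := by omega
      _ = ((i : ℕ) + 1) * m := by ring
      _ ≤ k * m := h2
      _ = m * k := by ring
      _ ≤ n := hmk
  let f : (i : Fin k) → Fin m ↪ (Fin (l + 1) → Bool) := fun i =>
    ⟨fun j => φ.symm ⟨(i : ℕ) * m + (j : ℕ), hlt i j⟩, fun j j' hjj => by
      have h0 := φ.symm.injective hjj
      have h1 : (i : ℕ) * m + (j : ℕ) = (i : ℕ) * m + (j' : ℕ) := congrArg Fin.val h0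
      exact Fin.ext (by omega)⟩
  refine ⟨fun i => (Finset.univ : Finset (Fin m)).map (f i), m, ?_, ?_, ?_⟩
  · intro i j hij
    rw [Finset.disjoint_left]
    intro x hx hx'
    rw [Finset.mem_map] at hx hx'
    obtain ⟨a, -, rfl⟩ := hx
    obtain ⟨b, -, hb⟩ := hx'
    have h0 := φ.symm.injective hb
    have h1 : (j : ℕ) * m + (b : ℕ) = (i : ℕ) * m + (a : ℕ) := congrArg Fin.val h0
    apply hij
    apply Fin.ext
    have ha := a.2
    have hb' := b.2
    have hm0 : 0 < m := by omega
    have e1 : ((i : ℕ) * m + a) / m = i := by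
      rw [Nat.add_comm, Nat.add_mul_div_right _ _ hm0, Nat.div_eq_of_lt ha, Nat.zero_add]
    have e2 : ((j : ℕ) * m + b) / m = j := by
      rw [Nat.add_comm, Nat.add_mul_div_right _ _ hm0, Nat.div_eq_of_lt hb', Nat.zero_add]
    rw [← e1, ← e2, ← h1]
  · intro i
    rw [Finset.card_map, Finset.card_univ, Fintype.card_fin]
  · have hk0 : (0 : ℝ) < k := by exact_mod_cast hk
    have hn0 : (0 : ℝ) < (2 : ℝ) ^ (l + 1) := by positivity
    have hnc : ((n : ℕ) : ℝ) = (2 : ℝ) ^ (l + 1) := by rw [hn]; push_cast; rfl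
    have h1 : (m : ℝ) * k ≤ (2 : ℝ) ^ (l + 1) := by rw [← hnc]; exact_mod_cast hmk
    have h2 : (2 : ℝ) ^ (l + 1) ≤ (m : ℝ) * k + k := by
      rw [← hnc]
      have : n < (m + 1) * k := by
        rw [hm, mul_comm]; exact Nat.lt_mul_div_succ n hk
      have h3 : (n : ℝ) < ((m : ℝ) + 1) * k := by exact_mod_cast this
      linarith only [h3]
    rw [abs_le]
    constructor
    · have : (1 : ℝ) / k ≤ (m + 1) / 2 ^ (l + 1) := by
        rw [div_le_div_iff₀ hk0 hn0]; linarith only [h2]
      rw [add_div] at this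
      linarith only [this]
    · rw [sub_le_iff_le_add]
      have : (m : ℝ) / 2 ^ (l + 1) ≤ 1 / k := by
        rw [div_le_div_iff₀ hn0 hk0]; linarith only [h1]
      have h4 : (0 : ℝ) ≤ 1 / 2 ^ (l + 1) := by positivity
      linarith only [this, h4]

end main

end NCG

end Vale.Agent.P095
end

section

/-! An algebra with gluing data commuting with finite sets is uniformly McDuff and has uniform
property Gamma. -/

set_option linter.unusedSectionVars false

open Filter Topology

namespace Vale.Agent.P095N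

open Vale.Agent.P101 Vale.Agent.P095 Vale.Agent.P095.NCG Vale.Agent.P095.GlueTr

universe u v

variable {A : Type u} [CStarAlgebra A]

/-- Gluing data commuting with finite sets. -/
def CommGlue (A : Type u) [CStarAlgebra A] : Prop :=
  ∀ (F : Finset A) (l : ℕ), ∃ D : GlueData (Fin (l + 1) → Bool) Unit A,
    ∀ a ∈ F, ∀ k, a * D.g k = D.g k * a

theorem two_of_nrm {x : A} {ε : ℝ}
    (h : ∀ T : A →ₗ[ℂ] ℂ, IsTracialState T → nrm T x ≤ ε) : TwoNormLE x ε := by
  intro τ hτ
  rw [← nrm_sq hτ]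
  exact pow_le_pow_left₀ (nrm_nonneg _) (h τ hτ) 2

/-- `star` closure -/
theorem comm_glue_star (h : CommGlue A) (F : Finset A) (l : ℕ) :
    ∃ D : GlueData (Fin (l + 1) → Bool) Unit A,
      ∀ a ∈ F, ∀ k, a * D.g k = D.g k * a ∧ a * star (D.g k) = star (D.g k) * a := by
  classical
  obtain ⟨D, hD⟩ := h (F ∪ F.image star) l
  refine ⟨D, fun a ha k => ⟨hD a (Finset.mem_union_left _ ha) k, ?_⟩⟩
  have h1 := hD (star a) (Finset.mem_union_right _ (Finset.mem_image_of_mem _ ha)) k
  have := congrArg star h1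
  rw [star_mul, star_mul, star_star] at this
  exact this.symm

theorem uniformMcDuff_of_commGlue (h : CommGlue A) : UniformMcDuff A := by
  intro F ε hε
  obtain ⟨l, hl, -⟩ := exists_pow (ε / 4) (by positivity) 0
  obtain ⟨D, hD⟩ := comm_glue_star h F l
  refine ⟨nil D, norm_nil_le D, ?_, ?_, ?_⟩
  · refine two_of_nrm fun T hT => ?_
    rw [nil_sq, nrm_zero]
    exact hε.le
  · refine two_of_nrm fun T hT => ?_
    rw [nil_sum]
    have e : (1 - D.z) * (1 - D.z) - 1 = -(D.z + D.z - D.z * D.z) := by noncomm_ring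
    rw [e, nrm_neg]
    obtain ⟨h1, h2⟩ := nrm_z_le D hT (δ := ε / 4) (by positivity) (by rw [card_eq]; exact hl)
    have h3 := nrm_sub_le hT (D.z + D.z) (D.z * D.z)
    have h4 := nrm_add_le hT D.z D.z
    linarith only [hε, h1, h2, h3, h4]
  · intro a ha
    have e : nil D * a = a * nil D := by
      unfold nil
      rw [Finset.sum_mul, Finset.mul_sum]
      refine Finset.sum_congr rfl fun c _ => ?_
      rw [mul_assoc, ← (hD a ha _).2, ← mul_assoc, ← (hD a ha _).1, mul_assoc]
    refine two_of_nrm fun T hT => ?_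
    rw [e, sub_self, nrm_zero]
    exact hε.le

theorem uniformGamma_of_commGlue (h : CommGlue A) : UniformGamma A := by
  intro k hk F ε hε
  set M : ℝ := 1 + ∑ a ∈ F, ‖a‖ with hM
  have hM1 : 1 ≤ M := by
    have : 0 ≤ ∑ a ∈ F, ‖a‖ := Finset.sum_nonneg fun _ _ => norm_nonneg _
    linarith only [this]
  have hMa : ∀ a ∈ F, ‖a‖ ≤ M := fun a ha => by
    have := Finset.single_le_sum (f := fun a : A => ‖a‖) (fun _ _ => norm_nonneg _) ha
    have h' : ‖a‖ ≤ ∑ a ∈ F, ‖a‖ := this
    linarith only [this]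
  set δ : ℝ := min (ε / 4) (ε / (8 * M)) with hδ
  have hδ0 : 0 < δ := lt_min (by positivity) (by positivity)
  obtain ⟨l, hl, hl2⟩ := exists_pow δ hδ0 (8 * M / ε)
  obtain ⟨D, hD⟩ := comm_glue_star h F l
  obtain ⟨B, m, hB1, hB2, hB3⟩ := exists_blocks l k hk
  let _ : PartialOrder A := CStarAlgebra.spectralOrder A
  have _ : StarOrderedRing A := CStarAlgebra.spectralOrderedRing A
  have hz : ∀ T : A →ₗ[ℂ] ℂ, IsTracialState T → nrm T D.z ≤ δ ∧ nrm T (D.z * D.z) ≤ δ :=
    fun T hT => nrm_z_le D hT hδ0 (by rw [card_eq]; exact hl)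
  have hδε : δ ≤ ε / 4 := min_le_left _ _
  have hδM : M * δ ≤ ε / 8 := by
    have h1 : δ ≤ ε / (8 * M) := min_le_right _ _
    calc M * δ ≤ M * (ε / (8 * M)) := by (clear * - h1; gcongr)
      _ = ε / 8 := by field_simp
  have hconst : ∀ T : A →ₗ[ℂ] ℂ, IsTracialState T → ∀ a ∈ F, nrm T a ≤ M := by
    intro T hT a ha
    have h1 : (T (star a * a)).re ≤ ‖star a * a‖ := (Complex.re_le_norm _).trans (hT.norm_le _)
    rw [CStarRing.norm_star_mul_self] at h1
    have h2 : ‖a‖ ≤ M := hMa a ha
    rw [← nrm_sq hT] at h1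
    refine le_of_sq_le_sq ?_ (by linarith only [hM1])
    refine h1.trans ?_
    nlinarith only [h2, norm_nonneg a]
  have hcomm : ∀ i, ∀ a ∈ F, a * blk D (B i) = blk D (B i) * a := by
    intro i a ha
    unfold blk
    rw [Finset.sum_mul, Finset.mul_sum]
    refine Finset.sum_congr rfl fun c _ => ?_
    rw [mul_assoc, ← (hD a ha _).2, ← mul_assoc, (hD a ha _).1, mul_assoc]
  refine ⟨fun i => blk D (B i), fun i => ⟨?_, ?_, ?_⟩, fun i j hij => ?_, fun i a ha => ?_,
    fun i a ha T hT => ?_⟩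
  · exact CStarAlgebra.nonneg_iff_eq_star_mul_self.1 (blk_le D (B i)).1
  · show ‖blk D (B i)‖ ≤ 1
    have h1 := blk_le D (B i)
    rcases subsingleton_or_nontrivial A with hF | hF
    · rw [Subsingleton.elim (blk D (B i)) 0, norm_zero]; exact zero_le_one
    · exact (CStarAlgebra.norm_le_norm_of_nonneg_of_le h1.1 h1.2).trans_eq norm_one
  · refine two_of_nrm fun T hT => ?_
    have e : blk D (B i) * blk D (B i) - blk D (B i) = -(blk D (B i) * D.z) := by
      rw [← blk_z]; abel
    rw [e, nrm_neg]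
    have h1 := nrm_blk_z_le D hT (B i)
    have h2 := nrm_sub_le hT D.z (D.z * D.z)
    have h3 := hz T hT
    linarith only [hδ0, hδε, h1, h2, h3]
  · refine two_of_nrm fun T hT => ?_
    rw [blk_mul D _ _ (hB1 i j hij), nrm_zero]
    exact hε.le
  · refine two_of_nrm fun T hT => ?_
    rw [hcomm i a ha, sub_self, nrm_zero]
    exact hε.le
  · have h2 := tr_blk_le D hT (B i) a (fun k => (hD a ha k).1)
    rw [hB2, card_eq] at h2
    have h3 : nrm T a * nrm T D.z ≤ M * δ :=
      mul_le_mul (hconst T hT a ha) (hz T hT).1 (nrm_nonneg _) (by linarith only [hM1])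
    have h4 : ‖T a‖ ≤ M := (norm_map_le hT _).trans (hconst T hT a ha)
    have e : T (a * blk D (B i)) - T a / k =
        (T (a * blk D (B i)) - (((m : ℝ) / (2 : ℝ) ^ (l + 1) : ℝ) : ℂ) * T a) +
        ((((m : ℝ) / (2 : ℝ) ^ (l + 1) - 1 / k : ℝ)) : ℂ) * T a := by
      push_cast; ring
    rw [e]
    have h5 : ‖((((m : ℝ) / (2 : ℝ) ^ (l + 1) - 1 / k : ℝ)) : ℂ) * T a‖ ≤
        1 / (2 : ℝ) ^ (l + 1) * M := by
      rw [norm_mul, Complex.norm_real, Real.norm_eq_abs]
      exact mul_le_mul hB3 h4 (norm_nonneg _) (by positivity)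
    have h6 : 1 / (2 : ℝ) ^ (l + 1) * M ≤ ε / 8 := by
      rw [one_div, inv_mul_le_iff₀ (by positivity)]
      rw [div_le_iff₀ hε] at hl2
      nlinarith only [hl2]
    have h7 := norm_add_le (T (a * blk D (B i)) - (((m : ℝ) / (2 : ℝ) ^ (l + 1) : ℝ) : ℂ) * T a)
        (((((m : ℝ) / (2 : ℝ) ^ (l + 1) - 1 / k : ℝ)) : ℂ) * T a)
    linarith only [hδ0, hδε, hδM, h2, h3, h5, h6, h7]

end Vale.Agent.P095N
end

section

/-! Orthogonal central elements. -/

set_option linter.unusedSectionVars false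

open Filter Topology

namespace Vale.Agent.P095

universe u v w

open Vale.Agent.P101

namespace Orth

/-- In a glue system over a nontrivial C*-algebra the corner element has norm one. -/
theorem norm_e_eq_one {K : Type} [Fintype K] [DecidableEq K] {F : Type*} [CStarAlgebra F]
    [Nontrivial F] (D : GlueData K Unit F) (k₀ : K) : ‖D.e‖ = 1 := by
  let _ : PartialOrder F := CStarAlgebra.spectralOrder F
  have _ : StarOrderedRing F := CStarAlgebra.spectralOrderedRing F
  have he : ∀ k, star (D.g k) * D.g k = D.e := fun k => by rw [D.gg]; simp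
  have hsa : star D.e = D.e := by rw [← he k₀, star_mul, star_star]
  have hnn : 0 ≤ D.e := by rw [← he k₀]; exact star_mul_self_nonneg _
  -- e * e + star (s g) (s g) = e
  have hmul : D.e * D.e + star (D.s () * D.g k₀) * (D.s () * D.g k₀) = D.e := by
    have h1 : star (D.g k₀) * (∑ k, D.g k * star (D.g k)) * D.g k₀ = D.e * D.e := by
      rw [Finset.mul_sum, Finset.sum_mul, Finset.sum_eq_single k₀]
      · have : star (D.g k₀) * (D.g k₀ * star (D.g k₀)) * D.g k₀ =
            (star (D.g k₀) * D.g k₀) * (star (D.g k₀) * D.g k₀) := by noncomm_ring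
        rw [this, he]
      · intro k _ hk
        have : star (D.g k₀) * (D.g k * star (D.g k)) * D.g k₀ =
            (star (D.g k₀) * D.g k) * (star (D.g k) * D.g k₀) := by noncomm_ring
        rw [this, D.gg, if_neg (Ne.symm hk), zero_mul]
      · intro h; exact absurd (Finset.mem_univ _) h
    have h2 : star (D.g k₀) * (1 - D.z) * D.g k₀ =
        D.e - star (D.s () * D.g k₀) * (D.s () * D.g k₀) := by
      have h3 : star (D.s ()) * D.s () = D.z := by rw [D.ss]; simp
      rw [star_mul, mul_sub, mul_one, sub_mul, he, ← h3]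
      noncomm_ring
    rw [D.sum_eq] at h1
    rw [← h1, h2]
    abel
  have hle : D.e * D.e ≤ D.e := by
    have h0 : 0 ≤ star (D.s () * D.g k₀) * (D.s () * D.g k₀) := star_mul_self_nonneg _
    calc D.e * D.e ≤ D.e * D.e + star (D.s () * D.g k₀) * (D.s () * D.g k₀) :=
          le_add_of_nonneg_right h0
      _ = D.e := hmul
  have hsq : ‖D.e * D.e‖ = ‖D.e‖ * ‖D.e‖ := by
    conv_lhs => rw [← hsa]
    rw [hsa]
    nth_rewrite 1 [← hsa]
    exact CStarRing.norm_star_mul_self
  have hup : ‖D.e‖ ≤ 1 := by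
    have h0 : 0 ≤ D.e * D.e := by
      nth_rewrite 1 [← hsa]
      exact star_mul_self_nonneg _
    have h1 := CStarAlgebra.norm_le_norm_of_nonneg_of_le h0 hle
    rw [hsq] at h1
    by_contra hcon
    push Not at hcon
    nlinarith only [h1, hcon]
  by_cases hs : D.s () = 0
  · have hz : D.z = 0 := by
      have h3 : star (D.s ()) * D.s () = D.z := by rw [D.ss]; simp
      rw [← h3, hs, mul_zero]
    rw [hs, zero_mul, star_zero, zero_mul, add_zero] at hmul
    have h1 : ‖D.e‖ * ‖D.e‖ = ‖D.e‖ := by rw [← hsq, hmul]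
    rcases eq_or_ne ‖D.e‖ 0 with h0 | h0
    · exfalso
      have hg : ∀ k, D.g k = 0 := by
        intro k
        have : ‖D.g k‖ * ‖D.g k‖ = 0 := by
          rw [← CStarRing.norm_star_mul_self, he, h0]
        exact norm_eq_zero.mp (mul_self_eq_zero.mp this)
      have := D.sum_eq
      rw [hz, sub_zero] at this
      simp only [hg, zero_mul, Finset.sum_const_zero] at this
      exact zero_ne_one this
    · exact mul_right_cancel₀ h0 (by rw [h1, one_mul])
  · refine le_antisymm hup ?_
    have h1 : ‖D.s ()‖ ≤ ‖D.e‖ * ‖D.s ()‖ := by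
      conv_lhs => rw [← D.es ()]
      exact norm_mul_le _ _
    have h2 : 0 < ‖D.s ()‖ := norm_pos_iff.mpr hs
    by_contra hcon
    push Not at hcon
    nlinarith only [h1, h2, hcon]

end Orth

end Vale.Agent.P095
end

section

set_option linter.unusedSectionVars false
set_option linter.unusedVariables false
set_option linter.unusedSimpArgs false

namespace Vale.Agent.P095

open Filter Topology ComplexConjugate

variable {A : Type*} [CStarAlgebra A]

theorem clampC_spec (z : A) (t : ℝ) (ht : t ∈ spectrum ℝ (star z * z)) :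
    0 ≤ t ∧ t ≤ ‖z‖ ^ 2 := by
  refine ⟨spectrum_star_mul_self_nonneg t ht, ?_⟩
  have h1 : ‖t‖ ≤ ‖star z * z‖ := by
    rcases subsingleton_or_nontrivial A with h | h
    · exact absurd ht (by simp only [spectrum.of_subsingleton, Set.mem_empty_iff_false, not_false_eq_true])
    · exact spectrum.norm_le_norm_of_mem ht
  have h2 : ‖star z * z‖ = ‖z‖ * ‖z‖ := CStarRing.norm_star_mul_self
  rw [Real.norm_eq_abs] at h1
  have := le_abs_self t
  linarith

/-- the cut-off function -/
noncomputable def clampG (t : ℝ) : ℝ := (Real.sqrt (max 1 t))⁻¹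

theorem clampG_cont : Continuous clampG := by
  unfold clampG
  refine Continuous.inv₀ (by fun_prop) fun t => ?_
  have : (0 : ℝ) < max 1 t := lt_of_lt_of_le one_pos (le_max_left _ _)
  exact (Real.sqrt_pos.2 this).ne'

theorem clampG_sq (t : ℝ) (ht : 0 ≤ t) : clampG t * (t * clampG t) ≤ 1 := by
  unfold clampG
  have h1 : (0 : ℝ) < max 1 t := lt_of_lt_of_le one_pos (le_max_left _ _)
  have h2 := Real.sqrt_pos.2 h1
  have h3 := Real.mul_self_sqrt h1.le
  have h4 : (Real.sqrt (max 1 t))⁻¹ * (t * (Real.sqrt (max 1 t))⁻¹) =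
      t / (Real.sqrt (max 1 t) * Real.sqrt (max 1 t)) := by
    (clear * -; field_simp)
  rw [h4, h3, div_le_one h1]
  exact le_max_right _ _

theorem clampG_sq_nonneg (t : ℝ) (ht : 0 ≤ t) : 0 ≤ clampG t * (t * clampG t) := by
  unfold clampG; positivity

theorem clampG_diff (t : ℝ) (ht : 0 ≤ t) :
    (clampG t - 1) * (t * (clampG t - 1)) ≤ max 0 (t - 1) * (t - 1) := by
  unfold clampG
  rcases le_total t 1 with h | h
  · rw [max_eq_left h, Real.sqrt_one, max_eq_left (by linarith)]; simp
  · rw [max_eq_right h, max_eq_right (by linarith only [h])]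
    have h1 : (0 : ℝ) < t := by linarith
    have h2 := Real.sqrt_pos.2 h1
    have h3 := Real.mul_self_sqrt h1.le
    set r := Real.sqrt t with hr
    have hr1 : 1 ≤ r := by
      rw [hr]; exact Real.one_le_sqrt.2 h
    have h4 : (r⁻¹ - 1) * (t * (r⁻¹ - 1)) = (r - 1) * (r - 1) := by
      rw [← h3]; field_simp; ring
    rw [h4, ← h3]
    have h5 : r * r - 1 = (r - 1) * (r + 1) := by ring
    rw [h5]
    nlinarith [mul_nonneg (sub_nonneg.2 hr1) (sub_nonneg.2 hr1)]

/-- termwise functional calculus of `star z * z` -/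
noncomputable def bfc (z : BSeq A) (f : ℝ → ℝ) 
    (hf : ∀ C : ℝ, ∃ D : ℝ, ∀ t, 0 ≤ t → t ≤ C → |f t| ≤ D) : BSeq A :=
  ⟨fun n => cfc f (star (z.1 n) * z.1 n), by
    obtain ⟨C, hC⟩ := z.2
    obtain ⟨D, hD⟩ := hf (C ^ 2)
    refine ⟨D, fun n => ?_⟩
    have hD0 : 0 ≤ D := (abs_nonneg _).trans (hD 0 le_rfl (sq_nonneg _))
    refine norm_cfc_le hD0 fun t ht => ?_
    have h1 := clampC_spec (z.1 n) t ht
    rw [Real.norm_eq_abs]
    refine hD t h1.1 (h1.2.trans ?_)
    exact pow_le_pow_left₀ (norm_nonneg _) (hC n) 2⟩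

theorem exists_bound_of_cont (f : ℝ → ℝ) (hf : Continuous f) :
    ∀ C : ℝ, ∃ D : ℝ, ∀ t, 0 ≤ t → t ≤ C → |f t| ≤ D := by
  intro C
  obtain ⟨D, hD⟩ := (isCompact_Icc (a := (0 : ℝ)) (b := C)).exists_bound_of_continuousOn
    hf.continuousOn
  exact ⟨D, fun t h0 h1 => hD t ⟨h0, h1⟩⟩

/-- restoring contractions: a bounded sequence which is a contraction for all limit traces can be
changed into a sequence of contractions -/
theorem clampC (z : BSeq A) (h : ∀ (t : LimTr A) (b : BSeq A), nrm t.val (z * b) ≤ nrm t.val b) :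
    ∃ z' : BSeq A, (∀ n, ‖z'.1 n‖ ≤ 1) ∧ ∀ t : LimTr A, nrm t.val (z' - z) = 0 := by
  have hg := clampG_cont
  have hsa : ∀ (f : ℝ → ℝ) (n : ℕ), star (cfc f (star (z.1 n) * z.1 n)) =
      cfc f (star (z.1 n) * z.1 n) := fun f n => (cfc_predicate f _ : IsSelfAdjoint _)
  have hmul : ∀ (f g : ℝ → ℝ) (n : ℕ), Continuous f → Continuous g →
      cfc f (star (z.1 n) * z.1 n) * cfc g (star (z.1 n) * z.1 n) =
      cfc (fun t => f t * g t) (star (z.1 n) * z.1 n) := fun f g n hf hg =>
    (cfc_mul f g _ hf.continuousOn hg.continuousOn).symm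
  have hid : ∀ n : ℕ, cfc (fun t : ℝ => t) (star (z.1 n) * z.1 n) = star (z.1 n) * z.1 n :=
    fun n => cfc_id' ℝ _ (IsSelfAdjoint.star_mul_self _)
  -- the elements
  set c := bfc z clampG (exists_bound_of_cont _ hg) with hc
  have hbc : Continuous (fun t : ℝ => Real.sqrt (max 0 (t - 1))) := by fun_prop
  set b := bfc z (fun t => Real.sqrt (max 0 (t - 1))) (exists_bound_of_cont _ hbc) with hb
  have hdc : Continuous (fun t : ℝ => Real.sqrt (max 0 (t - 1) * (t - 1) -
    (clampG t - 1) * (t * (clampG t - 1)))) := by fun_prop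
  set d := bfc z (fun t => Real.sqrt (max 0 (t - 1) * (t - 1) -
    (clampG t - 1) * (t * (clampG t - 1)))) (exists_bound_of_cont _ hdc) with hd
  refine ⟨z * c, fun n => ?_, fun t => ?_⟩
  · have h1 : star ((z * c).1 n) * ((z * c).1 n) =
        cfc (fun t => clampG t * (t * clampG t)) (star (z.1 n) * z.1 n) := by
      have e1 : (z * c).1 n = z.1 n * cfc clampG (star (z.1 n) * z.1 n) := rfl
      rw [e1, star_mul, hsa]
      calc _ = cfc clampG (star (z.1 n) * z.1 n) * ((star (z.1 n) * z.1 n) *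
            cfc clampG (star (z.1 n) * z.1 n)) := by noncomm_ring
        _ = cfc clampG (star (z.1 n) * z.1 n) * (cfc (fun t : ℝ => t) (star (z.1 n) * z.1 n) *
            cfc clampG (star (z.1 n) * z.1 n)) := by rw [hid]
        _ = _ := by rw [hmul _ _ n (by fun_prop) hg, hmul _ _ n hg (by fun_prop)]
    have h2 : ‖(z * c).1 n‖ * ‖(z * c).1 n‖ ≤ 1 := by
      rw [← CStarRing.norm_star_mul_self, h1]
      refine norm_cfc_le zero_le_one fun s hs => ?_
      have hs0 := (clampC_spec (z.1 n) s hs).1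
      rw [Real.norm_eq_abs, abs_of_nonneg (clampG_sq_nonneg s hs0)]
      exact clampG_sq s hs0
    nlinarith only [h2]
  · have hT := t.isTracial
    have e1 : star (z * b) * (z * b) - star b * b =
        star (z * c - z) * (z * c - z) + star d * d := by
      apply Subtype.ext
      funext n
      have a1 : (star (z * b) * (z * b) - star b * b : BSeq A).1 n =
          cfc (fun t : ℝ => max 0 (t - 1) * (t - 1)) (star (z.1 n) * z.1 n) := by
        have e1 : (star (z * b) * (z * b) - star b * b : BSeq A).1 n =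
          star (z.1 n * cfc (fun t => Real.sqrt (max 0 (t - 1))) (star (z.1 n) * z.1 n)) *
            (z.1 n * cfc (fun t => Real.sqrt (max 0 (t - 1))) (star (z.1 n) * z.1 n)) -
          star (cfc (fun t => Real.sqrt (max 0 (t - 1))) (star (z.1 n) * z.1 n)) *
            cfc (fun t => Real.sqrt (max 0 (t - 1))) (star (z.1 n) * z.1 n) := rfl
        rw [e1, star_mul, hsa]
        calc _ = cfc (fun t => Real.sqrt (max 0 (t - 1))) (star (z.1 n) * z.1 n) *
              ((star (z.1 n) * z.1 n) *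
                cfc (fun t => Real.sqrt (max 0 (t - 1))) (star (z.1 n) * z.1 n)) -
              cfc (fun t => Real.sqrt (max 0 (t - 1))) (star (z.1 n) * z.1 n) *
                cfc (fun t => Real.sqrt (max 0 (t - 1))) (star (z.1 n) * z.1 n) := by
                noncomm_ring
          _ = cfc (fun t => Real.sqrt (max 0 (t - 1))) (star (z.1 n) * z.1 n) *
              (cfc (fun t : ℝ => t) (star (z.1 n) * z.1 n) *
                cfc (fun t => Real.sqrt (max 0 (t - 1))) (star (z.1 n) * z.1 n)) -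
              cfc (fun t => Real.sqrt (max 0 (t - 1))) (star (z.1 n) * z.1 n) *
                cfc (fun t => Real.sqrt (max 0 (t - 1))) (star (z.1 n) * z.1 n) := by
                rw [hid]
          _ = cfc (fun t : ℝ => Real.sqrt (max 0 (t - 1)) * (t * Real.sqrt (max 0 (t - 1))) -
              Real.sqrt (max 0 (t - 1)) * Real.sqrt (max 0 (t - 1)))
              (star (z.1 n) * z.1 n) := by
                rw [hmul _ _ n (by fun_prop) (by fun_prop), hmul _ _ n (by fun_prop) (by fun_prop),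
                  hmul _ _ n (by fun_prop) (by fun_prop),
                  ← cfc_sub _ _ _ (by fun_prop) (by fun_prop)]
          _ = _ := by
                refine cfc_congr fun t _ => ?_
                have h3 := Real.mul_self_sqrt (le_max_left (0 : ℝ) (t - 1))
                linear_combination (t - 1) * h3
      have a2 : (star (z * c - z) * (z * c - z) : BSeq A).1 n =
          cfc (fun t : ℝ => (clampG t - 1) * (t * (clampG t - 1))) (star (z.1 n) * z.1 n) := by
        have e1 : (star (z * c - z) * (z * c - z) : BSeq A).1 n =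
          star (z.1 n * cfc clampG (star (z.1 n) * z.1 n) - z.1 n) *
            (z.1 n * cfc clampG (star (z.1 n) * z.1 n) - z.1 n) := rfl
        have e2 : z.1 n * cfc clampG (star (z.1 n) * z.1 n) - z.1 n =
            z.1 n * cfc (fun t => clampG t - 1) (star (z.1 n) * z.1 n) := by
          rw [cfc_sub _ _ _ hg.continuousOn continuous_const.continuousOn,
            cfc_const_one ℝ _, mul_sub, mul_one]
        rw [e1, e2, star_mul, hsa]
        calc _ = cfc (fun t => clampG t - 1) (star (z.1 n) * z.1 n) *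
              ((star (z.1 n) * z.1 n) *
                cfc (fun t => clampG t - 1) (star (z.1 n) * z.1 n)) := by noncomm_ring
          _ = cfc (fun t => clampG t - 1) (star (z.1 n) * z.1 n) *
              (cfc (fun t : ℝ => t) (star (z.1 n) * z.1 n) *
                cfc (fun t => clampG t - 1) (star (z.1 n) * z.1 n)) := by rw [hid]
          _ = _ := by
              rw [hmul _ _ n (by fun_prop) (by fun_prop), hmul _ _ n (by fun_prop) (by fun_prop)]
      have a3 : (star d * d : BSeq A).1 n =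
          cfc (fun t : ℝ => max 0 (t - 1) * (t - 1) -
            (clampG t - 1) * (t * (clampG t - 1))) (star (z.1 n) * z.1 n) := by
        have e1 : (star d * d : BSeq A).1 n =
          star (cfc (fun t : ℝ => Real.sqrt (max 0 (t - 1) * (t - 1) -
            (clampG t - 1) * (t * (clampG t - 1)))) (star (z.1 n) * z.1 n)) *
          cfc (fun t : ℝ => Real.sqrt (max 0 (t - 1) * (t - 1) -
            (clampG t - 1) * (t * (clampG t - 1)))) (star (z.1 n) * z.1 n) := rfl
        rw [e1, hsa, hmul _ _ n hdc hdc]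
        refine cfc_congr fun t ht => ?_
        exact Real.mul_self_sqrt (sub_nonneg.2 (clampG_diff t (clampC_spec _ t ht).1))
      have a4 : (star (z * c - z) * (z * c - z) + star d * d : BSeq A).1 n =
          (star (z * c - z) * (z * c - z) : BSeq A).1 n + (star d * d : BSeq A).1 n := rfl
      rw [a4, a1, a2, a3, ← cfc_add _ _ _ (by (clear * - hg; fun_prop)) (by fun_prop)]
      refine cfc_congr fun t _ => ?_
      ring
    have h1 := h t b
    have h2 : nrm t.val (z * b) ^ 2 ≤ nrm t.val b ^ 2 :=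
      pow_le_pow_left₀ (nrm_nonneg _) h1 2
    rw [nrm_sq hT, nrm_sq hT] at h2
    have h3 := congrArg (fun x => (t.val x).re) e1
    simp only [map_sub, Complex.sub_re, map_add, Complex.add_re] at h3
    have h4 := hT.re_nonneg d
    have h5 : (t.val (star (z * c - z) * (z * c - z))).re ≤ 0 := by
      linarith only [h2, h3, h4]
    unfold nrm
    exact Real.sqrt_eq_zero_of_nonpos h5

end Vale.Agent.P095
end

section

set_option linter.unusedSectionVars false
set_option linter.unusedVariables false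
set_option linter.unusedSimpArgs false

namespace Vale.Agent.P095

open Filter Topology ComplexConjugate

section
variable {A : Type*} [CStarAlgebra A]

variable {G : Type*} [Group G] (α : G →* (A ≃⋆ₐ[ℂ] A))

/-- a good trial: an event `W` of probability exactly `c` and a partial isometry `Y` living on it,
with relative errors `κ` -/
def GoodTrialB (c κ : ℝ) (S : Finset G) (F : Finset (BSeq A)) (W Y : BSeq A) : Prop :=
  ∀ t : LimTr A,
    star (t.c W) = t.c W ∧ t.c W * t.c W = t.c W ∧ t.c W * t.c Y = t.c Y ∧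
    t.c Y * t.c W = t.c Y ∧
    (∀ z : BSeq A, nrm t.val (Y * z) ≤ nrm t.val z) ∧
    (∀ b ∈ F, t.c W * t.c b = t.c b * t.c W ∧ t.c Y * t.c b = t.c b * t.c Y ∧
      t.val (b * W) = c * t.val b) ∧
    nrm t.val (Y * Y) ^ 2 ≤ κ * c ∧ nrm t.val (star Y * Y + Y * star Y - W) ^ 2 ≤ κ * c ∧
    ∀ s ∈ S, t.c (actB (α s) W) * t.c W = t.c W * t.c (actB (α s) W) ∧
      nrm t.val (actB (α s) Y - Y) ^ 2 ≤ κ * c ∧
      ∀ b ∈ F, nrm t.val ((actB (α s) W - W) * b) ^ 2 ≤ κ * c * nrm t.val b ^ 2

/-- the state of the filling process in the algebra of bounded sequences -/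
def FillB (c κ : ℝ) (S : Finset G) (F0 : Finset (BSeq A)) (m : ℕ) (Z R : BSeq A) : Prop :=
  ∀ t : LimTr A, FillQ t.q c κ m (t.c Z) (t.c R) ∧
    (∀ b ∈ F0, t.c Z * t.c b = t.c b * t.c Z) ∧
    ∀ s ∈ S, nrm t.val (actB (α s) Z - Z) ^ 2 ≤ 9 * κ

theorem FillB.zero {c κ : ℝ} (hκ : 0 ≤ κ) (S : Finset G) (F0 : Finset (BSeq A)) :
    FillB α c κ S F0 0 0 1 := by
  intro t
  refine ⟨?_, ?_, ?_⟩
  · rw [map_zero, map_one]
    exact FillQ.zero hκ t.q_tracial
  · intro b _
    rw [map_zero, zero_mul, mul_zero]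
  · intro s _
    rw [map_zero, sub_zero, nrm_zero]
    simpa only [ne_eq, OfNat.ofNat_ne_zero, not_false_eq_true, zero_pow, Nat.ofNat_pos,     mul_nonneg_iff_of_pos_left] using hκ

theorem FillB.stepA {c κ : ℝ} (hc0 : 0 ≤ c) (hc1 : c ≤ 1) (hκ : 0 ≤ κ)
    {m : ℕ} {Z R W Y : BSeq A} {t : LimTr A} {S : Finset G} {F : Finset (BSeq A)}
    (hf : FillQ t.q c κ m (t.c Z) (t.c R)) (hWY : GoodTrialB α c κ S F W Y)
    (m1 : Z ∈ F) (m2 : R ∈ F) (m3 : Z * Z * star (Z * Z) ∈ F)
    (m4 : (star Z * Z + Z * star Z - (1 - R)) * star (star Z * Z + Z * star Z - (1 - R)) ∈ F) :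
    FillQ t.q c κ (m + 1) ((1 - t.c W) * t.c Z + t.c Y) ((1 - t.c W) * t.c R) := by
  obtain ⟨ws, ww, wy, yw, yc, hb, hyy, hyo, hs⟩ := hWY t
  have law : ∀ b : BSeq A, t.val (b * W) = c * t.val b →
      t.q (t.c b * t.c W) = c * t.q (t.c b) := by
    intro b hb
    rw [← map_mul, t.q_c, t.q_c, hb]
  refine FillQ.step t.q_tracial hc0 hc1 hκ hf ws ww wy yw ?_ (hb _ m1).1 (hb _ m2).1
    ?_ ?_ ?_ ?_ ?_
  · intro b
    obtain ⟨b, rfl⟩ := cls_surj t.isTracial b
    have := yc b
    rw [← t.nrm_c, ← t.nrm_c, map_mul] at this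
    exact this
  · exact law R (hb _ m2).2.2
  · have e0 : t.c (Z * Z * star (Z * Z)) = t.c Z * t.c Z * star (t.c Z * t.c Z) := by
      rw [map_mul t.c, t.c_star, map_mul t.c]
    have := law _ (hb _ m3).2.2
    rw [e0] at this
    exact this
  · set E1 : BSeq A := star Z * Z + Z * star Z - (1 - R) with hE1
    have e0 : t.c E1 = star (t.c Z) * t.c Z + t.c Z * star (t.c Z) - (1 - t.c R) := by
      rw [hE1, map_sub t.c, map_add t.c, map_mul t.c, map_mul t.c, map_sub t.c, map_one t.c,
        t.c_star]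
    have e1 : t.c (E1 * star E1) = t.c E1 * star (t.c E1) := by
      rw [map_mul t.c, t.c_star]
    have := law _ (hb _ m4).2.2
    rw [e1, e0] at this
    exact this
  · rw [← map_mul, t.nrm_c]; exact hyy
  · rw [← t.c_star, ← map_mul, ← map_mul, ← map_add, ← map_sub, t.nrm_c]; exact hyo

theorem FillB.stepB {c κ : ℝ} (hc0 : 0 ≤ c) (hc1 : c ≤ 1) (hκ : 0 ≤ κ)
    {m : ℕ} {Z R W Y : BSeq A} {t : LimTr A} {S : Finset G} {F : Finset (BSeq A)} {s : G}
    (hf : FillQ t.q c κ m (t.c Z) (t.c R))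
    (hf' : FillQ (t.comp (α s)).q c κ m ((t.comp (α s)).c Z) ((t.comp (α s)).c R))
    (hWY : GoodTrialB α c κ S F W Y) (hsS : s ∈ S)
    (hinv : nrm t.val (actB (α s) Z - Z) ^ 2 ≤ 9 * κ)
    (m1 : Z ∈ F) (m2 : actB (α s) Z ∈ F)
    (m3 : (actB (α s) Z - Z) * star (actB (α s) Z - Z) ∈ F) :
    nrm t.q (((1 - t.c (actB (α s) W)) * t.c (actB (α s) Z) + t.c (actB (α s) Y)) -
      ((1 - t.c W) * t.c Z + t.c Y)) ^ 2 ≤ 9 * κ := by
  obtain ⟨ws, ww, wy, yw, yc, hb, hyy, hyo, hs⟩ := hWY t
  obtain ⟨wcomm, hyinv, hwinv⟩ := hs s hsS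
  obtain ⟨ws', ww', wy', -, -, -, -, -, -⟩ := hWY (t.comp (α s))
  have law : ∀ b : BSeq A, t.val (b * W) = c * t.val b →
      t.q (t.c b * t.c W) = c * t.q (t.c b) := by
    intro b hb
    rw [← map_mul, t.q_c, t.q_c, hb]
  have e1 : star (t.c (actB (α s) W)) = t.c (actB (α s) W) := by
    rw [← t.c_star, ← map_star]
    exact t.comp_c_eq (α s) (x := star W) (y := W) ws'
  have e2 : t.c (actB (α s) W) * t.c (actB (α s) W) = t.c (actB (α s) W) := by
    rw [← map_mul t.c, ← map_mul (actB (α s))]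
    refine t.comp_c_eq (α s) (x := W * W) (y := W) ?_
    rw [map_mul]; exact ww'
  have e3 : t.c (actB (α s) W) * t.c (actB (α s) Y) = t.c (actB (α s) Y) := by
    rw [← map_mul t.c, ← map_mul (actB (α s))]
    refine t.comp_c_eq (α s) (x := W * Y) (y := Y) ?_
    rw [map_mul]; exact wy'
  have e4 : nrm t.val (actB (α s) Z) ≤ 1 := by
    have := hf'.contr 1
    rw [mul_one, nrm_one (t.comp (α s)).q_tracial, (t.comp (α s)).nrm_c, t.comp_nrm] at this
    exact this
  have e5 : nrm t.val Z ≤ 1 := by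
    have := hf.contr 1
    rw [mul_one, nrm_one t.q_tracial, t.nrm_c] at this
    exact this
  have hkc : 0 ≤ κ * c := mul_nonneg hκ hc0
  have f1 : nrm t.q ((t.c (actB (α s) W) - t.c W) * t.c (actB (α s) Z)) ^ 2 ≤ κ * c := by
    rw [← map_sub t.c, ← map_mul t.c, t.nrm_c]
    refine (hwinv _ m2).trans ?_
    have : nrm t.val (actB (α s) Z) ^ 2 ≤ 1 := pow_le_one₀ (nrm_nonneg _) e4
    exact mul_le_of_le_one_right hkc this
  have f2 : nrm t.q ((t.c (actB (α s) W) - t.c W) * t.c Z) ^ 2 ≤ κ * c := by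
    rw [← map_sub t.c, ← map_mul t.c, t.nrm_c]
    refine (hwinv Z m1).trans ?_
    have : nrm t.val Z ^ 2 ≤ 1 := pow_le_one₀ (nrm_nonneg _) e5
    exact mul_le_of_le_one_right hkc this
  have f3 : nrm t.q (t.c (actB (α s) Y) - t.c Y) ^ 2 ≤ κ * c := by
    rw [t.nrm_sub_c]; exact hyinv
  have f4 : nrm t.q (t.c (actB (α s) Z) - t.c Z) ^ 2 ≤ 9 * κ := by
    rw [t.nrm_sub_c]; exact hinv
  have f5 : t.q ((t.c (actB (α s) Z) - t.c Z) * star (t.c (actB (α s) Z) - t.c Z) * t.c W)
      = c * t.q ((t.c (actB (α s) Z) - t.c Z) * star (t.c (actB (α s) Z) - t.c Z)) := by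
    have e0 : t.c ((actB (α s) Z - Z) * star (actB (α s) Z - Z)) =
        (t.c (actB (α s) Z) - t.c Z) * star (t.c (actB (α s) Z) - t.c Z) := by
      rw [map_mul t.c, t.c_star, map_sub t.c]
    have := law _ (hb _ m3).2.2
    rw [e0] at this
    exact this
  exact inv_step t.q_tracial hc0 hc1 hκ ws ww wy e1 e2 e3 wcomm f5 f1 f2 f3 f4

theorem FillB.step {c κ : ℝ} (hc0 : 0 ≤ c) (hc1 : c ≤ 1) (hκ : 0 ≤ κ) {S : Finset G}
    {F0 : Finset (BSeq A)} {m : ℕ} {Z R : BSeq A} (hF : FillB α c κ S F0 m Z R)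
    (good : ∀ F : Finset (BSeq A), ∃ W Y, GoodTrialB α c κ S F W Y) :
    ∃ Z' R', FillB α c κ S F0 (m + 1) Z' R' := by
  classical
  obtain ⟨W, Y, hWY⟩ := good (F0 ∪ {Z, R, Z * Z * star (Z * Z),
    (star Z * Z + Z * star Z - (1 - R)) * star (star Z * Z + Z * star Z - (1 - R))} ∪
    S.image (fun s => actB (α s) Z) ∪
    S.image (fun s => (actB (α s) Z - Z) * star (actB (α s) Z - Z)))
  refine ⟨(1 - W) * Z + Y, (1 - W) * R, fun t => ?_⟩
  have hcZ : t.c ((1 - W) * Z + Y) = (1 - t.c W) * t.c Z + t.c Y := by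
    rw [map_add t.c, map_mul t.c, map_sub t.c, map_one t.c]
  have hcR : t.c ((1 - W) * R) = (1 - t.c W) * t.c R := by
    rw [map_mul t.c, map_sub t.c, map_one t.c]
  obtain ⟨hf, hcm, hinv⟩ := hF t
  refine ⟨?_, ?_, ?_⟩
  · rw [hcZ, hcR]
    exact FillB.stepA α hc0 hc1 hκ hf hWY (by simp only [star_mul, star_sub, star_add, star_star, star_one, Finset.union_insert, Finset.union_singleton, Finset.insert_union, Finset.union_assoc, Finset.mem_insert, Finset.mem_union, Finset.mem_image, true_or]) (by simp only [star_mul, star_sub, star_add, star_star, star_one, Finset.union_insert, Finset.union_singleton, Finset.insert_union, Finset.union_assoc, Finset.mem_insert, Finset.mem_union, Finset.mem_image, true_or, or_true]) (by simp only [star_mul, star_sub, star_add, star_star, star_one, Finset.union_insert, Finset.union_singleton, Finset.insert_union, Finset.union_assoc, Finset.mem_insert, Finset.mem_union, Finset.mem_image, true_or, or_true]) (by simp only [star_mul, star_sub, star_add,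 star_star, star_one, Finset.union_insert, Finset.union_singleton, Finset.insert_union, Finset.union_assoc, Finset.mem_insert, Finset.mem_union, Finset.mem_image, true_or, or_true])
  · intro b hb0
    have h1 := (hWY t).2.2.2.2.2.1 b (by simp only [star_mul, star_sub, star_add, star_star, star_one, Finset.union_insert, Finset.union_singleton, Finset.insert_union, Finset.union_assoc, Finset.mem_insert, Finset.mem_union, hb0, Finset.mem_image, true_or, or_true])
    have h2 := hcm b hb0
    rw [hcZ]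
    calc ((1 - t.c W) * t.c Z + t.c Y) * t.c b
        = t.c Z * t.c b - t.c W * (t.c Z * t.c b) + t.c Y * t.c b := by noncomm_ring
      _ = t.c b * t.c Z - t.c W * (t.c b * t.c Z) + t.c b * t.c Y := by rw [h2, h1.2.1]
      _ = t.c b * t.c Z - t.c W * t.c b * t.c Z + t.c b * t.c Y := by rw [mul_assoc]
      _ = t.c b * t.c Z - t.c b * t.c W * t.c Z + t.c b * t.c Y := by rw [h1.1]
      _ = t.c b * ((1 - t.c W) * t.c Z + t.c Y) := by noncomm_ring
  · intro s hsS
    have fin := FillB.stepB α hc0 hc1 hκ hf (hF (t.comp (α s))).1 hWY hsS (hinv s hsS)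
      (by simp only [star_mul, star_sub, star_add, star_star, star_one, Finset.union_insert, Finset.union_singleton, Finset.insert_union, Finset.union_assoc, Finset.mem_insert, Finset.mem_union, Finset.mem_image, true_or])
      (by
        simp only [Finset.mem_union, Finset.mem_image]
        exact Or.inl (Or.inr ⟨s, hsS, rfl⟩))
      (by
        simp only [Finset.mem_union, Finset.mem_image]
        exact Or.inr ⟨s, hsS, rfl⟩)
    have hact : actB (α s) ((1 - W) * Z + Y) =
        (1 - actB (α s) W) * actB (α s) Z + actB (α s) Y := by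
      rw [map_add (actB (α s)), map_mul (actB (α s)), map_sub (actB (α s)), map_one (actB (α s))]
    have hcZ' : t.c (actB (α s) ((1 - W) * Z + Y)) =
        (1 - t.c (actB (α s) W)) * t.c (actB (α s) Z) + t.c (actB (α s) Y) := by
      rw [hact, map_add t.c, map_mul t.c, map_sub t.c, map_one t.c]
    rw [← hcZ', ← hcZ, t.nrm_sub_c] at fin
    exact fin

/-- Filling up: from good trials to the equivariant uniform McDuff property. -/
theorem mcduff_of_trial
    (h : ∀ (S : Finset G) (κ : ℝ), 0 < κ → ∃ c : ℝ, 0 < c ∧ c ≤ 1 ∧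
      ∀ F : Finset (BSeq A), ∃ W Y, GoodTrialB α c κ S F W Y) :
    EquivariantUniformMcDuff α := by
  classical
  intro F0 S ε hε
  set κ : ℝ := (ε / 8) ^ 2 with hκdef
  have hκ : 0 < κ := by positivity
  obtain ⟨c, hc0, hc1, good⟩ := h S κ hκ
  have iter : ∀ m : ℕ, ∃ Z R, FillB α c κ S (F0.image (cst A)) m Z R := by
    intro m
    induction m with
    | zero => exact ⟨0, 1, FillB.zero α hκ.le _ _⟩
    | succ m ih =>
      obtain ⟨Z, R, hZR⟩ := ih
      exact hZR.step α hc0.le hc1 hκ.le good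
  obtain ⟨m, hm⟩ := exists_pow_lt_of_lt_one hκ (show 1 - c < 1 by linarith only [hc0])
  obtain ⟨Z, R, hZR⟩ := iter m
  obtain ⟨V, hV1, hV2⟩ := clampC Z (by
    intro t b
    have := (hZR t).1.contr (t.c b)
    rw [← map_mul, t.nrm_c, t.nrm_c] at this
    exact this)
  have hVZ : ∀ t : LimTr A, t.c V = t.c Z := fun t => t.c_eq (hV2 t)
  have hε8 : 0 ≤ ε / 8 := by positivity
  have root : ∀ x : ℝ, 0 ≤ x → x ^ 2 ≤ κ → x ≤ ε / 8 := by
    intro x hx hx2
    exact (pow_le_pow_iff_left₀ hx hε8 two_ne_zero).1 hx2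
  have root9 : ∀ x : ℝ, 0 ≤ x → x ^ 2 ≤ 9 * κ → x ≤ 3 * (ε / 8) := by
    intro x hx hx2
    refine (pow_le_pow_iff_left₀ hx (by positivity) two_ne_zero).1 (hx2.trans ?_)
    rw [hκdef]; apply le_of_eq; ring
  have k1 : ∀ t : LimTr A, nrm t.val (V * V) ≤ ε / 2 := by
    intro t
    rw [← t.nrm_c, map_mul, hVZ]
    have := root _ (nrm_nonneg _) (hZR t).1.sq
    linarith only [hε, this]
  have k2 : ∀ t : LimTr A, nrm t.val (star V * V + V * star V - 1) ≤ ε / 2 := by
    intro t
    rw [← t.nrm_c, map_sub, map_add, map_mul, map_mul, t.c_star, hVZ, map_one]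
    have h1 := root _ (nrm_nonneg _) (hZR t).1.one
    have h2 : nrm t.q (t.c R) ≤ ε / 8 := by
      apply root _ (nrm_nonneg _)
      rw [nrm_sq t.q_tracial, (hZR t).1.rs, (hZR t).1.rr, (hZR t).1.qr, Complex.ofReal_re]
      exact hm.le
    have h3 : star (t.c Z) * t.c Z + t.c Z * star (t.c Z) - 1 =
        (star (t.c Z) * t.c Z + t.c Z * star (t.c Z) - (1 - t.c R)) - t.c R := by abel
    rw [h3]
    have := nrm_sub_le t.q_tracial
      (star (t.c Z) * t.c Z + t.c Z * star (t.c Z) - (1 - t.c R)) (t.c R)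
    linarith only [hε, h1, h2, this]
  have k3 : ∀ a ∈ F0, ∀ t : LimTr A, nrm t.val (V * cst A a - cst A a * V) ≤ ε / 2 := by
    intro a ha t
    rw [← t.nrm_c, map_sub, map_mul, map_mul, hVZ,
      (hZR t).2.1 _ (Finset.mem_image_of_mem _ ha), sub_self, nrm_zero]
    positivity
  have k4 : ∀ s ∈ S, ∀ t : LimTr A, nrm t.val (actB (α s) V - V) ≤ ε / 2 := by
    intro s hs t
    have h1 : t.c (actB (α s) V) = t.c (actB (α s) Z) :=
      t.comp_c_eq (α s) (hVZ (t.comp (α s)))
    rw [← t.nrm_c, map_sub, hVZ, h1, t.nrm_sub_c]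
    have := root9 _ (nrm_nonneg _) ((hZR t).2.2 s hs)
    linarith only [hε, this]
  have hlt : ε / 2 < ε := by linarith only [hε]
  have ev1 := transfer_nrm (V * V) hlt k1
  have ev2 := transfer_nrm (star V * V + V * star V - 1) hlt k2
  have ev3 : ∀ᶠ n in atTop, ∀ a ∈ F0, ∀ τ : A →ₗ[ℂ] ℂ, IsTracialState τ →
      nrm τ ((V * cst A a - cst A a * V).1 n) ≤ ε := by
    rw [Filter.eventually_all_finset]
    intro a ha
    exact transfer_nrm _ hlt (k3 a ha)
  have ev4 : ∀ᶠ n in atTop, ∀ s ∈ S, ∀ τ : A →ₗ[ℂ] ℂ, IsTracialState τ →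
      nrm τ ((actB (α s) V - V).1 n) ≤ ε := by
    rw [Filter.eventually_all_finset]
    intro s hs
    exact transfer_nrm _ hlt (k4 s hs)
  obtain ⟨n, h1, h2, h3, h4⟩ := (ev1.and (ev2.and (ev3.and ev4))).exists
  refine ⟨V.1 n, hV1 n, ?_, ?_, ?_, ?_⟩
  · intro τ hτ
    have := h1 τ hτ
    rw [← nrm_sq hτ]
    exact pow_le_pow_left₀ (nrm_nonneg _) this 2
  · intro τ hτ
    have := h2 τ hτ
    rw [← nrm_sq hτ]
    exact pow_le_pow_left₀ (nrm_nonneg _) this 2
  · intro a ha τ hτ
    have := h3 a ha τ hτ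
    rw [← nrm_sq hτ]
    exact pow_le_pow_left₀ (nrm_nonneg _) this 2
  · intro s hs τ hτ
    have := h4 s hs τ hτ
    rw [← nrm_sq hτ]
    exact pow_le_pow_left₀ (nrm_nonneg _) this 2

end

end Vale.Agent.P095
end
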