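import Vale.Agent.P095.MathlibUsed
import Vale.Agent.P095.Bdl.B8
import Vale.Agent.P095.Bdl.B1
import Vale.Agent.P095.Bdl.B7
import Vale.Agent.P095.Defs
import Vale.Agent.P095.Bdl.B3
import Vale.Agent.P095.Bdl.B4
import Vale.Agent.P095.Bdl.B9
import Vale.Agent.P095.Bdl.B2

set_option linter.all false

namespace AFast98d1a5x12a
@[reducible] noncomputable def a0.{u1} {x1 : Type u1} [x2 : CStarAlgebra x1] : Semiring ↥(Vale.Agent.P095.BSeq x1) := inferInstance
theorem a1.{u1} {x1 : Type u1} [x2 : Ring x1] [x3 : Algebra ℂ x1] : AddMonoidHomClass (x1 →ₗ[ℂ] ℂ) x1 ℂ := inferInstance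
@[reducible] noncomputable def a2.{u1} {x1 : Type u1} [x2 : CStarAlgebra x1] : Ring ↥(Vale.Agent.P095.BSeq x1) := inferInstance
theorem a3.{u1} {x1 : Type u1} [x2 : Ring x1] [x3 : Algebra ℂ x1] : DistribMulActionSemiHomClass (x1 →ₗ[ℂ] ℂ) (⇑(RingHom.id ℂ)) x1 ℂ := inferInstance
@[reducible] noncomputable def a4.{u1} {x1 : Type u1} [x2 : CStarAlgebra x1] : MulOneClass ↥(Vale.Agent.P095.BSeq x1) := inferInstance
@[reducible] noncomputable def a5.{u1} {x1 : Type u1} [x2 : CStarAlgebra x1] : MulZeroOneClass ↥(Vale.Agent.P095.BSeq x1) := inferInstance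
theorem a6.{u1} {x1 : Type u1} [x2 : CStarAlgebra x1] : SubringClass (StarSubalgebra ℂ (ℕ → x1)) (ℕ → x1) := inferInstance
@[reducible] noncomputable def a7.{u1} {x1 : Type u1} [x2 : CStarAlgebra x1] : Star ↥(Vale.Agent.P095.BSeq x1) := inferInstance
@[reducible] noncomputable def a8.{u1} {x1 : Type u1} [x2 : CStarAlgebra x1] : SetLike (StarSubalgebra ℂ (ℕ → x1)) (ℕ → x1) := inferInstance
theorem a9.{u1} {x1 : Type u1} [x2 : CStarAlgebra x1] : StarMemClass (StarSubalgebra ℂ (ℕ → x1)) (ℕ → x1) := inferInstance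
theorem a10 : CharZero ℝ := inferInstance
@[reducible] noncomputable def a11.{u1} {x1 : Type u1} [x2 : CStarAlgebra x1] : Mul ↥(Vale.Agent.P095.BSeq x1) := inferInstance
@[reducible] noncomputable def a12.{u1} {x1 : Type u1} [x2 : CStarAlgebra x1] : Algebra ℂ ↥(Vale.Agent.P095.BSeq x1) := inferInstance
theorem a13.{u1} {x1 : Type u1} [x2 : CStarAlgebra x1] : StarModule ℂ (ℕ → x1) := inferInstance
@[reducible] noncomputable def a14.{u1} {x1 : Type u1} [x2 : CStarAlgebra x1] : AddCommMonoid ↥(Vale.Agent.P095.BSeq x1) := inferInstance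
theorem a15 : PosMulReflectLT ℝ := inferInstance
@[reducible] noncomputable def a16.{u1} {x1 : Type u1} [x2 : CStarAlgebra x1] : Add ↥(Vale.Agent.P095.BSeq x1) := inferInstance
@[reducible] noncomputable def a17.{u1} {x1 : Type u1} [x2 : CStarAlgebra x1] : Distrib ↥(Vale.Agent.P095.BSeq x1) := inferInstance
@[reducible] noncomputable def a18.{u1} {x1 : Type u1} [x2 : CStarAlgebra x1] : One ↥(Vale.Agent.P095.BSeq x1) := inferInstance
theorem a19 : AddRightReflectLE ℝ := inferInstance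
@[reducible] noncomputable def a20.{u1} {x1 : Type u1} [x2 : CStarAlgebra x1] : Sub ↥(Vale.Agent.P095.BSeq x1) := inferInstance
@[reducible] def a21.{u1} {x1 : Type u1} {x2 : ℕ} [x3 : CStarAlgebra x1] : StarMul ((fun a => x1) x2) := inferInstance
theorem a22.{u1} {x1 : Type u1} [x2 : CStarAlgebra x1] : AddSubgroupClass (StarSubalgebra ℂ (ℕ → x1)) (ℕ → x1) := inferInstance
@[reducible] noncomputable def a23.{u1} {x1 : Type u1} [x2 : CStarAlgebra x1] : NonAssocSemiring ↥(Vale.Agent.P095.BSeq x1) := inferInstance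
@[reducible] noncomputable def a24.{u1} {x1 : Type u1} [x2 : CStarAlgebra x1] : AddZeroClass ↥(Vale.Agent.P095.BSeq x1) := inferInstance
@[reducible] noncomputable def a25.{u1} {x1 : Type u1} [x2 : CStarAlgebra x1] : AddMonoid ↥(Vale.Agent.P095.BSeq x1) := inferInstance
@[reducible] noncomputable def a26.{u1} {x1 : Type u1} [x2 : CStarAlgebra x1] : AddMonoidWithOne ↥(Vale.Agent.P095.BSeq x1) := inferInstance
@[reducible] noncomputable def a27.{u1} {x1 : Type u1} [x2 : CStarAlgebra x1] : AddGroupWithOne ↥(Vale.Agent.P095.BSeq x1) := inferInstance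
theorem a28 : PosMulStrictMono ℝ := inferInstance
@[reducible] def a29.{u1} {x1 : Type u1} [x2 : CStarAlgebra x1] : MulOne (x1 ≃⋆ₐ[ℂ] x1) := inferInstance
@[reducible] def a30.{u1} {x1 : Type u1} [x2 : CStarAlgebra x1] : MulOneClass (x1 ≃⋆ₐ[ℂ] x1) := inferInstance
@[reducible] noncomputable def a31.{u1} {x1 : Type u1} [x2 : CStarAlgebra x1] : MulOne ↥(Vale.Agent.P095.BSeq x1) := inferInstance
@[reducible] def a32.{u1} {x1 : ℕ} {x2 : Type u1} [x3 : CStarAlgebra x2] : Star (CStarMatrix (Fin x1) (Fin x1) x2) := inferInstance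
theorem a33 : PosMulReflectLE ℝ := inferInstance
@[reducible] def a34.{u1} {x1 : Type u1} {x2 : ℕ} [x3 : CStarAlgebra x1] : InvolutiveStar ((fun a => x1) x2) := inferInstance
@[reducible] def a35.{u1} {x1 : Type u1} [x2 : CStarAlgebra x1] : Monoid (x1 ≃⋆ₐ[ℂ] x1) := inferInstance
@[reducible] def a36.{u1} {x1 : Type u1} [x2 : CStarAlgebra x1] : Star (ℕ → x1) := inferInstance
theorem a37 : AddLeftReflectLE ℕ := inferInstance
theorem a38 : IsRightCancelAdd ℝ := inferInstance
theorem a39.{u1} {x1 : Type u1} [x2 : Ring x1] [x3 : Algebra ℂ x1] : ZeroHomClass (x1 →ₗ[ℂ] ℂ) x1 ℂ := inferInstance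
theorem a40 : AddLeftReflectLE ℝ := inferInstance
@[reducible] noncomputable def a41.{u1} {x1 : Type u1} [x2 : CStarAlgebra x1] : StarRing ↥(Vale.Agent.P095.BSeq x1) := inferInstance
@[reducible] noncomputable def a42.{u1} {x1 : ℕ} {x2 : Type u1} [x3 : CStarAlgebra x2] : DistribMulAction ℂ (CStarMatrix (Fin x1) (Fin x1) x2) := inferInstance
theorem a43.{u1} {x1 : Type u1} [x2 : CStarAlgebra x1] : OneMemClass (StarSubalgebra ℂ (ℕ → x1)) (ℕ → x1) := inferInstance
@[reducible] def a44.{u1} {x1 : Type u1} {x2 : ℕ} [x3 : CStarAlgebra x1] : NonUnitalSemiring ((fun a => x1) x2) := inferInstance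
@[reducible] noncomputable def a45.{u1} {x1 : Type u1} [x2 : CStarAlgebra x1] : Zero ↥(Vale.Agent.P095.BSeq x1) := inferInstance
@[reducible] noncomputable def a46.{u1} {x1 : Type u1} [x2 : CStarAlgebra x1] : StarRing (ℕ → x1) := inferInstance
theorem a47 : IsLeftCancelAdd ℕ := inferInstance
@[reducible] def a48.{u1} {x1 : ℕ} {x2 : Type u1} [x3 : CStarAlgebra x2] : AddCommMonoid (CStarMatrix (Fin x1) (Fin x1) x2) := inferInstance
@[reducible] def a49.{u1} {x1 : Type u1} [x2 : CStarAlgebra x1] : Algebra ℂ (ℕ → x1) := inferInstance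
@[reducible] noncomputable def a50.{u1} {x1 : ℕ} {x2 : Type u1} [x3 : CStarAlgebra x2] : Module ℂ (CStarMatrix (Fin x1) (Fin x1) x2) := inferInstance
@[reducible] noncomputable def a51.{u1} {x1 : Type u1} [x2 : CStarAlgebra x1] : InvolutiveStar ↥(Vale.Agent.P095.BSeq x1) := inferInstance
theorem a52 : IsLeftCancelAdd ℝ := inferInstance
@[reducible] def a53.{u1} {x1 : Type u1} {x2 : ℕ} [x3 : CStarAlgebra x1] : NonUnitalNonAssocSemiring ((fun a => x1) x2) := inferInstance
@[reducible] noncomputable def a54.{u1} {x1 : Type u1} [x2 : CStarAlgebra x1] : NonUnitalNonAssocSemiring ↥(Vale.Agent.P095.BSeq x1) := inferInstance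
theorem a55 : MulPosReflectLE ℝ := inferInstance
@[reducible] def a56.{u1} {x1 : Type u1} [x2 : CStarAlgebra x1] : Semiring (ℕ → x1) := inferInstance
theorem a57 : IsTopologicalRing ℂ := inferInstance
theorem a58 : ContravariantClass ℝ ℝ (Function.swap fun x1 x2 => x1 + x2) fun x1 x2 => x1 < x2 := inferInstance
@[reducible] noncomputable def a59.{u1} {x1 : Type u1} [x2 : CStarAlgebra x1] : MulZeroClass ↥(Vale.Agent.P095.BSeq x1) := inferInstance
theorem a60.{u1} {x1 : Type u1} [x2 : CStarAlgebra x1] : SubsemiringClass (StarSubalgebra ℂ (ℕ → x1)) (ℕ → x1) := inferInstance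
@[reducible] def a61.{u1} {x1 : Type u1} {x2 : ℕ} [x3 : CStarAlgebra x1] : Distrib ((fun a => x1) x2) := inferInstance
theorem a62 : AddLeftStrictMono ℕ := inferInstance
@[reducible] noncomputable def a63.{u1} {x1 : Type u1} [x2 : CStarAlgebra x1] : NegZeroClass ↥(Vale.Agent.P095.BSeq x1) := inferInstance
@[reducible] noncomputable def a64.{u1} {x1 : Type u1} [x2 : CStarAlgebra x1] : SubNegZeroMonoid ↥(Vale.Agent.P095.BSeq x1) := inferInstance
@[reducible] noncomputable def a65.{u1} {x1 : Type u1} [x2 : CStarAlgebra x1] : SubNegMonoid ↥(Vale.Agent.P095.BSeq x1) := inferInstance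
@[reducible] noncomputable def a66.{u1} {x1 : Type u1} [x2 : CStarAlgebra x1] : SubtractionMonoid ↥(Vale.Agent.P095.BSeq x1) := inferInstance
@[reducible] noncomputable def a67.{u1} {x1 : Type u1} [x2 : CStarAlgebra x1] : AddGroup ↥(Vale.Agent.P095.BSeq x1) := inferInstance
@[reducible] noncomputable def a68.{u1} {x1 : Type u1} [x2 : CStarAlgebra x1] : SubtractionCommMonoid ↥(Vale.Agent.P095.BSeq x1) := inferInstance
@[reducible] noncomputable def a69.{u1} {x1 : Type u1} [x2 : CStarAlgebra x1] : AddCommGroup ↥(Vale.Agent.P095.BSeq x1) := inferInstance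
end AFast98d1a5x12a
attribute [local instance] AFast98d1a5x12a.a0 AFast98d1a5x12a.a1 AFast98d1a5x12a.a2
  AFast98d1a5x12a.a3 AFast98d1a5x12a.a4 AFast98d1a5x12a.a5 AFast98d1a5x12a.a6 AFast98d1a5x12a.a7
  AFast98d1a5x12a.a8 AFast98d1a5x12a.a9 AFast98d1a5x12a.a10 AFast98d1a5x12a.a11
  AFast98d1a5x12a.a12 AFast98d1a5x12a.a13 AFast98d1a5x12a.a14 AFast98d1a5x12a.a15
  AFast98d1a5x12a.a16 AFast98d1a5x12a.a17 AFast98d1a5x12a.a18 AFast98d1a5x12a.a19
  AFast98d1a5x12a.a20 AFast98d1a5x12a.a21 AFast98d1a5x12a.a22 AFast98d1a5x12a.a23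
  AFast98d1a5x12a.a24 AFast98d1a5x12a.a25 AFast98d1a5x12a.a26 AFast98d1a5x12a.a27
  AFast98d1a5x12a.a28 AFast98d1a5x12a.a29 AFast98d1a5x12a.a30 AFast98d1a5x12a.a31
  AFast98d1a5x12a.a32 AFast98d1a5x12a.a33 AFast98d1a5x12a.a34 AFast98d1a5x12a.a35
  AFast98d1a5x12a.a36 AFast98d1a5x12a.a37 AFast98d1a5x12a.a38 AFast98d1a5x12a.a39
  AFast98d1a5x12a.a40 AFast98d1a5x12a.a41 AFast98d1a5x12a.a42 AFast98d1a5x12a.a43
  AFast98d1a5x12a.a44 AFast98d1a5x12a.a45 AFast98d1a5x12a.a46 AFast98d1a5x12a.a47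
  AFast98d1a5x12a.a48 AFast98d1a5x12a.a49 AFast98d1a5x12a.a50 AFast98d1a5x12a.a51
  AFast98d1a5x12a.a52 AFast98d1a5x12a.a53 AFast98d1a5x12a.a54 AFast98d1a5x12a.a55
  AFast98d1a5x12a.a56 AFast98d1a5x12a.a57 AFast98d1a5x12a.a58 AFast98d1a5x12a.a59
  AFast98d1a5x12a.a60 AFast98d1a5x12a.a61 AFast98d1a5x12a.a62 AFast98d1a5x12a.a63
  AFast98d1a5x12a.a64 AFast98d1a5x12a.a65 AFast98d1a5x12a.a66 AFast98d1a5x12a.a67
  AFast98d1a5x12a.a68 AFast98d1a5x12a.a69
namespace AFast98d1a5x12b
@[reducible] noncomputable def a0.{u1} {x1 : Type u1} [x2 : CStarAlgebra x1] : Module ℂ ↥(Vale.Agent.P095.BSeq x1) := inferInstance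
theorem a1.{u1, u2} {x1 : Type u1} {x2 : Type u2} [x3 : Ring x1] [x4 : Ring x2] : AddHomClass (x1 →+* x2) x1 x2 := inferInstance
theorem a2.{u1, u2} {x1 : Type u1} {x2 : Type u2} [x3 : Ring x1] [x4 : Ring x2] : AddMonoidHomClass (x1 →+* x2) x1 x2 := inferInstance
end AFast98d1a5x12b
attribute [local instance] AFast98d1a5x12b.a0 AFast98d1a5x12b.a1 AFast98d1a5x12b.a2
section

/-! If no character vanishes on a closed ideal then the ideal and the commutators generate. -/

open Filter Topology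

namespace Vale.Agent.P095R

universe u w

open Vale.Agent.P133

/-- Sums of commutator terms and an element of `N`. -/
def rwitSub {C : Type u} [CStarAlgebra C] (N : CIdeal C) : Submodule ℂ C where
  carrier := {z | ∃ (m : ℕ) (x : Fin 4 → Fin m → C), ∃ y ∈ N,
    (∑ i, x 0 i * (x 1 i * x 2 i - x 2 i * x 1 i) * x 3 i) + y = z}
  zero_mem' := ⟨0, fun _ i => i.elim0, 0, N.zero_mem, by simp⟩
  add_mem' := by
    rintro a b ⟨m, x, y, hy, rfl⟩ ⟨m', x', y', hy', rfl⟩
    refine ⟨m + m', fun q => Fin.append (x q) (x' q), y + y', N.add_mem hy hy', ?_⟩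
    rw [Fin.sum_univ_add]
    simp only [Fin.append_left, Fin.append_right]
    abel
  smul_mem' := by
    rintro c a ⟨m, x, y, hy, rfl⟩
    refine ⟨m, fun q i => if q = 0 then c • x 0 i else x q i, c • y, N.csmul_mem c hy, ?_⟩
    rw [smul_add, Finset.smul_sum]
    congr 1
    refine Finset.sum_congr rfl fun i _ => ?_
    simp

theorem mem_rwitSub {C : Type u} [CStarAlgebra C] {N : CIdeal C} {z : C} :
    z ∈ rwitSub N ↔ ∃ (m : ℕ) (x : Fin 4 → Fin m → C), ∃ y ∈ N,
      (∑ i, x 0 i * (x 1 i * x 2 i - x 2 i * x 1 i) * x 3 i) + y = z := Iff.rfl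

theorem rwitSub_left {C : Type u} [CStarAlgebra C] {N : CIdeal C} (b : C) {z : C}
    (hz : z ∈ rwitSub N) : b * z ∈ rwitSub N := by
  obtain ⟨m, x, y, hy, rfl⟩ := hz
  refine ⟨m, fun q i => if q = 0 then b * x 0 i else x q i, b * y, N.left_mem b hy, ?_⟩
  rw [mul_add, Finset.mul_sum]
  congr 1
  refine Finset.sum_congr rfl fun i _ => ?_
  simp [mul_assoc]

theorem rwitSub_right {C : Type u} [CStarAlgebra C] {N : CIdeal C} (b : C) {z : C}
    (hz : z ∈ rwitSub N) : z * b ∈ rwitSub N := by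
  obtain ⟨m, x, y, hy, rfl⟩ := hz
  refine ⟨m, fun q i => if q = 3 then x 3 i * b else x q i, y * b, N.right_mem hy b, ?_⟩
  rw [add_mul, Finset.sum_mul]
  congr 1
  refine Finset.sum_congr rfl fun i _ => ?_
  simp [mul_assoc]

theorem rwitSub_star {C : Type u} [CStarAlgebra C] {N : CIdeal C} {z : C}
    (hz : z ∈ rwitSub N) : star z ∈ rwitSub N := by
  obtain ⟨m, x, y, hy, rfl⟩ := hz
  refine ⟨m, fun q i => if q = 0 then star (x 3 i) else if q = 1 then star (x 2 i) else
    if q = 2 then star (x 1 i) else star (x 0 i), star y, N.star_mem hy, ?_⟩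
  rw [star_add, star_sum]
  congr 1
  refine Finset.sum_congr rfl fun i _ => ?_
  simp only [Fin.isValue, ↓reduceIte, one_ne_zero, Fin.reduceEq, mul_assoc, star_mul, star_sub]

/-- A closed two-sided star-invariant subspace is an ideal; the closed ideal generated by a set. -/
theorem exists_gen_ideal {C : Type u} [CStarAlgebra C] (N : CIdeal C) :
    ∃ J : CIdeal C, (∀ y ∈ N, y ∈ J) ∧ (∀ a b : C, a * b - b * a ∈ J) ∧
      ∀ z ∈ J, ∀ ε : ℝ, 0 < ε → ∃ (m : ℕ) (x : Fin 4 → Fin m → C), ∃ y ∈ N,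
        ‖(∑ i, x 0 i * (x 1 i * x 2 i - x 2 i * x 1 i) * x 3 i) + y - z‖ < ε := by
  let J : CIdeal C :=
    { toSub := (rwitSub N).topologicalClosure
      mul_left' := fun b a h =>
        map_mem_closure (f := fun x => b * x) (continuous_const_mul b) h
          fun x hx => rwitSub_left b hx
      mul_right' := fun b a h =>
        map_mem_closure (f := fun x => x * b) (continuous_mul_const b) h
          fun x hx => rwitSub_right b hx
      star_mem' := fun a h =>
        map_mem_closure (f := fun x => star x) continuous_star h fun x hx => rwitSub_star hx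
      closed' := isClosed_closure }
  refine ⟨J, fun y hy => ?_, fun a b => ?_, fun z hz ε hε => ?_⟩
  · exact subset_closure (mem_rwitSub.2 ⟨0, fun _ i => i.elim0, y, hy, by simp⟩)
  · refine subset_closure (mem_rwitSub.2 ⟨1, fun q _ => if q = 0 then 1 else if q = 1 then a else
      if q = 2 then b else 1, 0, N.zero_mem, by simp only [Finset.univ_unique, Fin.default_eq_zero, Fin.isValue, ↓reduceIte, one_ne_zero, Fin.reduceEq, one_mul, mul_one, Finset.sum_sub_distrib, Finset.sum_const, Finset.card_singleton, one_smul, add_zero]⟩)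
  · obtain ⟨w, hw, hwn⟩ := Metric.mem_closure_iff.1 hz ε hε
    obtain ⟨m, x, y, hy, rfl⟩ := hw
    exact ⟨m, x, y, hy, by rwa [dist_comm, dist_eq_norm] at hwn⟩

/-- A nontrivial commutative unital C*-algebra has a character. -/
theorem rwit_exists_char (Q : Type u) [CStarAlgebra Q] [Nontrivial Q]
    (hc : ∀ a b : Q, a * b = b * a) : Nonempty (Q →⋆ₐ[ℂ] ℂ) := by
  let _ : CommCStarAlgebra Q := { (inferInstance : CStarAlgebra Q) with mul_comm := hc }
  obtain ⟨φ⟩ := (inferInstance : Nonempty (WeakDual.characterSpace ℂ Q))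
  exact ⟨{ toFun := φ
           map_one' := map_one φ
           map_mul' := map_mul φ
           map_zero' := map_zero φ
           map_add' := map_add φ
           commutes' := AlgHomClass.commutes φ
           map_star' := map_star φ }⟩

/-- If every character is nonzero on `N` then `1` is a sum of commutator terms and an element of
`N`. -/
theorem exists_witness {C : Type u} [CStarAlgebra C] (N : CIdeal C)
    (h : ∀ χ : C →⋆ₐ[ℂ] ℂ, ∃ y ∈ N, χ y ≠ 0) :
    ∃ (m : ℕ) (x : Fin 4 → Fin m → C), ∃ y ∈ N,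
      (∑ i, x 0 i * (x 1 i * x 2 i - x 2 i * x 1 i) * x 3 i) + y = 1 := by
  obtain ⟨J, hNJ, hcomm, happ⟩ := exists_gen_ideal N
  by_cases h1 : (1 : C) ∈ J
  · obtain ⟨m, x, y, hy, hn⟩ := happ 1 h1 1 one_pos
    set z : C := (∑ i, x 0 i * (x 1 i * x 2 i - x 2 i * x 1 i) * x 3 i) + y with hz
    have hu : IsUnit z := by
      have := (Units.oneSub (1 - z) (by rwa [norm_sub_rev])).isUnit
      simpa using this
    obtain ⟨v, hv⟩ := hu
    have hzs : z ∈ rwitSub N := ⟨m, x, y, hy, rfl⟩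
    have h2 := rwitSub_left (↑v⁻¹ : C) hzs
    rw [← hv, Units.inv_mul] at h2
    exact h2
  · exfalso
    have hnt : Nontrivial (Quo J) := by
      refine ⟨⟨1, 0, fun h0 => h1 ?_⟩⟩
      rw [← Quo.qm_eq_zero, map_one]
      exact h0
    obtain ⟨χ⟩ := rwit_exists_char (Quo J) (fun a b => by
      obtain ⟨a, rfl⟩ := Quo.qm_surjective a
      obtain ⟨b, rfl⟩ := Quo.qm_surjective b
      rw [← map_mul, ← map_mul, Quo.qm_eq_iff]
      exact hcomm a b)
    obtain ⟨y, hy, hne⟩ := h (χ.comp (Quo.qm J))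
    exact hne (by rw [StarAlgHom.comp_apply, Quo.qm_zero_of_mem (hNJ y hy), map_zero])

end Vale.Agent.P095R
end

section

/-! Definitions used by the final statements: see the two imported files. -/
end

section

/-! Excision of completely positive maps into matrix algebras, Choi matrices, nuclearity data. -/

set_option linter.unusedSectionVars false

open Filter Topology
open scoped CStarAlgebra ComplexOrder

namespace Vale.Agent.P095

universe u v w

section
variable {A : Type u} [CStarAlgebra A] [PartialOrder A] [StarOrderedRing A]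

theorem NCP.exists_sq {B : Type v} [CStarAlgebra B] [PartialOrder B] [StarOrderedRing B] {b : B}
    (hb : 0 ≤ b) : ∃ L : B, b = star L * L :=
  CStarAlgebra.nonneg_iff_eq_star_mul_self.mp hb

theorem NCP.eq_zero_of_pos {B : Type v} [CStarAlgebra B] [PartialOrder B] [StarOrderedRing B]
    (Φ : B →ₗ[ℂ] ℂ) (hsq : ∀ x : B, ∃ r : ℝ, 0 ≤ r ∧ Φ (star x * x) = r) (h : Φ 1 = 0) :
    Φ = 0 := by
  have hpos : ∀ X : B, 0 ≤ X → ∃ r : ℝ, 0 ≤ r ∧ Φ X = r := by
    intro X hX
    obtain ⟨Y, hY⟩ := CStarAlgebra.nonneg_iff_eq_star_mul_self.mp hX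
    rw [hY]
    exact hsq Y
  have h1 : ∀ X : B, 0 ≤ X → Φ X = 0 := by
    intro X hX
    obtain ⟨r, hr, hr'⟩ := hpos X hX
    have h2 : 0 ≤ algebraMap ℝ B ‖X‖ - X :=
      sub_nonneg.mpr (IsSelfAdjoint.le_algebraMap_norm_self (IsSelfAdjoint.of_nonneg hX))
    obtain ⟨r', hr1, hr1'⟩ := hpos _ h2
    rw [map_sub, hr', Algebra.algebraMap_eq_smul_one] at hr1'
    have h3 : Φ (‖X‖ • (1 : B)) = 0 := by
      have : (‖X‖ • (1 : B)) = ((‖X‖ : ℝ) : ℂ) • (1 : B) := by
        rw [Complex.coe_smul]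
      rw [this, map_smul, h, smul_zero]
    rw [h3, zero_sub] at hr1'
    have h4 : -r = r' := by exact_mod_cast hr1'
    have h5 : r = 0 := by linarith only [hr, hr1, h4]
    rw [hr', h5, Complex.ofReal_zero]
  have h2 : Submodule.span ℂ {X : B | 0 ≤ X} = ⊤ :=
    CStarAlgebra.span_nonneg
  refine LinearMap.ext_on h2 ?_
  intro X hX
  exact h1 X hX

/-- the matrix with the only entry `x` at the place `(i, i')` -/
def NCP.mE {n : ℕ} (x : A) (i i' : Fin n) : CStarMatrix (Fin n) (Fin n) A :=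
  CStarMatrix.ofMatrix (Matrix.single i i' x)

theorem NCP.mE_apply {n : ℕ} (x : A) (i i' a b : Fin n) :
    NCP.mE x i i' a b = if i = a ∧ i' = b then x else 0 := by
  simp only [NCP.mE, CStarMatrix.ofMatrix_apply, Matrix.single_apply]

/-- the corner embedding -/
def NCP.corner {n : ℕ} (p : Fin n) : A →⋆ₙₐ[ℂ] CStarMatrix (Fin n) (Fin n) A where
  toFun a := NCP.mE a p p
  map_smul' c a := by
    ext i j
    simp only [NCP.mE_apply, CStarMatrix.smul_apply, MonoidHom.id_apply]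
    split_ifs <;> simp
  map_zero' := by
    ext i j
    simp [NCP.mE_apply]
  map_add' a b := by
    ext i j
    simp only [NCP.mE_apply, CStarMatrix.add_apply]
    split_ifs <;> simp
  map_mul' a b := by
    ext i j
    rw [CStarMatrix.mul_apply]
    simp only [NCP.mE_apply]
    rw [Finset.sum_eq_single p]
    · by_cases h1 : p = i <;> by_cases h2 : p = j <;> simp [h1, h2]
    · intro b _ hb
      simp [Ne.symm hb]
    · simp
  map_star' a := by
    ext i j
    rw [CStarMatrix.star_apply]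
    simp only [NCP.mE_apply]
    by_cases h1 : p = i <;> by_cases h2 : p = j <;> simp [h1, h2] <;> split_ifs <;> simp

theorem NCP.norm_corner_le {n : ℕ} (p : Fin n) (a : A) : ‖NCP.mE a p p‖ ≤ ‖a‖ :=
  NonUnitalStarAlgHom.norm_apply_le (NCP.corner p) a

/-- the functional attached to a completely positive map -/
noncomputable def NCP.func {n : ℕ} (φ : A →CP CStarMatrix (Fin n) (Fin n) ℂ) :
    CStarMatrix (Fin n) (Fin n) A →ₗ[ℂ] ℂ where
  toFun X := ∑ i, ∑ i', φ (X i i') i i'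
  map_add' X Y := by
    simp only [CStarMatrix.add_apply, map_add, Finset.sum_add_distrib]
  map_smul' c X := by
    simp only [CStarMatrix.smul_apply, map_smul, RingHom.id_apply, smul_eq_mul, Finset.mul_sum]

theorem NCP.func_mE {n : ℕ} (φ : A →CP CStarMatrix (Fin n) (Fin n) ℂ) (x : A) (i i' : Fin n) :
    NCP.func φ (NCP.mE x i i') = φ x i i' := by
  change ∑ a, ∑ b, φ (NCP.mE x i i' a b) a b = _
  rw [Finset.sum_eq_single i, Finset.sum_eq_single i']
  · simp [NCP.mE_apply]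
  · intro b _ hb
    simp only [mE_apply, Ne.symm hb, and_false, ↓reduceIte, map_zero, CStarMatrix.zero_apply]
  · simp only [Finset.mem_univ, not_true_eq_false, IsEmpty.forall_iff]
  · intro b _ hb
    simp only [mE_apply, Ne.symm hb, false_and, ↓reduceIte, map_zero, CStarMatrix.zero_apply, Finset.sum_const_zero]
  · simp only [Finset.mem_univ, not_true_eq_false, IsEmpty.forall_iff]

theorem NCP.func_one {n : ℕ} (φ : A →CP CStarMatrix (Fin n) (Fin n) ℂ) :
    NCP.func φ 1 = ∑ i, φ 1 i i := by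
  change ∑ a, ∑ b, φ ((1 : CStarMatrix (Fin n) (Fin n) A) a b) a b = _
  refine Finset.sum_congr rfl fun i _ => ?_
  rw [Finset.sum_eq_single i]
  · simp only [CStarMatrix.one_apply_eq]
  · intro b _ hb
    simp [Ne.symm hb]
  · simp only [Finset.mem_univ, not_true_eq_false, CStarMatrix.one_apply_eq, IsEmpty.forall_iff]

theorem NCP.func_sq {n : ℕ} (φ : A →CP CStarMatrix (Fin n) (Fin n) ℂ)
    (X : CStarMatrix (Fin n) (Fin n) A) :
    ∃ r : ℝ, 0 ≤ r ∧ NCP.func φ (star X * X) = r := by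
  have h0 : 0 ≤ (star X * X).map φ := by
    exact φ.map_cstarMatrix_nonneg _ (star_mul_self_nonneg X)
  obtain ⟨L, hL⟩ := NCP.exists_sq h0
  have h1 : ∀ i i', φ ((star X * X) i i') = ∑ l, star (L l i) * L l i' := by
    intro i i'
    exact CStarMatrix.ext_iff.mpr hL i i'
  refine ⟨∑ l, ∑ b, Complex.normSq (∑ i, L l i b i), ?_, ?_⟩
  · exact Finset.sum_nonneg fun l _ => Finset.sum_nonneg fun b _ => Complex.normSq_nonneg _
  · change ∑ i, ∑ i', φ ((star X * X) i i') i i' = _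
    have h2 : ∀ i i', φ ((star X * X) i i') i i' =
        ∑ l, ∑ b, star (L l i b i) * L l i' b i' := by
      intro i i'
      rw [h1]
      have : ∀ (s : Finset (Fin n)) (f : Fin n → CStarMatrix (Fin n) (Fin n) ℂ) (a b : Fin n),
          (∑ l ∈ s, f l) a b = ∑ l ∈ s, f l a b := by
        intro s f a b
        exact Matrix.sum_apply a b s f
      rw [this]
      refine Finset.sum_congr rfl fun l _ => ?_
      rw [CStarMatrix.mul_apply]
      rfl
    simp only [h2]
    push_cast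
    have h3 : ∀ l b : Fin n, (Complex.normSq (∑ i, L l i b i) : ℂ) =
        ∑ i, ∑ i', star (L l i b i) * L l i' b i' := by
      intro l b
      rw [Complex.normSq_eq_conj_mul_self, map_sum, Finset.sum_mul_sum]
      rfl
    simp only [h3]
    rw [Finset.sum_congr rfl fun i _ => Finset.sum_comm]
    rw [Finset.sum_comm]
    refine Finset.sum_congr rfl fun l _ => ?_
    rw [Finset.sum_congr rfl fun i _ => Finset.sum_comm]
    rw [Finset.sum_comm]

theorem NCP.func_eq_zero {n : ℕ} (φ : A →CP CStarMatrix (Fin n) (Fin n) ℂ)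
    (h : NCP.func φ 1 = 0) : NCP.func φ = 0 :=
  NCP.eq_zero_of_pos (NCP.func φ) (NCP.func_sq φ) h

theorem NCP.exists_col {n : ℕ} {q : CStarMatrix (Fin n) (Fin n) A} (hq : q ≠ 0) :
    ∃ p : Fin n, ∑ i, star (q i p) * q i p ≠ 0 := by
  by_contra hcon
  push Not at hcon
  apply hq
  ext i p
  have h1 := hcon p
  rw [Finset.sum_eq_zero_iff_of_nonneg (fun i _ => star_mul_self_nonneg (q i p))] at h1
  have h2 := h1 i (Finset.mem_univ _)
  rw [CStarRing.star_mul_self_eq_zero_iff] at h2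
  simpa using h2

theorem NCP.mul_mE_apply {n : ℕ} (q : CStarMatrix (Fin n) (Fin n) A) (a : A) (p0 i p : Fin n) :
    (q * NCP.mE a p0 p0) i p = if p0 = p then q i p0 * a else 0 := by
  rw [CStarMatrix.mul_apply, Finset.sum_eq_single p0]
  · simp only [NCP.mE_apply]
    by_cases h : p0 = p <;> simp [h]
  · intro b _ hb
    simp [NCP.mE_apply, Ne.symm hb]
  · simp only [Finset.mem_univ, not_true_eq_false, IsEmpty.forall_iff]

theorem NCP.star_mul_self_col {n : ℕ} (v : CStarMatrix (Fin n) (Fin n) A) (z : Fin n → A)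
    (p0 : Fin n) (hv : ∀ i p, v i p = if p0 = p then z i else 0) :
    star v * v = NCP.mE (∑ i, star (z i) * z i) p0 p0 := by
  ext a b
  rw [CStarMatrix.mul_apply, NCP.mE_apply]
  simp only [CStarMatrix.star_apply, hv]
  by_cases h1 : p0 = a
  · by_cases h2 : p0 = b
    · simp only [if_pos h1, if_pos h2, if_pos (And.intro h1 h2)]
    · rw [if_neg (fun h => h2 h.2)]
      simp only [if_neg h2, mul_zero, Finset.sum_const_zero]
  · rw [if_neg (fun h => h1 h.1)]
    simp only [if_neg h1, star_zero, zero_mul, Finset.sum_const_zero]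

theorem NCP.star_mul_mE_mul_col {n : ℕ} (v : CStarMatrix (Fin n) (Fin n) A) (z : Fin n → A)
    (p0 : Fin n) (hv : ∀ i p, v i p = if p0 = p then z i else 0) (x : A) (i i' : Fin n) :
    (star v * NCP.mE x i i' * v) p0 p0 = star (z i) * x * z i' := by
  rw [CStarMatrix.mul_apply, Finset.sum_eq_single i']
  · rw [CStarMatrix.mul_apply, Finset.sum_eq_single i]
    · simp only [CStarMatrix.star_apply, hv, ↓reduceIte, mE_apply, and_self]
    · intro b _ hb
      simp only [mE_apply, Ne.symm hb, and_true, ↓reduceIte, mul_zero]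
    · simp only [Finset.mem_univ, not_true_eq_false, IsEmpty.forall_iff]
  · intro b _ hb
    rw [CStarMatrix.mul_apply, Finset.sum_eq_zero, zero_mul]
    intro a _
    simp only [mE_apply, Ne.symm hb, and_false, ↓reduceIte, mul_zero]
  · simp only [Finset.mem_univ, not_true_eq_false, IsEmpty.forall_iff]

end

end Vale.Agent.P095
end

section

/-! Choi matrices and the form in which nuclearity is used. -/

set_option linter.unusedSectionVars false

open Filter Topology
open scoped CStarAlgebra ComplexOrder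

namespace Vale.Agent.P095

universe u v w

/-- positive elements are of the form `star c * c` -/
theorem exists_star_mul_self_eq {B : Type*} [NonUnitalCStarAlgebra B] [PartialOrder B]
    [StarOrderedRing B] {b : B} (hb : 0 ≤ b) : ∃ c : B, b = star c * c :=
  CStarAlgebra.nonneg_iff_eq_star_mul_self.1 hb

section
variable {A : Type u} [CStarAlgebra A] [PartialOrder A] [StarOrderedRing A]

theorem choi {n : ℕ} (ψ : CStarMatrix (Fin n) (Fin n) ℂ →CP A) :
    ∃ c : Fin n → Fin n → A, ∀ M : CStarMatrix (Fin n) (Fin n) ℂ,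
      ψ M = ∑ i, ∑ j, M i j • ∑ l, star (c l i) * c l j := by
  rcases Nat.eq_zero_or_pos n with hn | hn
  · subst hn
    refine ⟨fun _ _ => 0, fun M => ?_⟩
    have : M = 0 := by
      ext i j
      exact i.elim0
    rw [this, map_zero]
    simp only [Finset.univ_eq_empty, CStarMatrix.zero_apply, star_zero, mul_zero, Finset.sum_const_zero, smul_zero]
  · let z : Fin n := ⟨0, hn⟩
    let e : Fin n → Fin n → CStarMatrix (Fin n) (Fin n) ℂ :=
      fun i j => CStarMatrix.ofMatrix (Matrix.single i j 1)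
    have he : ∀ i j a b, e i j a b = if i = a ∧ j = b then 1 else 0 := by
      intro i j a b
      exact Matrix.single_apply i j 1 a b
    obtain ⟨V, hV⟩ : ∃ V : CStarMatrix (Fin n) (Fin n) (CStarMatrix (Fin n) (Fin n) ℂ),
        ∀ k i, V k i = if k = z then e z i else 0 :=
      ⟨CStarMatrix.ofMatrix (Matrix.of (fun k i => if k = z then e z i else 0)), fun _ _ => rfl⟩
    have hstar : ∀ i j, star (e i j) = e j i := by
      intro i j
      ext a b
      rw [CStarMatrix.star_apply, he, he]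
      by_cases h : i = b ∧ j = a
      · rw [if_pos h, if_pos ⟨h.2, h.1⟩, star_one]
      · rw [if_neg h, if_neg (fun h' => h ⟨h'.2, h'.1⟩), star_zero]
    have hmul : ∀ i j, e i z * e z j = e i j := by
      intro i j
      ext a b
      rw [CStarMatrix.mul_apply, Finset.sum_eq_single z]
      · rw [he, he, he]
        by_cases h1 : i = a <;> by_cases h2 : j = b <;> simp [h1, h2]
      · intro k _ hk
        rw [he, if_neg (fun h => hk h.2.symm), zero_mul]
      · intro h
        exact absurd (Finset.mem_univ _) h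
    have hE : ∀ i j, (star V * V) i j = e i j := by
      intro i j
      rw [CStarMatrix.mul_apply, Finset.sum_eq_single z]
      · rw [CStarMatrix.star_apply, hV, hV, if_pos rfl, if_pos rfl, hstar, hmul]
      · intro k _ hk
        rw [CStarMatrix.star_apply, hV, hV, if_neg hk, if_neg hk, mul_zero]
      · intro h
        exact absurd (Finset.mem_univ _) h
    have h0 : 0 ≤ star V * V := star_mul_self_nonneg V
    have h1 := ψ.map_cstarMatrix_nonneg' n (star V * V) h0
    obtain ⟨C, hC⟩ := exists_star_mul_self_eq h1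
    refine ⟨fun l i => C l i, fun M => ?_⟩
    have h2 : ∀ i j, ψ (e i j) = ∑ l, star (C l i) * C l j := by
      intro i j
      have h3 : ((star V * V).map ψ.toLinearMap) i j = (star C * C) i j := by rw [hC]
      rw [CStarMatrix.map_apply, hE, CStarMatrix.mul_apply] at h3
      simp only [CStarMatrix.star_apply] at h3
      exact h3
    have hM : M = ∑ i, ∑ j, M i j • e i j := by
      have hsum : ∀ (f : Fin n → CStarMatrix (Fin n) (Fin n) ℂ) (a b : Fin n),
          (∑ i, f i) a b = ∑ i, f i a b := by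
        intro f a b
        exact Matrix.sum_apply a b Finset.univ f
      ext a b
      rw [hsum, Finset.sum_eq_single a, hsum, Finset.sum_eq_single b]
      · rw [CStarMatrix.smul_apply, he, if_pos ⟨rfl, rfl⟩, smul_eq_mul, mul_one]
      · intro j _ hj
        rw [CStarMatrix.smul_apply, he, if_neg (fun h => hj h.2), smul_zero]
      · intro h
        exact absurd (Finset.mem_univ _) h
      · intro i _ hi
        rw [hsum]
        refine Finset.sum_eq_zero fun j _ => ?_
        rw [CStarMatrix.smul_apply, he, if_neg (fun h => hi h.1), smul_zero]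
      · intro h
        exact absurd (Finset.mem_univ _) h
    conv_lhs => rw [hM]
    rw [map_sum]
    refine Finset.sum_congr rfl fun i _ => ?_
    rw [map_sum]
    refine Finset.sum_congr rfl fun j _ => ?_
    rw [map_smul, h2]

/-- the completely positive approximation property without norm bounds -/
def CPAP (A : Type u) [CStarAlgebra A] [PartialOrder A] [StarOrderedRing A] : Prop :=
  ∀ (F : Finset A) (ε : ℝ), 0 < ε → ∃ (n : ℕ) (φ : A →CP CStarMatrix (Fin n) (Fin n) ℂ)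
    (ψ : CStarMatrix (Fin n) (Fin n) ℂ →CP A), ∀ a ∈ F, ‖ψ (φ a) - a‖ ≤ ε

end

end Vale.Agent.P095
end

section

/-! The nonequivariant core of property (SI), local form. -/

set_option linter.unusedSectionVars false

open Filter Topology

namespace Vale.Agent.P095

universe u v w

theorem exists_pos_le_fin {P : ℕ} (δ : Fin P → ℝ) (h : ∀ k, 0 < δ k) :
    ∃ δ0 : ℝ, 0 < δ0 ∧ ∀ k, δ0 ≤ δ k := by
  classical
  have hne : ((Finset.univ.image δ) ∪ {1}).Nonempty := ⟨1, by simp only [Finset.union_singleton, Finset.mem_insert, Finset.mem_image, Finset.mem_univ, true_and, true_or]⟩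
  refine ⟨((Finset.univ.image δ) ∪ {1}).min' hne, ?_, fun k => ?_⟩
  · rw [Finset.lt_min'_iff]
    intro y hy
    rcases Finset.mem_union.1 hy with hy | hy
    · obtain ⟨k, _, rfl⟩ := Finset.mem_image.1 hy
      exact h k
    · rw [Finset.mem_singleton.1 hy]; exact one_pos
  · exact Finset.min'_le _ _ (Finset.mem_union_left _ (Finset.mem_image_of_mem _ (Finset.mem_univ k)))

section
variable {A : Type u} [CStarAlgebra A] [PartialOrder A] [StarOrderedRing A]

theorem absb_self {d h : A} {ε : ℝ} (hε : 0 ≤ ε) (H : Absb d h ε) (v : A) :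
    ‖h * (d * v) - d * v‖ ≤ ε * ‖d * v‖ :=
  absb_map (StarAlgHom.id ℂ A) hε H v

theorem norm_sub_mul_le_aux (v w t t' b : A) (ε : ℝ) (h0 : 0 ≤ ε) (h1 : ε ≤ 1)
    (hv : ‖t * v - v‖ ≤ ε * ‖v‖) (hw : ‖t' * w - w‖ ≤ ε * ‖w‖) (ht : star t = t)
    (htt : ‖t * b * t'‖ ≤ ε * (1 + ‖b‖)) :
    ‖star v * b * w‖ ≤ 4 * ε * (1 + ‖b‖) * ‖v‖ * ‖w‖ := by
  have e : star v * b * w = star v * (t * b * t') * w - star (t * v - v) * b * (t' * w)
      - star v * b * (t' * w - w) := by
    rw [star_sub, star_mul, ht]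
    noncomm_ring
  have n1 : ‖star v * (t * b * t') * w‖ ≤ ‖v‖ * (ε * (1 + ‖b‖)) * ‖w‖ := by
    refine (norm_mul_le _ _).trans (mul_le_mul_of_nonneg_right ?_ (norm_nonneg _))
    refine (norm_mul_le _ _).trans ?_
    rw [norm_star]
    exact mul_le_mul_of_nonneg_left htt (norm_nonneg _)
  have hw2 : ‖t' * w‖ ≤ 2 * ‖w‖ := by
    have := norm_add_le (t' * w - w) w
    rw [sub_add_cancel] at this
    nlinarith only [hw, this, h1, norm_nonneg w]
  have n2 : ‖star (t * v - v) * b * (t' * w)‖ ≤ (ε * ‖v‖) * ‖b‖ * (2 * ‖w‖) := by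
    refine (norm_mul_le _ _).trans (mul_le_mul ?_ hw2 (norm_nonneg _) (by (clear * - h0; positivity)))
    refine (norm_mul_le _ _).trans (mul_le_mul_of_nonneg_right ?_ (norm_nonneg _))
    rw [norm_star]; exact hv
  have n3 : ‖star v * b * (t' * w - w)‖ ≤ ‖v‖ * ‖b‖ * (ε * ‖w‖) := by
    refine (norm_mul_le _ _).trans (mul_le_mul ?_ hw (norm_nonneg _) (by (clear * -; positivity)))
    refine (norm_mul_le _ _).trans_eq ?_
    rw [norm_star]
  have h4 : ‖star v * b * w‖ ≤ ‖v‖ * (ε * (1 + ‖b‖)) * ‖w‖ + (ε * ‖v‖) * ‖b‖ * (2 * ‖w‖)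
      + ‖v‖ * ‖b‖ * (ε * ‖w‖) := by
    rw [e]
    refine (norm_sub_le _ _).trans (add_le_add ((norm_sub_le _ _).trans (add_le_add n1 n2)) n3)
  refine h4.trans ?_
  have : 0 ≤ ε * ‖v‖ * ‖w‖ := by (clear * - h0; positivity)
  have : 0 ≤ ε * ‖v‖ * ‖w‖ * ‖b‖ := by (clear * - h0; positivity)
  (clear t t' h1 hv hw ht htt e n1 hw2 n2 n3 h4 this; nlinarith)

theorem sum_diag {P n : ℕ} {E : Type*} [AddCommMonoid E]
    (f : (Fin P × Fin n) → (Fin P × Fin n) → E) :
    ∑ p : Fin P × Fin n, ∑ q : Fin P × Fin n, (if p.1 = q.1 then f p q else 0) =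
      ∑ k, ∑ i, ∑ i', f (k, i) (k, i') := by
  simp only [Fintype.sum_prod_type]
  refine Finset.sum_congr rfl fun k _ => Finset.sum_congr rfl fun i _ => ?_
  rw [Finset.sum_eq_single k]
  · simp only [↓reduceIte]
  · intro l _ hl
    refine Finset.sum_eq_zero fun j _ => if_neg (fun h => hl h.symm)
  · intro h; exact absurd (Finset.mem_univ k) h

theorem diag_term {ε' δ0 : ℝ} (hε'0 : 0 < ε') (x' h b e c c' : A) (r : ℂ)
    (hx2 : ‖x'‖ * ‖x'‖ ≤ 2) (hhx : ‖h * x' - x'‖ ≤ ε' * ‖x'‖) (hbh : ‖b - r • h‖ ≤ δ0)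
    (hx'e : ‖star x' * x' - e‖ ≤ ε') (hec : ‖e * c' - c' * e‖ ≤ ε') :
    ‖star c * (star x' * b * x') * c' - (r • (star c * c')) * e‖ ≤
      2 * δ0 * (‖c‖ * ‖c'‖) + 4 * ε' * ((1 + ‖c‖) * (1 + ‖c'‖) * (1 + ‖r‖)) := by
  have hin : ‖star x' * b * x' - r • e‖ ≤ 2 * δ0 + 3 * ‖r‖ * ε' := by
    have e1 : star x' * b * x' - r • e = star x' * (b - r • h) * x' +
        r • (star x' * (h * x' - x')) + r • (star x' * x' - e) := by
      simp only [mul_assoc, mul_sub, mul_smul_comm, sub_mul, smul_mul_assoc, smul_sub]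
      abel
    have a1 : ‖star x' * (b - r • h) * x'‖ ≤ 2 * δ0 := by
      refine (norm_mul_le _ _).trans ?_
      refine (mul_le_mul_of_nonneg_right (norm_mul_le _ _) (norm_nonneg _)).trans ?_
      rw [norm_star]
      nlinarith only [hbh, hx2, norm_nonneg (b - r • h)]
    have a2 : ‖r • (star x' * (h * x' - x'))‖ ≤ ‖r‖ * (2 * ε') := by
      rw [norm_smul]
      refine mul_le_mul_of_nonneg_left ?_ (norm_nonneg _)
      refine (norm_mul_le _ _).trans ?_
      rw [norm_star]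
      nlinarith only [hε'0, hx2, hhx, norm_nonneg x']
    have a3 : ‖r • (star x' * x' - e)‖ ≤ ‖r‖ * ε' := by
      rw [norm_smul]
      exact mul_le_mul_of_nonneg_left hx'e (norm_nonneg _)
    rw [e1]
    refine (norm_add_le _ _).trans ((add_le_add ((norm_add_le _ _).trans
      (add_le_add a1 a2)) a3).trans ?_)
    linarith only []
  have e2 : star c * (star x' * b * x') * c' - (r • (star c * c')) * e =
      star c * (star x' * b * x' - r • e) * c' + r • (star c * (e * c' - c' * e)) := by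
    simp only [mul_assoc, smul_mul_assoc, mul_sub, mul_smul_comm, sub_mul, smul_sub]
    abel
  have a4 : ‖star c * (star x' * b * x' - r • e) * c'‖ ≤
      ‖c‖ * (2 * δ0 + 3 * ‖r‖ * ε') * ‖c'‖ := by
    refine (norm_mul_le _ _).trans (mul_le_mul_of_nonneg_right ?_ (norm_nonneg _))
    refine (norm_mul_le _ _).trans ?_
    rw [norm_star]
    exact mul_le_mul_of_nonneg_left hin (norm_nonneg _)
  have a5 : ‖r • (star c * (e * c' - c' * e))‖ ≤ ‖r‖ * (‖c‖ * ε') := by
    rw [norm_smul]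
    refine mul_le_mul_of_nonneg_left ?_ (norm_nonneg _)
    refine (norm_mul_le _ _).trans ?_
    rw [norm_star]
    exact mul_le_mul_of_nonneg_left hec (norm_nonneg _)
  rw [e2]
  refine (norm_add_le _ _).trans ((add_le_add a4 a5).trans ?_)
  have n1 := norm_nonneg c
  have n2 := norm_nonneg c'
  have n3 := norm_nonneg r
  have key : 3 * (‖c‖ * ‖c'‖ * ‖r‖) + ‖r‖ * ‖c‖ ≤
      4 * ((1 + ‖c‖) * (1 + ‖c'‖) * (1 + ‖r‖)) := by
    have m1 := mul_nonneg n1 n2
    have m2 := mul_nonneg n1 n3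
    have m3 := mul_nonneg n2 n3
    have m4 := mul_nonneg m1 n3
    linarith
  nlinarith only [key, hε'0]

theorem offdiag_term {ε' : ℝ} (hε'0 : 0 < ε') (I c c' : A) (r : ℂ) (h2 : ‖I‖ ≤ ε' * 4) :
    ‖star c * I * c'‖ ≤ 4 * ε' * ((1 + ‖c‖) * (1 + ‖c'‖) * (1 + ‖r‖)) := by
  have h3 : ‖star c * I * c'‖ ≤ ‖c‖ * (ε' * 4) * ‖c'‖ := by
    refine (norm_mul_le _ _).trans (mul_le_mul_of_nonneg_right ?_ (norm_nonneg _))
    refine (norm_mul_le _ _).trans ?_
    rw [norm_star]
    exact mul_le_mul_of_nonneg_left h2 (norm_nonneg _)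
  refine h3.trans ?_
  have n1 := norm_nonneg c
  have n2 := norm_nonneg c'
  have n3 := norm_nonneg r
  have key : ‖c‖ * ‖c'‖ ≤ (1 + ‖c‖) * (1 + ‖c'‖) * (1 + ‖r‖) := by
    have m1 := mul_nonneg n1 n2
    have m2 := mul_nonneg n1 n3
    have m3 := mul_nonneg n2 n3
    have m4 := mul_nonneg m1 n3
    linarith
  nlinarith only [key, hε'0]

/-- the estimate of `s* x s` -/
theorem main_term {P n : ℕ} (z c : Fin P → Fin n → A) (x' h : Fin P → A) (e x : A)
    (r : Fin P → Fin n → Fin n → ℂ) {ε' δ0 W : ℝ} (hε'0 : 0 < ε') (he1 : ‖e‖ ≤ 1)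
    (hx2 : ∀ k, ‖x' k‖ * ‖x' k‖ ≤ 2) (hhx : ∀ k, ‖h k * x' k - x' k‖ ≤ ε' * ‖x' k‖)
    (hbh : ∀ k i i', ‖star (z k i) * x * z k i' - r k i i' • h k‖ ≤ δ0)
    (hx'e : ∀ k, ‖star (x' k) * x' k - e‖ ≤ ε') (hec : ∀ k i, ‖e * c k i - c k i * e‖ ≤ ε')
    (hoff : ∀ k l, k ≠ l → ∀ i i', ‖star (x' k) * (star (z k i) * x * z l i') * x' l‖ ≤ ε' * 4)
    (hap : ‖∑ k, ∑ i, ∑ i', r k i i' • (star (c k i) * c k i') - x‖ ≤ W) :
    ‖star (∑ p : Fin P × Fin n, z p.1 p.2 * x' p.1 * c p.1 p.2) * x *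
      (∑ p : Fin P × Fin n, z p.1 p.2 * x' p.1 * c p.1 p.2) - x * e‖ ≤
      2 * (δ0 * ∑ k, ∑ i, ∑ i', ‖c k i‖ * ‖c k i'‖) +
      4 * ε' * (∑ p : Fin P × Fin n, ∑ q : Fin P × Fin n,
        (1 + ‖c p.1 p.2‖) * (1 + ‖c q.1 q.2‖) * (1 + ‖r p.1 p.2 q.2‖)) + W := by
  set s : A := ∑ p : Fin P × Fin n, z p.1 p.2 * x' p.1 * c p.1 p.2 with hsdef
  let T : (Fin P × Fin n) → (Fin P × Fin n) → A := fun p q => star (c p.1 p.2) *
    (star (x' p.1) * (star (z p.1 p.2) * x * z q.1 q.2) * x' q.1) * c q.1 q.2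
  let N : (Fin P × Fin n) → (Fin P × Fin n) → A := fun p q => if p.1 = q.1 then
    r p.1 p.2 q.2 • (star (c p.1 p.2) * c q.1 q.2) else 0
  let D : (Fin P × Fin n) → (Fin P × Fin n) → ℝ := fun p q =>
    if p.1 = q.1 then ‖c p.1 p.2‖ * ‖c q.1 q.2‖ else 0
  have hs : star s * x * s = ∑ p, ∑ q, T p q := by
    simp only [hsdef, star_sum, Finset.sum_mul, Finset.mul_sum]
    rw [Finset.sum_comm]
    refine Finset.sum_congr rfl fun p _ => Finset.sum_congr rfl fun q _ => ?_
    simp only [T, star_mul, mul_assoc]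
  have hterm : ∀ p q, ‖T p q - N p q * e‖ ≤ 2 * δ0 * D p q + 4 * ε' *
      ((1 + ‖c p.1 p.2‖) * (1 + ‖c q.1 q.2‖) * (1 + ‖r p.1 p.2 q.2‖)) := by
    rintro ⟨k, i⟩ ⟨l, j⟩
    by_cases hpq : k = l
    · subst hpq
      simp only [T, N, D, if_true]
      exact diag_term hε'0 (x' k) (h k) _ e (c k i) (c k j) (r k i j) (hx2 k) (hhx k)
        (hbh k i j) (hx'e k) (hec k j)
    · simp only [T, N, D, if_neg hpq, zero_mul, sub_zero, mul_zero, zero_add]
      exact offdiag_term hε'0 _ (c k i) (c l j) (r k i j) (hoff k l hpq i j)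
  have hNsum : ∑ p, ∑ q, N p q = ∑ k, ∑ i, ∑ i', r k i i' • (star (c k i) * c k i') :=
    sum_diag fun p q => r p.1 p.2 q.2 • (star (c p.1 p.2) * c q.1 q.2)
  have hDsum : ∑ p, ∑ q, D p q = ∑ k, ∑ i, ∑ i', ‖c k i‖ * ‖c k i'‖ :=
    sum_diag fun p q => ‖c p.1 p.2‖ * ‖c q.1 q.2‖
  have hmain : ‖star s * x * s - (∑ p, ∑ q, N p q) * e‖ ≤
      2 * (δ0 * ∑ k, ∑ i, ∑ i', ‖c k i‖ * ‖c k i'‖) +
      4 * ε' * (∑ p : Fin P × Fin n, ∑ q : Fin P × Fin n,
        (1 + ‖c p.1 p.2‖) * (1 + ‖c q.1 q.2‖) * (1 + ‖r p.1 p.2 q.2‖)) := by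
    have e3 : star s * x * s - (∑ p, ∑ q, N p q) * e = ∑ p, ∑ q, (T p q - N p q * e) := by
      rw [hs]
      simp only [Finset.sum_mul, Finset.sum_sub_distrib]
    rw [e3]
    refine (norm_sum_le _ _).trans ((Finset.sum_le_sum fun p _ => (norm_sum_le _ _).trans
      (Finset.sum_le_sum fun q _ => hterm p q)).trans (le_of_eq ?_))
    rw [← hDsum]
    simp only [Finset.sum_add_distrib, ← Finset.mul_sum]
    rw [mul_assoc 2 δ0]
  have hlast : ‖(∑ p, ∑ q, N p q) * e - x * e‖ ≤ W := by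
    rw [← sub_mul, hNsum]
    refine (norm_mul_le _ _).trans ?_
    have hW0 : 0 ≤ W := (norm_nonneg _).trans hap
    calc _ ≤ W * 1 := mul_le_mul hap he1 (norm_nonneg _) hW0
      _ = W := mul_one _
  have e4 : star s * x * s - x * e = (star s * x * s - (∑ p, ∑ q, N p q) * e) +
      ((∑ p, ∑ q, N p q) * e - x * e) := by abel
  rw [e4]
  exact (norm_add_le _ _).trans (add_le_add hmain hlast)

/-- the absorption of `y` -/
theorem absorb_term {P n : ℕ} (z c : Fin P → Fin n → A) (x' : Fin P → A) (y : A) {ε' : ℝ}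
    (hε'0 : 0 < ε') (hz : ∀ k i, ‖z k i‖ ≤ 1) (hx'n : ∀ k, ‖x' k‖ ≤ 2)
    (hyx : ∀ k, ‖y * x' k - x' k‖ ≤ ε' * ‖x' k‖)
    (hyz : ∀ k i, ‖y * z k i - z k i * y‖ ≤ ε') :
    ‖y * (∑ p : Fin P × Fin n, z p.1 p.2 * x' p.1 * c p.1 p.2) -
      ∑ p : Fin P × Fin n, z p.1 p.2 * x' p.1 * c p.1 p.2‖ ≤
      4 * ε' * ∑ p : Fin P × Fin n, ‖c p.1 p.2‖ := by
  have e1 : y * (∑ p : Fin P × Fin n, z p.1 p.2 * x' p.1 * c p.1 p.2) -
      ∑ p : Fin P × Fin n, z p.1 p.2 * x' p.1 * c p.1 p.2 =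
      ∑ p : Fin P × Fin n, ((y * z p.1 p.2 - z p.1 p.2 * y) * x' p.1 * c p.1 p.2 +
      z p.1 p.2 * (y * x' p.1 - x' p.1) * c p.1 p.2) := by
    simp only [Finset.mul_sum, ← Finset.sum_sub_distrib]
    refine Finset.sum_congr rfl fun p _ => ?_
    noncomm_ring
  rw [e1, Finset.mul_sum]
  refine (norm_sum_le _ _).trans (Finset.sum_le_sum fun p _ => ?_)
  have a1 : ‖(y * z p.1 p.2 - z p.1 p.2 * y) * x' p.1 * c p.1 p.2‖ ≤
      ε' * 2 * ‖c p.1 p.2‖ := by
    refine (norm_mul_le _ _).trans (mul_le_mul_of_nonneg_right ?_ (norm_nonneg _))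
    exact (norm_mul_le _ _).trans (mul_le_mul (hyz p.1 p.2) (hx'n p.1) (norm_nonneg _) hε'0.le)
  have a2 : ‖z p.1 p.2 * (y * x' p.1 - x' p.1) * c p.1 p.2‖ ≤ 1 * (ε' * 2) * ‖c p.1 p.2‖ := by
    refine (norm_mul_le _ _).trans (mul_le_mul_of_nonneg_right ?_ (norm_nonneg _))
    refine (norm_mul_le _ _).trans (mul_le_mul (hz p.1 p.2) ?_ (norm_nonneg _) zero_le_one)
    exact (hyx p.1).trans (mul_le_mul_of_nonneg_left (hx'n p.1) hε'0.le)
  refine (norm_add_le _ _).trans ((add_le_add a1 a2).trans ?_)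
  linarith only []

theorem exists_eps' {C1 C2 ε : ℝ} (h1 : 1 ≤ C1) (h2 : 1 ≤ C2) (hε : 0 < ε) :
    ∃ ε' : ℝ, 0 < ε' ∧ 16 * (ε' * C1) ≤ ε ∧ 16 * (ε' * C2) ≤ ε := by
  have h0 : 0 < C1 + C2 := by linarith
  refine ⟨ε / (16 * (C1 + C2)), by positivity, ?_, ?_⟩
  · have : 16 * (ε / (16 * (C1 + C2)) * C1) = ε * (C1 / (C1 + C2)) := by field_simp
    rw [this]
    have h3 : C1 / (C1 + C2) ≤ 1 := by rw [div_le_one h0]; linarith only [h2]
    nlinarith only [hε, h3]
  · have : 16 * (ε / (16 * (C1 + C2)) * C2) = ε * (C2 / (C1 + C2)) := by field_simp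
    rw [this]
    have h3 : C2 / (C1 + C2) ≤ 1 := by rw [div_le_one h0]; linarith only [h1]
    nlinarith only [hε, h3]

end

end Vale.Agent.P095
end

section

/-! Comparison with elements that are small in every trace. -/

namespace Vale.Agent.P095C

open Vale.Agent.P095

end Vale.Agent.P095C
end

section

/-! The cutting lemma and the core cuts relative to an ideal. -/

set_option linter.unusedSectionVars false

open Filter Topology

namespace Vale.Agent.P095M

open Vale.Agent.P133 (CIdeal)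
open Vale.Agent.P095N (SimpleI)
open Vale.Agent.P095 Vale.Agent.P101

universe u v w

section
variable {A : Type u} [CStarAlgebra A] [PartialOrder A] [StarOrderedRing A]

theorem AlmC.mono {I : CIdeal A} {b : A} {F F' : Finset A} {ε ε' : ℝ} {y : A}
    (h : AlmC I b F' ε' y) (hF : F ⊆ F') (hε : ε' ≤ ε) : AlmC I b F ε y :=
  ⟨h.1, h.2.1, by linarith only [hε, h.2.2.1], fun a ha haI => (h.2.2.2 a (hF ha) haI).trans hε⟩

/-- cutting further so that an almost central `y` is absorbed too -/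
theorem step_cut_rel {I : CIdeal A} (hI : SimpleI I) (b : A) (hbI : b ∈ I) (hb1 : ‖b‖ ≤ 1)
    (d : A) (hdI : d ∈ I) (hd : 0 ≤ d) (hd1 : ‖d‖ = 1) (ε : ℝ) (hε : 0 < ε) :
    ∃ (F : Finset A) (δ : ℝ), 0 < δ ∧ ∀ y : A, AlmC I b F δ y →
      ∃ d' z : A, 0 ≤ d' ∧ ‖d'‖ = 1 ∧ d' = d * z ∧ Absb d' y ε := by
  set e : ℝ := min ε (1 / 2) with he
  have he0 : 0 < e := lt_min hε (by norm_num)
  have he1 : e ≤ 1 / 2 := min_le_right _ _
  have heε : e ≤ ε := min_le_left _ _
  set κ : ℝ := e ^ 2 / 8 with hκd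
  have hκ0 : 0 < κ := by (clear * - hε; positivity)
  have hκ1 : κ ≤ 1 / 32 := by rw [hκd]; nlinarith only [he1, he0]
  obtain ⟨F, δ, hδ, hF⟩ := norm_lemma_rel hI b hbI hb1 d hdI hd κ hκ0
  refine ⟨F, δ, hδ, fun y hy => ?_⟩
  have hyn := hF y hy
  obtain ⟨hy0, hy1, -, -⟩ := hy
  have hy1' : y ≤ 1 := le_one_of_norm_le hy0 hy1
  have hdsa : star d = d := (IsSelfAdjoint.of_nonneg hd).star_eq
  have hdle : d ≤ 1 := le_one_of_norm_le hd hd1.le
  set T : A := d * y * d with hT
  have hT0 : 0 ≤ T := by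
    have := star_left_conjugate_nonneg hy0 d
    rwa [hdsa] at this
  have hTn : 1 - κ ≤ ‖T‖ := by
    have := hyn
    rw [hd1] at this
    simpa only [tsub_le_iff_right, ge_iff_le, one_pow] using this
  obtain ⟨d', z0, hd'0, hd'1, hTz, -, hle⟩ := top_cut_general T hT0 κ hκ0 (by linarith only [hκ1, hTn])
  have hd'sa : star d' = d' := (IsSelfAdjoint.of_nonneg hd'0).star_eq
  have hdd' : 0 ≤ d' * d' := by
    have := star_mul_self_nonneg d'
    rwa [hd'sa] at this
  -- conjugation by d'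
  have conj : ∀ {p q : A}, p ≤ q → d' * p * d' ≤ d' * q * d' := by
    intro p q hpq
    have := star_left_conjugate_le_conjugate hpq d'
    rwa [hd'sa] at this
  have hlow : (1 - 2 * κ : ℝ) • (d' * d') ≤ d' * T * d' :=
    (smul_le_of_le (by linarith only [hTn]) hdd').trans hle
  have hTd : T ≤ d * d := by
    have := star_left_conjugate_le_conjugate hy1' d
    rw [hdsa, mul_one] at this
    exact this
  have hdd1 : d * d ≤ 1 := by
    have h1 := CStarAlgebra.pow_antitone hd hdle (show 1 ≤ 2 by norm_num)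
    have h2 : d * d ≤ d := by simpa only [sq, pow_one] using h1
    exact h2.trans hdle
  have hdd_le_d : d * d ≤ d := by
    have h1 := CStarAlgebra.pow_antitone hd hdle (show 1 ≤ 2 by norm_num)
    simpa [sq] using h1
  -- a-part
  have ha : d' * (d * (1 - y) * d) * d' ≤ (2 * κ : ℝ) • (d' * d') := by
    have e1 : d' * (d * (1 - y) * d) * d' = d' * (d * d) * d' - d' * T * d' := by
      rw [hT]; noncomm_ring
    have e2 : d' * (d * d) * d' ≤ d' * d' := by
      have := conj hdd1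
      rwa [mul_one] at this
    rw [e1]
    calc d' * (d * d) * d' - d' * T * d' ≤ d' * d' - (1 - 2 * κ : ℝ) • (d' * d') :=
          sub_le_sub e2 hlow
      _ = (2 * κ : ℝ) • (d' * d') := by rw [sub_smul, one_smul]; abel
  -- b-part
  have hb : d' * ((1 - d) * (1 - y) * (1 - d)) * d' ≤ (2 * κ : ℝ) • (d' * d') := by
    have h1 : (1 - d) * (1 - y) * (1 - d) ≤ (1 - d) * (1 - d) := by
      have := star_left_conjugate_le_conjugate (sub_le_self 1 hy0) (1 - d)
      rwa [star_sub, star_one, hdsa, mul_one] at this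
    have h2 : (1 - d) * (1 - d) ≤ 1 - d * d := by
      have e1 : (1 - d * d) - (1 - d) * (1 - d) = (d - d * d) + (d - d * d) := by noncomm_ring
      rw [← sub_nonneg, e1]
      exact add_nonneg (sub_nonneg.mpr hdd_le_d) (sub_nonneg.mpr hdd_le_d)
    have h3 : d' * (1 - d * d) * d' ≤ (2 * κ : ℝ) • (d' * d') := by
      have e1 : d' * (1 - d * d) * d' = d' * d' - d' * (d * d) * d' := by noncomm_ring
      rw [e1]
      calc d' * d' - d' * (d * d) * d' ≤ d' * d' - (1 - 2 * κ : ℝ) • (d' * d') :=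
            sub_le_sub_left (hlow.trans (conj hTd)) _
        _ = (2 * κ : ℝ) • (d' * d') := by rw [sub_smul, one_smul]; abel
    exact (conj (h1.trans h2)).trans h3
  -- combine
  have hcomb : d' * (1 - y) * d' ≤
      (2 : ℝ) • (d' * (d * (1 - y) * d) * d') +
      (2 : ℝ) • (d' * ((1 - d) * (1 - y) * (1 - d)) * d') := by
    have hP : 0 ≤ 1 - y := sub_nonneg.mpr hy1'
    have h1 : 0 ≤ (d - (1 - d)) * (1 - y) * (d - (1 - d)) := by
      have := star_left_conjugate_nonneg hP (d - (1 - d))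
      rwa [star_sub, star_sub, star_one, hdsa] at this
    have h2 : 0 ≤ d' * ((d - (1 - d)) * (1 - y) * (d - (1 - d))) * d' := by
      have := conj h1
      rwa [mul_zero, zero_mul] at this
    rw [← sub_nonneg]
    convert h2 using 1
    rw [two_smul, two_smul]
    noncomm_ring
  refine ⟨d', y * d * z0, hd'0, hd'1, ?_, absb_of_le hd'0 hy0 hy1' ?_⟩
  · rw [hTz, hT]; noncomm_ring
  · calc d' * (1 - y) * d' ≤ _ := hcomb
      _ ≤ (2 : ℝ) • ((2 * κ : ℝ) • (d' * d')) + (2 : ℝ) • ((2 * κ : ℝ) • (d' * d')) :=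
          add_le_add (smul_le_smul_of_nonneg_left ha (by norm_num))
            (smul_le_smul_of_nonneg_left hb (by norm_num))
      _ = (8 * κ : ℝ) • (d' * d') := by
          rw [smul_smul, ← add_smul]; congr 1; ring
      _ ≤ (ε ^ 2 : ℝ) • (d' * d') := by
          apply smul_le_of_le _ hdd'
          rw [hκd]; nlinarith only [heε, he0]

/-- `top_cut` inside an ideal -/
theorem top_cut_rel {I : CIdeal A} (h : A) (hI : h ∈ I) (h0 : 0 ≤ h) (h1 : ‖h‖ = 1) (ε : ℝ)
    (hε : 0 < ε) : ∃ d : A, d ∈ I ∧ 0 ≤ d ∧ ‖d‖ = 1 ∧ Absb d h ε := by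
  set e : ℝ := min ε (1 / 2) with he
  have he0 : 0 < e := lt_min hε (by norm_num)
  have he1 : e ≤ 1 / 2 := min_le_right _ _
  have heε : e ≤ ε := min_le_left _ _
  obtain ⟨d, z, hd0, hd1, hdz, -, hle⟩ := top_cut_general h h0 (e ^ 2) (by positivity)
    (by rw [h1]; nlinarith only [he0, he1])
  refine ⟨d, by rw [hdz]; exact P133.CIdeal.right_mem I hI _, hd0, hd1,
    absb_of_le hd0 h0 (le_one_of_norm_le h0 h1.le) ?_⟩
  rw [h1] at hle
  have hdd : 0 ≤ d * d := by
    have := star_mul_self_nonneg d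
    rwa [(IsSelfAdjoint.of_nonneg hd0).star_eq] at this
  have e1 : d * (1 - h) * d = d * d - d * h * d := by noncomm_ring
  have e2 : (e ^ 2 : ℝ) • (d * d) = d * d - ((1 - e ^ 2 : ℝ) • (d * d)) := by
    rw [sub_smul, one_smul]; abel
  calc d * (1 - h) * d = d * d - d * h * d := e1
    _ ≤ d * d - ((1 - e ^ 2 : ℝ) • (d * d)) := sub_le_sub_left hle _
    _ = (e ^ 2 : ℝ) • (d * d) := e2.symm
    _ ≤ (ε ^ 2 : ℝ) • (d * d) := smul_le_of_le (by nlinarith only [heε, he0]) hdd

/-- the fixed part of the construction: cut-down elements `d k` -/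
theorem core_cuts_rel {I : CIdeal A} (hI : SimpleI I) (b : A) (hbI : b ∈ I) (hb1 : ‖b‖ ≤ 1)
    (hO : CentOrthR I b) {P : ℕ} (h : Fin P → A) (hhI : ∀ k, h k ∈ I)
    (h0 : ∀ k, 0 ≤ h k) (h1 : ∀ k, ‖h k‖ = 1) (Z : Finset A) (hZI : ∀ x ∈ Z, x ∈ I) (ε : ℝ)
    (hε : 0 < ε) :
    ∃ (F : Finset A) (δ : ℝ), 0 < δ ∧ ∀ y : A, AlmC I b F δ y → ∃ d : Fin P → A,
      (∀ k, d k ∈ I ∧ 0 ≤ d k ∧ ‖d k‖ = 1 ∧ Absb (d k) (h k) ε ∧ Absb (d k) y ε) ∧
      ∀ k l, k ≠ l → ∀ b ∈ Z, ∀ v w : A, ‖star (d k * v) * b * (d l * w)‖ ≤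
        ε * ‖d k * v‖ * ‖d l * w‖ := by
  classical
  -- constants
  set C : ℝ := 1 + ∑ b ∈ Z, ‖b‖ with hC
  have hC1 : ∀ b ∈ Z, 1 + ‖b‖ ≤ C := by
    intro b hb
    have := Finset.single_le_sum (f := fun b : A => ‖b‖) (fun b _ => norm_nonneg b) hb
    rw [hC]; simpa only [add_le_add_iff_left, ge_iff_le] using this
  have hC0 : 1 ≤ C := by
    have : 0 ≤ ∑ b ∈ Z, ‖b‖ := Finset.sum_nonneg fun b _ => norm_nonneg b
    rw [hC]; linarith only [this]
  set ε' : ℝ := min 1 (ε / (4 * C)) with hε'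
  have hε'0 : 0 < ε' := by (clear * - hε; positivity)
  have hε'1 : ε' ≤ 1 := min_le_left _ _
  have hε'2 : 4 * ε' * C ≤ ε := by
    have : ε' ≤ ε / (4 * C) := min_le_right _ _
    rw [le_div_iff₀ (by positivity)] at this
    linarith only [this]
  choose d0 hd0I hd0 hd01 hd02 using fun k => top_cut_rel (I := I) (h k) (hhI k) (h0 k) (h1 k) ε hε
  choose F1 δ1 hδ1 H1 using fun k => step_cut_rel hI b hbI hb1 (d0 k) (hd0I k) (hd0 k) (hd01 k) ε hε
  obtain ⟨δ, hδ, hδk⟩ := exists_pos_le_fin δ1 hδ1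
  refine ⟨Finset.univ.biUnion F1, δ, hδ, fun y hy => ?_⟩
  choose d1 z1 hd1 hd11 hd12 hd13 using fun k => H1 k y
    (hy.mono (Finset.subset_biUnion_of_mem F1 (Finset.mem_univ k)) (hδk k))
  have hd1I : ∀ k, d1 k ∈ I := fun k => by
    rw [hd12 k]; exact P133.CIdeal.right_mem I (hd0I k) _
  choose F2 δ2 hδ2 H2 using fun k => step_cut_rel hI b hbI hb1 (d1 k) (hd1I k) (hd1 k) (hd11 k)
    ε' hε'0
  obtain ⟨δ', hδ', hδ'k⟩ := exists_pos_le_fin δ2 hδ2
  obtain ⟨t, ht, htt⟩ := hO P (Finset.univ.biUnion F2 ∪ Z) (min δ' ε') (by (clear * - hδ' hε; positivity))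
  have htc : ∀ k, AlmC I b (F2 k) (δ2 k) (t k) := by
    intro k
    have h1 : AlmC I b (Finset.univ.biUnion F2 ∪ Z) (min δ' ε') (t k) := ht k
    exact h1.mono ((Finset.subset_biUnion_of_mem F2 (Finset.mem_univ k)).trans
      Finset.subset_union_left) ((min_le_left _ _).trans (hδ'k k))
  choose d2 z2 hd2 hd21 hd22 hd23 using fun k => H2 k (t k) (htc k)
  refine ⟨d2, fun k => ⟨?_, hd2 k, hd21 k, ?_, ?_⟩, ?_⟩
  · rw [hd22 k]; exact P133.CIdeal.right_mem I (hd1I k) _
  · rw [hd22 k, hd12 k, mul_assoc]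
    exact absb_mul (hd02 k) _
  · rw [hd22 k]
    exact absb_mul (hd13 k) _
  · intro k l hkl b hb v w
    have hb' : ‖t k * b * t l‖ ≤ ε' * (1 + ‖b‖) := by
      have e : t k * b * t l = (t k * b - b * t k) * t l + b * (t k * t l) := by noncomm_ring
      rw [e]
      have a1 : ‖(t k * b - b * t k) * t l‖ ≤ ε' * 1 := by
        refine (norm_mul_le _ _).trans (mul_le_mul ?_ (ht l).2.1 (norm_nonneg _) hε'0.le)
        exact ((ht k).2.2.2 b (Finset.mem_union_right _ hb) (hZI b hb)).trans (min_le_right _ _)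
      have a2 : ‖b * (t k * t l)‖ ≤ ‖b‖ * ε' :=
        (norm_mul_le _ _).trans (mul_le_mul_of_nonneg_left
          ((htt k l hkl).trans (min_le_right _ _)) (norm_nonneg _))
      refine (norm_add_le _ _).trans ?_
      linarith only [a1, a2]
    have h5 := norm_sub_mul_le_aux (d2 k * v) (d2 l * w) (t k) (t l) b ε' hε'0.le hε'1
      (absb_self hε'0.le (hd23 k) v) (absb_self hε'0.le (hd23 l) w)
      (IsSelfAdjoint.of_nonneg (ht k).1).star_eq hb'
    refine h5.trans ?_
    have h6 : 4 * ε' * (1 + ‖b‖) ≤ ε := by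
      have := hC1 b hb
      nlinarith only [hε'2, hε'0, this]
    have h7 : 0 ≤ ‖d2 k * v‖ * ‖d2 l * w‖ := by (clear * -; positivity)
    nlinarith only [h6, h7]


end

end Vale.Agent.P095M
end

section

/-! Excision of completely positive maps by elements of an ideal. -/

set_option linter.unusedSectionVars false

open Filter Topology
open scoped CStarAlgebra ComplexOrder

namespace Vale.Agent.P095M

open Vale.Agent.P133 (CIdeal)
open Vale.Agent.P095

universe u v w

section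
variable {A : Type u} [CStarAlgebra A] [PartialOrder A] [StarOrderedRing A]

/-- the columns extracted from an excised element of the ideal -/
theorem exists_z_rel {n : ℕ} {I : CIdeal A} {q : CStarMatrix (Fin n) (Fin n) A} (hq : q ≠ 0)
    (hqI : ∀ i j, q i j ∈ I) :
    ∃ z : Fin n → A, (∀ i, z i ∈ I) ∧ ‖∑ i, star (z i) * z i‖ = 1 ∧
      ∀ (x : A) (i i' : Fin n) (c : ℂ) (ε : ℝ), 0 ≤ ε → Exc q (NCP.mE x i i') c ε →
        ‖star (z i) * x * z i' - c • ∑ p, star (z p) * z p‖ ≤ ε := by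
  obtain ⟨p0, hp0⟩ := NCP.exists_col hq
  set h0 : A := ∑ i, star (q i p0) * q i p0 with hh0
  have hc : 0 < ‖h0‖ := norm_pos_iff.mpr hp0
  set r : ℝ := (Real.sqrt ‖h0‖)⁻¹ with hr
  have hrr : r * r * ‖h0‖ = 1 := by
    rw [hr, ← mul_inv, Real.mul_self_sqrt hc.le, inv_mul_cancel₀ hc.ne']
  have hnorm : ‖∑ i, star ((r : ℂ) • q i p0) * ((r : ℂ) • q i p0)‖ = 1 := by
    have h1 : ∀ i, star ((r : ℂ) • q i p0) * ((r : ℂ) • q i p0) =
        ((r * r : ℝ) : ℂ) • (star (q i p0) * q i p0) := by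
      intro i
      rw [star_smul, smul_mul_smul_comm]
      congr 1
      simp
    simp only [h1]
    rw [← Finset.smul_sum, norm_smul, ← hh0, Complex.norm_real, Real.norm_eq_abs,
      abs_of_nonneg (mul_self_nonneg r)]
    exact hrr
  refine ⟨fun i => (r : ℂ) • q i p0, fun i => P133.CIdeal.csmul_mem I _ (hqI i p0), hnorm, ?_⟩
  · intro x i i' c ε hε hE
    have hv : ∀ i p, (q * NCP.mE ((r : ℂ) • (1 : A)) p0 p0) i p =
        if p0 = p then (fun i => (r : ℂ) • q i p0) i else 0 := by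
      intro i p
      rw [NCP.mul_mE_apply, mul_smul_one]
    have h1 := hE (NCP.mE ((r : ℂ) • (1 : A)) p0 p0)
    set v := q * NCP.mE ((r : ℂ) • (1 : A)) p0 p0 with hvdef
    have h2 : ‖v‖ ^ 2 ≤ 1 := by
      rw [sq, ← CStarRing.norm_star_mul_self, NCP.star_mul_self_col v _ p0 hv]
      refine (NCP.norm_corner_le p0 _).trans (le_of_eq ?_)
      exact hnorm
    have h3 : ‖(star v * NCP.mE x i i' * v - c • (star v * v)) p0 p0‖ ≤ ε := by
      refine CStarMatrix.norm_entry_le_norm.trans (h1.trans ?_)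
      exact mul_le_of_le_one_right hε h2
    rw [CStarMatrix.sub_apply, CStarMatrix.smul_apply, NCP.star_mul_mE_mul_col v _ p0 hv,
      NCP.star_mul_self_col v _ p0 hv, NCP.mE_apply] at h3
    simpa only [Complex.coe_smul, star_smul, star_trivial, Algebra.smul_mul_assoc, Algebra.mul_smul_comm,     ge_iff_le, and_self, ↓reduceIte] using h3

/-- If `q` annihilates the ideal then it excises every element of it to almost zero. -/
theorem norm_le_of_exc_of_forall {B : Type v} [CStarAlgebra B] {q X : B} {c : ℂ} {ε : ℝ}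
    (h : Exc q X c ε) (hq : q ≠ 0) (h0 : q * (star q * star X) = 0) : ‖c‖ ≤ ε := by
  have h1 : X * q = 0 := by
    have h2 : (X * q) * star (X * q) = 0 := by
      rw [star_mul]
      calc X * q * (star q * star X) = X * (q * (star q * star X)) := by noncomm_ring
        _ = 0 := by rw [h0, mul_zero]
    exact CStarRing.mul_star_self_eq_zero_iff _ |>.1 h2
  have h3 := h 1
  rw [mul_one, mul_assoc, h1, mul_zero, zero_sub, norm_neg, norm_smul,
    CStarRing.norm_star_mul_self, ← sq] at h3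
  have h4 : 0 < ‖q‖ ^ 2 := by
    have := norm_pos_iff.2 hq
    positivity
  exact le_of_mul_le_mul_right h3 h4

theorem cp_exc_rel [Nontrivial A] {I : CIdeal A} {n : ℕ}
    (φ : A →CP CStarMatrix (Fin n) (Fin n) ℂ) (F : Finset A) (hF : ∀ x ∈ F, x ∈ I)
    (ε : ℝ) (hε : 0 < ε) :
    ∃ (m : ℕ) (t : Fin m → ℝ) (z : Fin m → Fin n → A) (ψ : Fin m → A → Fin n → Fin n → ℂ),
      (∀ j, 0 ≤ t j) ∧ ∑ j, t j ≤ ∑ i, ‖φ 1 i i‖ ∧ (∀ j i, z j i ∈ I) ∧
      (∀ j, ‖∑ i, star (z j i) * z j i‖ = 1) ∧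
      (∀ j, ∀ x ∈ F, ∀ i i', ‖star (z j i) * x * z j i' -
        ψ j x i i' • ∑ p, star (z j p) * z j p‖ ≤ ε) ∧
      ∀ x ∈ F, ∀ i i', ‖φ x i i' - ∑ j, (t j : ℂ) * ψ j x i i'‖ ≤ ε := by
  classical
  rcases Nat.eq_zero_or_pos n with rfl | hn
  · exact ⟨0, fun j => j.elim0, fun j => j.elim0, fun j => j.elim0, fun j => j.elim0, by simp only [Finset.univ_eq_empty, Finset.sum_empty, Std.le_refl],
      fun j => j.elim0, fun j => j.elim0, fun j => j.elim0, fun x _ i => i.elim0⟩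
  have : Nonempty (Fin n) := ⟨⟨0, hn⟩⟩
  obtain ⟨T, hT0, hT⟩ := NCP.func_sq φ 1
  rw [star_one, one_mul] at hT
  rcases hT0.eq_or_lt with hTz | hTpos
  · have h1 : NCP.func φ = 0 := NCP.func_eq_zero φ (by rw [hT, ← hTz, Complex.ofReal_zero])
    refine ⟨0, fun j => j.elim0, fun j => j.elim0, fun j => j.elim0, fun j => j.elim0, ?_,
      fun j => j.elim0, fun j => j.elim0, fun j => j.elim0, fun x _ i i' => ?_⟩
    · simpa only [Finset.univ_eq_empty, Finset.sum_empty] using Finset.sum_nonneg fun i _ => norm_nonneg (φ 1 i i)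
    · rw [← NCP.func_mE φ x i i', h1]
      simpa only [LinearMap.zero_apply, Finset.univ_eq_empty, Finset.sum_empty, sub_self, norm_zero] using hε.le
  · set Φ : CStarMatrix (Fin n) (Fin n) A →ₗ[ℂ] ℂ := (T⁻¹ : ℂ) • NCP.func φ with hΦ
    have hTC : (T : ℂ) ≠ 0 := by exact_mod_cast hTpos.ne'
    have hΦsq : ∀ X : CStarMatrix (Fin n) (Fin n) A, ∃ r : ℝ, 0 ≤ r ∧ Φ (star X * X) = r := by
      intro X
      obtain ⟨r, hr, hr'⟩ := NCP.func_sq φ X
      refine ⟨T⁻¹ * r, by (clear * - hTpos hr; positivity), ?_⟩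
      rw [hΦ, LinearMap.smul_apply, hr', smul_eq_mul]
      push_cast
      rfl
    have hΦ1 : Φ 1 = 1 := by
      rw [hΦ, LinearMap.smul_apply, hT, smul_eq_mul, inv_mul_cancel₀ hTC]
    set ε' : ℝ := ε / (1 + 2 * T) with hε'd
    have hε' : 0 < ε' := by positivity
    have hTε : 2 * (T * ε') ≤ ε := by
      rw [hε'd, mul_div_assoc', mul_div_assoc', div_le_iff₀ (by positivity)]
      nlinarith only [hε]
    obtain ⟨m, t, q, ψ, ht0, ht1, hq, hexc, happ⟩ := exc_convex Φ
      (fun X => by obtain ⟨r, hr, hr'⟩ := hΦsq X; rw [hr']; simpa only [Complex.ofReal_re] using hr)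
      (fun X => by obtain ⟨r, hr, hr'⟩ := hΦsq X; rw [hr']; simp) hΦ1
      ((F ×ˢ (Finset.univ : Finset (Fin n × Fin n))).image
        fun p => NCP.mE p.1 p.2.1 p.2.2) ε' hε'
    have hmem : ∀ x ∈ F, ∀ i i' : Fin n, NCP.mE x i i' ∈
        (F ×ˢ (Finset.univ : Finset (Fin n × Fin n))).image
        fun p => NCP.mE p.1 p.2.1 p.2.2 := by
      intro x hx i i'
      exact Finset.mem_image.mpr ⟨(x, (i, i')), by simp [hx], rfl⟩
    have hle : ε' ≤ ε := by
      rw [hε'd, div_le_iff₀ (by positivity)]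
      nlinarith only [hε, hT0]
    -- the good components
    let good : Fin m → Prop := fun j =>
      ∃ Y : CStarMatrix (Fin n) (Fin n) A, (∀ a b, Y a b ∈ I) ∧ q j * Y ≠ 0
    have hbad : ∀ j, ¬ good j → ∀ x ∈ F, ∀ i i', ‖ψ j (NCP.mE x i i')‖ ≤ ε' := by
      intro j hj x hx i i'
      refine norm_le_of_exc_of_forall (hexc j _ (hmem x hx i i')) (hq j) ?_
      by_contra hne
      refine hj ⟨star (q j) * star (NCP.mE x i i'), fun a b => ?_, hne⟩
      rw [CStarMatrix.mul_apply]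
      refine I.toSub.sum_mem fun l _ => ?_
      refine P133.CIdeal.left_mem I _ ?_
      rw [CStarMatrix.star_apply, NCP.mE_apply]
      refine P133.CIdeal.star_mem I ?_
      split_ifs
      · exact hF x hx
      · exact P133.CIdeal.zero_mem I
    choose Y hYI hY using fun j : {j // good j} => j.2
    have hYq : ∀ (j : {j // good j}) a b, (q j * Y j) a b ∈ I := by
      intro j a b
      rw [CStarMatrix.mul_apply]
      exact I.toSub.sum_mem fun l _ => P133.CIdeal.left_mem I _ (hYI j l b)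
    choose z hzI hz1 hz2 using fun j : {j // good j} => exists_z_rel (I := I) (hY j) (hYq j)
    let e : Fin (Fintype.card {j // good j}) ≃ {j // good j} :=
      (Fintype.equivFin {j // good j}).symm
    have hsplit : ∀ f : Fin m → ℂ, ∑ j, f j =
        ∑ k, f (e k : {j // good j}) + ∑ j : {j // ¬ good j}, f j := by
      intro f
      rw [Equiv.sum_comp e (fun j : {j // good j} => f j)]
      exact (Fintype.sum_subtype_add_sum_subtype good f).symm
    have hsplitR : ∀ f : Fin m → ℝ, ∑ j, f j =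
        ∑ k, f (e k : {j // good j}) + ∑ j : {j // ¬ good j}, f j := by
      intro f
      rw [Equiv.sum_comp e (fun j : {j // good j} => f j)]
      exact (Fintype.sum_subtype_add_sum_subtype good f).symm
    have hbad0 : 0 ≤ ∑ j : {j // ¬ good j}, t j := Finset.sum_nonneg fun j _ => ht0 _
    have hgood0 : 0 ≤ ∑ k, t (e k : {j // good j}) := Finset.sum_nonneg fun j _ => ht0 _
    have hsum := hsplitR t
    rw [ht1] at hsum
    refine ⟨Fintype.card {j // good j}, fun k => T * t (e k : {j // good j}),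
      fun k => z (e k), fun k x i i' => ψ (e k : {j // good j}) (NCP.mE x i i'), ?_, ?_,
      fun k i => hzI _ i, fun k => hz1 _, ?_, ?_⟩
    · intro j
      exact mul_nonneg hTpos.le (ht0 _)
    · rw [← Finset.mul_sum]
      have h2 : (T : ℂ) = ∑ i, φ 1 i i := by rw [← hT, NCP.func_one]
      calc T * ∑ k, t (e k : {j // good j}) ≤ T * 1 :=
            mul_le_mul_of_nonneg_left (by linarith only [hbad0, hsum]) hTpos.le
        _ = ‖(T : ℂ)‖ := by
            rw [Complex.norm_real, Real.norm_eq_abs, abs_of_pos hTpos, mul_one]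
        _ = ‖∑ i, φ 1 i i‖ := by rw [h2]
        _ ≤ _ := norm_sum_le _ _
    · intro j x hx i i'
      exact (hz2 _ x i i' _ _ hε'.le (exc_mul (hexc _ _ (hmem x hx i i')) _)).trans hle
    · intro x hx i i'
      have h3 := happ _ (hmem x hx i i')
      have h4 : φ x i i' = (T : ℂ) * Φ (NCP.mE x i i') := by
        rw [hΦ, LinearMap.smul_apply, NCP.func_mE, smul_eq_mul, mul_inv_cancel_left₀ hTC]
      have h5 : φ x i i' - ∑ k, ((T * t (e k : {j // good j}) : ℝ) : ℂ) *
          ψ (e k : {j // good j}) (NCP.mE x i i') =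
          (T : ℂ) * (Φ (NCP.mE x i i') - ∑ j, (t j : ℂ) * ψ j (NCP.mE x i i')) +
          (T : ℂ) * ∑ j : {j // ¬ good j}, (t j : ℂ) * ψ j (NCP.mE x i i') := by
        rw [h4, hsplit fun j => (t j : ℂ) * ψ j (NCP.mE x i i')]
        have h6 : ∑ k, ((T * t (e k : {j // good j}) : ℝ) : ℂ) *
            ψ (e k : {j // good j}) (NCP.mE x i i') =
            (T : ℂ) * ∑ k, (t (e k : {j // good j}) : ℂ) *
              ψ (e k : {j // good j}) (NCP.mE x i i') := by
          rw [Finset.mul_sum]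
          refine Finset.sum_congr rfl fun k _ => ?_
          push_cast
          ring
        rw [h6]
        ring
      have h7 : ‖∑ j : {j // ¬ good j}, (t j : ℂ) * ψ j (NCP.mE x i i')‖ ≤ ε' := by
        refine (norm_sum_le _ _).trans ?_
        calc ∑ j : {j // ¬ good j}, ‖(t j : ℂ) * ψ j (NCP.mE x i i')‖
            ≤ ∑ j : {j // ¬ good j}, t j * ε' := by
              refine Finset.sum_le_sum fun j _ => ?_
              rw [norm_mul, Complex.norm_real, Real.norm_of_nonneg (ht0 _)]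
              exact mul_le_mul_of_nonneg_left (hbad j j.2 x hx i i') (ht0 _)
          _ = (∑ j : {j // ¬ good j}, t j) * ε' := by rw [Finset.sum_mul]
          _ ≤ 1 * ε' := mul_le_mul_of_nonneg_right (by linarith only [hgood0, hsum]) hε'.le
          _ = ε' := one_mul _
      rw [h5]
      have hTn : ‖(T : ℂ)‖ = T := by
        rw [Complex.norm_real, Real.norm_eq_abs, abs_of_pos hTpos]
      calc _ ≤ T * ε' + T * ε' := by
            refine (norm_add_le _ _).trans (add_le_add ?_ ?_)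
            · rw [norm_mul, hTn]
              exact mul_le_mul_of_nonneg_left h3 hTpos.le
            · rw [norm_mul, hTn]
              exact mul_le_mul_of_nonneg_left h7 hTpos.le
        _ ≤ ε := by linarith only [hTε]

end

end Vale.Agent.P095M
end

section

/-! Nuclearity data relative to an ideal. -/

set_option linter.unusedSectionVars false

open Filter Topology
open scoped CStarAlgebra ComplexOrder

namespace Vale.Agent.P095M

open Vale.Agent.P133 (CIdeal)
open Vale.Agent.P095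

universe u v w

section
variable {A : Type u} [CStarAlgebra A] [PartialOrder A] [StarOrderedRing A]

theorem exists_unit_rel (I : CIdeal A) (F : Finset A) (ε : ℝ) (hε : 0 < ε) :
    ∃ u : A, u ∈ I ∧ 0 ≤ u ∧ ‖u‖ ≤ 1 ∧ ∀ a ∈ F, a ∈ I → ‖a * u - a‖ ≤ ε ∧ ‖u * a - a‖ ≤ ε := by
  classical
  let c : {a // a ∈ F ∧ a ∈ I} → A := fun a => a
  have : Finite {a // a ∈ F ∧ a ∈ I} := Finite.of_injective
    (fun a : {a // a ∈ F ∧ a ∈ I} => (⟨a.1, a.2.1⟩ : F)) (by
      intro a b hab
      have := congrArg (fun x : F => (x : A)) hab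
      exact Subtype.ext this)
  let _ : Fintype {a // a ∈ F ∧ a ∈ I} := Fintype.ofFinite _
  obtain ⟨u, hu, h⟩ := P133.exists_approx_unit I (c := c) (fun i => i.2.2) hε
  refine ⟨u, hu.mem, hu.nonneg, ?_, fun a ha haI => ?_⟩
  · exact (CStarAlgebra.norm_le_one_iff_of_nonneg u hu.nonneg).2 hu.le_one
  · obtain ⟨h1, h2⟩ := h ⟨a, ha, haI⟩
    constructor
    · rw [norm_sub_rev]
      calc ‖a - a * u‖ = ‖a * (1 - u)‖ := by congr 1; noncomm_ring
        _ ≤ ε := h1.le
    · rw [norm_sub_rev]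
      calc ‖a - u * a‖ = ‖(1 - u) * a‖ := by congr 1; noncomm_ring
        _ ≤ ε := h2.le

/-- the form in which nuclearity is used -/
theorem cpap_data_rel [Nontrivial A] {I : CIdeal A} (hN : CPAPR I) (F : Finset A)
    (hF : ∀ x ∈ F, x ∈ I) (ε : ℝ) (hε : 0 < ε) :
    ∃ (P n : ℕ) (z c : Fin P → Fin n → A) (ψ : Fin P → A → Fin n → Fin n → ℂ) (δ : ℝ), 0 ≤ δ ∧
      (∀ k i, z k i ∈ I) ∧ (∀ k i, c k i ∈ I) ∧
      (∀ k, ‖∑ i, star (z k i) * z k i‖ = 1) ∧
      (∀ k, ∀ x ∈ F, ∀ i i', ‖star (z k i) * x * z k i' -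
        ψ k x i i' • ∑ p, star (z k p) * z k p‖ ≤ δ) ∧
      δ * ∑ k, ∑ i, ∑ i', ‖c k i‖ * ‖c k i'‖ ≤ ε ∧
      ∀ x ∈ F, ‖∑ k, ∑ i, ∑ i', ψ k x i i' • (star (c k i) * c k i') - x‖ ≤ ε := by
  obtain ⟨n, φ, ψ0, happ⟩ := hN F (ε / 4) (by positivity)
  obtain ⟨c00, hc00⟩ := choi ψ0
  obtain ⟨u, huI, hu0, hu1, huF⟩ := exists_unit_rel I F (ε / 8) (by positivity)
  have husa : star u = u := (IsSelfAdjoint.of_nonneg hu0).star_eq
  set c0 : Fin n → Fin n → A := fun l i => c00 l i * u with hc0d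
  have hc0I : ∀ l i, c0 l i ∈ I := fun l i => P133.CIdeal.left_mem I _ huI
  have hc0 : ∀ M : CStarMatrix (Fin n) (Fin n) ℂ,
      u * ψ0 M * u = ∑ i, ∑ j, M i j • ∑ l, star (c0 l i) * c0 l j := by
    intro M
    rw [hc00 M, Finset.mul_sum, Finset.sum_mul]
    refine Finset.sum_congr rfl fun i _ => ?_
    rw [Finset.mul_sum, Finset.sum_mul]
    refine Finset.sum_congr rfl fun j _ => ?_
    rw [mul_smul_comm, smul_mul_assoc, Finset.mul_sum, Finset.sum_mul]
    congr 1
    refine Finset.sum_congr rfl fun l _ => ?_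
    simp only [hc0d, star_mul, husa]
    noncomm_ring
  set W : ℝ := ∑ l, ∑ i, ∑ i', ‖c0 l i‖ * ‖c0 l i'‖ with hW
  set T : ℝ := ∑ i, ‖φ 1 i i‖ with hT
  have hW0 : 0 ≤ W := by (clear * -; positivity)
  have hT0 : 0 ≤ T := by (clear I hN F hF ε hε ψ0 happ c00 hc00 u huI hu0 hu1 huF husa c0 hc0d hc0I hc0 W hW hT hW0; positivity)
  set ε' : ℝ := ε / (4 * ((1 + T) * (1 + W))) with hε'
  have hD : 0 < 4 * ((1 + T) * (1 + W)) := by (clear I hN F hF ε hε ψ0 happ hc00 huI hu0 hu1 huF husa hc0d hc0I hc0 hW hT hW0 hT0 ε' hε'; positivity)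
  have hε'0 : 0 < ε' := div_pos hε hD
  have hTW : ε' * (T * W) ≤ ε := by
    rw [hε', div_mul_eq_mul_div, div_le_iff₀ hD]
    refine mul_le_mul_of_nonneg_left ?_ hε.le
    linarith
  have hWW : ε' * W ≤ ε / 4 := by
    rw [hε', div_mul_eq_mul_div, div_le_iff₀ hD]
    have : ε / 4 * (4 * ((1 + T) * (1 + W))) = ε * ((1 + T) * (1 + W)) := by ring
    rw [this]
    refine mul_le_mul_of_nonneg_left ?_ hε.le
    nlinarith only [hT0, hW0]
  obtain ⟨m, t, z0, ψ1, ht0, htT, hzI, hz, hexc, hap⟩ := cp_exc_rel φ F hF ε' hε'0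
  let e : Fin (n * m) ≃ Fin n × Fin m := finProdFinEquiv.symm
  refine ⟨n * m, n, fun k => z0 (e k).2, fun k i => ((Real.sqrt (t (e k).2) : ℝ) : ℂ) • c0 (e k).1 i,
    fun k => ψ1 (e k).2, ε', hε'0.le, fun k i => hzI _ _,
    fun k i => P133.CIdeal.csmul_mem I _ (hc0I _ _), fun k => hz _,
    fun k x hx i i' => hexc _ x hx i i', ?_, ?_⟩
  · have h1 : ∑ k, ∑ i, ∑ i', ‖((Real.sqrt (t (e k).2) : ℝ) : ℂ) • c0 (e k).1 i‖ *
        ‖((Real.sqrt (t (e k).2) : ℝ) : ℂ) • c0 (e k).1 i'‖ = (∑ j, t j) * W := by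
      rw [Equiv.sum_comp e (fun q : Fin n × Fin m =>
        ∑ i, ∑ i', ‖((Real.sqrt (t q.2) : ℝ) : ℂ) • c0 q.1 i‖ *
        ‖((Real.sqrt (t q.2) : ℝ) : ℂ) • c0 q.1 i'‖), Fintype.sum_prod_type, hW, Finset.mul_sum]
      refine Finset.sum_congr rfl fun l _ => ?_
      rw [Finset.sum_mul]
      refine Finset.sum_congr rfl fun j _ => ?_
      rw [Finset.mul_sum]
      refine Finset.sum_congr rfl fun i _ => ?_
      rw [Finset.mul_sum]
      refine Finset.sum_congr rfl fun i' _ => ?_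
      rw [norm_smul, norm_smul, Complex.norm_real, Real.norm_of_nonneg (Real.sqrt_nonneg _)]
      have := Real.mul_self_sqrt (ht0 j)
      calc √(t j) * ‖c0 l i‖ * (√(t j) * ‖c0 l i'‖)
          = (√(t j) * √(t j)) * (‖c0 l i‖ * ‖c0 l i'‖) := by ring
        _ = _ := by rw [this]
    rw [h1]
    refine le_trans (mul_le_mul_of_nonneg_left (mul_le_mul_of_nonneg_right htT hW0) hε'0.le) hTW
  · intro x hx
    have h1 : ∑ k, ∑ i, ∑ i', ψ1 (e k).2 x i i' •
        (star (((Real.sqrt (t (e k).2) : ℝ) : ℂ) • c0 (e k).1 i) *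
          (((Real.sqrt (t (e k).2) : ℝ) : ℂ) • c0 (e k).1 i')) =
        ∑ i, ∑ i', (∑ j, (t j : ℂ) * ψ1 j x i i') • ∑ l, star (c0 l i) * c0 l i' := by
      rw [Equiv.sum_comp e (fun q : Fin n × Fin m => ∑ i, ∑ i', ψ1 q.2 x i i' •
        (star (((Real.sqrt (t q.2) : ℝ) : ℂ) • c0 q.1 i) *
          (((Real.sqrt (t q.2) : ℝ) : ℂ) • c0 q.1 i'))), Finset.sum_comm]
      refine Finset.sum_congr rfl fun i _ => ?_
      rw [Finset.sum_comm]
      refine Finset.sum_congr rfl fun i' _ => ?_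
      rw [Fintype.sum_prod_type_right, Finset.sum_smul]
      refine Finset.sum_congr rfl fun j _ => ?_
      rw [Finset.smul_sum]
      refine Finset.sum_congr rfl fun l _ => ?_
      rw [star_smul, smul_mul_smul_comm, smul_smul]
      congr 1
      have h2 : star ((Real.sqrt (t j) : ℝ) : ℂ) = ((Real.sqrt (t j) : ℝ) : ℂ) :=
        Complex.conj_ofReal _
      rw [h2, ← Complex.ofReal_mul, Real.mul_self_sqrt (ht0 j), mul_comm]
    rw [h1]
    have h2 : ‖∑ i, ∑ i', (∑ j, (t j : ℂ) * ψ1 j x i i') • ∑ l, star (c0 l i) * c0 l i' -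
        u * ψ0 (φ x) * u‖ ≤ ε' * W := by
      rw [hc0, ← Finset.sum_sub_distrib]
      have h3 : ε' * W = ∑ i, ∑ i', ε' * ∑ l, ‖c0 l i‖ * ‖c0 l i'‖ := by
        rw [hW, Finset.sum_comm, Finset.mul_sum]
        refine Finset.sum_congr rfl fun i _ => ?_
        rw [Finset.sum_comm, Finset.mul_sum]
      rw [h3]
      refine norm_sum_le_of_le _ fun i _ => ?_
      rw [← Finset.sum_sub_distrib]
      refine norm_sum_le_of_le _ fun i' _ => ?_
      rw [← sub_smul]
      refine (norm_smul_le _ _).trans ?_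
      refine mul_le_mul ?_ ?_ (norm_nonneg _) hε'0.le
      · rw [norm_sub_rev]
        exact hap x hx i i'
      · refine norm_sum_le_of_le _ fun l _ => ?_
        refine (norm_mul_le _ _).trans ?_
        rw [norm_star]
    have h4 : ‖u * ψ0 (φ x) * u - x‖ ≤ ε / 2 := by
      have e1 : u * ψ0 (φ x) * u - x = u * (ψ0 (φ x) - x) * u + u * (x * u - x) +
          (u * x - x) := by noncomm_ring
      have n1 : ‖u * (ψ0 (φ x) - x) * u‖ ≤ 1 * (ε / 4) * 1 := by
        refine (norm_mul_le _ _).trans (mul_le_mul ?_ hu1 (norm_nonneg _) (by positivity))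
        exact (norm_mul_le _ _).trans (mul_le_mul hu1 (happ x hx (hF x hx)) (norm_nonneg _)
          zero_le_one)
      have n2 : ‖u * (x * u - x)‖ ≤ 1 * (ε / 8) :=
        (norm_mul_le _ _).trans (mul_le_mul hu1 (huF x hx (hF x hx)).1 (norm_nonneg _)
          zero_le_one)
      have n3 := (huF x hx (hF x hx)).2
      rw [e1]
      refine (norm_add_le _ _).trans ?_
      have := norm_add_le (u * (ψ0 (φ x) - x) * u) (u * (x * u - x))
      (clear hN c00 hc00 huI hu0 husa c0 hc0d hc0I hc0 W hW T hT hW0 hT0 ε' hε' hD hε'0 hTW hWW m t z0 ψ1 ht0 htT hzI hz hexc hap e h1 h2 e1; linarith)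
    calc ‖∑ i, ∑ i', (∑ j, (t j : ℂ) * ψ1 j x i i') • ∑ l, star (c0 l i) * c0 l i' - x‖
        ≤ ‖∑ i, ∑ i', (∑ j, (t j : ℂ) * ψ1 j x i i') • ∑ l, star (c0 l i) * c0 l i' -
          u * ψ0 (φ x) * u‖ + ‖u * ψ0 (φ x) * u - x‖ := norm_sub_le_norm_sub_add_norm_sub _ _ _
      _ ≤ ε / 4 + ε / 2 := add_le_add (h2.trans hWW) h4
      _ ≤ ε := by linarith only [hε]

end

end Vale.Agent.P095M
end

section

set_option linter.unusedSectionVars false
set_option linter.unusedVariables false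
set_option linter.unusedSimpArgs false

namespace Vale.Agent.P095

open Filter Topology ComplexConjugate

section
variable {A : Type*} [CStarAlgebra A] {G : Type*} [Group G] (α : G →* (A ≃⋆ₐ[ℂ] A))

/-- exact invariant partition of unity in the algebra of bounded sequences -/
def IsPart (S : Finset G) (F : Set (BSeq A)) {I : Type*} [Fintype I] (e : I → BSeq A) : Prop :=
  (∀ i, star (e i) = e i) ∧ (∀ i n, ‖(e i).1 n‖ ≤ 1) ∧ ∀ t : LimTr A,
    (∀ i, t.c (e i) * t.c (e i) = t.c (e i)) ∧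
    (∀ i j, i ≠ j → t.c (e i) * t.c (e j) = 0) ∧
    (∑ i, t.c (e i) = 1) ∧
    (∀ i, ∀ b ∈ F, t.c (e i) * t.c b = t.c b * t.c (e i)) ∧
    (∀ i, ∀ b ∈ F, t.val (b * e i) = t.val b / Fintype.card I) ∧
    (∀ i, ∀ s ∈ S, t.c (actB (α s) (e i)) = t.c (e i))

theorem nrm_le_of_two_part {τ : A →ₗ[ℂ] ℂ} (hτ : IsTracialState τ) {x : A} {ε : ℝ} (hε : 0 ≤ ε)
    (h : TwoNormLE x ε) : nrm τ x ≤ ε := by
  unfold nrm
  rw [← Real.sqrt_sq hε]
  exact Real.sqrt_le_sqrt (h τ hτ)

theorem exists_part (h : EquivariantUniformGamma α) (I : Type*) [Fintype I] [Nonempty I]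
    (S : Finset G) (F : Set (BSeq A)) (hF : F.Countable) : ∃ e : I → BSeq A, IsPart α S F e := by
  classical
  obtain ⟨f, hf⟩ : ∃ f : ℕ → BSeq A, F ⊆ Set.range f := by
    rcases F.eq_empty_or_nonempty with h0 | h0
    · exact ⟨fun _ => 0, by rw [h0]; exact Set.empty_subset _⟩
    · obtain ⟨f, hf⟩ := hF.exists_eq_range h0
      exact ⟨f, hf.le⟩
  have hmem : ∀ (t : LimTr A), ∀ b ∈ F, ∀ᶠ n in (t.U : Filter ℕ),
      b.1 n ∈ insert 1 ((Finset.range (n + 1)).image (fun i => (f i).1 n)) := by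
    intro t b hb
    obtain ⟨i, rfl⟩ := hf hb
    have h2 : ∀ᶠ n in (t.U : Filter ℕ), i ≤ n := t.hU (eventually_ge_atTop i)
    refine h2.mono (fun n hn => ?_)
    exact Finset.mem_insert_of_mem (Finset.mem_image_of_mem (fun i => (f i).1 n)
      (Finset.mem_range.mpr (Nat.lt_succ_of_le hn)))
  set k := Fintype.card I with hk
  have hk1 : 1 ≤ k := Fintype.card_pos
  have hk0 : (k : ℂ) ≠ 0 := by
    have : k ≠ 0 := by omega
    exact_mod_cast this
  have h1 : ∀ n : ℕ, ∃ e : Fin k → A,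
      (∀ i, (∃ b, e i = star b * b) ∧ ‖e i‖ ≤ 1 ∧ TwoNormLE (e i * e i - e i) (1 / ((n : ℝ) + 1))) ∧
      (∀ i j, i ≠ j → TwoNormLE (e i * e j) (1 / ((n : ℝ) + 1))) ∧
      (∀ i, ∀ a ∈ insert 1 ((Finset.range (n + 1)).image (fun i => (f i).1 n)), TwoNormLE (e i * a - a * e i)
        (1 / ((n : ℝ) + 1))) ∧
      (∀ i, ∀ s ∈ S, TwoNormLE (α s (e i) - e i) (1 / ((n : ℝ) + 1))) ∧
      (∀ i, ∀ a ∈ insert 1 ((Finset.range (n + 1)).image (fun i => (f i).1 n)), ∀ τ : A →ₗ[ℂ] ℂ, IsTracialState τ →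
        ‖τ (a * e i) - τ a / k‖ ≤ (1 / ((n : ℝ) + 1))) :=
    fun n => h k hk1 _ S _ (by (clear * -; positivity))
  choose p hp using h1
  have hpos : ∀ n : ℕ, (0 : ℝ) ≤ 1 / ((n : ℝ) + 1) := fun n => by positivity
  have hlim : ∀ t : LimTr A, Tendsto (fun n : ℕ => 1 / ((n : ℝ) + 1)) (t.U : Filter ℕ) (𝓝 0) :=
    fun t => tendsto_one_div_add_atTop_nhds_zero_nat.mono_left t.hU
  let φ : I ≃ Fin k := Fintype.equivFin I
  let P : I → BSeq A := fun i => ⟨fun n => p n (φ i), 1, fun n => ((hp n).1 _).2.1⟩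
  have key' : ∀ (t : LimTr A) (z : BSeq A),
      (∀ᶠ n in (t.U : Filter ℕ), TwoNormLE (z.1 n) (1 / ((n : ℝ) + 1))) → nrm t.val z = 0 := by
    intro t z hz
    apply le_antisymm _ (nrm_nonneg _)
    exact le_of_tendsto_of_tendsto (t.tendsto_nrm z) (hlim t)
      (hz.mono (fun n hn => nrm_le_of_two_part (t.hτ n) (hpos n) hn))
  have key : ∀ (t : LimTr A) (z : BSeq A),
      (∀ n, TwoNormLE (z.1 n) (1 / ((n : ℝ) + 1))) → nrm t.val z = 0 :=
    fun t z hz => key' t z (Eventually.of_forall hz)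
  have hval : ∀ (t : LimTr A) (i : I) (b : BSeq A),
      (∀ᶠ n in (t.U : Filter ℕ),
        ‖t.τ n (b.1 n * (P i).1 n) - t.τ n (b.1 n) / k‖ ≤ 1 / ((n : ℝ) + 1)) →
      t.val (b * P i) = t.val b / k := by
    intro t i b hb
    have h2 : Tendsto (fun n => t.τ n ((b * P i).1 n) - t.τ n (b.1 n) / k) t.U
        (𝓝 (t.val (b * P i) - t.val b / k)) := (t.tendsto _).sub ((t.tendsto b).div_const _)
    have h3 : Tendsto (fun n => t.τ n ((b * P i).1 n) - t.τ n (b.1 n) / k) t.U (𝓝 0) :=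
      squeeze_zero_norm' hb (hlim t)
    exact sub_eq_zero.mp (tendsto_nhds_unique h2 h3)
  have hstar : ∀ i, star (P i) = P i := by
    intro i
    apply Subtype.ext
    funext n
    obtain ⟨b, hb⟩ := ((hp n).1 (φ i)).1
    show star (p n (φ i)) = p n (φ i)
    rw [hb, star_mul, star_star]
  refine ⟨P, hstar, fun i n => ((hp n).1 (φ i)).2.1, fun t => ?_⟩
  have hid : ∀ i, t.c (P i) * t.c (P i) = t.c (P i) := by
    intro i
    rw [← map_mul]
    exact t.c_eq (key t _ (fun n => ((hp n).1 (φ i)).2.2))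
  have horth : ∀ i j, i ≠ j → t.c (P i) * t.c (P j) = 0 := by
    intro i j hij
    rw [← map_mul, ← map_zero t.c]
    apply t.c_eq
    rw [sub_zero]
    exact key t _ (fun n => (hp n).2.1 _ _ (fun hh => hij (φ.injective hh)))
  refine ⟨hid, horth, ?_, ?_, ?_, ?_⟩
  · -- sum = 1
    have hS2 : (∑ i, t.c (P i)) * (∑ i, t.c (P i)) = ∑ i, t.c (P i) := by
      rw [Finset.sum_mul]
      apply Finset.sum_congr rfl
      intro i _
      rw [Finset.mul_sum, Finset.sum_eq_single i]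
      · exact hid i
      · intro j _ hj; exact horth i j (Ne.symm hj)
      · intro hh; exact absurd (Finset.mem_univ i) hh
    have hSs : star (∑ i, t.c (P i)) = ∑ i, t.c (P i) := by
      rw [star_sum]
      apply Finset.sum_congr rfl
      intro i _
      rw [← t.c_star, hstar]
    have h1 : t.q (∑ i, t.c (P i)) = 1 := by
      rw [map_sum]
      have : ∀ i, t.q (t.c (P i)) = 1 / k := by
        intro i
        rw [t.q_c]
        have := hval t i 1 (Eventually.of_forall (fun n => by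
          have := (hp n).2.2.2.2 (φ i) 1 (Finset.mem_insert_self _ _) (t.τ n) (t.hτ n)
          exact this))
        rw [one_mul, t.isTracial.map_one] at this
        exact this
      rw [Finset.sum_congr rfl (fun i _ => this i), Finset.sum_const, Finset.card_univ, ← hk,
        nsmul_eq_mul, mul_one_div_cancel hk0]
    have h2 : nrm t.q (1 - ∑ i, t.c (P i)) = 0 := by
      unfold nrm
      have : star (1 - ∑ i, t.c (P i)) * (1 - ∑ i, t.c (P i)) = 1 - ∑ i, t.c (P i) := by
        rw [star_sub, star_one, hSs, sub_mul, mul_sub, mul_sub, hS2]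
        simp
      rw [this, map_sub, h1, t.q_tracial.map_one]
      simp
    exact (sub_eq_zero.mp (qt_faithful t.isTracial _ h2)).symm
  · intro i b hb
    rw [← map_mul, ← map_mul]
    exact t.c_eq (key' t _ ((hmem t b hb).mono (fun n hn => (hp n).2.2.1 (φ i) _ hn)))
  · intro i b hb
    apply hval t i b
    exact (hmem t b hb).mono (fun n hn => (hp n).2.2.2.2 (φ i) _ hn (t.τ n) (t.hτ n))
  · intro i s hs
    exact t.c_eq (key t _ (fun n => (hp n).2.2.2.1 (φ i) s hs))

end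

section
variable {Q : Type*} [Ring Q] [StarRing Q] [Algebra ℂ Q] [StarModule ℂ Q] {q : Q →ₗ[ℂ] ℂ}

/-- Pythagoras for an independent partition -/
theorem nrm_part (h : IsTracialState q) {I : Type*} [Fintype I] [Nonempty I] {ζ : I → Q}
    (hid : ∀ i, ζ i * ζ i = ζ i) (horth : ∀ i j, i ≠ j → ζ i * ζ j = 0)
    (hsa : ∀ i, star (ζ i) = ζ i) {X : I → Q} (hc : ∀ i, ζ i * X i = X i * ζ i)
    (hlaw : ∀ i, q (star (X i) * X i * ζ i) = q (star (X i) * X i) / Fintype.card I) :
    nrm q (∑ i, ζ i * X i) ^ 2 = (∑ i, nrm q (X i) ^ 2) / Fintype.card I := by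
  classical
  have h1 : star (∑ i, ζ i * X i) * (∑ i, ζ i * X i) = ∑ i, star (X i) * X i * ζ i := by
    rw [star_sum, Finset.sum_mul]
    apply Finset.sum_congr rfl
    intro i _
    rw [Finset.mul_sum, Finset.sum_eq_single i]
    · rw [star_mul, hsa]
      calc star (X i) * ζ i * (ζ i * X i) = star (X i) * (ζ i * ζ i) * X i := by
            simp only [mul_assoc]
        _ = star (X i) * X i * ζ i := by rw [hid, mul_assoc, hc, ← mul_assoc]
    · intro j _ hj
      rw [star_mul, hsa]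
      calc star (X i) * ζ i * (ζ j * X j) = star (X i) * (ζ i * ζ j) * X j := by
            simp only [mul_assoc]
        _ = 0 := by rw [horth i j (Ne.symm hj)]; simp only [mul_zero, zero_mul]
    · intro hh; exact absurd (Finset.mem_univ i) hh
  rw [nrm_sq h, h1, map_sum]
  rw [Finset.sum_congr rfl (fun i _ => hlaw i), ← Finset.sum_div]
  have h2 : (∑ i, q (star (X i) * X i)) / (Fintype.card I : ℂ) =
      (((∑ i, nrm q (X i) ^ 2) / Fintype.card I : ℝ) : ℂ) := by
    push_cast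
    congr 1
    apply Finset.sum_congr rfl
    intro i _
    rw [nrm_sq' h]
    push_cast
    rfl
  rw [h2, Complex.ofReal_re]

end

end Vale.Agent.P095
end

section

set_option linter.unusedSectionVars false
set_option linter.unusedVariables false
set_option linter.unusedSimpArgs false

namespace Vale.Agent.P095

open Finset ComplexConjugate

/-- A trial system in a tracial star-algebra: `N` rounds of bits `x (n, i)` and partial
isometries `v (n, i)`; `P n` is the monoid of words in the rounds before `n`. -/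
structure TrialSys {Q : Type*} [Ring Q] [StarRing Q] [Algebra ℂ Q] (q : Q →ₗ[ℂ] ℂ) (μ C κ : ℝ)
    (N : ℕ) {ι : Type*} (P : ℕ → Submonoid Q) (x v : Fin N × ι → Q) : Prop where
  mono : Monotone P
  star_mem : ∀ n w, w ∈ P n → star w ∈ P n
  x_mem : ∀ (n : Fin N) (i : ι), x (n, i) ∈ P ((n : ℕ) + 1)
  v_mem : ∀ (n : Fin N) (i : ι), v (n, i) ∈ P ((n : ℕ) + 1)
  idem : ∀ k, x k * x k = x k
  sa : ∀ k, star (x k) = x k
  vv : ∀ k, v k * v k = 0
  vone : ∀ k, star (v k) * v k + v k * star (v k) = 1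
  xcomm : ∀ (n : Fin N) (i : ι), ∀ w ∈ P n, x (n, i) * w = w * x (n, i)
  vcomm : ∀ (n : Fin N) (i : ι), ∀ w ∈ P n, v (n, i) * w = w * v (n, i)
  xx : ∀ (n : Fin N) (i j : ι), x (n, i) * x (n, j) = x (n, j) * x (n, i)
  vx : ∀ (n : Fin N) (i j : ι), v (n, i) * x (n, j) = x (n, j) * v (n, i)
  law : ∀ (n : Fin N) (i : ι), ∀ w ∈ P n, q (w * x (n, i)) = μ * q w
  det : ∀ (n : Fin N) (i j : ι), ∀ w ∈ P n, nrm q ((v (n, i) - v (n, j)) * w) ^ 2 ≤
    C * nrm q ((x (n, i) - x (n, j)) * w) ^ 2 + κ * nrm q w ^ 2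

section defs
variable {N : ℕ} {ι : Type*} [DecidableEq ι]

/-- the indices in `K` all of whose bits are `1` -/
def hits (K : Finset ι) (ω : Fin N × ι → Bool) : Finset ι :=
  K.filter (fun i => ∀ n, ω (n, i) = true)

/-- weight of the index `i`: uniform on `hits K ω` if there are more than `j` of them -/
noncomputable def wgt (K : Finset ι) (j : ℕ) (i : ι) (ω : Fin N × ι → Bool) : ℂ :=
  if i ∈ hits K ω ∧ j < (hits K ω).card then (((hits K ω).card : ℂ))⁻¹ else 0

/-- the event that there are more than `j` hits -/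
noncomputable def evt (K : Finset ι) (j : ℕ) (ω : Fin N × ι → Bool) : ℂ :=
  if j < (hits K ω).card then 1 else 0

variable {Q : Type*} [Ring Q] [Algebra ℂ Q] [Fintype ι]

/-- the averaged partial isometry -/
noncomputable def ty (x v : Fin N × ι → Q) (K : Finset ι) (n : Fin N) (j : ℕ) : Q :=
  ∑ i ∈ K, ev x (wgt K j i) * v (n, i)

/-- the projection of the event -/
noncomputable def tw (x : Fin N × ι → Q) (K : Finset ι) (j : ℕ) : Q := ev x (evt K j)

end defs

section pt
variable {Q : Type*} [Ring Q] [StarRing Q] [Algebra ℂ Q] [StarModule ℂ Q] {q : Q →ₗ[ℂ] ℂ}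
  {κ : Type*} [Fintype κ] [DecidableEq κ] {x : κ → Q}

/-- the element with local components `Z ω` -/
noncomputable def ttPt (x : κ → Q) (Z : (κ → Bool) → Q) : Q := ∑ ω, atom x ω * Z ω

lemma ttPt_sub (Z Z' : (κ → Bool) → Q) :
    ttPt x (fun ω => Z ω - Z' ω) = ttPt x Z - ttPt x Z' := by
  simp only [ttPt, mul_sub, sum_sub_distrib]

lemma ttPt_add (Z Z' : (κ → Bool) → Q) :
    ttPt x (fun ω => Z ω + Z' ω) = ttPt x Z + ttPt x Z' := by
  simp only [ttPt, mul_add, sum_add_distrib]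

lemma ttPt_mul_right (Z : (κ → Bool) → Q) (w : Q) :
    ttPt x Z * w = ttPt x (fun ω => Z ω * w) := by
  simp only [ttPt, sum_mul, mul_assoc]

lemma tt_ev (f : (κ → Bool) → ℂ) : ev x f = ttPt x (fun ω => f ω • (1 : Q)) := by
  simp only [ev, ttPt, Algebra.mul_smul_comm, mul_one]

lemma tt_ev_mul (f : (κ → Bool) → ℂ) (w : Q) : ev x f * w = ttPt x (fun ω => f ω • w) := by
  rw [tt_ev, ttPt_mul_right]
  congr 1
  funext ω
  rw [smul_mul_assoc, one_mul]

lemma tt_sum_ev_mul {γ : Type*} (s : Finset γ) (f : γ → (κ → Bool) → ℂ) (Y : γ → Q) :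
    ∑ i ∈ s, ev x (f i) * Y i = ttPt x (fun ω => ∑ i ∈ s, f i ω • Y i) := by
  simp_rw [tt_ev_mul]
  simp only [ttPt, Finset.mul_sum]
  rw [Finset.sum_comm]

lemma ttPt_mul (hx : CommProj x) (Z Z' : (κ → Bool) → Q)
    (hZ : ∀ ω k, Z ω * x k = x k * Z ω) :
    ttPt x Z * ttPt x Z' = ttPt x (fun ω => Z ω * Z' ω) := by
  unfold ttPt
  rw [Finset.sum_mul]
  refine Finset.sum_congr rfl fun ω _ => ?_
  rw [Finset.mul_sum, Finset.sum_eq_single ω]
  · calc atom x ω * Z ω * (atom x ω * Z' ω) = atom x ω * (Z ω * atom x ω) * Z' ω := by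
          noncomm_ring
      _ = (atom x ω * atom x ω) * Z ω * Z' ω := by
          rw [atom_commute (Z ω) (hZ ω)]; noncomm_ring
      _ = atom x ω * (Z ω * Z' ω) := by
          rw [hx.atom_mul, if_pos rfl, mul_assoc]
  · intro η _ hη
    calc atom x ω * Z ω * (atom x η * Z' η) = atom x ω * (Z ω * atom x η) * Z' η := by
          noncomm_ring
      _ = (atom x ω * atom x η) * Z ω * Z' η := by
          rw [atom_commute (Z ω) (hZ ω)]; noncomm_ring
      _ = 0 := by
          rw [hx.atom_mul, if_neg (Ne.symm hη), zero_mul, zero_mul]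
  · intro h; exact absurd (Finset.mem_univ _) h

lemma ttPt_star (hx : CommProj x) (Z : (κ → Bool) → Q)
    (hZ : ∀ ω k, Z ω * x k = x k * Z ω) :
    star (ttPt x Z) = ttPt x (fun ω => star (Z ω)) := by
  unfold ttPt
  rw [star_sum]
  refine Finset.sum_congr rfl fun ω _ => ?_
  rw [star_mul, hx.star_atom]
  refine (atom_commute (star (Z ω)) (fun k => ?_) ω)
  have h1 := congrArg star (hZ ω k)
  rw [star_mul, star_mul, hx.sa] at h1
  exact h1.symm

lemma tt_nrm_pt (hx : CommProj x) (h : IsTracialState q) (Z : (κ → Bool) → Q) :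
    nrm q (ttPt x Z) ^ 2 = ∑ ω, nrm q (atom x ω * Z ω) ^ 2 := by
  simp_rw [nrm_sq h]
  unfold ttPt
  rw [star_sum, Finset.sum_mul, map_sum, Complex.re_sum]
  refine Finset.sum_congr rfl fun ω _ => ?_
  rw [Finset.mul_sum, Finset.sum_eq_single ω]
  · intro η _ hη
    rw [star_mul, hx.star_atom, mul_assoc, ← mul_assoc (atom x ω), hx.atom_mul,
      if_neg (Ne.symm hη), zero_mul, mul_zero]
  · intro h; exact absurd (Finset.mem_univ _) h

lemma tt_nrm_ev_mul (hx : CommProj x) (h : IsTracialState q) (f : (κ → Bool) → ℂ) (w : Q) :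
    nrm q (ev x f * w) ^ 2 = ∑ ω, ‖f ω‖ ^ 2 * nrm q (atom x ω * w) ^ 2 := by
  rw [tt_ev_mul, tt_nrm_pt hx h]
  refine Finset.sum_congr rfl fun ω _ => ?_
  rw [mul_smul_comm, nrm_smul h, mul_pow]

/-- Jensen's inequality for the squared 2-norm of an average -/
lemma tt_jensen (h : IsTracialState q) {γ : Type*} (S : Finset γ) (Y : γ → Q) :
    nrm q ((S.card : ℂ)⁻¹ • ∑ s ∈ S, Y s) ^ 2 ≤ (S.card : ℝ)⁻¹ * ∑ s ∈ S, nrm q (Y s) ^ 2 := by
  rcases S.eq_empty_or_nonempty with rfl | hS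
  · simp [nrm_zero]
  have hc : (0 : ℝ) < S.card := by exact_mod_cast hS.card_pos
  rw [nrm_smul h, mul_pow, norm_inv, Complex.norm_natCast]
  have h1 : nrm q (∑ s ∈ S, Y s) ≤ ∑ s ∈ S, nrm q (Y s) := nrm_sum_le h S Y
  have h2 : nrm q (∑ s ∈ S, Y s) ^ 2 ≤ (∑ s ∈ S, nrm q (Y s)) ^ 2 :=
    pow_le_pow_left₀ (nrm_nonneg _) h1 2
  have h3 : (∑ s ∈ S, nrm q (Y s)) ^ 2 ≤ S.card * ∑ s ∈ S, nrm q (Y s) ^ 2 :=
    sq_sum_le_card_mul_sum_sq
  calc ((S.card : ℝ)⁻¹) ^ 2 * nrm q (∑ s ∈ S, Y s) ^ 2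
      ≤ ((S.card : ℝ)⁻¹) ^ 2 * (S.card * ∑ s ∈ S, nrm q (Y s) ^ 2) :=
        mul_le_mul_of_nonneg_left (h2.trans h3) (by positivity)
    _ = (S.card : ℝ)⁻¹ * ∑ s ∈ S, nrm q (Y s) ^ 2 := by
        field_simp

/-- `v` with `v* v + v v* = 1` is a contraction in 2-norm, on both sides, with its adjoint -/
lemma tt_contr (h : IsTracialState q) {v : Q} (hv : star v * v + v * star v = 1) (z : Q) :
    nrm q (v * z) ≤ nrm q z ∧ nrm q (star v * z) ≤ nrm q z ∧ nrm q (z * v) ≤ nrm q z ∧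
      nrm q (z * star v) ≤ nrm q z := by
  have key : ∀ z : Q, nrm q (v * z) ^ 2 + nrm q (star v * z) ^ 2 = nrm q z ^ 2 := by
    intro z
    rw [nrm_sq h, nrm_sq h, nrm_sq h, ← Complex.add_re, ← map_add]
    congr 2
    calc star (v * z) * (v * z) + star (star v * z) * (star v * z)
        = star z * (star v * v + v * star v) * z := by
          rw [star_mul, star_mul, star_star]; noncomm_ring
      _ = star z * z := by rw [hv, mul_one]
  have h1 : ∀ z : Q, nrm q (v * z) ≤ nrm q z ∧ nrm q (star v * z) ≤ nrm q z := by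
    intro z
    have := key z
    constructor
    · exact (sq_le_sq₀ (nrm_nonneg _) (nrm_nonneg _)).1 (by nlinarith only [this])
    · exact (sq_le_sq₀ (nrm_nonneg _) (nrm_nonneg _)).1 (by nlinarith only [this])
  refine ⟨(h1 z).1, (h1 z).2, ?_, ?_⟩
  · rw [← nrm_star h, star_mul, ← nrm_star h z]
    exact (h1 (star z)).2
  · rw [← nrm_star h, star_mul, star_star, ← nrm_star h z]
    exact (h1 (star z)).1

open Classical in
/-- the projection of an event -/
noncomputable def ttI (x : κ → Q) (p : (κ → Bool) → Prop) : Q :=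
  ev x (fun ω => if p ω then 1 else 0)

lemma ttI_congr {p p' : (κ → Bool) → Prop} (h : ∀ ω, p ω ↔ p' ω) : ttI x p = ttI x p' := by
  have : p = p' := funext fun ω => propext (h ω)
  rw [this]

lemma ttI_mul (hx : CommProj x) (p p' : (κ → Bool) → Prop) :
    ttI x p * ttI x p' = ttI x (fun ω => p ω ∧ p' ω) := by
  unfold ttI
  rw [← hx.ev_mul]
  congr 1
  funext ω
  by_cases h1 : p ω <;> by_cases h2 : p' ω <;> simp [h1, h2]

lemma ttI_coord (hx : CommProj x) (k : κ) : ttI x (fun ω => ω k = true) = x k := by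
  unfold ttI
  rw [← hx.ev_coord k]
  congr 1
  funext ω
  by_cases h1 : ω k = true <;> simp [h1]

lemma ttI_true (hx : CommProj x) {p : (κ → Bool) → Prop} (h : ∀ ω, p ω) : ttI x p = 1 := by
  unfold ttI
  rw [← hx.ev_one]
  congr 1
  funext ω
  rw [if_pos (h ω)]

lemma ttI_star (hx : CommProj x) (p : (κ → Bool) → Prop) : star (ttI x p) = ttI x p := by
  unfold ttI
  rw [hx.ev_star]
  congr 1
  funext ω
  by_cases h1 : p ω <;> simp [h1]

lemma ttI_idem (hx : CommProj x) (p : (κ → Bool) → Prop) : ttI x p * ttI x p = ttI x p := by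
  rw [ttI_mul hx]
  exact ttI_congr fun ω => by simp

lemma ttI_comm (p : (κ → Bool) → Prop) {w : Q} (hw : ∀ k, w * x k = x k * w) :
    w * ttI x p = ttI x p * w := ev_commute w hw _

lemma ttI_mono (hx : CommProj x) (h : IsTracialState q) {p p' : (κ → Bool) → Prop}
    (hp : ∀ ω, p' ω → p ω) (Y : Q) : nrm q (Y * ttI x p') ≤ nrm q (Y * ttI x p) := by
  have h1 : ttI x p' = ttI x p * ttI x p' := by
    rw [ttI_mul hx]
    exact ttI_congr fun ω => ⟨fun h => ⟨hp ω h, h⟩, fun h => h.2⟩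
  rw [h1, ← mul_assoc]
  have h2 := hx.nrm_mul_ev_le h (fun ω => open Classical in if p' ω then 1 else 0) 1 zero_le_one
    (fun ω => by by_cases hp : p' ω <;> simp [hp]) (Y * ttI x p)
  rw [one_mul] at h2
  exact h2

lemma tt_nrm_proj (h : IsTracialState q) {D p : Q} (hp : p * p = p) (hs : star p = p) :
    nrm q (D * p) ^ 2 = (q (star D * D * p)).re := by
  rw [nrm_sq h, star_mul, hs]
  congr 1
  calc q (p * star D * (D * p)) = q (p * (star D * D * p)) := by noncomm_ring
    _ = q (star D * D * p * p) := by rw [h.map_mul_comm]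
    _ = q (star D * D * p) := by rw [mul_assoc, hp]

lemma tt_nrm_I_mul (hx : CommProj x) (h : IsTracialState q) (p : (κ → Bool) → Prop) (w : Q) :
    nrm q (ttI x p * w) ^ 2 =
      ∑ ω, (open Classical in if p ω then nrm q (atom x ω * w) ^ 2 else 0) := by
  unfold ttI
  rw [tt_nrm_ev_mul hx h]
  refine Finset.sum_congr rfl fun ω _ => ?_
  by_cases h1 : p ω <;> simp [h1]

end pt

section main
variable {Q : Type*} [Ring Q] [StarRing Q] [Algebra ℂ Q] [StarModule ℂ Q] {q : Q →ₗ[ℂ] ℂ}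
  {N : ℕ} {ι : Type*} [Fintype ι] [DecidableEq ι] {P : ℕ → Submonoid Q} {x v : Fin N × ι → Q}
  {μ C κ : ℝ}

theorem TrialSys.commProj (s : TrialSys q μ C κ N P x v) : CommProj x where
  idem := s.idem
  sa := s.sa
  comm := by
    have key : ∀ (m n : Fin N) (j i : ι), (m : ℕ) < n → x (n, i) * x (m, j) = x (m, j) * x (n, i) :=
      fun m n j i hmn => s.xcomm n i _ (s.mono (by omega) (s.x_mem m j))
    rintro ⟨m, j⟩ ⟨n, i⟩
    rcases lt_trichotomy m n with h | h | h
    · exact (key m n j i h).symm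
    · subst h; exact s.xx m j i
    · exact key n m i j h

/-- `v` commutes with all bits -/
theorem TrialSys.v_comm_x (s : TrialSys q μ C κ N P x v) (k l : Fin N × ι) :
    v k * x l = x l * v k := by
  obtain ⟨n, i⟩ := k
  obtain ⟨m, j⟩ := l
  rcases lt_trichotomy m n with h | h | h
  · exact s.vcomm n i _ (s.mono (by omega) (s.x_mem m j))
  · subst h; exact s.vx m i j
  · exact (s.xcomm m j _ (s.mono (by omega) (s.v_mem n i))).symm

lemma tt_wgt_le {K : Finset ι} {j : ℕ} {ω : Fin N × ι → Bool} {i : ι} :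
    evt K j ω * wgt K j i ω = wgt K j i ω := by
  unfold evt wgt
  split_ifs <;> simp_all

lemma TrialSys.tt_tw_eq (K : Finset ι) (j : ℕ) :
    tw x K j = ttPt x (fun ω => if j < (hits K ω).card then (1 : Q) else 0) := by
  unfold tw
  rw [tt_ev]
  congr 1
  funext ω
  unfold evt
  split_ifs <;> simp

/-- local components of `ty` -/
noncomputable def ttAvg (v : Fin N × ι → Q) (n : Fin N) (H : Finset ι) : Q :=
  ((H.card : ℂ))⁻¹ • ∑ i ∈ H, v (n, i)

lemma TrialSys.tt_ty_eq (K : Finset ι) (n : Fin N) (j : ℕ) :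
    ty x v K n j = ttPt x (fun ω => if j < (hits K ω).card then ttAvg v n (hits K ω) else 0) := by
  unfold ty
  rw [tt_sum_ev_mul]
  congr 1
  funext ω
  split_ifs with hj
  · unfold ttAvg
    rw [Finset.smul_sum]
    have h1 : hits K ω = K.filter (fun i => i ∈ hits K ω) := by
      ext i
      simp only [Finset.mem_filter]
      exact ⟨fun hi => ⟨(Finset.mem_filter.1 hi).1, hi⟩, fun hi => hi.2⟩
    conv_rhs => rw [h1]
    rw [Finset.sum_filter]
    refine Finset.sum_congr rfl fun i _ => ?_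
    unfold wgt
    by_cases hi : i ∈ hits K ω
    · rw [if_pos ⟨hi, hj⟩, if_pos hi, ← h1]
    · rw [if_neg (fun h => hi h.1), if_neg hi, zero_smul]
  · refine Finset.sum_eq_zero fun i _ => ?_
    unfold wgt
    rw [if_neg (fun h => hj h.2), zero_smul]

lemma TrialSys.tt_comm_avg (s : TrialSys q μ C κ N P x v) (n : Fin N) (H : Finset ι)
    (k : Fin N × ι) : ttAvg v n H * x k = x k * ttAvg v n H := by
  unfold ttAvg
  rw [smul_mul_assoc, mul_smul_comm, Finset.sum_mul, Finset.mul_sum]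
  congr 1
  exact Finset.sum_congr rfl fun i _ => s.v_comm_x _ _

lemma TrialSys.tt_comm_ite (s : TrialSys q μ C κ N P x v) (n : Fin N) (H : Finset ι) (c : Prop)
    [Decidable c] (k : Fin N × ι) :
    (if c then ttAvg v n H else 0) * x k = x k * (if c then ttAvg v n H else 0) := by
  split_ifs
  · exact s.tt_comm_avg n H k
  · simp

/-- algebraic properties -/
theorem TrialSys.alg (s : TrialSys q μ C κ N P x v) (K : Finset ι) (n : Fin N) (j : ℕ) :
    star (tw x K j) = tw x K j ∧ tw x K j * tw x K j = tw x K j ∧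
    tw x K j * ty x v K n j = ty x v K n j ∧ ty x v K n j * tw x K j = ty x v K n j ∧
    (∀ w, (∀ k, w * x k = x k * w) → w * tw x K j = tw x K j * w) ∧
    (∀ w, (∀ k, w * x k = x k * w) → (∀ k, w * v k = v k * w) →
      w * ty x v K n j = ty x v K n j * w) := by
  have hx := s.commProj
  have htw : tw x K j * tw x K j = tw x K j := by
    unfold tw
    rw [← hx.ev_mul]
    congr 1
    funext ω
    unfold evt
    split_ifs <;> simp
  have hty : tw x K j * ty x v K n j = ty x v K n j := by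
    unfold tw ty
    rw [Finset.mul_sum]
    refine Finset.sum_congr rfl fun i _ => ?_
    rw [← mul_assoc, ← hx.ev_mul]
    congr 2
    funext ω
    exact tt_wgt_le
  have hcx : ∀ w, (∀ k, w * x k = x k * w) → w * tw x K j = tw x K j * w :=
    fun w hw => ev_commute w hw _
  refine ⟨?_, htw, hty, ?_, hcx, ?_⟩
  · unfold tw
    rw [hx.ev_star]
    congr 1
    funext ω
    unfold evt
    split_ifs <;> simp
  · have h1 : ty x v K n j * tw x K j = tw x K j * ty x v K n j := by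
      refine hcx _ fun k => ?_
      unfold ty
      rw [Finset.sum_mul, Finset.mul_sum]
      refine Finset.sum_congr rfl fun i _ => ?_
      rw [mul_assoc, s.v_comm_x, ← mul_assoc, ← mul_assoc]
      congr 1
      exact (ev_commute (x k) (fun l => hx.comm k l) _).symm
    rw [h1, hty]
  · intro w hw hv
    unfold ty
    rw [Finset.sum_mul, Finset.mul_sum]
    refine Finset.sum_congr rfl fun i _ => ?_
    rw [← mul_assoc, ev_commute w hw, mul_assoc, hv, mul_assoc]

/-- contraction property -/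
theorem TrialSys.contr (h : IsTracialState q) (s : TrialSys q μ C κ N P x v) (K : Finset ι)
    (n : Fin N) (j : ℕ) (z : Q) : nrm q (ty x v K n j * z) ≤ nrm q (tw x K j * z) := by
  have hx := s.commProj
  refine (sq_le_sq₀ (nrm_nonneg _) (nrm_nonneg _)).1 ?_
  rw [TrialSys.tt_ty_eq, TrialSys.tt_tw_eq, ttPt_mul_right, ttPt_mul_right, tt_nrm_pt hx h,
    tt_nrm_pt hx h]
  refine Finset.sum_le_sum fun ω _ => ?_
  split_ifs with hj
  · rw [one_mul]
    unfold ttAvg
    rw [smul_mul_assoc, mul_smul_comm, Finset.sum_mul, Finset.mul_sum]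
    refine (tt_jensen h (hits K ω) _).trans ?_
    have hc : (0 : ℝ) < (hits K ω).card := by exact_mod_cast (Nat.zero_le j).trans_lt hj
    have h1 : ∑ i ∈ hits K ω, nrm q (atom x ω * (v (n, i) * z)) ^ 2 ≤
        ∑ i ∈ hits K ω, nrm q (atom x ω * z) ^ 2 := by
      refine Finset.sum_le_sum fun i _ => ?_
      rw [← mul_assoc, ← atom_commute _ (fun k => s.v_comm_x _ _), mul_assoc]
      exact pow_le_pow_left₀ (nrm_nonneg _) (tt_contr h (s.vone (n, i)) _).1 2
    rw [Finset.sum_const, nsmul_eq_mul] at h1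
    calc ((hits K ω).card : ℝ)⁻¹ * ∑ i ∈ hits K ω, nrm q (atom x ω * (v (n, i) * z)) ^ 2
        ≤ ((hits K ω).card : ℝ)⁻¹ * ((hits K ω).card * nrm q (atom x ω * z) ^ 2) :=
          mul_le_mul_of_nonneg_left h1 (by (clear * - hc; positivity))
      _ = nrm q (atom x ω * z) ^ 2 := by (clear * - hc; field_simp)
  · simp

lemma TrialSys.tt_law_span (s : TrialSys q μ C κ N P x v) (n : Fin N) (i : ι) {y : Q}
    (hy : y ∈ Submodule.span ℂ (P n : Set Q)) : q (y * x (n, i)) = μ * q y := by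
  induction hy using Submodule.span_induction with
  | mem w hw => exact s.law n i w hw
  | zero => simp only [zero_mul, map_zero, mul_zero]
  | add a b _ _ ha hb => rw [add_mul, map_add, ha, hb, map_add, mul_add]
  | smul c a _ ha => rw [smul_mul_assoc, map_smul, ha, map_smul, smul_eq_mul, smul_eq_mul]; ring

lemma tt_span_mul {S : Submonoid Q} {y w : Q} (hy : y ∈ Submodule.span ℂ (S : Set Q))
    (hw : w ∈ S) : y * w ∈ Submodule.span ℂ (S : Set Q) := by
  induction hy using Submodule.span_induction with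
  | mem a ha => exact Submodule.subset_span (S.mul_mem ha hw)
  | zero => rw [zero_mul]; exact Submodule.zero_mem _
  | add a b _ _ ha hb => rw [add_mul]; exact Submodule.add_mem _ ha hb
  | smul c a _ ha => rw [smul_mul_assoc]; exact Submodule.smul_mem _ _ ha

/-- the bits of index `i` in the rounds `m₀ ≤ l < m₀ + k` -/
noncomputable def ttT (x : Fin N × ι → Q) (i : ι) (m₀ k : ℕ) : Q :=
  ttI x (fun ω => ∀ l : Fin N, m₀ ≤ (l : ℕ) → (l : ℕ) < m₀ + k → ω (l, i) = true)

lemma TrialSys.ttT_succ (s : TrialSys q μ C κ N P x v) (i : ι) (m₀ k : ℕ) (hk : m₀ + k < N) :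
    ttT x i m₀ (k + 1) = ttT x i m₀ k * x (⟨m₀ + k, hk⟩, i) := by
  unfold ttT
  rw [← ttI_coord s.commProj (⟨m₀ + k, hk⟩, i), ttI_mul s.commProj]
  refine ttI_congr fun ω => ⟨fun h => ⟨fun l h1 h2 => h l h1 (by omega), h _ (by simp only [le_add_iff_nonneg_right, zero_le]) (by simp)⟩,
    fun h l h1 h2 => ?_⟩
  rcases Nat.lt_or_ge (l : ℕ) (m₀ + k) with h3 | h3
  · exact h.1 l h1 h3
  · have : l = ⟨m₀ + k, hk⟩ := Fin.ext (by simp only; omega)
    rw [this]; exact h.2

lemma TrialSys.ttT_zero (s : TrialSys q μ C κ N P x v) (i : ι) (m₀ : ℕ) :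
    ttT x i m₀ 0 = 1 := ttI_true s.commProj fun ω l h1 h2 => by omega

lemma TrialSys.ttT_law (s : TrialSys q μ C κ N P x v) (i : ι) (m₀ k : ℕ) (hk : m₀ + k ≤ N) :
    ttT x i m₀ k ∈ P (m₀ + k) ∧ ∀ y ∈ Submodule.span ℂ (P m₀ : Set Q),
      q (y * ttT x i m₀ k) = μ ^ k * q y := by
  induction k with
  | zero =>
    refine ⟨?_, fun y hy => ?_⟩
    · rw [s.ttT_zero]; exact (P _).one_mem
    · rw [s.ttT_zero]; simp
  | succ k ih =>
    obtain ⟨h1, h2⟩ := ih (by omega)
    have hkN : m₀ + k < N := by omega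
    rw [s.ttT_succ i m₀ k hkN]
    refine ⟨(P _).mul_mem (s.mono (by omega) h1) (s.x_mem ⟨m₀ + k, hkN⟩ i), fun y hy => ?_⟩
    have hy' : y * ttT x i m₀ k ∈ Submodule.span ℂ (P ((⟨m₀ + k, hkN⟩ : Fin N) : ℕ) : Set Q) :=
      tt_span_mul (Submodule.span_mono (s.mono (by simp : m₀ ≤ m₀ + k)) hy) h1
    rw [← mul_assoc, s.tt_law_span _ i hy', h2 y hy, pow_succ]
    ring

/-- both bits in all rounds before `m` -/
noncomputable def ttB (x : Fin N × ι → Q) (i i' : ι) (m : ℕ) : Q :=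
  ttI x (fun ω => ∀ l : Fin N, (l : ℕ) < m → ω (l, i) = true ∧ ω (l, i') = true)

lemma TrialSys.ttB_zero (s : TrialSys q μ C κ N P x v) (i i' : ι) : ttB x i i' 0 = 1 :=
  ttI_true s.commProj fun ω l h => by omega

lemma TrialSys.ttB_succ (s : TrialSys q μ C κ N P x v) (i i' : ι) (n : Fin N) :
    ttB x i i' (n + 1) = ttB x i i' n * (x (n, i) * x (n, i')) := by
  unfold ttB
  rw [← ttI_coord s.commProj (n, i), ← ttI_coord s.commProj (n, i'), ttI_mul s.commProj,
    ttI_mul s.commProj]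
  refine ttI_congr fun ω => ⟨fun h => ⟨fun l h1 => h l (by omega), h n (by simp only [lt_add_iff_pos_right, Order.lt_one_iff])⟩,
    fun h l h1 => ?_⟩
  rcases Nat.lt_or_ge (l : ℕ) n with h3 | h3
  · exact h.1 l h3
  · have : l = n := Fin.ext (by omega)
    rw [this]; exact h.2

lemma TrialSys.ttB_mem (s : TrialSys q μ C κ N P x v) (i i' : ι) (m : ℕ) (hm : m ≤ N) :
    ttB x i i' m ∈ P m := by
  induction m with
  | zero => rw [s.ttB_zero]; exact (P _).one_mem
  | succ m ih =>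
    have := s.ttB_succ i i' ⟨m, hm⟩
    simp only at this
    rw [this]
    exact (P _).mul_mem (s.mono (Nat.le_succ m) (ih (by omega)))
      ((P _).mul_mem (s.x_mem ⟨m, hm⟩ i) (s.x_mem ⟨m, hm⟩ i'))

/-- law of the event -/
theorem TrialSys.law_evt (h : IsTracialState q) (s : TrialSys q μ C κ N P x v) (K : Finset ι)
    (w : Q) (hw : w ∈ P 0) :
    ∑ j ∈ range K.card, q (w * tw x K j) = K.card * μ ^ N * q w := by
  have hx := s.commProj
  have h1 : ∑ j ∈ range K.card, tw x K j = ∑ i ∈ K, ttT x i 0 N := by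
    unfold tw ttT ttI ev
    rw [Finset.sum_comm, Finset.sum_comm (s := K)]
    refine Finset.sum_congr rfl fun ω _ => ?_
    rw [← Finset.sum_smul, ← Finset.sum_smul]
    congr 1
    have hle : (hits K ω).card ≤ K.card := Finset.card_filter_le _ _
    have h2 : ∑ j ∈ range K.card, evt K j ω = (hits K ω).card := by
      unfold evt
      rw [Finset.sum_ite, Finset.sum_const_zero, add_zero, Finset.sum_const, nsmul_eq_mul, mul_one]
      congr 1
      have : (range K.card).filter (fun j => j < (hits K ω).card) = range (hits K ω).card := by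
        ext j
        simp only [Finset.mem_filter, Finset.mem_range]
        omega
      rw [this, Finset.card_range]
    rw [h2]
    unfold hits
    rw [Finset.card_filter]
    push_cast
    refine Finset.sum_congr rfl fun i _ => ?_
    by_cases h3 : ∀ n, ω (n, i) = true
    · rw [if_pos h3, if_pos (fun l _ _ => h3 l)]
    · rw [if_neg h3, if_neg]
      intro h4
      exact h3 fun n => h4 n (Nat.zero_le _) (by simp)
  have h2 : ∀ i ∈ K, q (w * ttT x i 0 N) = μ ^ N * q w := fun i _ =>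
    (s.ttT_law i 0 N (by simp)).2 w (Submodule.subset_span hw)
  rw [← map_sum, ← Finset.mul_sum, h1, Finset.mul_sum, map_sum, Finset.sum_congr rfl h2,
    Finset.sum_const, nsmul_eq_mul]
  ring

lemma ttB_eq (i i' : ι) : ev x (fun ω => if ∀ m, ω (m, i) = true ∧ ω (m, i') = true
    then (1 : ℂ) else 0) = ttB x i i' N := by
  unfold ttB ttI
  congr 1
  funext ω
  by_cases h : ∀ m, ω (m, i) = true ∧ ω (m, i') = true
  · rw [if_pos h, if_pos (fun l _ => h l)]
  · rw [if_neg h, if_neg]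
    intro h4
    exact h fun m => h4 m m.2

/-- one round of the key estimate -/
lemma TrialSys.tt_round (h : IsTracialState q) (s : TrialSys q μ C κ N P x v) (hμ : 0 < μ)
    (hC : 0 ≤ C) (i i' : ι) (n : Fin N) :
    nrm q ((v (n, i) - v (n, i')) * ttB x i i' N) ^ 2 ≤
      μ ^ (N - (n + 1)) * (C * (2 * (μ * (q (ttB x i i' n)).re - (q (ttB x i i' (n + 1))).re)) +
        κ * (q (ttB x i i' n)).re) ∧
      0 ≤ μ * (q (ttB x i i' n)).re - (q (ttB x i i' (n + 1))).re := by
  have hx := s.commProj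
  set D := v (n, i) - v (n, i') with hD
  set B := ttB x i i' n with hB
  have hnN : (n : ℕ) < N := n.2
  have hBm : B ∈ P n := s.ttB_mem i i' n hnN.le
  have hBp : B * B = B := ttI_idem hx _
  have hBs : star B = B := ttI_star hx _
  set T := ttT x i (n + 1) (N - (n + 1)) with hT
  have hTp : T * T = T := ttI_idem hx _
  have hTs : star T = T := ttI_star hx _
  have hDx : ∀ k, D * x k = x k * D := by
    intro k
    rw [hD, sub_mul, mul_sub, s.v_comm_x, s.v_comm_x]
  have hBx : ∀ k, x k * B = B * x k := fun k => ev_commute (x k) (fun l => hx.comm k l) _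
  have hTB : B * T = T * B := ttI_comm _ (fun k => (hBx k).symm)
  have hBTp : (B * T) * (B * T) = B * T := by
    calc (B * T) * (B * T) = B * (T * B) * T := by noncomm_ring
      _ = (B * B) * (T * T) := by rw [← hTB]; noncomm_ring
      _ = B * T := by rw [hBp, hTp]
  have hBTs : star (B * T) = B * T := by rw [star_mul, hBs, hTs, hTB]
  -- step 1
  have s1 : nrm q (D * ttB x i i' N) ≤ nrm q (D * (B * T)) := by
    have h1 : B * T = ttI x (fun ω => (∀ l : Fin N, (l : ℕ) < n → ω (l, i) = true ∧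
        ω (l, i') = true) ∧ (∀ l : Fin N, (n : ℕ) + 1 ≤ (l : ℕ) →
          (l : ℕ) < (n : ℕ) + 1 + (N - (n + 1)) → ω (l, i) = true)) := ttI_mul hx _ _
    rw [h1]
    exact ttI_mono hx h (fun ω hω => ⟨fun l _ => hω l l.2, fun l _ _ => (hω l l.2).1⟩) D
  -- step 2
  have hspan : star D * D * B ∈ Submodule.span ℂ (P (n + 1) : Set Q) := by
    have hB1 : B ∈ P (n + 1) := s.mono (Nat.le_succ _) hBm
    have hmem : ∀ a b : Q, a ∈ P ((n : ℕ) + 1) → b ∈ P ((n : ℕ) + 1) →
        star a * b ∈ P ((n : ℕ) + 1) := fun a b ha hb => (P _).mul_mem (s.star_mem _ _ ha) hb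
    have h1 : star D * D = star (v (n, i)) * v (n, i) - star (v (n, i)) * v (n, i') -
        (star (v (n, i')) * v (n, i) - star (v (n, i')) * v (n, i')) := by
      rw [hD, star_sub]; noncomm_ring
    refine tt_span_mul ?_ hB1
    rw [h1]
    have hv := s.v_mem n i
    have hv' := s.v_mem n i'
    exact Submodule.sub_mem _ (Submodule.sub_mem _ (Submodule.subset_span (hmem _ _ hv hv))
      (Submodule.subset_span (hmem _ _ hv hv'))) (Submodule.sub_mem _
      (Submodule.subset_span (hmem _ _ hv' hv)) (Submodule.subset_span (hmem _ _ hv' hv')))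
  have s2 : nrm q (D * (B * T)) ^ 2 = μ ^ (N - (n + 1)) * nrm q (D * B) ^ 2 := by
    rw [tt_nrm_proj h hBTp hBTs, tt_nrm_proj h hBp hBs, ← mul_assoc,
      (s.ttT_law i (n + 1) (N - (n + 1)) (by omega)).2 _ hspan]
    have : (μ : ℂ) ^ (N - ((n : ℕ) + 1)) = ((μ ^ (N - ((n : ℕ) + 1)) : ℝ) : ℂ) := by push_cast; rfl
    rw [this, Complex.re_ofReal_mul]
  -- step 3
  have s3 := s.det n i i' B hBm
  have s4 : nrm q B ^ 2 = (q B).re := by rw [nrm_sq h, hBs, hBp]
  have hqB : q (ttB x i i' (n + 1)) = q (B * (x (n, i) * x (n, i'))) := by rw [s.ttB_succ]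
  have s5 : nrm q ((x (n, i) - x (n, i')) * B) ^ 2 =
      2 * (μ * (q B).re - (q (ttB x i i' (n + 1))).re) := by
    rw [tt_nrm_proj h hBp hBs, hqB]
    have h1 : star (x (n, i) - x (n, i')) * (x (n, i) - x (n, i')) * B =
        B * x (n, i) + B * x (n, i') - (2 : ℂ) • (B * (x (n, i) * x (n, i'))) := by
      rw [star_sub, s.sa, s.sa]
      have h2 : (x (n, i) - x (n, i')) * (x (n, i) - x (n, i')) =
          x (n, i) + x (n, i') - (2 : ℂ) • (x (n, i) * x (n, i')) := by
        have h3 : (x (n, i) - x (n, i')) * (x (n, i) - x (n, i')) =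
            x (n, i) * x (n, i) - x (n, i) * x (n, i') - x (n, i') * x (n, i) +
              x (n, i') * x (n, i') := by noncomm_ring
        rw [h3, s.idem, s.idem, s.xx n i' i, two_smul]
        abel
      rw [h2, sub_mul, add_mul, hBx, hBx, smul_mul_assoc, mul_assoc, hBx (n, i'), ← mul_assoc,
        hBx (n, i), mul_assoc]
    rw [h1, map_sub, map_add, map_smul, s.law n i B hBm, s.law n i' B hBm, smul_eq_mul]
    have e1 : ((μ : ℂ) * q B).re = μ * (q B).re := Complex.re_ofReal_mul _ _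
    have e2 : ((2 : ℂ) * q (B * (x (n, i) * x (n, i')))).re =
        2 * (q (B * (x (n, i) * x (n, i')))).re := by
      have : (2 : ℂ) = ((2 : ℝ) : ℂ) := by norm_num
      rw [this, Complex.re_ofReal_mul]
    rw [Complex.sub_re, Complex.add_re, e1, e2]
    ring
  refine ⟨?_, by nlinarith only [s5]⟩
  calc nrm q (D * ttB x i i' N) ^ 2 ≤ nrm q (D * (B * T)) ^ 2 :=
        pow_le_pow_left₀ (nrm_nonneg _) s1 2
    _ = μ ^ (N - (n + 1)) * nrm q (D * B) ^ 2 := s2
    _ ≤ μ ^ (N - (n + 1)) * (C * nrm q ((x (n, i) - x (n, i')) * B) ^ 2 + κ * nrm q B ^ 2) :=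
        mul_le_mul_of_nonneg_left s3 (by positivity)
    _ = _ := by rw [s4, s5]

/-- The key telescoping estimate. -/
theorem TrialSys.key (h : IsTracialState q) (s : TrialSys q μ C κ N P x v) (hμ : 0 < μ)
    (hμ1 : μ ≤ 1) (hC : 0 ≤ C) (hκ : 0 ≤ κ) (i i' : ι) :
    ∑ n : Fin N, nrm q ((v (n, i) - v (n, i')) *
      ev x (fun ω => if ∀ m, ω (m, i) = true ∧ ω (m, i') = true then 1 else 0)) ^ 2 ≤
      (2 * C + N * κ / μ) * μ ^ N := by
  have hx := s.commProj
  rw [ttB_eq]
  set b : ℕ → ℝ := fun m => (q (ttB x i i' m)).re with hb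
  set a : ℕ → ℝ := fun m => b m / μ ^ m with ha
  have ha0 : a 0 = 1 := by
    simp only [ha, hb, s.ttB_zero, h.map_one, pow_zero, Complex.one_re, div_one]
  have hr := fun n : Fin N => s.tt_round h hμ hC i i' n
  have hb0 : ∀ m, 0 ≤ b m := by
    intro m
    have h1 : b m = nrm q (ttB x i i' m) ^ 2 := by
      have h2 : star (ttB x i i' m) = ttB x i i' m := ttI_star hx _
      have h3 : ttB x i i' m * ttB x i i' m = ttB x i i' m := ttI_idem hx _
      rw [nrm_sq h, h2, h3]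
    rw [h1]; (clear * -; positivity)
  have hstep : ∀ m < N, a (m + 1) ≤ a m := by
    intro m hm
    have h1 := (hr ⟨m, hm⟩).2
    simp only [ha]
    rw [div_le_div_iff₀ (by positivity) (by positivity)]
    have h2 : b (m + 1) ≤ μ * b m := by simp only [hb]; linarith only [h1]
    calc b (m + 1) * μ ^ m ≤ μ * b m * μ ^ m := mul_le_mul_of_nonneg_right h2 (by positivity)
      _ = b m * μ ^ (m + 1) := by ring
  have hle1 : ∀ m ≤ N, a m ≤ 1 := by
    intro m hm
    induction m with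
    | zero => exact ha0.le
    | succ m ih => exact (hstep m (by omega)).trans (ih (by omega))
  have haN : 0 ≤ a N := by simp only [ha]; have := hb0 N; (clear * - this hμ; positivity)
  have hterm : ∀ n : Fin N, nrm q ((v (n, i) - v (n, i')) * ttB x i i' N) ^ 2 ≤
      2 * C * μ ^ N * (a n - a (n + 1)) + κ / μ * μ ^ N := by
    intro n
    refine (hr n).1.trans ?_
    have hn : (n : ℕ) + 1 ≤ N := n.2
    have hp : μ ^ N = μ ^ (N - (n + 1)) * μ ^ ((n : ℕ) + 1) := by
      rw [← pow_add]; congr 1; omega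
    have e1 : b n = a n * μ ^ (n : ℕ) := by simp only [ha]; (clear * - hμ; field_simp)
    have e2 : b (n + 1) = a (n + 1) * μ ^ ((n : ℕ) + 1) := by simp only [ha]; (clear * - hμ; field_simp)
    have e3 : μ * b n - b (n + 1) = μ ^ ((n : ℕ) + 1) * (a n - a (n + 1)) := by
      rw [e1, e2]; ring
    change μ ^ (N - (n + 1)) * (C * (2 * (μ * b n - b (n + 1))) + κ * b n) ≤ _
    rw [e3, e1, hp]
    have e4 : κ / μ * (μ ^ (N - (n + 1)) * μ ^ ((n : ℕ) + 1)) =
        μ ^ (N - (n + 1)) * (κ * μ ^ (n : ℕ)) := by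
      field_simp
      ring
    rw [e4]
    have h5 : κ * (a n * μ ^ (n : ℕ)) ≤ κ * μ ^ (n : ℕ) := by
      have := hle1 n (by omega)
      have h6 : a n * μ ^ (n : ℕ) ≤ 1 * μ ^ (n : ℕ) :=
        mul_le_mul_of_nonneg_right this (by positivity)
      rw [one_mul] at h6
      exact mul_le_mul_of_nonneg_left h6 hκ
    have h7 : 0 ≤ μ ^ (N - ((n : ℕ) + 1)) := by positivity
    nlinarith only [h5, h7]
  refine (Finset.sum_le_sum fun n _ => hterm n).trans ?_
  rw [Fin.sum_univ_eq_sum_range (fun m => 2 * C * μ ^ N * (a m - a (m + 1)) + κ / μ * μ ^ N) N,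
    Finset.sum_add_distrib, ← Finset.mul_sum, Finset.sum_range_sub', ha0, Finset.sum_const,
    Finset.card_range, nsmul_eq_mul]
  have h8 : 0 ≤ 2 * C * μ ^ N := by (clear * - hC hμ; positivity)
  have h9 : (N : ℝ) * (κ / μ * μ ^ N) = N * κ / μ * μ ^ N := by ring
  rw [h9]
  nlinarith only [h8, haN]

lemma ttB_star (s : TrialSys q μ C κ N P x v) (i i' : ι) (m : ℕ) (n : Fin N) (a b : ι) :
    (v (n, a) - v (n, b)) * ttB x i i' m = ttB x i i' m * (v (n, a) - v (n, b)) := by
  refine ttI_comm _ fun k => ?_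
  rw [sub_mul, mul_sub, s.v_comm_x, s.v_comm_x]

/-- local defect -/
noncomputable def ttG (q : Q →ₗ[ℂ] ℂ) (x v : Fin N × ι → Q) (K K' : Finset ι) (n : Fin N)
    (ω : Fin N × ι → Bool) : ℝ :=
  ∑ p ∈ hits K' ω ×ˢ hits K ω, nrm q (atom x ω * (v (n, p.1) - v (n, p.2))) ^ 2

lemma ttG_nonneg (K K' : Finset ι) (n : Fin N) (ω : Fin N × ι → Bool) :
    0 ≤ ttG q x v K K' n ω := Finset.sum_nonneg fun p _ => by positivity

lemma TrialSys.ttG_sum (h : IsTracialState q) (s : TrialSys q μ C κ N P x v) (K K' : Finset ι)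
    (n : Fin N) : ∑ ω, ttG q x v K K' n ω =
      ∑ p ∈ K' ×ˢ K, nrm q ((v (n, p.1) - v (n, p.2)) * ttB x p.1 p.2 N) ^ 2 := by
  classical
  have hx := s.commProj
  have h1 : ∀ p ∈ K' ×ˢ K, nrm q ((v (n, p.1) - v (n, p.2)) * ttB x p.1 p.2 N) ^ 2 =
      ∑ ω, if (p.1 ∈ hits K' ω ∧ p.2 ∈ hits K ω) then
        nrm q (atom x ω * (v (n, p.1) - v (n, p.2))) ^ 2 else 0 := by
    intro p hp
    rw [Finset.mem_product] at hp
    rw [ttB_star s]
    unfold ttB
    rw [tt_nrm_I_mul hx h]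
    refine Finset.sum_congr rfl fun ω _ => ?_
    congr 1
    simp only [hits, Finset.mem_filter, hp.1, hp.2, true_and, eq_iff_iff]
    exact ⟨fun h => ⟨fun l => (h l l.2).1, fun l => (h l l.2).2⟩, fun h l _ => ⟨h.1 l, h.2 l⟩⟩
  rw [Finset.sum_congr rfl h1, Finset.sum_comm]
  refine Finset.sum_congr rfl fun ω _ => ?_
  unfold ttG
  rw [← Finset.sum_filter]
  congr 1
  ext p
  simp only [Finset.mem_product, Finset.mem_filter, hits]
  (clear * -; tauto)

lemma ttG_j (K K' : Finset ι) (n : Fin N) (ω : Fin N × ι → Bool) (k : ℕ) :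
    ∑ j ∈ range k, (if j < (hits K ω).card ∧ j < (hits K' ω).card then
      ((hits K' ω ×ˢ hits K ω).card : ℝ)⁻¹ * ttG q x v K K' n ω else 0) ≤ ttG q x v K K' n ω := by
  have hg : 0 ≤ ttG q x v K K' n ω := ttG_nonneg K K' n ω
  rw [← Finset.sum_filter, Finset.sum_const, nsmul_eq_mul]
  have h1 : ((range k).filter (fun j => j < (hits K ω).card ∧ j < (hits K' ω).card)).card ≤
      (hits K ω).card := by
    have : (range k).filter (fun j => j < (hits K ω).card ∧ j < (hits K' ω).card) ⊆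
        range (hits K ω).card := by
      intro j hj
      simp only [Finset.mem_filter, Finset.mem_range] at hj ⊢
      exact hj.2.1
    simpa only [ge_iff_le, card_range] using Finset.card_le_card this
  have h1' : ((((range k).filter (fun j => j < (hits K ω).card ∧ j < (hits K' ω).card)).card : ℕ)
      : ℝ) ≤ (hits K ω).card := by exact_mod_cast h1
  rcases Nat.eq_zero_or_pos (hits K ω).card with h2 | h2
  · have : ((((range k).filter (fun j => j < (hits K ω).card ∧ j < (hits K' ω).card)).card : ℕ)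
      : ℝ) = 0 := le_antisymm (h1'.trans (by rw [h2]; simp)) (Nat.cast_nonneg _)
    rw [this, zero_mul]; exact hg
  rcases Nat.eq_zero_or_pos (hits K' ω).card with h3 | h3
  · rw [Finset.card_product, h3, zero_mul]
    simp [hg]
  · have h2' : (0 : ℝ) < (hits K ω).card := by exact_mod_cast h2
    have h3' : (1 : ℝ) ≤ (hits K' ω).card := by exact_mod_cast h3
    have h4 : (0 : ℝ) ≤ ((hits K' ω ×ˢ hits K ω).card : ℝ)⁻¹ * ttG q x v K K' n ω := by positivity
    refine (mul_le_mul_of_nonneg_right h1' h4).trans ?_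
    rw [Finset.card_product]
    push_cast
    rw [mul_inv, ← mul_assoc, ← mul_assoc, mul_comm ((hits K ω).card : ℝ), mul_assoc (_⁻¹),
      mul_inv_cancel₀ h2'.ne', mul_one]
    exact mul_le_of_le_one_left hg (inv_le_one_of_one_le₀ h3')

lemma TrialSys.tt_final (h : IsTracialState q) (s : TrialSys q μ C κ N P x v) (hμ : 0 < μ)
    (hμ1 : μ ≤ 1) (hC : 0 ≤ C) (hκ : 0 ≤ κ) (K K' : Finset ι) (hK : K'.card = K.card) :
    ∑ n : Fin N, ∑ ω, ttG q x v K K' n ω ≤
      (K.card : ℝ) ^ 2 * ((2 * C + N * κ / μ) * μ ^ N) := by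
  simp_rw [s.ttG_sum h]
  rw [Finset.sum_comm]
  have h1 : ∀ p ∈ K' ×ˢ K, ∑ n : Fin N, nrm q ((v (n, p.1) - v (n, p.2)) *
      ttB x p.1 p.2 N) ^ 2 ≤ (2 * C + N * κ / μ) * μ ^ N := by
    intro p _
    have := s.key h hμ hμ1 hC hκ p.1 p.2
    rwa [ttB_eq] at this
  refine (Finset.sum_le_sum h1).trans ?_
  rw [Finset.sum_const, Finset.card_product, hK, nsmul_eq_mul]
  push_cast
  rw [sq]

/-- counting the `j`s which are below exactly one of the two counts -/
lemma tt_count (a b k c₁ c₂ : ℕ) (h1 : a ≤ b + c₁) (h2 : b ≤ a + c₂) :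
    ((range k).filter (fun j => ¬ (j < a ↔ j < b))).card ≤ c₁ + c₂ := by
  have : (range k).filter (fun j => ¬ (j < a ↔ j < b)) ⊆ Finset.Ico a b ∪ Finset.Ico b a := by
    intro j hj
    simp only [Finset.mem_filter, Finset.mem_range, Finset.mem_union, Finset.mem_Ico] at hj ⊢
    have := hj.2
    by_cases h3 : j < a <;> by_cases h4 : j < b <;> simp_all
  refine (Finset.card_le_card this).trans ((Finset.card_union_le _ _).trans ?_)
  rw [Nat.card_Ico, Nat.card_Ico]
  omega

lemma tt_hits_le (K K' : Finset ι) (ω : Fin N × ι → Bool) :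
    (hits K ω).card ≤ (hits K' ω).card + (hits (K \ K') ω).card := by
  have : hits K ω ⊆ hits K' ω ∪ hits (K \ K') ω := by
    intro i hi
    simp only [hits, Finset.mem_filter, Finset.mem_union, Finset.mem_sdiff] at hi ⊢
    tauto
  exact (Finset.card_le_card this).trans (Finset.card_union_le _ _)

lemma TrialSys.tt_hit_law (h : IsTracialState q) (s : TrialSys q μ C κ N P x v)
    (L : Finset ι) (w : Q) (hw : w ∈ P 0) :
    ∑ ω, ((hits L ω).card : ℝ) * nrm q (atom x ω * w) ^ 2 = L.card * μ ^ N * nrm q w ^ 2 := by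
  classical
  have hx := s.commProj
  have h1 : ∀ i ∈ L, ∑ ω, (if i ∈ hits L ω then nrm q (atom x ω * w) ^ 2 else 0) =
      μ ^ N * nrm q w ^ 2 := by
    intro i hi
    have h2 : nrm q (ttT x i 0 N * w) ^ 2 = μ ^ N * nrm q w ^ 2 := by
      have hTs : star (ttT x i 0 N) = ttT x i 0 N := ttI_star hx _
      have hTp : ttT x i 0 N * ttT x i 0 N = ttT x i 0 N := ttI_idem hx _
      rw [← nrm_star h, star_mul, hTs, tt_nrm_proj h hTp hTs, star_star,
        (s.ttT_law i 0 N (by simp)).2 _ (Submodule.subset_span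
          ((P 0).mul_mem hw (s.star_mem 0 w hw)))]
      have : (μ : ℂ) ^ N = ((μ ^ N : ℝ) : ℂ) := by push_cast; rfl
      rw [this, Complex.re_ofReal_mul, h.map_mul_comm, ← nrm_sq h]
    rw [← h2]
    unfold ttT
    rw [tt_nrm_I_mul hx h]
    refine Finset.sum_congr rfl fun ω _ => ?_
    congr 1
    simp only [hits, Finset.mem_filter, hi, true_and, eq_iff_iff]
    exact ⟨fun h l _ _ => h l, fun h l => h l (Nat.zero_le _) (by simp)⟩
  have h3 : ∀ ω, ((hits L ω).card : ℝ) * nrm q (atom x ω * w) ^ 2 =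
      ∑ i ∈ L, (if i ∈ hits L ω then nrm q (atom x ω * w) ^ 2 else 0) := by
    intro ω
    rw [← Finset.sum_filter, Finset.sum_const, nsmul_eq_mul]
    congr 3
    ext i
    simp only [hits, Finset.mem_filter]
    (clear * -; tauto)
  simp_rw [h3]
  rw [Finset.sum_comm, Finset.sum_congr rfl h1, Finset.sum_const, nsmul_eq_mul]
  ring

/-- sum over `j` and `ω` of the events that exactly one count exceeds `j` -/
lemma TrialSys.tt_xor (h : IsTracialState q) (s : TrialSys q μ C κ N P x v)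
    (K K' : Finset ι) (k : ℕ) (w : Q) (hw : w ∈ P 0) :
    ∑ j ∈ range k, ∑ ω, (if ¬ (j < (hits K ω).card ↔ j < (hits K' ω).card) then
      nrm q (atom x ω * w) ^ 2 else 0) ≤
      (((K \ K').card + (K' \ K).card : ℕ) : ℝ) * μ ^ N * nrm q w ^ 2 := by
  rw [Finset.sum_comm]
  have h1 : ∀ ω, ∑ j ∈ range k, (if ¬ (j < (hits K ω).card ↔ j < (hits K' ω).card) then
      nrm q (atom x ω * w) ^ 2 else 0) ≤
      ((hits (K \ K') ω).card : ℝ) * nrm q (atom x ω * w) ^ 2 +
      ((hits (K' \ K) ω).card : ℝ) * nrm q (atom x ω * w) ^ 2 := by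
    intro ω
    rw [← Finset.sum_filter, Finset.sum_const, nsmul_eq_mul, ← add_mul]
    refine mul_le_mul_of_nonneg_right ?_ (by (clear * -; positivity))
    exact_mod_cast tt_count _ _ k _ _ (tt_hits_le K K' ω) (tt_hits_le K' K ω)
  refine (Finset.sum_le_sum fun ω _ => h1 ω).trans ?_
  rw [Finset.sum_add_distrib, s.tt_hit_law h _ w hw, s.tt_hit_law h _ w hw]
  push_cast
  linarith

/-- pointwise estimate for the square -/
lemma TrialSys.tt_pt_sq (h : IsTracialState q) (s : TrialSys q μ C κ N P x v) (K : Finset ι)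
    (n : Fin N) (ω : Fin N × ι → Bool) :
    nrm q (atom x ω * (ttAvg v n (hits K ω) * ttAvg v n (hits K ω))) ^ 2 ≤
      ((hits K ω ×ˢ hits K ω).card : ℝ)⁻¹ * ttG q x v K K n ω := by
  set H := hits K ω
  set a := atom x ω
  have h1 : ttAvg v n H * ttAvg v n H = ((H ×ˢ H).card : ℂ)⁻¹ •
      ∑ p ∈ H ×ˢ H, (v (n, p.1) - v (n, p.2)) * v (n, p.2) := by
    unfold ttAvg
    rw [smul_mul_assoc, mul_smul_comm, smul_smul, Finset.sum_mul_sum, ← Finset.sum_product',
      Finset.card_product]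
    push_cast
    rw [mul_inv]
    congr 1
    refine Finset.sum_congr rfl fun p _ => ?_
    rw [sub_mul, s.vv, sub_zero]
  rw [h1, mul_smul_comm, Finset.mul_sum]
  refine (tt_jensen h (H ×ˢ H) _).trans (mul_le_mul_of_nonneg_left ?_ (by (clear * -; positivity)))
  unfold ttG
  refine Finset.sum_le_sum fun p _ => ?_
  rw [← mul_assoc]
  exact pow_le_pow_left₀ (nrm_nonneg _) (tt_contr h (s.vone (n, p.2)) _).2.2.1 2

/-- pointwise estimate for `y* y + y y* - 1` -/
lemma TrialSys.tt_pt_one (h : IsTracialState q) (s : TrialSys q μ C κ N P x v) (K : Finset ι)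
    (n : Fin N) (ω : Fin N × ι → Bool) (hH : (hits K ω).Nonempty) :
    nrm q (atom x ω * (star (ttAvg v n (hits K ω)) * ttAvg v n (hits K ω) +
      ttAvg v n (hits K ω) * star (ttAvg v n (hits K ω)) - 1)) ^ 2 ≤
      4 * (((hits K ω ×ˢ hits K ω).card : ℝ)⁻¹ * ttG q x v K K n ω) := by
  have hx := s.commProj
  set H := hits K ω with hHd
  set a := atom x ω with ha
  have hc : ((H ×ˢ H).card : ℂ) ≠ 0 := by
    rw [Finset.card_product]
    have := hH.card_pos
    exact_mod_cast (Nat.mul_pos this this).ne'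
  have hst : star (ttAvg v n H) = ((H.card : ℂ))⁻¹ • ∑ i ∈ H, star (v (n, i)) := by
    unfold ttAvg
    rw [star_smul, star_sum]
    congr 1
    simp
  have h1 : star (ttAvg v n H) * ttAvg v n H + ttAvg v n H * star (ttAvg v n H) - 1 =
      ((H ×ˢ H).card : ℂ)⁻¹ • ∑ p ∈ H ×ˢ H,
        (star (v (n, p.1)) * (v (n, p.2) - v (n, p.1)) +
          v (n, p.1) * star (v (n, p.2) - v (n, p.1))) := by
    have e1 : star (ttAvg v n H) * ttAvg v n H = ((H ×ˢ H).card : ℂ)⁻¹ •
        ∑ p ∈ H ×ˢ H, star (v (n, p.1)) * v (n, p.2) := by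
      rw [hst]
      unfold ttAvg
      rw [smul_mul_assoc, mul_smul_comm, smul_smul, Finset.sum_mul_sum, ← Finset.sum_product',
        Finset.card_product]
      push_cast
      rw [mul_inv]
    have e2 : ttAvg v n H * star (ttAvg v n H) = ((H ×ˢ H).card : ℂ)⁻¹ •
        ∑ p ∈ H ×ˢ H, v (n, p.1) * star (v (n, p.2)) := by
      rw [hst]
      unfold ttAvg
      rw [smul_mul_assoc, mul_smul_comm, smul_smul, Finset.sum_mul_sum, ← Finset.sum_product',
        Finset.card_product]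
      push_cast
      rw [mul_inv]
    have e3 : (1 : Q) = ((H ×ˢ H).card : ℂ)⁻¹ • ∑ p ∈ H ×ˢ H,
        (star (v (n, p.1)) * v (n, p.1) + v (n, p.1) * star (v (n, p.1))) := by
      rw [Finset.sum_congr rfl (fun p _ => s.vone (n, p.1)), Finset.sum_const, ← Nat.cast_smul_eq_nsmul ℂ,
        smul_smul, inv_mul_cancel₀ hc, one_smul]
    rw [e1, e2, e3, ← smul_add, ← smul_sub, ← Finset.sum_add_distrib, ← Finset.sum_sub_distrib]
    congr 1
    refine Finset.sum_congr rfl fun p _ => ?_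
    rw [star_sub]
    noncomm_ring
  rw [h1, mul_smul_comm, Finset.mul_sum]
  refine (tt_jensen h (H ×ˢ H) _).trans ?_
  rw [← mul_assoc, mul_comm (4 : ℝ), mul_assoc]
  refine mul_le_mul_of_nonneg_left ?_ (by (clear * - hH; positivity))
  have hsw : ttG q x v K K n ω = ∑ p ∈ H ×ˢ H, nrm q (a * (v (n, p.2) - v (n, p.1))) ^ 2 := by
    unfold ttG
    rw [Finset.sum_product, Finset.sum_product, Finset.sum_comm]
  rw [hsw, Finset.mul_sum]
  refine Finset.sum_le_sum fun p _ => ?_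
  set D := v (n, p.2) - v (n, p.1) with hD
  have hav : ∀ k, v k * a = a * v k := fun k => atom_commute _ (fun l => s.v_comm_x k l) ω
  have hDa : D * a = a * D := by rw [hD, sub_mul, mul_sub, hav, hav]
  have has : star a = a := hx.star_atom ω
  have hvs : ∀ k, star (v k) * a = a * star (v k) := by
    intro k
    have := congrArg star (hav k)
    rw [star_mul, star_mul, has] at this
    exact this.symm
  have i1 : nrm q (a * (star (v (n, p.1)) * D)) ≤ nrm q (a * D) := by
    rw [← mul_assoc, ← hvs, mul_assoc]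
    exact (tt_contr h (s.vone (n, p.1)) _).2.1
  have i2 : nrm q (a * (v (n, p.1) * star D)) ≤ nrm q (a * D) := by
    rw [← mul_assoc, ← hav, mul_assoc]
    refine (tt_contr h (s.vone (n, p.1)) _).1.trans ?_
    rw [← nrm_star h, star_mul, star_star, has, hDa]
  have i3 : nrm q (a * (star (v (n, p.1)) * D + v (n, p.1) * star D)) ≤ 2 * nrm q (a * D) := by
    rw [mul_add]
    refine (nrm_add_le h _ _).trans ?_
    linarith only [i1, i2]
  calc nrm q (a * (star (v (n, p.1)) * D + v (n, p.1) * star D)) ^ 2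
      ≤ (2 * nrm q (a * D)) ^ 2 := pow_le_pow_left₀ (nrm_nonneg _) i3 2
    _ = 4 * nrm q (a * D) ^ 2 := by ring

lemma TrialSys.tt_pt_sub (h : IsTracialState q) (s : TrialSys q μ C κ N P x v) (K K' : Finset ι)
    (n : Fin N) (ω : Fin N × ι → Bool) (hH : (hits K ω).Nonempty) (hH' : (hits K' ω).Nonempty) :
    nrm q (atom x ω * (ttAvg v n (hits K' ω) - ttAvg v n (hits K ω))) ^ 2 ≤
      ((hits K' ω ×ˢ hits K ω).card : ℝ)⁻¹ * ttG q x v K K' n ω := by
  set H := hits K ω with hHd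
  set H' := hits K' ω with hHd'
  set a := atom x ω with ha
  have hc : (H.card : ℂ) ≠ 0 := by exact_mod_cast hH.card_pos.ne'
  have hc' : (H'.card : ℂ) ≠ 0 := by exact_mod_cast hH'.card_pos.ne'
  have h1 : ttAvg v n H' - ttAvg v n H = ((H' ×ˢ H).card : ℂ)⁻¹ •
      ∑ p ∈ H' ×ˢ H, (v (n, p.1) - v (n, p.2)) := by
    rw [Finset.sum_product, Finset.card_product]
    simp_rw [Finset.sum_sub_distrib, Finset.sum_const]
    rw [← Finset.smul_sum]
    unfold ttAvg
    push_cast
    rw [← Nat.cast_smul_eq_nsmul ℂ, ← Nat.cast_smul_eq_nsmul ℂ, smul_sub, smul_smul, smul_smul]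
    congr 2
    · field_simp
    · field_simp
  rw [h1, mul_smul_comm, Finset.mul_sum]
  exact tt_jensen h (H' ×ˢ H) _

lemma TrialSys.tt_pt_avg (h : IsTracialState q) (s : TrialSys q μ C κ N P x v) (H : Finset ι)
    (n : Fin N) (ω : Fin N × ι → Bool) :
    nrm q (atom x ω * ttAvg v n H) ^ 2 ≤ nrm q (atom x ω * 1) ^ 2 := by
  unfold ttAvg
  rw [mul_smul_comm, Finset.mul_sum]
  refine (tt_jensen h H _).trans ?_
  have h1 : ∑ i ∈ H, nrm q (atom x ω * v (n, i)) ^ 2 ≤ ∑ i ∈ H, nrm q (atom x ω * 1) ^ 2 := by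
    refine Finset.sum_le_sum fun i _ => ?_
    rw [mul_one]
    exact pow_le_pow_left₀ (nrm_nonneg _) (tt_contr h (s.vone (n, i)) _).2.2.1 2
  rw [Finset.sum_const, nsmul_eq_mul] at h1
  rcases H.eq_empty_or_nonempty with rfl | hH
  · simp only [card_empty, CharP.cast_eq_zero, inv_zero, sum_empty, mul_zero, mul_one, ge_iff_le]; (clear * -; positivity)
  have hc : (0 : ℝ) < H.card := by exact_mod_cast hH.card_pos
  calc (H.card : ℝ)⁻¹ * ∑ i ∈ H, nrm q (atom x ω * v (n, i)) ^ 2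
      ≤ (H.card : ℝ)⁻¹ * (H.card * nrm q (atom x ω * 1) ^ 2) :=
        mul_le_mul_of_nonneg_left h1 (by positivity)
    _ = _ := by field_simp

theorem TrialSys.bound_sq (h : IsTracialState q) (s : TrialSys q μ C κ N P x v) (hμ : 0 < μ)
    (hμ1 : μ ≤ 1) (hC : 0 ≤ C) (hκ : 0 ≤ κ) (K : Finset ι) :
    ∑ n : Fin N, ∑ j ∈ range K.card, nrm q (ty x v K n j * ty x v K n j) ^ 2 ≤
      (K.card : ℝ) ^ 2 * ((2 * C + N * κ / μ) * μ ^ N) := by
  have hx := s.commProj
  refine le_trans (Finset.sum_le_sum fun n _ => ?_) (s.tt_final h hμ hμ1 hC hκ K K rfl)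
  have h1 : ∀ j, nrm q (ty x v K n j * ty x v K n j) ^ 2 ≤
      ∑ ω, (if j < (hits K ω).card ∧ j < (hits K ω).card then
      ((hits K ω ×ˢ hits K ω).card : ℝ)⁻¹ * ttG q x v K K n ω else 0) := by
    intro j
    rw [TrialSys.tt_ty_eq, ttPt_mul hx _ _ (fun ω k => s.tt_comm_ite n _ _ k), tt_nrm_pt hx h]
    refine Finset.sum_le_sum fun ω _ => ?_
    by_cases hj : j < (hits K ω).card
    · rw [if_pos hj, if_pos ⟨hj, hj⟩]
      exact s.tt_pt_sq h K n ω
    · rw [if_neg hj, if_neg (fun h => hj h.1)]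
      simp [nrm_zero]
  refine (Finset.sum_le_sum fun j _ => h1 j).trans ?_
  rw [Finset.sum_comm]
  exact Finset.sum_le_sum fun ω _ => ttG_j K K n ω _

theorem TrialSys.bound_one (h : IsTracialState q) (s : TrialSys q μ C κ N P x v) (hμ : 0 < μ)
    (hμ1 : μ ≤ 1) (hC : 0 ≤ C) (hκ : 0 ≤ κ) (K : Finset ι) :
    ∑ n : Fin N, ∑ j ∈ range K.card, nrm q (star (ty x v K n j) * ty x v K n j +
      ty x v K n j * star (ty x v K n j) - tw x K j) ^ 2 ≤
      4 * (K.card : ℝ) ^ 2 * ((2 * C + N * κ / μ) * μ ^ N) := by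
  have hx := s.commProj
  have h0 := s.tt_final h hμ hμ1 hC hκ K K rfl
  have key : ∀ n : Fin N, ∑ j ∈ range K.card, nrm q (star (ty x v K n j) * ty x v K n j +
      ty x v K n j * star (ty x v K n j) - tw x K j) ^ 2 ≤ 4 * ∑ ω, ttG q x v K K n ω := by
    intro n
    have h1 : ∀ j, nrm q (star (ty x v K n j) * ty x v K n j +
        ty x v K n j * star (ty x v K n j) - tw x K j) ^ 2 ≤
        ∑ ω, 4 * (if j < (hits K ω).card ∧ j < (hits K ω).card then
        ((hits K ω ×ˢ hits K ω).card : ℝ)⁻¹ * ttG q x v K K n ω else 0) := by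
      intro j
      have hc := fun (ω : Fin N × ι → Bool) (k : Fin N × ι) =>
        s.tt_comm_ite n (hits K ω) (j < (hits K ω).card) k
      have hcs : ∀ (ω : Fin N × ι → Bool) (k : Fin N × ι), star (if j < (hits K ω).card then ttAvg v n (hits K ω) else 0) * x k =
          x k * star (if j < (hits K ω).card then ttAvg v n (hits K ω) else 0) := by
        intro ω k
        have := congrArg star (hc ω k)
        rw [star_mul, star_mul, hx.sa] at this
        exact this.symm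
      rw [TrialSys.tt_ty_eq, TrialSys.tt_tw_eq, ttPt_star hx _ hc, ttPt_mul hx _ _ hcs,
        ttPt_mul hx _ _ hc, ← ttPt_add, ← ttPt_sub, tt_nrm_pt hx h]
      refine Finset.sum_le_sum fun ω _ => ?_
      by_cases hj : j < (hits K ω).card
      · simp only [hj, if_true, and_self]
        exact s.tt_pt_one h K n ω (Finset.card_pos.1 (by omega))
      · simp [hj, nrm_zero]
    refine (Finset.sum_le_sum fun j _ => h1 j).trans ?_
    rw [Finset.sum_comm, Finset.mul_sum]
    refine Finset.sum_le_sum fun ω _ => ?_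
    rw [← Finset.mul_sum]
    exact mul_le_mul_of_nonneg_left (ttG_j K K n ω _) (by norm_num)
  refine (Finset.sum_le_sum fun n _ => key n).trans ?_
  rw [← Finset.mul_sum, mul_assoc]
  exact mul_le_mul_of_nonneg_left h0 (by norm_num)

theorem TrialSys.bound_inv (h : IsTracialState q) (s : TrialSys q μ C κ N P x v) (hμ : 0 < μ)
    (hμ1 : μ ≤ 1) (hC : 0 ≤ C) (hκ : 0 ≤ κ) (K K' : Finset ι) (hK : K'.card = K.card) :
    ∑ n : Fin N, ∑ j ∈ range K.card, nrm q (ty x v K' n j - ty x v K n j) ^ 2 ≤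
      (K.card : ℝ) ^ 2 * ((2 * C + N * κ / μ) * μ ^ N) +
        N * (((K \ K').card + (K' \ K).card : ℕ) : ℝ) * μ ^ N := by
  have hx := s.commProj
  have h0 := s.tt_final h hμ hμ1 hC hκ K K' hK
  have key : ∀ n : Fin N, ∑ j ∈ range K.card, nrm q (ty x v K' n j - ty x v K n j) ^ 2 ≤
      ∑ ω, ttG q x v K K' n ω + (((K \ K').card + (K' \ K).card : ℕ) : ℝ) * μ ^ N := by
    intro n
    have h1 : ∀ j, nrm q (ty x v K' n j - ty x v K n j) ^ 2 ≤
        ∑ ω, (if j < (hits K ω).card ∧ j < (hits K' ω).card then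
        ((hits K' ω ×ˢ hits K ω).card : ℝ)⁻¹ * ttG q x v K K' n ω else 0) +
        ∑ ω, (if ¬ (j < (hits K ω).card ↔ j < (hits K' ω).card) then
        nrm q (atom x ω * 1) ^ 2 else 0) := by
      intro j
      rw [TrialSys.tt_ty_eq, TrialSys.tt_ty_eq, ← ttPt_sub, tt_nrm_pt hx h,
        ← Finset.sum_add_distrib]
      refine Finset.sum_le_sum fun ω _ => ?_
      by_cases hj : j < (hits K ω).card <;> by_cases hj' : j < (hits K' ω).card
      · simp only [hj, hj', if_true, and_self, iff_self, not_true_eq_false, if_false, add_zero]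
        exact s.tt_pt_sub h K K' n ω (Finset.card_pos.1 (by omega)) (Finset.card_pos.1 (by omega))
      · simp only [hj, hj', if_true, if_false, and_false, iff_false, not_true_eq_false,
          not_false_eq_true, zero_add, zero_sub, mul_neg, nrm_neg]
        exact s.tt_pt_avg h _ n ω
      · simp only [hj, hj', if_true, if_false, false_and, iff_true, not_true_eq_false,
          not_false_eq_true, zero_add, sub_zero]
        exact s.tt_pt_avg h _ n ω
      · simp only [hj', ↓reduceIte, hj, sub_self, mul_zero, nrm_zero, ne_eq, OfNat.ofNat_ne_zero, not_false_eq_true, zero_pow, and_self, not_true_eq_false, add_zero, Std.le_refl]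
    refine (Finset.sum_le_sum fun j _ => h1 j).trans ?_
    rw [Finset.sum_add_distrib]
    refine add_le_add ?_ ?_
    · rw [Finset.sum_comm]
      exact Finset.sum_le_sum fun ω _ => ttG_j K K' n ω _
    · have h2 := s.tt_xor h K K' K.card 1 (P 0).one_mem
      rwa [nrm_one h, one_pow, mul_one] at h2
  refine (Finset.sum_le_sum fun n _ => key n).trans ?_
  rw [Finset.sum_add_distrib, Finset.sum_const, Finset.card_univ, Fintype.card_fin, nsmul_eq_mul]
  have h3 : (N : ℝ) * ((((K \ K').card + (K' \ K).card : ℕ) : ℝ) * μ ^ N) =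
    N * (((K \ K').card + (K' \ K).card : ℕ) : ℝ) * μ ^ N := by ring
  rw [h3]
  linarith only [h0]

theorem TrialSys.bound_evt (h : IsTracialState q) (s : TrialSys q μ C κ N P x v) (hμ : 0 < μ)
    (K K' : Finset ι) (hK : K'.card = K.card) (w : Q) (hw : w ∈ P 0) :
    ∑ j ∈ range K.card, nrm q ((tw x K' j - tw x K j) * w) ^ 2 ≤
      (((K \ K').card + (K' \ K).card : ℕ) : ℝ) * μ ^ N * nrm q w ^ 2 := by
  have hx := s.commProj
  refine le_trans (Finset.sum_le_sum fun j _ => ?_) (s.tt_xor h K K' K.card w hw)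
  rw [TrialSys.tt_tw_eq, TrialSys.tt_tw_eq, ← ttPt_sub, ttPt_mul_right, tt_nrm_pt hx h]
  refine Finset.sum_le_sum fun ω _ => ?_
  by_cases hj : j < (hits K ω).card <;> by_cases hj' : j < (hits K' ω).card <;>
    simp [hj, hj', nrm_zero, nrm_neg]

end main

end Vale.Agent.P095
end

section

set_option linter.unusedSectionVars false
set_option linter.unusedVariables false
set_option linter.unusedSimpArgs false

namespace Vale.Agent.P095

open Finset ComplexConjugate

section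
variable {Q : Type*} [Ring Q] [StarRing Q] [Algebra ℂ Q] [StarModule ℂ Q] {q : Q →ₗ[ℂ] ℂ}

/-- successive central copies of the 2x2 matrices (with translates) -/
structure MatSys (q : Q →ₗ[ℂ] ℂ) (R : ℕ) {ι : Type*} (P : ℕ → Subalgebra ℂ Q)
    (V : Fin R × ι → Q) : Prop where
  mono : Monotone P
  star_mem : ∀ n w, w ∈ P n → star w ∈ P n
  V_mem : ∀ (r : Fin R) (i : ι), V (r, i) ∈ P ((r : ℕ) + 1)
  vv : ∀ k, V k * V k = 0
  vone : ∀ k, star (V k) * V k + V k * star (V k) = 1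
  vcomm : ∀ (r : Fin R) (i : ι), ∀ w ∈ P r, V (r, i) * w = w * V (r, i)

/-- the two symmetries of a copy of the 2x2 matrices -/
noncomputable def sm (θ : Bool) (V : Q) : Q :=
  if θ then V + star V else Complex.I • (V - star V)

/-- the half-trace projections -/
noncomputable def hp (θ : Bool) (V : Q) : Q := (1 / 2 : ℂ) • (1 + sm θ V)

theorem sm_star (θ : Bool) (V : Q) : star (sm θ V) = sm θ V := by
  unfold sm
  cases θ
  · simp only [Bool.false_eq_true, if_false, star_smul, star_sub, star_star, RCLike.star_def,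
      Complex.conj_I]
    rw [neg_smul, ← smul_neg, neg_sub]
  · simp only [if_true, star_add, star_star]
    rw [add_comm]

theorem star_vv {V : Q} (h : V * V = 0) : star V * star V = 0 := by
  rw [← star_mul, h, star_zero]

theorem sm_sq (θ : Bool) {V : Q} (h0 : V * V = 0) (h1 : star V * V + V * star V = 1) :
    sm θ V * sm θ V = 1 := by
  have h2 := star_vv h0
  unfold sm
  cases θ
  · simp only [Bool.false_eq_true, if_false, smul_mul_assoc, mul_smul_comm, smul_smul,
      Complex.I_mul_I]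
    have : (V - star V) * (V - star V) = -1 := by
      rw [sub_mul, mul_sub, mul_sub, h0, h2, ← h1]; abel
    rw [this]; simp
  · simp only [if_true]
    rw [add_mul, mul_add, mul_add, h0, h2, ← h1]; abel

theorem hp_star (θ : Bool) (V : Q) : star (hp θ V) = hp θ V := by
  unfold hp
  rw [star_smul, star_add, star_one, sm_star]
  congr 1
  simp

theorem hp_idem (θ : Bool) {V : Q} (h0 : V * V = 0) (h1 : star V * V + V * star V = 1) :
    hp θ V * hp θ V = hp θ V := by
  unfold hp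
  rw [smul_mul_assoc, mul_smul_comm, smul_smul, add_mul, mul_add, mul_add, sm_sq θ h0 h1]
  simp only [one_mul, mul_one]
  module

theorem sm_comm (θ : Bool) {V w : Q} (h1 : V * w = w * V) (h2 : star V * w = w * star V) :
    sm θ V * w = w * sm θ V := by
  unfold sm
  cases θ
  · simp only [Bool.false_eq_true, if_false, smul_mul_assoc, sub_mul, h1, h2, mul_smul_comm, mul_sub]
  · simp only [if_true, add_mul, mul_add, h1, h2]

theorem hp_comm (θ : Bool) {V w : Q} (h1 : V * w = w * V) (h2 : star V * w = w * star V) :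
    hp θ V * w = w * hp θ V := by
  unfold hp
  rw [smul_mul_assoc, mul_smul_comm, add_mul, mul_add, sm_comm θ h1 h2, one_mul, mul_one]

theorem map_sm {C : Type*} [Ring C] [StarRing C] [Algebra ℂ C] (f : Q →+* C)
    (hf : ∀ x, f (star x) = star (f x)) (hs : ∀ (c : ℂ) (x : Q), f (c • x) = c • f x)
    (θ : Bool) (V : Q) : f (sm θ V) = sm θ (f V) := by
  unfold sm
  cases θ
  · simp only [Bool.false_eq_true, if_false, hs, map_sub, hf]
  · simp only [if_true, map_add, hf]

theorem map_hp {C : Type*} [Ring C] [StarRing C] [Algebra ℂ C] (f : Q →+* C)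
    (hf : ∀ x, f (star x) = star (f x)) (hs : ∀ (c : ℂ) (x : Q), f (c • x) = c • f x)
    (θ : Bool) (V : Q) : f (hp θ V) = hp θ (f V) := by
  unfold hp
  rw [hs, map_add, map_one, map_sm f hf hs]

/-- contraction property -/
theorem nrm_V_mul_le (h : IsTracialState q) {V : Q} (h1 : star V * V + V * star V = 1) (z : Q) :
    nrm q (V * z) ≤ nrm q z := by
  apply le_of_sq_le_sq _ (nrm_nonneg _)
  have h3 : star z * z = star (V * z) * (V * z) + star (star V * z) * (star V * z) := by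
    rw [star_mul, star_mul, star_star]
    calc star z * z = star z * (star V * V + V * star V) * z := by rw [h1, mul_one]
      _ = _ := by noncomm_ring
  rw [nrm_sq h, nrm_sq h, h3, map_add, Complex.add_re]
  linarith only [h.re_nonneg (star V * z)]

section sys
variable {R : ℕ} {ι : Type*} {P : ℕ → Subalgebra ℂ Q} {V : Fin R × ι → Q}

theorem MatSys.vscomm (s : MatSys q R P V) (r : Fin R) (i : ι) (w : Q) (hw : w ∈ P r) :
    star (V (r, i)) * w = w * star (V (r, i)) := by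
  have := congrArg star (s.vcomm r i _ (s.star_mem _ _ hw))
  rw [star_mul, star_mul, star_star] at this
  exact this.symm

theorem MatSys.sm_mem (s : MatSys q R P V) (θ : Bool) (r : Fin R) (i : ι) :
    sm θ (V (r, i)) ∈ P ((r : ℕ) + 1) := by
  unfold sm
  cases θ
  · simp only [Bool.false_eq_true, if_false]
    exact Subalgebra.smul_mem _ (Subalgebra.sub_mem _ (s.V_mem r i)
      (s.star_mem _ _ (s.V_mem r i))) _
  · simp only [if_true]
    exact Subalgebra.add_mem _ (s.V_mem r i) (s.star_mem _ _ (s.V_mem r i))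

theorem MatSys.hp_mem (s : MatSys q R P V) (θ : Bool) (r : Fin R) (i : ι) :
    hp θ (V (r, i)) ∈ P ((r : ℕ) + 1) := by
  unfold hp
  exact Subalgebra.smul_mem _ (Subalgebra.add_mem _ (Subalgebra.one_mem _) (s.sm_mem θ r i)) _

theorem MatSys.comm_ne (s : MatSys q R P V) {r r' : Fin R} (hr : r ≠ r') (i i' : ι) :
    V (r, i) * V (r', i') = V (r', i') * V (r, i) ∧
    star (V (r, i)) * V (r', i') = V (r', i') * star (V (r, i)) := by
  rcases lt_or_gt_of_ne hr with h | h
  · have h1 : V (r, i) ∈ P r' := s.mono (Nat.succ_le_of_lt h) (s.V_mem r i)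
    exact ⟨(s.vcomm r' i' _ h1).symm, (s.vcomm r' i' _ (s.star_mem _ _ h1)).symm⟩
  · have h1 : V (r', i') ∈ P r := s.mono (Nat.succ_le_of_lt h) (s.V_mem r' i')
    exact ⟨s.vcomm r i _ h1, s.vscomm r i _ h1⟩

theorem MatSys.trace_V (h : IsTracialState q) (s : MatSys q R P V) (r : Fin R) (i : ι) (w : Q)
    (hw : w ∈ P r) : q (w * V (r, i)) = 0 := by
  set v := V (r, i) with hv
  have h0 : v * v = 0 := s.vv _
  have h1 : star v * v + v * star v = 1 := s.vone _
  have h2 := s.vscomm r i w hw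
  have h3 := s.vcomm r i w hw
  have e1 : w * v = w * v * (star v * v) + w * v * (v * star v) := by
    rw [← mul_add, h1, mul_one]
  have e2 : w * v * (v * star v) = 0 := by
    rw [mul_assoc, ← mul_assoc v v, h0, zero_mul, mul_zero]
  have e3 : q (w * v * (star v * v)) = 0 := by
    rw [← mul_assoc, h.map_mul_comm]
    rw [← hv] at h3
    calc q (v * (w * v * star v)) = q ((v * w) * v * star v) := by congr 1; noncomm_ring
      _ = q (w * (v * v) * star v) := by rw [h3]; congr 1; noncomm_ring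
      _ = 0 := by rw [h0]; simp only [mul_zero, zero_mul, map_zero]
  rw [e1, e2, add_zero, e3]

theorem MatSys.trace_sm (h : IsTracialState q) (s : MatSys q R P V) (θ : Bool) (r : Fin R)
    (i : ι) (w : Q) (hw : w ∈ P r) : q (w * sm θ (V (r, i))) = 0 := by
  have h1 := s.trace_V h r i w hw
  have h2 : q (w * star (V (r, i))) = 0 := by
    have := s.trace_V h r i _ (s.star_mem _ _ hw)
    rw [s.vcomm r i _ (s.star_mem _ _ hw) |>.symm] at this
    have h4 := h.star_map (V (r, i) * star w)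
    rw [star_mul, star_star, this] at h4
    rw [h4]; simp
  unfold sm
  cases θ
  · simp only [Bool.false_eq_true, if_false, mul_smul_comm, mul_sub, map_smul, map_sub, h1, h2, sub_self, smul_zero]
  · simp only [if_true, mul_add, map_add, h1, h2, add_zero]

theorem MatSys.trace_hp (h : IsTracialState q) (s : MatSys q R P V) (θ : Bool) (r : Fin R)
    (i : ι) (w : Q) (hw : w ∈ P r) : q (w * hp θ (V (r, i))) = (1 / 2 : ℂ) * q w := by
  unfold hp
  rw [mul_smul_comm, map_smul, mul_add, mul_one, map_add, s.trace_sm h θ r i w hw, add_zero,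
    smul_eq_mul]

/-- the family of half-trace projections -/
noncomputable def hf (θ : Bool) (V : Fin R × ι → Q) (i : ι) : Fin R → Q :=
  fun r => hp θ (V (r, i))

theorem MatSys.commProj (s : MatSys q R P V) (θ : Bool) (i : ι) : CommProj (hf θ V i) := by
  refine ⟨fun r => hp_idem θ (s.vv _) (s.vone _), fun r r' => ?_, fun r => hp_star θ _⟩
  by_cases hr : r = r'
  · rw [hr]
  · have h1 := s.comm_ne hr i i
    have h2 := s.comm_ne (Ne.symm hr) i i
    apply hp_comm θ
    · exact (hp_comm θ h2.1 h2.2).symm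
    · refine (hp_comm θ (w := star (V (r, i))) ?_ ?_).symm
      · exact h1.2.symm
      · rw [← star_mul, ← star_mul, h1.1]

theorem MatSys.cross (s : MatSys q R P V) (θ θ' : Bool) (i i' : ι) {r r' : Fin R}
    (hr : r ≠ r') : hf θ V i r * hf θ' V i' r' = hf θ' V i' r' * hf θ V i r := by
  have h1 := s.comm_ne hr i i'
  have h2 := s.comm_ne (Ne.symm hr) i' i
  apply hp_comm θ
  · exact (hp_comm θ' h2.1 h2.2).symm
  · refine (hp_comm θ' (w := star (V (r, i))) ?_ ?_).symm
    · exact h1.2.symm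
    · rw [← star_mul, ← star_mul, h1.1]

end sys

/-- splitting off the last coordinate of an atom -/
theorem CommProj.atom_last {R : ℕ} {x : Fin (R + 1) → Q} (hx : CommProj x)
    (ω : Fin (R + 1) → Bool) : atom x ω =
      atom (fun r : Fin R => x r.castSucc) (fun r => ω r.castSucc) *
        (if ω (Fin.last R) then x (Fin.last R) else 1 - x (Fin.last R)) := by
  obtain ⟨S, _, f, y, h1, h2⟩ := hx.exists_comm
  have h3 : atom y ω = atom (fun r : Fin R => y r.castSucc) (fun r => ω r.castSucc) *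
        (if ω (Fin.last R) then y (Fin.last R) else 1 - y (Fin.last R)) := by
    rw [atom_eq_prod, atom_eq_prod, Fin.prod_univ_castSucc]
  have := congrArg f h3
  rw [map_mul, map_atom, map_atom, apply_ite f, map_sub, map_one] at this
  simpa only [mul_ite, h1] using this

/-- the law of a family of successively independent half-trace projections -/
theorem law_succ (R : ℕ) : ∀ {x : Fin R → Q} {P : ℕ → Subalgebra ℂ Q}, Monotone P → CommProj x →
    (∀ r : Fin R, x r ∈ P ((r : ℕ) + 1)) →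
    (∀ r : Fin R, ∀ w ∈ P r, q (w * x r) = (1 / 2 : ℂ) * q w) →
    ∀ w ∈ P 0, ∀ ω, q (w * atom x ω) = (1 / 2 : ℂ) ^ R * q w := by
  induction R with
  | zero =>
    intro x P hP hx hm hl w hw ω
    have : atom x ω = 1 := by unfold atom; simp
    rw [this, mul_one, pow_zero, one_mul]
  | succ R ih =>
    intro x P hP hx hm hl w hw ω
    rw [hx.atom_last, ← mul_assoc]
    have hx' : CommProj (fun r : Fin R => x r.castSucc) := hx.comp _
    have h1 := ih hP hx' (fun r => hm r.castSucc) (fun r => hl r.castSucc) w hw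
      (fun r => ω r.castSucc)
    have hmem : w * atom (fun r : Fin R => x r.castSucc) (fun r => ω r.castSucc) ∈ P R := by
      apply Subalgebra.mul_mem _ (hP (Nat.zero_le _) hw)
      unfold atom
      apply Subalgebra.list_prod_mem
      intro y hy
      rw [List.mem_map] at hy
      obtain ⟨r, _, rfl⟩ := hy
      have : x r.castSucc ∈ P R := hP (Nat.succ_le_of_lt r.2) (hm r.castSucc)
      split_ifs
      · exact this
      · exact Subalgebra.sub_mem _ (Subalgebra.one_mem _) this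
    have h2 := hl (Fin.last R) _ hmem
    split_ifs
    · rw [h2, h1, pow_succ]; ring
    · rw [mul_sub, mul_one, map_sub, h2, h1, pow_succ]; ring

section sys2
variable {R : ℕ} {ι : Type*} {P : ℕ → Subalgebra ℂ Q} {V : Fin R × ι → Q}

theorem MatSys.law (h : IsTracialState q) (s : MatSys q R P V) (θ : Bool) (i : ι) (w : Q)
    (hw : w ∈ P 0) (ω : Fin R → Bool) :
    q (w * atom (hf θ V i) ω) = (1 / 2 : ℂ) ^ R * q w :=
  law_succ R s.mono (s.commProj θ i) (fun r => s.hp_mem θ r i)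
    (fun r w hw => s.trace_hp h θ r i w hw) w hw ω

theorem MatSys.law_one (h : IsTracialState q) (s : MatSys q R P V) (θ : Bool) (i : ι)
    (ω : Fin R → Bool) : q (atom (hf θ V i) ω) = (1 / 2 ^ R : ℂ) := by
  have := s.law h θ i 1 (Subalgebra.one_mem _) ω
  rw [one_mul, h.map_one, mul_one] at this
  rw [this, one_div_pow]

/-- isometry property -/
theorem MatSys.nrm_ev_mul (h : IsTracialState q) (s : MatSys q R P V) (θ : Bool) (i : ι) (w : Q)
    (hw : w ∈ P 0) (f : (Fin R → Bool) → ℝ) :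
    nrm q (ev (hf θ V i) (fun ω => (f ω : ℂ)) * w) ^ 2 =
      (∑ ω, f ω ^ 2) / 2 ^ R * nrm q w ^ 2 := by
  have hx := s.commProj θ i
  have h1 : star (ev (hf θ V i) (fun ω => (f ω : ℂ)) * w) *
      (ev (hf θ V i) (fun ω => (f ω : ℂ)) * w) =
      star w * (ev (hf θ V i) (fun ω => ((f ω ^ 2 : ℝ) : ℂ)) * w) := by
    rw [star_mul, hx.ev_star]
    have : ev (hf θ V i) (fun ω => ((f ω ^ 2 : ℝ) : ℂ)) =
        ev (hf θ V i) (fun ω => conj (f ω : ℂ)) * ev (hf θ V i) (fun ω => (f ω : ℂ)) := by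
      rw [← hx.ev_mul]
      congr 1; funext ω
      rw [Complex.conj_ofReal]; push_cast; ring
    rw [this]; noncomm_ring
  have h2 : q (star w * (ev (hf θ V i) (fun ω => ((f ω ^ 2 : ℝ) : ℂ)) * w)) =
      (((∑ ω, f ω ^ 2) / 2 ^ R * nrm q w ^ 2 : ℝ) : ℂ) := by
    set E := ev (hf θ V i) (fun ω => ((f ω ^ 2 : ℝ) : ℂ)) with hE
    have e1 : q (star w * (E * w)) = q (w * star w * E) := by
      rw [h.map_mul_comm, mul_assoc, h.map_mul_comm]
    have h3 : w * star w * E =
        ∑ ω, ((f ω ^ 2 : ℝ) : ℂ) • (w * star w * atom (hf θ V i) ω) := by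
      rw [hE]
      unfold ev
      rw [Finset.mul_sum]
      simp only [mul_smul_comm]
    have hw2 : w * star w ∈ P 0 := Subalgebra.mul_mem _ hw (s.star_mem _ _ hw)
    have h4 : q (w * star w) = ((nrm q w ^ 2 : ℝ) : ℂ) := by
      rw [h.map_mul_comm, nrm_sq' h]
    rw [e1, h3, map_sum]
    simp only [map_smul, s.law h θ i _ hw2, h4, smul_eq_mul]
    rw [← Finset.sum_mul]
    push_cast
    rw [one_div, inv_pow]
    ring
  rw [nrm_sq h, h1, h2, Complex.ofReal_re]

theorem nrm_sum_orth (h : IsTracialState q) {I : Type*} [Fintype I] (X : I → Q)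
    (hX : ∀ i j, i ≠ j → q (star (X i) * X j) = 0) :
    nrm q (∑ i, X i) ^ 2 = ∑ i, nrm q (X i) ^ 2 := by
  classical
  have h1 : q (star (∑ i, X i) * (∑ i, X i)) = ∑ i, q (star (X i) * X i) := by
    rw [star_sum, Finset.sum_mul, map_sum]
    apply Finset.sum_congr rfl
    intro i _
    rw [Finset.mul_sum, map_sum, Finset.sum_eq_single i]
    · intro j _ hj
      exact hX i j (Ne.symm hj)
    · intro h; exact absurd (Finset.mem_univ i) h
  rw [nrm_sq h, h1, Complex.re_sum]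
  apply Finset.sum_congr rfl
  intro i _
  rw [nrm_sq h]

theorem MatSys.sm_comm_ne (s : MatSys q R P V) (θ θ' : Bool) (i i' : ι) {r r' : Fin R}
    (hr : r ≠ r') : sm θ (V (r, i)) * sm θ' (V (r', i')) =
      sm θ' (V (r', i')) * sm θ (V (r, i)) := by
  have h1 := s.comm_ne hr i i'
  have h2 := s.comm_ne (Ne.symm hr) i' i
  apply sm_comm θ
  · exact (sm_comm θ' h2.1 h2.2).symm
  · refine (sm_comm θ' (w := star (V (r, i))) ?_ ?_).symm
    · exact h1.2.symm
    · rw [← star_mul, ← star_mul, h1.1]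

theorem MatSys.ev_signSum (s : MatSys q R P V) (θ : Bool) (i : ι) :
    ev (hf θ V i) (fun ω => (signSum ω : ℂ)) =
      (((Real.sqrt R)⁻¹ : ℝ) : ℂ) • ∑ r, sm θ (V (r, i)) := by
  have hx := s.commProj θ i
  have h1 : ∀ r : Fin R, sm θ (V (r, i)) =
      ev (hf θ V i) (fun ω => (2 : ℂ) * (if ω r = true then 1 else 0) - 1) := by
    intro r
    rw [ev_sub (fun ω => (2 : ℂ) * (if ω r = true then 1 else 0)) (fun _ => 1),
      hx.ev_one, ev_smul, hx.ev_coord]
    show sm θ (V (r, i)) = (2 : ℂ) • hp θ (V (r, i)) - 1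
    unfold hp
    rw [smul_smul, smul_add]
    norm_num
  simp_rw [h1]
  unfold ev
  rw [Finset.sum_comm, Finset.smul_sum]
  apply Finset.sum_congr rfl
  intro ω _
  rw [← Finset.sum_smul, smul_smul]
  congr 1
  unfold signSum
  push_cast
  rw [Finset.mul_sum]
  apply Finset.sum_congr rfl
  intro r _
  cases ω r <;> simp <;> ring

theorem MatSys.claimA (h : IsTracialState q) (s : MatSys q R P V) (hR : 1 ≤ R) (θ : Bool)
    (i i' : ι) (w : Q) (hw : w ∈ P 0) :
    (∑ r, nrm q ((sm θ (V (r, i)) - sm θ (V (r, i'))) * w) ^ 2) / R =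
    nrm q ((ev (hf θ V i) (fun ω => (signSum ω : ℂ)) -
      ev (hf θ V i') (fun ω => (signSum ω : ℂ))) * w) ^ 2 := by
  have hRr : (0 : ℝ) < R := by exact_mod_cast hR
  rw [s.ev_signSum, s.ev_signSum, ← smul_sub, ← Finset.sum_sub_distrib, smul_mul_assoc,
    Finset.sum_mul, nrm_smul h, mul_pow, nrm_sum_orth h]
  · rw [Complex.norm_real, Real.norm_eq_abs, sq_abs, inv_pow, Real.sq_sqrt hRr.le]
    field_simp
  · intro r r' hr
    set D : Fin R → Q := fun r => sm θ (V (r, i)) - sm θ (V (r, i')) with hD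
    have hDs : ∀ r, star (D r) = D r := by
      intro r; simp only [hD, star_sub, sm_star]
    have hDc : D r * D r' = D r' * D r := by
      simp only [hD, sub_mul, mul_sub, s.sm_comm_ne θ θ i i hr, s.sm_comm_ne θ θ i i' hr,
        s.sm_comm_ne θ θ i' i hr, s.sm_comm_ne θ θ i' i' hr]
      abel
    have hw2 : w * star w ∈ P 0 := Subalgebra.mul_mem _ hw (s.star_mem _ _ hw)
    have e1 : q (star (D r * w) * (D r' * w)) = q (w * star w * (D r * D r')) := by
      rw [star_mul, hDs]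
      calc q (star w * D r * (D r' * w)) = q ((star w * D r * D r') * w) := by
            congr 1; noncomm_ring
        _ = q (w * (star w * D r * D r')) := h.map_mul_comm _ _
        _ = q (w * star w * (D r * D r')) := by congr 1; noncomm_ring
    have key : ∀ a b : Fin R, a < b → q (w * star w * (D a * D b)) = 0 := by
      intro a b hab
      have hm : w * star w * D a ∈ P b := by
        apply Subalgebra.mul_mem _ (s.mono (Nat.zero_le _) hw2)
        exact s.mono (Nat.succ_le_of_lt hab)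
          (Subalgebra.sub_mem _ (s.sm_mem θ a i) (s.sm_mem θ a i'))
      rw [← mul_assoc]
      show q (w * star w * D a * (sm θ (V (b, i)) - sm θ (V (b, i')))) = 0
      rw [mul_sub, map_sub, s.trace_sm h θ b i _ hm, s.trace_sm h θ b i' _ hm, sub_zero]
    show q (star (D r * w) * (D r' * w)) = 0
    rw [e1]
    rcases lt_or_gt_of_ne hr with h1 | h1
    · exact key _ _ h1
    · rw [hDc]; exact key _ _ h1

theorem sq_add3_le (a b c : ℝ) : (a + b + c) ^ 2 ≤ 3 * (a ^ 2 + b ^ 2 + c ^ 2) := by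
  nlinarith [sq_nonneg (a - b), sq_nonneg (b - c), sq_nonneg (a - c)]

/-- the bits see the symmetries -/
theorem MatSys.claimB (h : IsTracialState q) (s : MatSys q R P V) (hR : 1 ≤ R) (θ : Bool)
    (i i' : ι) (w : Q) (hw : w ∈ P 0) {lam : ℝ} (h0 : 0 < lam) {J : ℕ} (hJ : 1 ≤ J)
    (Φ : Fin J → Finset (Fin R → Bool)) (c : Fin J → ℝ) (c0 : ℝ) (hc : ∀ j, |c j| ≤ 2 / J)
    (hsee : ∀ ω, |Real.sin (lam * signSum ω) -
          (c0 + ∑ j, c j * (if ω ∈ Φ j then (1 : ℝ) else 0))| ≤ 4 / J) :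
    (∑ r, nrm q ((sm θ (V (r, i)) - sm θ (V (r, i'))) * w) ^ 2) / R ≤
      3 / lam ^ 2 * (8 / J * ∑ j, nrm q ((ev (hf θ V i) (fun ω => if ω ∈ Φ j then 1 else 0) -
        ev (hf θ V i') (fun ω => if ω ∈ Φ j then 1 else 0)) * w) ^ 2 +
        128 / J ^ 2 * nrm q w ^ 2) + 6 * lam ^ 4 * nrm q w ^ 2 := by
  have hJr : (0 : ℝ) < J := by exact_mod_cast hJ
  have hRr : (0 : ℝ) < R := by exact_mod_cast hR
  set W := nrm q w with hW
  have hW0 : 0 ≤ W := nrm_nonneg _
  rw [s.claimA h hR θ i i' w hw]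
  -- the functions
  have h2R : (0 : ℝ) < 2 ^ R := by positivity
  have hmom := cube_moment R hR lam h0
  have hE : ∀ k : ι, nrm q (ev (hf θ V k) (fun ω => ((signSum ω - Real.sin (lam * signSum ω) / lam
      : ℝ) : ℂ)) * w) ≤ lam ^ 2 * W := by
    intro k
    apply le_of_sq_le_sq _ (by (clear * - h0 hW0; positivity))
    rw [s.nrm_ev_mul h θ k w hw, mul_pow]
    apply mul_le_mul_of_nonneg_right _ (by (clear * -; positivity))
    calc _ ≤ lam ^ 4 := hmom
      _ = (lam ^ 2) ^ 2 := by ring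
  have hG : ∀ k : ι, nrm q (ev (hf θ V k) (fun ω => ((Real.sin (lam * signSum ω) -
      (c0 + ∑ j, c j * (if ω ∈ Φ j then (1 : ℝ) else 0)) : ℝ) : ℂ)) * w) ≤ 4 / J * W := by
    intro k
    apply le_of_sq_le_sq _ (by (clear * - hJ hW0; positivity))
    rw [s.nrm_ev_mul h θ k w hw, mul_pow]
    apply mul_le_mul_of_nonneg_right _ (by (clear * -; positivity))
    rw [div_le_iff₀ h2R]
    calc ∑ ω : Fin R → Bool, (Real.sin (lam * signSum ω) -
          (c0 + ∑ j, c j * (if ω ∈ Φ j then (1 : ℝ) else 0))) ^ 2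
        ≤ ∑ _ω : Fin R → Bool, (4 / (J : ℝ)) ^ 2 := by
          apply Finset.sum_le_sum
          intro ω _
          rw [← sq_abs]
          exact pow_le_pow_left₀ (abs_nonneg _) (hsee ω) 2
      _ = (4 / (J : ℝ)) ^ 2 * 2 ^ R := by
          rw [Finset.sum_const, Finset.card_univ, Fintype.card_fun, Fintype.card_bool,
            Fintype.card_fin, nsmul_eq_mul]
          push_cast; ring
  set n : Fin J → ℝ := fun j => nrm q ((ev (hf θ V i) (fun ω => if ω ∈ Φ j then 1 else 0) -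
        ev (hf θ V i') (fun ω => if ω ∈ Φ j then 1 else 0)) * w) with hn
  -- the sine
  have hT : nrm q ((ev (hf θ V i) (fun ω => ((Real.sin (lam * signSum ω) : ℝ) : ℂ)) -
      ev (hf θ V i') (fun ω => ((Real.sin (lam * signSum ω) : ℝ) : ℂ))) * w) ≤
      2 / J * ∑ j, n j + 8 / J * W := by
    have hdec : ∀ k : ι, ev (hf θ V k) (fun ω => ((Real.sin (lam * signSum ω) : ℝ) : ℂ)) =
        ev (hf θ V k) (fun ω => ((Real.sin (lam * signSum ω) -
          (c0 + ∑ j, c j * (if ω ∈ Φ j then (1 : ℝ) else 0)) : ℝ) : ℂ)) + ((c0 : ℂ) • (1 : Q) +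
        ∑ j, (c j : ℂ) • ev (hf θ V k) (fun ω => if ω ∈ Φ j then 1 else 0)) := by
      intro k
      have hx := s.commProj θ k
      rw [← hx.ev_one, ← ev_smul]
      simp_rw [← ev_smul]
      have e2 : ∑ j, ev (hf θ V k) (fun ω => (c j : ℂ) * (if ω ∈ Φ j then 1 else 0)) =
          ev (hf θ V k) (fun ω => ∑ j, (c j : ℂ) * (if ω ∈ Φ j then 1 else 0)) := by
        unfold ev
        rw [Finset.sum_comm]
        simp_rw [Finset.sum_smul]
      rw [e2, ← ev_add, ← ev_add]
      congr 1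
      funext ω
      push_cast
      have : ∀ j, (((if ω ∈ Φ j then (1 : ℝ) else 0 : ℝ)) : ℂ) = if ω ∈ Φ j then 1 else 0 := by
        intro j; split_ifs <;> simp
      simp_rw [this]
      ring
    rw [hdec i, hdec i']
    have e3 : ∀ a b c' d e : Q, (a + (d + b) - (c' + (d + e))) * w =
        (a * w - c' * w) + (b - e) * w := by
      intro a b c' d e; noncomm_ring
    rw [e3, ← Finset.sum_sub_distrib, Finset.sum_mul]
    refine (nrm_add_le h _ _).trans ?_
    have e4 := (nrm_sub_le h (ev (hf θ V i) (fun ω => ((Real.sin (lam * signSum ω) -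
      (c0 + ∑ j, c j * (if ω ∈ Φ j then (1 : ℝ) else 0)) : ℝ) : ℂ)) * w)
      (ev (hf θ V i') (fun ω => ((Real.sin (lam * signSum ω) -
      (c0 + ∑ j, c j * (if ω ∈ Φ j then (1 : ℝ) else 0)) : ℝ) : ℂ)) * w)).trans
      (add_le_add (hG i) (hG i'))
    have e5 : nrm q (∑ j, ((c j : ℂ) • ev (hf θ V i) (fun ω => if ω ∈ Φ j then 1 else 0) -
        (c j : ℂ) • ev (hf θ V i') (fun ω => if ω ∈ Φ j then 1 else 0)) * w) ≤
        2 / J * ∑ j, n j := by
      refine (nrm_sum_le h _ _).trans ?_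
      rw [Finset.mul_sum]
      apply Finset.sum_le_sum
      intro j _
      rw [← smul_sub, smul_mul_assoc, nrm_smul h, Complex.norm_real, Real.norm_eq_abs]
      exact mul_le_mul_of_nonneg_right (hc j) (nrm_nonneg _)
    have e6 : 4 / (J : ℝ) * W + 4 / J * W = 8 / J * W := by ring
    linarith only [e4, e5, e6]
  have hT2 : nrm q ((ev (hf θ V i) (fun ω => ((Real.sin (lam * signSum ω) : ℝ) : ℂ)) -
      ev (hf θ V i') (fun ω => ((Real.sin (lam * signSum ω) : ℝ) : ℂ))) * w) ^ 2 ≤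
      8 / J * ∑ j, n j ^ 2 + 128 / J ^ 2 * W ^ 2 := by
    have e1 := pow_le_pow_left₀ (nrm_nonneg _) hT 2
    refine e1.trans ?_
    have e2 : (∑ j, n j) ^ 2 ≤ J * ∑ j, n j ^ 2 := by
      have := Finset.sum_mul_sq_le_sq_mul_sq (Finset.univ : Finset (Fin J)) (fun _ => (1 : ℝ)) n
      simp only [one_mul, one_pow, Finset.sum_const, Finset.card_univ, Fintype.card_fin,
        nsmul_eq_mul, mul_one] at this
      exact this
    have e3 : (2 / (J : ℝ) * ∑ j, n j + 8 / J * W) ^ 2 ≤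
        2 * ((2 / J) ^ 2 * (∑ j, n j) ^ 2 + (8 / J * W) ^ 2) := by
      nlinarith only [sq_nonneg (2 / (J : ℝ) * ∑ j, n j - 8 / J * W)]
    have e4 : 2 * ((2 / (J : ℝ)) ^ 2 * (∑ j, n j) ^ 2) ≤
        2 * ((2 / J) ^ 2 * (J * ∑ j, n j ^ 2)) := by
      apply mul_le_mul_of_nonneg_left _ (by norm_num)
      exact mul_le_mul_of_nonneg_left e2 (by positivity)
    have e5 : 2 * ((2 / (J : ℝ)) ^ 2 * (J * ∑ j, n j ^ 2)) = 8 / J * ∑ j, n j ^ 2 := by
      field_simp; ring
    have e6 : 2 * (8 / (J : ℝ) * W) ^ 2 = 128 / J ^ 2 * W ^ 2 := by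
      field_simp; ring
    linarith
  -- the sum
  have hS : nrm q ((ev (hf θ V i) (fun ω => (signSum ω : ℂ)) -
      ev (hf θ V i') (fun ω => (signSum ω : ℂ))) * w) ≤
      lam⁻¹ * nrm q ((ev (hf θ V i) (fun ω => ((Real.sin (lam * signSum ω) : ℝ) : ℂ)) -
      ev (hf θ V i') (fun ω => ((Real.sin (lam * signSum ω) : ℝ) : ℂ))) * w) +
      lam ^ 2 * W + lam ^ 2 * W := by
    have hdec : ∀ k : ι, ev (hf θ V k) (fun ω => (signSum ω : ℂ)) =
        ev (hf θ V k) (fun ω => ((signSum ω - Real.sin (lam * signSum ω) / lam : ℝ) : ℂ)) +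
        ((lam⁻¹ : ℝ) : ℂ) • ev (hf θ V k) (fun ω => ((Real.sin (lam * signSum ω) : ℝ) : ℂ)) := by
      intro k
      rw [← ev_smul, ← ev_add]
      congr 1
      funext ω
      push_cast
      ring
    rw [hdec i, hdec i']
    have e3 : ∀ a b c' e : Q, (a + ((lam⁻¹ : ℝ) : ℂ) • b - (c' + ((lam⁻¹ : ℝ) : ℂ) • e)) * w =
        (((lam⁻¹ : ℝ) : ℂ) • ((b - e) * w) + a * w) - c' * w := by
      intro a b c' e
      rw [← smul_mul_assoc, smul_sub]
      noncomm_ring
    rw [e3]
    refine (nrm_sub_le h _ _).trans (add_le_add ((nrm_add_le h _ _).trans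
      (add_le_add (le_of_eq ?_) (hE i))) (hE i'))
    rw [nrm_smul h, Complex.norm_real, Real.norm_eq_abs, abs_of_pos (by positivity)]
  have e1 := pow_le_pow_left₀ (nrm_nonneg _) hS 2
  refine e1.trans ((sq_add3_le _ _ _).trans ?_)
  have e2 : 3 * ((lam⁻¹ * nrm q ((ev (hf θ V i) (fun ω => ((Real.sin (lam * signSum ω) : ℝ) : ℂ)) -
      ev (hf θ V i') (fun ω => ((Real.sin (lam * signSum ω) : ℝ) : ℂ))) * w)) ^ 2 +
      (lam ^ 2 * W) ^ 2 + (lam ^ 2 * W) ^ 2) =
      3 / lam ^ 2 * nrm q ((ev (hf θ V i) (fun ω => ((Real.sin (lam * signSum ω) : ℝ) : ℂ)) -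
      ev (hf θ V i') (fun ω => ((Real.sin (lam * signSum ω) : ℝ) : ℂ))) * w) ^ 2 +
      6 * lam ^ 4 * W ^ 2 := by
    field_simp; ring
  rw [e2]
  have e3 : 0 ≤ 3 / lam ^ 2 := by positivity
  have e4 := mul_le_mul_of_nonneg_left hT2 e3
  linarith only [e4]

end sys2

end

end Vale.Agent.P095
end

section

set_option linter.unusedSectionVars false
set_option linter.unusedVariables false
set_option linter.unusedSimpArgs false

namespace Vale.Agent.P095

open Filter Topology ComplexConjugate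

section
variable {A : Type*} [CStarAlgebra A] {G : Type*} [Group G] (α : G →* (A ≃⋆ₐ[ℂ] A))

/-- the letters -/
def letters (L : Finset G) (F0 : Set (BSeq A)) (l : List (BSeq A × BSeq A)) : Set (BSeq A) :=
  {b | b ∈ F0 ∨ star b ∈ F0 ∨ ∃ g ∈ L, ∃ w ∈ l, b = actB (α g) w.1 ∨ star b = actB (α g) w.1 ∨
    b = actB (α g) w.2 ∨ star b = actB (α g) w.2}

theorem letters_countable (L : Finset G) (F0 : Set (BSeq A)) (hF : F0.Countable)
    (l : List (BSeq A × BSeq A)) : (letters α L F0 l).Countable := by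
  classical
  have h1 : letters α L F0 l ⊆ (F0 ∪ star '' F0) ∪
      ⋃ g ∈ (L : Set G), ⋃ w ∈ {w | w ∈ l}, ({actB (α g) w.1, star (actB (α g) w.1),
        actB (α g) w.2, star (actB (α g) w.2)} : Set (BSeq A)) := by
    intro b hb
    rcases hb with hb | hb | ⟨g, hg, w, hw, hb⟩
    · exact Or.inl (Or.inl hb)
    · exact Or.inl (Or.inr ⟨star b, hb, star_star b⟩)
    · right
      rw [Set.mem_iUnion₂]
      refine ⟨g, hg, ?_⟩
      rw [Set.mem_iUnion₂]
      refine ⟨w, hw, ?_⟩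
      rcases hb with hb | hb | hb | hb
      · exact Or.inl hb
      · exact Or.inr (Or.inl (by rw [← hb, star_star]))
      · exact Or.inr (Or.inr (Or.inl hb))
      · exact Or.inr (Or.inr (Or.inr (by rw [← hb, star_star]; rfl)))
  refine Set.Countable.mono h1 ((hF.union (hF.image _)).union ?_)
  refine Set.Countable.biUnion (Finset.countable_toSet L) (fun g _ => ?_)
  refine Set.Countable.biUnion (l.finite_toSet.countable) (fun w _ => ?_)
  exact (Set.toFinite _).countable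

theorem letters_star (L : Finset G) (F0 : Set (BSeq A)) (l : List (BSeq A × BSeq A))
    {b : BSeq A} (hb : b ∈ letters α L F0 l) : star b ∈ letters α L F0 l := by
  rcases hb with hb | hb | ⟨g, hg, w, hw, hb⟩
  · exact Or.inr (Or.inl (by rwa [star_star]))
  · exact Or.inl hb
  · refine Or.inr (Or.inr ⟨g, hg, w, hw, ?_⟩)
    rw [star_star]
    rcases hb with hb | hb | hb | hb
    · exact Or.inr (Or.inl hb)
    · exact Or.inl hb
    · exact Or.inr (Or.inr (Or.inr hb))
    · exact Or.inr (Or.inr (Or.inl hb))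

/-- the words -/
noncomputable def wordsM (L : Finset G) (F0 : Set (BSeq A)) (l : List (BSeq A × BSeq A)) :
    Submonoid (BSeq A) := Submonoid.closure (letters α L F0 l)

theorem wordsM_star (L : Finset G) (F0 : Set (BSeq A)) (l : List (BSeq A × BSeq A))
    {b : BSeq A} (hb : b ∈ wordsM α L F0 l) : star b ∈ wordsM α L F0 l := by
  unfold wordsM at hb ⊢
  induction hb using Submonoid.closure_induction with
  | mem x hx => exact Submonoid.subset_closure (letters_star α L F0 l hx)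
  | one => rw [star_one]; exact Submonoid.one_mem _
  | mul x y _ _ hx hy => rw [star_mul]; exact Submonoid.mul_mem _ hy hx

/-- translated words -/
def wordsT (L : Finset G) (F0 : Set (BSeq A)) (l : List (BSeq A × BSeq A)) : Set (BSeq A) :=
  {b | ∃ g ∈ L, ∃ w ∈ wordsM α L F0 l, b = actB (α g⁻¹) w}

theorem wordsT_countable (L : Finset G) (F0 : Set (BSeq A)) (hF : F0.Countable)
    (l : List (BSeq A × BSeq A)) : (wordsT α L F0 l).Countable := by
  have h1 : wordsT α L F0 l ⊆ ⋃ g ∈ (L : Set G), (fun w => actB (α g⁻¹) w) ''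
      (wordsM α L F0 l : Set (BSeq A)) := by
    rintro b ⟨g, hg, w, hw, rfl⟩
    rw [Set.mem_iUnion₂]
    exact ⟨g, hg, w, hw, rfl⟩
  refine Set.Countable.mono h1 (Set.Countable.biUnion (Finset.countable_toSet L) (fun g _ => ?_))
  exact (countable_closure (letters_countable α L F0 hF l)).image _

theorem letters_mono (L : Finset G) (F0 : Set (BSeq A)) {l l' : List (BSeq A × BSeq A)}
    (h : ∀ w ∈ l, w ∈ l') : letters α L F0 l ⊆ letters α L F0 l' := by
  rintro b (hb | hb | ⟨g, hg, w, hw, hb⟩)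
  · exact Or.inl hb
  · exact Or.inr (Or.inl hb)
  · exact Or.inr (Or.inr ⟨g, hg, w, h w hw, hb⟩)

/-- trial systems in all tracial quotients -/
theorem exists_trialSys {μ C κ : ℝ} (K0 L : Finset G) (hK : ∀ g ∈ L, ∀ h ∈ L, g⁻¹ * h ∈ K0)
    (good : ∀ F : Set (BSeq A), F.Countable → ∃ w, GoodPairB α μ C κ K0 F w)
    (F0 : Set (BSeq A)) (hF : F0.Countable) (N : ℕ) :
    ∃ w : ℕ → BSeq A × BSeq A, (∀ n k, ‖(w n).2.1 k‖ ≤ 1) ∧ ∀ t : LimTr A, ∃ P : ℕ → Submonoid (Qt t.isTracial),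
      (∀ n, P n = (wordsM α L F0 ((List.range n).map w)).map (t.c : BSeq A →* Qt t.isTracial)) ∧
      TrialSys t.q μ C κ N P
        (fun i : Fin N × {g // g ∈ L} => t.c (actB (α i.2.1) (w i.1).1))
        (fun i : Fin N × {g // g ∈ L} => t.c (actB (α i.2.1) (w i.1).2)) := by
  classical
  obtain ⟨w, hw⟩ := exists_seq (fun F w => GoodPairB α μ C κ K0 F w) good (wordsT α L F0)
    (wordsT_countable α L F0 hF)
  refine ⟨w, fun n k => (hw n).2.2.1 k, fun t => ⟨_, fun n => rfl, ?_⟩⟩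
  have hmul : ∀ x y : BSeq A, t.c (x * y) = t.c x * t.c y := fun x y => map_mul t.c x y
  -- commutation with words
  have hT : ∀ (n : ℕ) (g : G), g ∈ L → ∀ b ∈ wordsM α L F0 ((List.range n).map w),
      t.c (actB (α g) (w n).1) * t.c b = t.c b * t.c (actB (α g) (w n).1) ∧
      t.c (actB (α g) (w n).2) * t.c b = t.c b * t.c (actB (α g) (w n).2) ∧
      t.val (b * actB (α g) (w n).1) = μ * t.val b := by
    intro n g hg b hb
    have hb' : actB (α g⁻¹) b ∈ wordsT α L F0 ((List.range n).map w) := ⟨g, hg, b, hb, rfl⟩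
    obtain ⟨h1, h2, h3⟩ := ((hw n).2.2.2 (t.comp (α g))).2.2.2.1 _ hb'
    rw [t.comp_nrm, map_sub, map_mul, map_mul, actB_inv] at h1 h2
    rw [t.comp_val, t.comp_val, map_mul, actB_inv] at h3
    refine ⟨?_, ?_, h3⟩
    · rw [← hmul, ← hmul]; exact t.c_eq h1
    · rw [← hmul, ← hmul]; exact t.c_eq h2
  refine ⟨?_, ?_, ?_, ?_, ?_, ?_, ?_, ?_, ?_, ?_, ?_, ?_, ?_, ?_⟩
  · -- mono
    intro m n hmn
    apply Submonoid.monotone_map
    apply Submonoid.closure_mono
    apply letters_mono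
    intro x hx
    rw [List.mem_map] at hx ⊢
    obtain ⟨k, hk, rfl⟩ := hx
    exact ⟨k, List.mem_range.mpr (lt_of_lt_of_le (List.mem_range.mp hk) hmn), rfl⟩
  · -- star
    rintro n _ ⟨b, hb, rfl⟩
    exact ⟨star b, wordsM_star α L F0 _ hb, rfl⟩
  · rintro n ⟨g, hg⟩
    refine ⟨actB (α g) (w n).1, Submonoid.subset_closure (Or.inr (Or.inr ⟨g, hg, w n, ?_,
      Or.inl rfl⟩)), rfl⟩
    exact List.mem_map.mpr ⟨n, List.mem_range.mpr (Nat.lt_succ_self _), rfl⟩
  · rintro n ⟨g, hg⟩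
    refine ⟨actB (α g) (w n).2, Submonoid.subset_closure (Or.inr (Or.inr ⟨g, hg, w n, ?_,
      Or.inr (Or.inr (Or.inl rfl))⟩)), rfl⟩
    exact List.mem_map.mpr ⟨n, List.mem_range.mpr (Nat.lt_succ_self _), rfl⟩
  · rintro ⟨n, g, hg⟩
    have := ((hw n).2.2.2 (t.comp (α g))).1
    rw [t.comp_nrm, map_sub, map_mul] at this
    show t.c (actB (α g) (w n).1) * t.c (actB (α g) (w n).1) = t.c (actB (α g) (w n).1)
    rw [← hmul]; exact t.c_eq this
  · rintro ⟨n, g, hg⟩
    show star (t.c (actB (α g) (w n).1)) = t.c (actB (α g) (w n).1)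
    rw [← t.c_star, ← map_star, (hw n).1]
  · rintro ⟨n, g, hg⟩
    have := ((hw n).2.2.2 (t.comp (α g))).2.1
    rw [t.comp_nrm, map_mul] at this
    show t.c (actB (α g) (w n).2) * t.c (actB (α g) (w n).2) = 0
    rw [← hmul, ← map_zero t.c]
    apply t.c_eq
    rw [sub_zero]; exact this
  · rintro ⟨n, g, hg⟩
    have := ((hw n).2.2.2 (t.comp (α g))).2.2.1
    rw [t.comp_nrm, map_sub, map_add, map_mul, map_mul, map_star, map_one] at this
    show star (t.c (actB (α g) (w n).2)) * t.c (actB (α g) (w n).2) +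
      t.c (actB (α g) (w n).2) * star (t.c (actB (α g) (w n).2)) = 1
    rw [← t.c_star, ← hmul, ← hmul, ← map_add, ← map_one t.c]
    exact t.c_eq this
  · rintro n ⟨g, hg⟩ _ ⟨b, hb, rfl⟩
    exact (hT n g hg b hb).1
  · rintro n ⟨g, hg⟩ _ ⟨b, hb, rfl⟩
    exact (hT n g hg b hb).2.1
  · rintro n ⟨g, hg⟩ ⟨h, hh⟩
    have := (((hw n).2.2.2 (t.comp (α g))).2.2.2.2 _ (hK g hg h hh)).1
    rw [t.comp_nrm, map_sub, map_mul (actB (α g)), map_mul (actB (α g)), ← actB_mul,
      mul_inv_cancel_left] at this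
    show t.c (actB (α g) (w n).1) * t.c (actB (α h) (w n).1) =
      t.c (actB (α h) (w n).1) * t.c (actB (α g) (w n).1)
    rw [← hmul, ← hmul]; exact t.c_eq this
  · rintro n ⟨g, hg⟩ ⟨h, hh⟩
    have := (((hw n).2.2.2 (t.comp (α h))).2.2.2.2 _ (hK h hh g hg)).2.1
    rw [t.comp_nrm, map_sub, map_mul (actB (α h)), map_mul (actB (α h)), ← actB_mul,
      mul_inv_cancel_left] at this
    show t.c (actB (α g) (w n).2) * t.c (actB (α h) (w n).1) =
      t.c (actB (α h) (w n).1) * t.c (actB (α g) (w n).2)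
    rw [← hmul, ← hmul]; exact t.c_eq this
  · rintro n ⟨g, hg⟩ _ ⟨b, hb, rfl⟩
    show t.q (t.c b * t.c (actB (α g) (w n).1)) = μ * t.q (t.c b)
    rw [← hmul]
    exact (hT n g hg b hb).2.2
  · rintro n ⟨g, hg⟩ ⟨h, hh⟩ _ ⟨b, hb, rfl⟩
    have hb' : actB (α h⁻¹) b ∈ wordsT α L F0 ((List.range n).map w) := ⟨h, hh, b, hb, rfl⟩
    have := (((hw n).2.2.2 (t.comp (α h))).2.2.2.2 _ (hK h hh g hg)).2.2 _ hb'
    rw [t.comp_nrm, t.comp_nrm, t.comp_nrm, map_mul (actB (α h)), map_mul (actB (α h)),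
      map_sub (actB (α h)), map_sub (actB (α h)), actB_inv, ← actB_mul α h (h⁻¹ * g),
      ← actB_mul α h (h⁻¹ * g), mul_inv_cancel_left,
      ← t.nrm_c, ← t.nrm_c, ← t.nrm_c b, hmul, hmul, map_sub, map_sub] at this
    exact this

end

end Vale.Agent.P095
end

section

set_option linter.unusedSectionVars false
set_option linter.unusedVariables false
set_option linter.unusedSimpArgs false

namespace Vale.Agent.P095

open Filter Topology ComplexConjugate

section comp
variable {κ ι : Type*} [Fintype κ] [DecidableEq κ] [Fintype ι] [DecidableEq ι] {N : ℕ}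

theorem hits_comp (f : κ ↪ ι) (ω : Fin N × ι → Bool) :
    (hits (Finset.univ : Finset κ) (fun k => ω (k.1, f k.2))).map f =
      hits (Finset.univ.map f) ω := by
  unfold hits
  rw [Finset.map_filter']
  ext i
  simp only [Finset.mem_filter, Finset.mem_map, Finset.mem_univ, true_and]
  constructor
  · rintro ⟨⟨a, rfl⟩, b, hb, hab⟩
    refine ⟨⟨a, rfl⟩, ?_⟩
    rw [f.injective hab] at hb
    exact hb
  · rintro ⟨⟨a, rfl⟩, h⟩
    exact ⟨⟨a, rfl⟩, a, h, rfl⟩

theorem hits_comp_card (f : κ ↪ ι) (ω : Fin N × ι → Bool) :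
    (hits (Finset.univ : Finset κ) (fun k => ω (k.1, f k.2))).card =
      (hits (Finset.univ.map f) ω).card := by
  rw [← hits_comp, Finset.card_map]

theorem evt_comp (f : κ ↪ ι) (j : ℕ) (ω : Fin N × ι → Bool) :
    evt (Finset.univ : Finset κ) j (fun k => ω (k.1, f k.2)) = evt (Finset.univ.map f) j ω := by
  unfold evt
  rw [hits_comp_card]

theorem wgt_comp (f : κ ↪ ι) (j : ℕ) (i : κ) (ω : Fin N × ι → Bool) :
    wgt (Finset.univ : Finset κ) j i (fun k => ω (k.1, f k.2)) =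
      wgt (Finset.univ.map f) j (f i) ω := by
  unfold wgt
  rw [hits_comp_card, ← hits_comp]
  simp only [Finset.mem_map', hits_comp_card]

variable {Q : Type*} [Ring Q] [StarRing Q] [Algebra ℂ Q] [StarModule ℂ Q]
  {x v : Fin N × ι → Q}

theorem tw_comp (hx : CommProj x) (f : κ ↪ ι) (j : ℕ) :
    tw (fun k : Fin N × κ => x (k.1, f k.2)) Finset.univ j = tw x (Finset.univ.map f) j := by
  unfold tw
  rw [hx.ev_comp (fun k : Fin N × κ => (k.1, f k.2))]
  congr 1
  funext ω
  exact evt_comp f j ω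

theorem ty_comp (hx : CommProj x) (f : κ ↪ ι) (n : Fin N) (j : ℕ) :
    ty (fun k : Fin N × κ => x (k.1, f k.2)) (fun k : Fin N × κ => v (k.1, f k.2))
      Finset.univ n j = ty x v (Finset.univ.map f) n j := by
  unfold ty
  rw [Finset.sum_map]
  apply Finset.sum_congr rfl
  intro i _
  rw [hx.ev_comp (fun k : Fin N × κ => (k.1, f k.2))]
  congr 2
  funext ω
  exact wgt_comp f j i ω

end comp

section part
variable {Q : Type*} [Ring Q] [StarRing Q] {I : Type*} [Fintype I] {ζ : I → Q}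

theorem part_mul (hid : ∀ i, ζ i * ζ i = ζ i) (horth : ∀ i j, i ≠ j → ζ i * ζ j = 0)
    (a b : I → Q) (hc : ∀ i j, ζ j * a i = a i * ζ j) :
    (∑ i, ζ i * a i) * (∑ i, ζ i * b i) = ∑ i, ζ i * (a i * b i) := by
  classical
  rw [Finset.sum_mul]
  apply Finset.sum_congr rfl
  intro i _
  rw [Finset.mul_sum, Finset.sum_eq_single i]
  · calc ζ i * a i * (ζ i * b i) = ζ i * (a i * ζ i) * b i := by noncomm_ring
      _ = ζ i * (ζ i * a i) * b i := by rw [hc]
      _ = (ζ i * ζ i) * (a i * b i) := by noncomm_ring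
      _ = ζ i * (a i * b i) := by rw [hid]
  · intro j _ hj
    calc ζ i * a i * (ζ j * b j) = ζ i * (a i * ζ j) * b j := by noncomm_ring
      _ = ζ i * (ζ j * a i) * b j := by rw [hc]
      _ = (ζ i * ζ j) * (a i * b j) := by noncomm_ring
      _ = 0 := by rw [horth i j hj.symm, zero_mul]
  · intro h; exact absurd (Finset.mem_univ i) h

variable [Algebra ℂ Q] [StarModule ℂ Q] {q : Q →ₗ[ℂ] ℂ}

theorem nrm_part_sum (h : IsTracialState q) (hid : ∀ i, ζ i * ζ i = ζ i)
    (horth : ∀ i j, i ≠ j → ζ i * ζ j = 0) (hsa : ∀ i, star (ζ i) = ζ i) (X : I → Q) :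
    nrm q (∑ i, ζ i * X i) ^ 2 = ∑ i, nrm q (ζ i * X i) ^ 2 := by
  classical
  have h1 : star (∑ i, ζ i * X i) * (∑ i, ζ i * X i) =
      ∑ i, star (ζ i * X i) * (ζ i * X i) := by
    rw [star_sum, Finset.sum_mul]
    apply Finset.sum_congr rfl
    intro i _
    rw [Finset.mul_sum, Finset.sum_eq_single i]
    · intro j _ hj
      rw [star_mul, hsa]
      calc star (X i) * ζ i * (ζ j * X j) = star (X i) * (ζ i * ζ j) * X j := by noncomm_ring
        _ = 0 := by rw [horth i j hj.symm, mul_zero, zero_mul]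
    · intro h; exact absurd (Finset.mem_univ i) h
  rw [nrm_sq h, h1, map_sum, Complex.re_sum]
  apply Finset.sum_congr rfl
  intro i _
  rw [nrm_sq h]

theorem nrm_part_one (h : IsTracialState q) (hid : ∀ i, ζ i * ζ i = ζ i)
    (horth : ∀ i j, i ≠ j → ζ i * ζ j = 0) (hsa : ∀ i, star (ζ i) = ζ i)
    (hone : ∑ i, ζ i = 1) (z : Q) : ∑ i, nrm q (ζ i * z) ^ 2 = nrm q z ^ 2 := by
  rw [← nrm_part_sum h hid horth hsa (fun _ => z), ← Finset.sum_mul, hone, one_mul]

end part

end Vale.Agent.P095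
end

section

set_option linter.unusedSectionVars false
set_option linter.unusedVariables false
set_option linter.unusedSimpArgs false

namespace Vale.Agent.P095

open Finset ComplexConjugate

section
variable {Q : Type*} [Ring Q] [StarRing Q] [Algebra ℂ Q] [StarModule ℂ Q] {q : Q →ₗ[ℂ] ℂ}
variable {R : ℕ} {ι : Type*} {P : ℕ → Subalgebra ℂ Q} {V : Fin R × ι → Q}

theorem V_eq_sm (V : Q) : V = (1 / 2 : ℂ) • (sm true V - Complex.I • sm false V) := by
  unfold sm
  simp only [if_true, Bool.false_eq_true, if_false, smul_smul, Complex.I_mul_I]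
  module

theorem nrm_V_diff_le (h : IsTracialState q) (V V' w : Q) :
    nrm q ((V - V') * w) ^ 2 ≤ (1 / 2) * (nrm q ((sm true V - sm true V') * w) ^ 2 +
      nrm q ((sm false V - sm false V') * w) ^ 2) := by
  have e1 : (V - V') * w = (1 / 2 : ℂ) • (((sm true V - sm true V') * w) -
      Complex.I • ((sm false V - sm false V') * w)) := by
    conv_lhs => rw [V_eq_sm V, V_eq_sm V']
    simp only [sub_mul, smul_mul_assoc, smul_sub]
    abel
  rw [e1, nrm_smul h]
  have e2 := nrm_sub_le h ((sm true V - sm true V') * w)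
    (Complex.I • ((sm false V - sm false V') * w))
  rw [nrm_smul h, Complex.norm_I, one_mul] at e2
  have e3 := pow_le_pow_left₀ (nrm_nonneg _) e2 2
  have e4 : ‖(1 / 2 : ℂ)‖ = 1 / 2 := by simp
  rw [e4, mul_pow]
  nlinarith only [e3, sq_nonneg (nrm q ((sm true V - sm true V') * w) -     nrm q ((sm false V - sm false V') * w))]

/-- orthogonal partition commuting with a family -/
structure Part0 (I : Type*) [Fintype I] (ζ : I → Q) : Prop where
  id : ∀ i, ζ i * ζ i = ζ i
  orth : ∀ i j, i ≠ j → ζ i * ζ j = 0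
  sa : ∀ i, star (ζ i) = ζ i
  one : ∑ i, ζ i = 1

/-- independence -/
def Ind0 (q : Q →ₗ[ℂ] ℂ) {I : Type*} [Fintype I] (ζ X : I → Q) : Prop :=
  (∀ i, ζ i * X i = X i * ζ i) ∧
    ∀ i, q (star (X i) * X i * ζ i) = q (star (X i) * X i) / Fintype.card I

theorem Part0.pyth (h : IsTracialState q) {I : Type*} [Fintype I] [Nonempty I] {ζ : I → Q}
    (p : Part0 I ζ) {X : I → Q} (hX : Ind0 q ζ X) :
    nrm q (∑ i, ζ i * X i) ^ 2 = (∑ i, nrm q (X i) ^ 2) / Fintype.card I :=
  nrm_part h p.id p.orth p.sa hX.1 hX.2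

theorem Part0.pyth_le (h : IsTracialState q) {I : Type*} [Fintype I] [Nonempty I] {ζ : I → Q}
    (p : Part0 I ζ) {X : I → Q} (hX : Ind0 q ζ X) {δ : ℝ} (hδ : ∀ i, nrm q (X i) ≤ δ)
    (hδ0 : 0 ≤ δ) : nrm q (∑ i, ζ i * X i) ≤ δ := by
  apply le_of_sq_le_sq _ hδ0
  have hc : (0 : ℝ) < Fintype.card I := by exact_mod_cast Fintype.card_pos
  rw [p.pyth h hX, div_le_iff₀ hc]
  calc ∑ i, nrm q (X i) ^ 2 ≤ ∑ _i : I, δ ^ 2 :=
        Finset.sum_le_sum (fun i _ => pow_le_pow_left₀ (nrm_nonneg _) (hδ i) 2)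
    _ = δ ^ 2 * Fintype.card I := by
        rw [Finset.sum_const, Finset.card_univ, nsmul_eq_mul]; ring

/-- the threshold projections -/
noncomputable def bt {J : ℕ} (Φ : Fin J → Finset (Fin R → Bool)) (V : Fin R × ι → Q)
    (k : Bool × Fin J) (i : ι) : Q := ev (hf k.1 V i) (fun ω => if ω ∈ Φ k.2 then 1 else 0)

/-- the bit -/
noncomputable def pq {J : ℕ} (Φ : Fin J → Finset (Fin R → Bool)) (V : Fin R × ι → Q)
    (z : Bool × Fin J → Q) (i : ι) : Q := ∑ k, z k * bt Φ V k i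

/-- the partial isometry -/
noncomputable def vq (V : Fin R × ι → Q) (ζ : Fin R → Q) (i : ι) : Q := ∑ r, ζ r * V (r, i)

theorem det_final (h : IsTracialState q) (s : MatSys q R P V) (hR : 1 ≤ R)
    (i i' : ι) (w : Q) (hw : w ∈ P 0) {lam : ℝ} (h0 : 0 < lam) {J : ℕ} (hJ : 1 ≤ J)
    (Φ : Fin J → Finset (Fin R → Bool)) (c : Fin J → ℝ) (c0 : ℝ) (hc : ∀ j, |c j| ≤ 2 / J)
    (hsee : ∀ ω, |Real.sin (lam * signSum ω) -
          (c0 + ∑ j, c j * (if ω ∈ Φ j then (1 : ℝ) else 0))| ≤ 4 / J)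
    {z : Bool × Fin J → Q} (hz : Part0 _ z)
    (hzX : Ind0 q z (fun k => (bt Φ V k i - bt Φ V k i') * w))
    {ζ : Fin R → Q} (hζ : Part0 _ ζ) (hζX : Ind0 q ζ (fun r => (V (r, i) - V (r, i')) * w)) :
    nrm q ((vq V ζ i - vq V ζ i') * w) ^ 2 ≤
      24 / lam ^ 2 * nrm q ((pq Φ V z i - pq Φ V z i') * w) ^ 2 +
        (384 / (lam * J) ^ 2 + 6 * lam ^ 4) * nrm q w ^ 2 := by
  haveI : Nonempty (Fin R) := ⟨⟨0, hR⟩⟩
  haveI : Nonempty (Fin J) := ⟨⟨0, hJ⟩⟩
  have hJr : (0 : ℝ) < J := by exact_mod_cast hJ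
  have hRr : (0 : ℝ) < R := by exact_mod_cast hR
  have e1 : (vq V ζ i - vq V ζ i') * w = ∑ r, ζ r * ((V (r, i) - V (r, i')) * w) := by
    unfold vq
    rw [← Finset.sum_sub_distrib, Finset.sum_mul]
    apply Finset.sum_congr rfl
    intro r _
    rw [← mul_sub, mul_assoc]
  have e2 : (pq Φ V z i - pq Φ V z i') * w = ∑ k, z k * ((bt Φ V k i - bt Φ V k i') * w) := by
    unfold pq
    rw [← Finset.sum_sub_distrib, Finset.sum_mul]
    apply Finset.sum_congr rfl
    intro r _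
    rw [← mul_sub, mul_assoc]
  rw [e1, hζ.pyth h hζX, e2, hz.pyth h hzX, Fintype.card_fin, Fintype.card_prod,
    Fintype.card_fin, Fintype.card_bool]
  have hB : ∀ θ : Bool, _ := fun θ => s.claimB h hR θ i i' w hw h0 hJ Φ c c0 hc hsee
  have e3 : (∑ r, nrm q ((V (r, i) - V (r, i')) * w) ^ 2) / R ≤
      (1 / 2) * ((∑ r, nrm q ((sm true (V (r, i)) - sm true (V (r, i'))) * w) ^ 2) / R +
        (∑ r, nrm q ((sm false (V (r, i)) - sm false (V (r, i'))) * w) ^ 2) / R) := by
    rw [← add_div, ← Finset.sum_add_distrib, ← mul_div_assoc]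
    apply div_le_div_of_nonneg_right _ hRr.le
    rw [Finset.mul_sum]
    exact Finset.sum_le_sum (fun r _ => nrm_V_diff_le h _ _ _)
  have e4 : (∑ k : Bool × Fin J, nrm q ((bt Φ V k i - bt Φ V k i') * w) ^ 2) =
      (∑ j, nrm q ((ev (hf true V i) (fun ω => if ω ∈ Φ j then 1 else 0) -
        ev (hf true V i') (fun ω => if ω ∈ Φ j then 1 else 0)) * w) ^ 2) +
      ∑ j, nrm q ((ev (hf false V i) (fun ω => if ω ∈ Φ j then 1 else 0) -
        ev (hf false V i') (fun ω => if ω ∈ Φ j then 1 else 0)) * w) ^ 2 := by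
    rw [Fintype.sum_prod_type, Fintype.sum_bool]
    rfl
  have b1 := hB true
  have b2 := hB false
  rw [e4]
  refine e3.trans ?_
  set S1 := ∑ j, nrm q ((ev (hf true V i) (fun ω => if ω ∈ Φ j then 1 else 0) -
        ev (hf true V i') (fun ω => if ω ∈ Φ j then 1 else 0)) * w) ^ 2
  set S2 := ∑ j, nrm q ((ev (hf false V i) (fun ω => if ω ∈ Φ j then 1 else 0) -
        ev (hf false V i') (fun ω => if ω ∈ Φ j then 1 else 0)) * w) ^ 2
  have e5 : 24 / lam ^ 2 * ((S1 + S2) / ((2 * J : ℕ) : ℝ)) +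
      (384 / (lam * J) ^ 2 + 6 * lam ^ 4) * nrm q w ^ 2 =
      (1 / 2) * ((3 / lam ^ 2 * (8 / J * S1 + 128 / J ^ 2 * nrm q w ^ 2) +
        6 * lam ^ 4 * nrm q w ^ 2) + (3 / lam ^ 2 * (8 / J * S2 + 128 / J ^ 2 * nrm q w ^ 2) +
        6 * lam ^ 4 * nrm q w ^ 2)) := by
    push_cast
    field_simp
    ring
  rw [e5]
  linarith only [b1, b2]

/-- commutation of the partition with everything -/
def CommAll {I : Type*} (ζ : I → Q) (V : Fin R × ι → Q) : Prop :=
  ∀ j k, ζ j * V k = V k * ζ j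

theorem CommAll.star {I : Type*} {ζ : I → Q} (hs : ∀ i, star (ζ i) = ζ i) (hc : CommAll ζ V)
    (j : I) (k : Fin R × ι) : ζ j * star (V k) = star (V k) * ζ j := by
  have := congrArg Star.star (hc j k)
  rw [star_mul, star_mul, hs] at this
  exact this.symm

theorem comm_bt {w : Q} {i : ι} (h1 : ∀ r, V (r, i) * w = w * V (r, i))
    (h2 : ∀ r, star (V (r, i)) * w = w * star (V (r, i))) {J : ℕ}
    (Φ : Fin J → Finset (Fin R → Bool)) (k : Bool × Fin J) :
    w * bt Φ V k i = bt Φ V k i * w := by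
  unfold bt
  apply ev_commute
  intro r
  exact (hp_comm k.1 (h1 r) (h2 r)).symm

theorem pq_star (s : MatSys q R P V) {J : ℕ} (Φ : Fin J → Finset (Fin R → Bool))
    {z : Bool × Fin J → Q} (hz : Part0 _ z) (hc : CommAll z V) (i : ι) :
    star (pq Φ V z i) = pq Φ V z i := by
  unfold pq
  rw [star_sum]
  apply Finset.sum_congr rfl
  intro k _
  have h1 : star (bt Φ V k i) = bt Φ V k i := by
    unfold bt
    rw [(s.commProj k.1 i).ev_star]
    congr 1
    funext ω
    split_ifs <;> simp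
  rw [star_mul, hz.sa, h1]
  exact (comm_bt (fun r => (hc k _).symm) (fun r => (hc.star hz.sa k _).symm) Φ k).symm

theorem pq_idem (s : MatSys q R P V) {J : ℕ} (Φ : Fin J → Finset (Fin R → Bool))
    {z : Bool × Fin J → Q} (hz : Part0 _ z) (hc : CommAll z V) (i : ι) :
    pq Φ V z i * pq Φ V z i = pq Φ V z i := by
  unfold pq
  rw [part_mul hz.id hz.orth _ _ (fun a b =>
    comm_bt (fun r => (hc b _).symm) (fun r => (hc.star hz.sa b _).symm) Φ a)]
  apply Finset.sum_congr rfl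
  intro k _
  congr 1
  unfold bt
  rw [← (s.commProj k.1 i).ev_mul]
  congr 1
  funext ω
  split_ifs <;> simp

theorem vq_sq (s : MatSys q R P V) {ζ : Fin R → Q} (hζ : Part0 _ ζ) (hc : CommAll ζ V) (i : ι) :
    vq V ζ i * vq V ζ i = 0 := by
  unfold vq
  rw [part_mul hζ.id hζ.orth _ _ (fun a b => hc b _)]
  apply Finset.sum_eq_zero
  intro r _
  rw [s.vv, mul_zero]

theorem vq_star {ζ : Fin R → Q} (hζ : Part0 _ ζ) (hc : CommAll ζ V) (i : ι) :
    star (vq V ζ i) = ∑ r, ζ r * star (V (r, i)) := by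
  unfold vq
  rw [star_sum]
  apply Finset.sum_congr rfl
  intro r _
  rw [star_mul, hζ.sa, hc.star hζ.sa]

theorem vq_one (s : MatSys q R P V) {ζ : Fin R → Q} (hζ : Part0 _ ζ) (hc : CommAll ζ V) (i : ι) :
    star (vq V ζ i) * vq V ζ i + vq V ζ i * star (vq V ζ i) = 1 := by
  rw [vq_star hζ hc]
  unfold vq
  rw [part_mul hζ.id hζ.orth _ _ (fun a b => hc.star hζ.sa b _),
    part_mul hζ.id hζ.orth _ _ (fun a b => hc b _), ← Finset.sum_add_distrib]
  simp only [← mul_add, s.vone, mul_one]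
  exact hζ.one

theorem pq_comm {w : Q} {i : ι} (h1 : ∀ r, V (r, i) * w = w * V (r, i))
    (h2 : ∀ r, star (V (r, i)) * w = w * star (V (r, i))) {J : ℕ}
    (Φ : Fin J → Finset (Fin R → Bool)) {z : Bool × Fin J → Q} (h3 : ∀ k, z k * w = w * z k) :
    pq Φ V z i * w = w * pq Φ V z i := by
  unfold pq
  rw [Finset.sum_mul, Finset.mul_sum]
  apply Finset.sum_congr rfl
  intro k _
  rw [mul_assoc, ← comm_bt h1 h2 Φ k, ← mul_assoc, h3, mul_assoc]

theorem vq_comm {w : Q} {i : ι} (h1 : ∀ r, V (r, i) * w = w * V (r, i)) {ζ : Fin R → Q}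
    (h3 : ∀ k, ζ k * w = w * ζ k) : vq V ζ i * w = w * vq V ζ i := by
  unfold vq
  rw [Finset.sum_mul, Finset.mul_sum]
  apply Finset.sum_congr rfl
  intro r _
  rw [mul_assoc, h1, ← mul_assoc, h3, mul_assoc]

theorem pq_law (h : IsTracialState q) (s : MatSys q R P V) {J : ℕ} (hJ : 1 ≤ J)
    (Φ : Fin J → Finset (Fin R → Bool)) {z : Bool × Fin J → Q} (i : ι) {w : Q} (hw : w ∈ P 0)
    (hzc : ∀ k, z k * bt Φ V k i = bt Φ V k i * z k)
    (hl : ∀ k, q (w * bt Φ V k i * z k) = q (w * bt Φ V k i) / Fintype.card (Bool × Fin J)) :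
    q (w * pq Φ V z i) = (((∑ j, ((Φ j).card : ℝ) / 2 ^ R) / J : ℝ) : ℂ) * q w := by
  have hJr : (J : ℂ) ≠ 0 := by
    have : J ≠ 0 := by omega
    exact_mod_cast this
  have h1 : ∀ k, q (w * bt Φ V k i) = ((((Φ k.2).card : ℝ) / 2 ^ R : ℝ) : ℂ) * q w := by
    intro k
    unfold bt ev
    rw [Finset.mul_sum, map_sum]
    have h1 : ∀ ω : Fin R → Bool, q (w * (if ω ∈ Φ k.2 then (1 : ℂ) else 0) • atom (hf k.1 V i) ω) =
        if ω ∈ Φ k.2 then (1 / 2 : ℂ) ^ R * q w else 0 := by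
      intro ω
      rw [mul_smul_comm, map_smul, s.law h k.1 i w hw ω]
      split_ifs <;> simp
    simp_rw [h1]
    rw [Finset.sum_ite_mem, Finset.univ_inter, Finset.sum_const, nsmul_eq_mul]
    push_cast
    rw [one_div, inv_pow]
    ring
  unfold pq
  rw [Finset.mul_sum, map_sum]
  have h2 : ∀ k, q (w * (z k * bt Φ V k i)) =
      ((((Φ k.2).card : ℝ) / 2 ^ R : ℝ) : ℂ) * q w / (2 * J) := by
    intro k
    rw [hzc, ← mul_assoc, hl, h1, Fintype.card_prod, Fintype.card_fin, Fintype.card_bool]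
    push_cast; rfl
  simp_rw [h2]
  rw [Fintype.sum_prod_type, Fintype.sum_bool]
  push_cast
  rw [← Finset.sum_div, ← Finset.sum_mul]
  field_simp
  ring

/-- commutator of two bits -/
theorem pq_pq (h : IsTracialState q) {J : ℕ} (hJ : 1 ≤ J)
    (Φ : Fin J → Finset (Fin R → Bool)) {z : Bool × Fin J → Q} (hz : Part0 _ z)
    (hzc : ∀ i k, ∀ l, z l * bt Φ V k i = bt Φ V k i * z l) (i i' : ι)
    (hX : Ind0 q z (fun k => bt Φ V k i * bt Φ V k i' - bt Φ V k i' * bt Φ V k i)) {δ : ℝ}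
    (hδ0 : 0 ≤ δ)
    (hδ : ∀ k, nrm q (bt Φ V k i * bt Φ V k i' - bt Φ V k i' * bt Φ V k i) ≤ δ) :
    nrm q (pq Φ V z i * pq Φ V z i' - pq Φ V z i' * pq Φ V z i) ≤ δ := by
  haveI : Nonempty (Fin J) := ⟨⟨0, hJ⟩⟩
  have e : pq Φ V z i * pq Φ V z i' - pq Φ V z i' * pq Φ V z i =
      ∑ k, z k * (bt Φ V k i * bt Φ V k i' - bt Φ V k i' * bt Φ V k i) := by
    unfold pq
    rw [part_mul hz.id hz.orth _ _ (fun a b => hzc i a b),
      part_mul hz.id hz.orth _ _ (fun a b => hzc i' a b), ← Finset.sum_sub_distrib]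
    simp only [mul_sub]
  rw [e]
  exact hz.pyth_le h hX hδ hδ0

/-- commutator of a partial isometry and a bit -/
theorem vq_pq (h : IsTracialState q) {J : ℕ} (hJ : 1 ≤ J) (hR : 1 ≤ R)
    (Φ : Fin J → Finset (Fin R → Bool)) {z : Bool × Fin J → Q} (hz : Part0 _ z)
    (hzV : CommAll z V) {ζ : Fin R → Q} (hζ : Part0 _ ζ) (i i' : ι)
    (hζp : ∀ r, ζ r * pq Φ V z i' = pq Φ V z i' * ζ r)
    (hX : ∀ r, Ind0 q z (fun k => V (r, i) * bt Φ V k i' - bt Φ V k i' * V (r, i)))
    (hY : Ind0 q ζ (fun r => V (r, i) * pq Φ V z i' - pq Φ V z i' * V (r, i))) {δ : ℝ}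
    (hδ0 : 0 ≤ δ)
    (hδ : ∀ k r, nrm q (V (r, i) * bt Φ V k i' - bt Φ V k i' * V (r, i)) ≤ δ) :
    nrm q (vq V ζ i * pq Φ V z i' - pq Φ V z i' * vq V ζ i) ≤ δ := by
  haveI : Nonempty (Fin J) := ⟨⟨0, hJ⟩⟩
  haveI : Nonempty (Fin R) := ⟨⟨0, hR⟩⟩
  have e : vq V ζ i * pq Φ V z i' - pq Φ V z i' * vq V ζ i =
      ∑ r, ζ r * (V (r, i) * pq Φ V z i' - pq Φ V z i' * V (r, i)) := by
    unfold vq
    rw [Finset.sum_mul, Finset.mul_sum, ← Finset.sum_sub_distrib]
    apply Finset.sum_congr rfl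
    intro r _
    rw [mul_sub, ← mul_assoc, ← mul_assoc, ← hζp r, mul_assoc (ζ r) (pq Φ V z i')]
  rw [e]
  refine hζ.pyth_le h hY (fun r => ?_) hδ0
  have e2 : V (r, i) * pq Φ V z i' - pq Φ V z i' * V (r, i) =
      ∑ k, z k * (V (r, i) * bt Φ V k i' - bt Φ V k i' * V (r, i)) := by
    unfold pq
    rw [Finset.mul_sum, Finset.sum_mul, ← Finset.sum_sub_distrib]
    apply Finset.sum_congr rfl
    intro k _
    rw [mul_sub, ← mul_assoc, ← hzV k (r, i), mul_assoc, mul_assoc]
  rw [e2]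
  exact hz.pyth_le h (hX r) (fun k => hδ k r) hδ0

end

end Vale.Agent.P095
end

section

set_option linter.unusedSectionVars false
set_option linter.unusedVariables false
set_option linter.unusedSimpArgs false

namespace Vale.Agent.P095

open Filter Topology ComplexConjugate

/-- partition attached to a trial system -/
structure PartQ {Q : Type*} [Ring Q] [StarRing Q] {N k : ℕ} {ι : Type*}
    (x v : Fin N × ι → Q) (ζ : Fin N × Fin k → Q) : Prop where
  id : ∀ i, ζ i * ζ i = ζ i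
  orth : ∀ i j, i ≠ j → ζ i * ζ j = 0
  sa : ∀ i, star (ζ i) = ζ i
  one : ∑ i, ζ i = 1
  cx : ∀ i k, ζ i * x k = x k * ζ i
  cv : ∀ i k, ζ i * v k = v k * ζ i

section
variable {Q : Type*} [Ring Q] [StarRing Q] [Algebra ℂ Q] [StarModule ℂ Q] {q : Q →ₗ[ℂ] ℂ}
  {N k : ℕ} {ι : Type*} [Fintype ι] [DecidableEq ι] {P : ℕ → Submonoid Q} {x v : Fin N × ι → Q}
  {μ C κ : ℝ} {ζ : Fin N × Fin k → Q}

/-- independence of the partition from a family -/
def IndQ (q : Q →ₗ[ℂ] ℂ) (ζ : Fin N × Fin k → Q) (X : Fin N × Fin k → Q) : Prop :=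
  (∀ i, ζ i * X i = X i * ζ i) ∧
    ∀ i, q (star (X i) * X i * ζ i) = q (star (X i) * X i) / (N * k)

/-- the event -/
noncomputable def Wq (x : Fin N × ι → Q) (ζ : Fin N × Fin k → Q) (J : Finset ι) : Q :=
  ∑ i, ζ i * tw x J i.2

/-- the partial isometry -/
noncomputable def Yq (x v : Fin N × ι → Q) (ζ : Fin N × Fin k → Q) (J : Finset ι) : Q :=
  ∑ i, ζ i * ty x v J i.1 i.2

theorem PartQ.ctw (s : TrialSys q μ C κ N P x v) (p : PartQ x v ζ) (i : Fin N × Fin k)
    (J : Finset ι) (j : ℕ) : ζ i * tw x J j = tw x J j * ζ i :=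
  (s.alg J i.1 j).2.2.2.2.1 _ (p.cx i)

theorem PartQ.cty (s : TrialSys q μ C κ N P x v) (p : PartQ x v ζ) (i : Fin N × Fin k)
    (J : Finset ι) (n : Fin N) (j : ℕ) : ζ i * ty x v J n j = ty x v J n j * ζ i :=
  (s.alg J n j).2.2.2.2.2 _ (p.cx i) (p.cv i)

theorem PartQ.W_star (s : TrialSys q μ C κ N P x v) (p : PartQ x v ζ) (J : Finset ι) :
    star (Wq x ζ J) = Wq x ζ J := by
  unfold Wq
  rw [star_sum]
  apply Finset.sum_congr rfl
  intro i _
  rw [star_mul, p.sa, (s.alg J i.1 i.2).1, p.ctw s]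

theorem PartQ.W_idem (s : TrialSys q μ C κ N P x v) (p : PartQ x v ζ) (J : Finset ι) :
    Wq x ζ J * Wq x ζ J = Wq x ζ J := by
  unfold Wq
  rw [part_mul p.id p.orth _ _ (fun i j => p.ctw s j _ _)]
  apply Finset.sum_congr rfl
  intro i _
  rw [(s.alg J i.1 i.2).2.1]

theorem PartQ.W_Y (s : TrialSys q μ C κ N P x v) (p : PartQ x v ζ) (J : Finset ι) :
    Wq x ζ J * Yq x v ζ J = Yq x v ζ J := by
  unfold Wq Yq
  rw [part_mul p.id p.orth _ _ (fun i j => p.ctw s j _ _)]
  apply Finset.sum_congr rfl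
  intro i _
  rw [(s.alg J i.1 i.2).2.2.1]

theorem PartQ.Y_W (s : TrialSys q μ C κ N P x v) (p : PartQ x v ζ) (J : Finset ι) :
    Yq x v ζ J * Wq x ζ J = Yq x v ζ J := by
  unfold Wq Yq
  rw [part_mul p.id p.orth _ _ (fun i j => p.cty s j _ _ _)]
  apply Finset.sum_congr rfl
  intro i _
  rw [(s.alg J i.1 i.2).2.2.2.1]

theorem PartQ.W_W (s : TrialSys q μ C κ N P x v) (p : PartQ x v ζ) (J J' : Finset ι) :
    Wq x ζ J * Wq x ζ J' = Wq x ζ J' * Wq x ζ J := by
  unfold Wq
  rw [part_mul p.id p.orth _ _ (fun i j => p.ctw s j _ _),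
    part_mul p.id p.orth _ _ (fun i j => p.ctw s j _ _)]
  apply Finset.sum_congr rfl
  intro i _
  unfold tw
  rw [← s.commProj.ev_mul, ← s.commProj.ev_mul]
  congr 2
  funext ω
  ring

theorem PartQ.W_comm (s : TrialSys q μ C κ N P x v) (p : PartQ x v ζ) (J : Finset ι) {w : Q}
    (h1 : ∀ k, w * x k = x k * w) (h3 : ∀ i, ζ i * w = w * ζ i) :
    Wq x ζ J * w = w * Wq x ζ J := by
  unfold Wq
  rw [Finset.sum_mul, Finset.mul_sum]
  apply Finset.sum_congr rfl
  intro i _
  rw [mul_assoc, ← (s.alg J i.1 i.2).2.2.2.2.1 _ h1, ← mul_assoc, h3, mul_assoc]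

theorem PartQ.Y_comm (s : TrialSys q μ C κ N P x v) (p : PartQ x v ζ) (J : Finset ι) {w : Q}
    (h1 : ∀ k, w * x k = x k * w) (h2 : ∀ k, w * v k = v k * w) (h3 : ∀ i, ζ i * w = w * ζ i) :
    Yq x v ζ J * w = w * Yq x v ζ J := by
  unfold Yq
  rw [Finset.sum_mul, Finset.mul_sum]
  apply Finset.sum_congr rfl
  intro i _
  rw [mul_assoc, ← (s.alg J i.1 i.2).2.2.2.2.2 _ h1 h2, ← mul_assoc, h3, mul_assoc]

theorem PartQ.contr (h : IsTracialState q) (s : TrialSys q μ C κ N P x v) (p : PartQ x v ζ)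
    (J : Finset ι) (z : Q) : nrm q (Yq x v ζ J * z) ≤ nrm q z := by
  apply le_of_sq_le_sq _ (nrm_nonneg _)
  unfold Yq
  rw [Finset.sum_mul]
  have h1 : (∑ i, ζ i * ty x v J i.1 i.2 * z) = ∑ i, ζ i * (ty x v J i.1 i.2 * z) :=
    Finset.sum_congr rfl (fun i _ => mul_assoc _ _ _)
  rw [h1, nrm_part_sum h p.id p.orth p.sa, ← nrm_part_one h p.id p.orth p.sa p.one z]
  apply Finset.sum_le_sum
  intro i _
  apply pow_le_pow_left₀ (nrm_nonneg _)
  rw [← mul_assoc, p.cty s, mul_assoc]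
  refine (s.contr h J i.1 i.2 _).trans ?_
  exact nrm_proj_mul_le h (s.alg J i.1 i.2).1 (s.alg J i.1 i.2).2.1 _

theorem sum_prod_eq (f : Fin N → ℕ → ℝ) : (∑ i : Fin N × Fin k, f i.1 i.2) =
    ∑ n : Fin N, ∑ j ∈ Finset.range k, f n j := by
  rw [Fintype.sum_prod_type]
  apply Finset.sum_congr rfl
  intro n _
  rw [Finset.sum_range]

theorem PartQ.pyth (h : IsTracialState q) (p : PartQ x v ζ) (hN : 0 < N) (hk : 0 < k)
    {X : Fin N × Fin k → Q} (hX : IndQ q ζ X) :
    nrm q (∑ i, ζ i * X i) ^ 2 = (∑ i, nrm q (X i) ^ 2) / (N * k) := by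
  haveI : Nonempty (Fin N × Fin k) := ⟨(⟨0, hN⟩, ⟨0, hk⟩)⟩
  have hI : (Fintype.card (Fin N × Fin k)) = N * k := by
    simp only [Fintype.card_prod, Fintype.card_fin]
  rw [nrm_part h p.id p.orth p.sa hX.1, hI]
  · push_cast; rfl
  · intro i
    rw [hX.2 i, hI]; push_cast; rfl

theorem PartQ.law (h : IsTracialState q) (s : TrialSys q μ C κ N P x v) (p : PartQ x v ζ)
    (hN : 0 < N) {J : Finset ι} (hJ : J.card = k) (hk : 0 < k) {w : Q} (hw : w ∈ P 0)
    (hl : ∀ i : Fin N × Fin k, q (w * tw x J i.2 * ζ i) = q (w * tw x J i.2) / (N * k)) :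
    q (w * Wq x ζ J) = μ ^ N * q w := by
  unfold Wq
  rw [Finset.mul_sum, map_sum]
  have h1 : ∀ i : Fin N × Fin k, q (w * (ζ i * tw x J i.2)) = q (w * tw x J i.2) / (N * k) := by
    intro i
    rw [p.ctw s, ← mul_assoc, hl]
  simp_rw [h1]
  rw [← Finset.sum_div, Fintype.sum_prod_type]
  have h2 := s.law_evt h J w hw
  rw [hJ, Finset.sum_range] at h2
  simp_rw [h2]
  rw [Finset.sum_const, Finset.card_univ, Fintype.card_fin, nsmul_eq_mul]
  have hN' : (N : ℂ) ≠ 0 := by exact_mod_cast hN.ne'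
  have hk' : (k : ℂ) ≠ 0 := by exact_mod_cast hk.ne'
  field_simp

theorem PartQ.sq (h : IsTracialState q) (s : TrialSys q μ C κ N P x v) (p : PartQ x v ζ)
    (hN : 0 < N) (hk : 0 < k) (hμ : 0 < μ) (hμ1 : μ ≤ 1) (hC : 0 ≤ C) (hκ : 0 ≤ κ)
    {J : Finset ι} (hJ : J.card = k)
    (hX : IndQ q ζ (fun i => ty x v J i.1 i.2 * ty x v J i.1 i.2)) :
    nrm q (Yq x v ζ J * Yq x v ζ J) ^ 2 ≤
      ((k : ℝ) ^ 2 * ((2 * C + N * κ / μ) * μ ^ N)) / (N * k) := by
  unfold Yq
  rw [part_mul p.id p.orth _ _ (fun i j => p.cty s j _ _ _), p.pyth h hN hk hX,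
    sum_prod_eq (fun n j => nrm q (ty x v J n j * ty x v J n j) ^ 2)]
  have := s.bound_sq h hμ hμ1 hC hκ J
  rw [hJ] at this
  have hNk : (0 : ℝ) < N * k := by (clear * - hN hk; positivity)
  exact div_le_div_of_nonneg_right this hNk.le

theorem PartQ.oneB (h : IsTracialState q) (s : TrialSys q μ C κ N P x v) (p : PartQ x v ζ)
    (hN : 0 < N) (hk : 0 < k) (hμ : 0 < μ) (hμ1 : μ ≤ 1) (hC : 0 ≤ C) (hκ : 0 ≤ κ)
    {J : Finset ι} (hJ : J.card = k)
    (hX : IndQ q ζ (fun i => star (ty x v J i.1 i.2) * ty x v J i.1 i.2 +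
      ty x v J i.1 i.2 * star (ty x v J i.1 i.2) - tw x J i.2)) :
    nrm q (star (Yq x v ζ J) * Yq x v ζ J + Yq x v ζ J * star (Yq x v ζ J) - Wq x ζ J) ^ 2 ≤
      (4 * (k : ℝ) ^ 2 * ((2 * C + N * κ / μ) * μ ^ N)) / (N * k) := by
  have hst : star (Yq x v ζ J) = ∑ i, ζ i * star (ty x v J i.1 i.2) := by
    unfold Yq
    rw [star_sum]
    apply Finset.sum_congr rfl
    intro i _
    rw [← p.sa i, ← star_mul, p.sa, p.cty s]
  have hc' : ∀ i j, ζ j * star (ty x v J (i : Fin N × Fin k).1 i.2) =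
      star (ty x v J i.1 i.2) * ζ j := by
    intro i j
    have := congrArg star (p.cty s j J i.1 i.2)
    rw [star_mul, star_mul, p.sa] at this
    exact this.symm
  have hsum : star (Yq x v ζ J) * Yq x v ζ J + Yq x v ζ J * star (Yq x v ζ J) - Wq x ζ J =
      ∑ i, ζ i * (star (ty x v J i.1 i.2) * ty x v J i.1 i.2 +
      ty x v J i.1 i.2 * star (ty x v J i.1 i.2) - tw x J i.2) := by
    rw [hst]
    unfold Yq Wq
    rw [part_mul p.id p.orth _ _ hc', part_mul p.id p.orth _ _ (fun i j => p.cty s j _ _ _),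
      ← Finset.sum_add_distrib, ← Finset.sum_sub_distrib]
    apply Finset.sum_congr rfl
    intro i _
    rw [mul_sub, mul_add]
  rw [hsum, p.pyth h hN hk hX, sum_prod_eq (fun n j => nrm q (star (ty x v J n j) * ty x v J n j +
      ty x v J n j * star (ty x v J n j) - tw x J j) ^ 2)]
  have := s.bound_one h hμ hμ1 hC hκ J
  rw [hJ] at this
  have hNk : (0 : ℝ) < N * k := by positivity
  exact div_le_div_of_nonneg_right this hNk.le

theorem PartQ.inv (h : IsTracialState q) (s : TrialSys q μ C κ N P x v) (p : PartQ x v ζ)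
    (hN : 0 < N) (hk : 0 < k) (hμ : 0 < μ) (hμ1 : μ ≤ 1) (hC : 0 ≤ C) (hκ : 0 ≤ κ)
    {J J' : Finset ι} (hJ : J.card = k) (hJ' : J'.card = k)
    (hX : IndQ q ζ (fun i => ty x v J' i.1 i.2 - ty x v J i.1 i.2)) :
    nrm q (Yq x v ζ J' - Yq x v ζ J) ^ 2 ≤
      ((k : ℝ) ^ 2 * ((2 * C + N * κ / μ) * μ ^ N) +
        N * (((J \ J').card + (J' \ J).card : ℕ) : ℝ) * μ ^ N) / (N * k) := by
  have hsum : Yq x v ζ J' - Yq x v ζ J = ∑ i, ζ i * (ty x v J' i.1 i.2 - ty x v J i.1 i.2) := by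
    unfold Yq
    rw [← Finset.sum_sub_distrib]
    apply Finset.sum_congr rfl
    intro i _
    rw [mul_sub]
  rw [hsum, p.pyth h hN hk hX, sum_prod_eq (fun n j => nrm q (ty x v J' n j - ty x v J n j) ^ 2)]
  have := s.bound_inv h hμ hμ1 hC hκ J J' (hJ'.trans hJ.symm)
  rw [hJ] at this
  have hNk : (0 : ℝ) < N * k := by (clear * - hN hk; positivity)
  exact div_le_div_of_nonneg_right this hNk.le

theorem PartQ.evtB (h : IsTracialState q) (s : TrialSys q μ C κ N P x v) (p : PartQ x v ζ)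
    (hN : 0 < N) (hk : 0 < k) (hμ : 0 < μ)
    {J J' : Finset ι} (hJ : J.card = k) (hJ' : J'.card = k) {w : Q} (hw : w ∈ P 0)
    (hX : IndQ q ζ (fun i => (tw x J' i.2 - tw x J i.2) * w)) :
    nrm q ((Wq x ζ J' - Wq x ζ J) * w) ^ 2 ≤
      (N * ((((J \ J').card + (J' \ J).card : ℕ) : ℝ) * μ ^ N * nrm q w ^ 2)) / (N * k) := by
  have hsum : (Wq x ζ J' - Wq x ζ J) * w = ∑ i, ζ i * ((tw x J' i.2 - tw x J i.2) * w) := by
    unfold Wq
    rw [← Finset.sum_sub_distrib, Finset.sum_mul]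
    apply Finset.sum_congr rfl
    intro i _
    rw [← mul_sub, mul_assoc]
  rw [hsum, p.pyth h hN hk hX, sum_prod_eq (fun _ j => nrm q ((tw x J' j - tw x J j) * w) ^ 2)]
  have := s.bound_evt h hμ J J' (hJ'.trans hJ.symm) w hw
  rw [hJ] at this
  have hNk : (0 : ℝ) < N * k := by positivity
  rw [Finset.sum_const, Finset.card_univ, Fintype.card_fin, nsmul_eq_mul]
  apply div_le_div_of_nonneg_right _ hNk.le
  exact mul_le_mul_of_nonneg_left this (by positivity)

end

end Vale.Agent.P095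
end
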