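import Vale.Agent.P095.MathlibUsed
import Vale.Agent.P101.StmtZ
import Vale.Agent.P083.Stable
import Vale.Agent.P095.Bdl.B2
import Vale.Agent.P095.Bdl.B3

set_option linter.all false

namespace AFast791dddx8a
@[reducible] noncomputable def a0.{u1} {x1 : Type u1} {x2 : Type u1} [x3 : CStarAlgebra x1] [x4 : NonUnitalCStarAlgebra x2] : Module ℂ (x1 →ₗ[ℂ] x2) := inferInstance
@[reducible] noncomputable def a1.{u1} {x1 : Type u1} [x2 : NonUnitalCStarAlgebra x1] : Star (DoubleCentralizer ℂ x1) := inferInstance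
@[reducible] noncomputable def a2.{u1} {x1 : Type u1} {x2 : Type u1} [x3 : NonUnitalCStarAlgebra x1] [x4 : CStarAlgebra x2] : Algebra ℂ (Module.End ℂ (TensorProduct ℂ x1 x2)) := inferInstance
@[reducible] def a3.{u1} {x1 : Type u1} [x2 : NonUnitalCStarAlgebra x1] : MulOne (x1 ≃⋆ₐ[ℂ] x1) := inferInstance
@[reducible] def a4.{u1} {x1 : Type u1} [x2 : NonUnitalCStarAlgebra x1] : MulOneClass (x1 ≃⋆ₐ[ℂ] x1) := inferInstance
@[reducible] def a5.{u1} {x1 : Type u1} [x2 : NonUnitalCStarAlgebra x1] : Monoid (x1 ≃⋆ₐ[ℂ] x1) := inferInstance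
theorem a6.{u1, u2} {x1 : Type u1} {x2 : Type u2} [x3 : CStarAlgebra x2] [x4 : PartialOrder x2] [x5 : StarOrderedRing x2] [x6 : Fintype x1] : IsOrderedAddMonoid (CStarMatrix x1 x1 x2) := inferInstance
theorem a7.{u1} {x1 : Type u1} [x2 : NonUnitalCStarAlgebra x1] : NonUnitalStarRingHomClass (x1 ≃⋆ₐ[ℂ] x1) x1 x1 := inferInstance
theorem a8 : CovariantClass ℝ ℝ (Function.swap fun x1 x2 => x1 + x2) fun x1 x2 => x1 ≤ x2 := inferInstance
theorem a9.{u1} {x1 : Type u1} {x2 : Type u1} [x3 : NonUnitalCStarAlgebra x1] [x4 : CStarAlgebra x2] : SMulCommClass ℂ ℂ (TensorProduct ℂ x1 x2) := inferInstance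
theorem a10.{u1} {x1 : Type u1} {x2 : Type u1} [x3 : NonUnitalCStarAlgebra x1] [x4 : CStarAlgebra x2] : IsScalarTower ℂ ℂ (TensorProduct ℂ x1 x2) := inferInstance
theorem a11 : AddLeftMono ℝ := inferInstance
@[reducible] noncomputable def a12.{u1} {x1 : Type u1} [x2 : NonUnitalCStarAlgebra x1] : Semiring (DoubleCentralizer ℂ x1) := inferInstance
@[reducible] noncomputable def a13.{u1} {x1 : Type u1} [x2 : NonUnitalCStarAlgebra x1] : StarRing (DoubleCentralizer ℂ x1) := inferInstance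
theorem a14 : AddRightStrictMono ℝ := inferInstance
theorem a15 : AddRightReflectLE ℝ := inferInstance
theorem a16.{u1} {x1 : Type u1} [x2 : NormedAddCommGroup x1] [x3 : InnerProductSpace ℂ x1] : AddMonoidHomClass (x1 →L[ℂ] x1) x1 x1 := inferInstance
@[reducible] def a17.{u1} {x1 : Type u1} [x2 : NormedAddCommGroup x1] [x3 : InnerProductSpace ℂ x1] : Semiring (x1 →L[ℂ] x1) := inferInstance
@[reducible] noncomputable def a18.{u1} {x1 : Type u1} {x2 : Type u1} [x3 : CStarAlgebra x1] [x4 : NonUnitalCStarAlgebra x2] : AddCommMonoid (x1 →ₗ[ℂ] x2) := inferInstance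
theorem a19.{u1, u2} {x1 : Type u1} {x2 : Type u2} [x3 : Fintype x1] [x4 : CStarAlgebra x2] [x5 : PartialOrder x2] [x6 : StarOrderedRing x2] : IsOrderedAddMonoid (CStarMatrix x1 x1 x2) := inferInstance
@[reducible] noncomputable def a20.{u1} {x1 : Type u1} [x2 : NonUnitalCStarAlgebra x1] : StarMul (DoubleCentralizer ℂ x1) := inferInstance
theorem a21 : IsRightCancelAdd ℝ := inferInstance
theorem a22.{u1, u2} {x1 : Type u1} {x2 : Type u2} [x3 : CStarAlgebra x2] [x4 : PartialOrder x2] [x5 : StarOrderedRing x2] [x6 : Fintype x1] : IsOrderedCancelAddMonoid (CStarMatrix x1 x1 x2) := inferInstance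
@[reducible] noncomputable def a23.{u1, u2} {x1 : Type u1} {x2 : Type u2} [x3 : CStarAlgebra x2] : SMulZeroClass ℝ (CStarMatrix x1 x1 x2) := inferInstance
@[reducible] def a24.{u1} {x1 : Type u1} [x2 : AddCommGroup x1] [x3 : Module ℂ x1] : Algebra ℂ (Module.End ℂ x1) := inferInstance
theorem a25 : AddLeftReflectLE ℝ := inferInstance
@[reducible] noncomputable def a26.{u1} {x1 : Type u1} {x2 : Type u1} [x3 : NonUnitalCStarAlgebra x1] [x4 : CStarAlgebra x2] : Module ℂ (TensorProduct ℂ x1 x2) := inferInstance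
@[reducible] noncomputable def a27.{u1} {x1 : Type u1} [x2 : NonUnitalCStarAlgebra x1] : NonUnitalNonAssocRing (DoubleCentralizer ℂ x1) := inferInstance
theorem a28 : CharZero ℝ := inferInstance
@[reducible] noncomputable def a29.{u1, u2} {x1 : Type u1} {x2 : Type u2} [x3 : CStarAlgebra x2] : DistribSMul ℝ (CStarMatrix x1 x1 x2) := inferInstance
@[reducible] noncomputable def a30.{u1} {x1 : Type u1} {x2 : Type u1} [x3 : NonUnitalCStarAlgebra x1] [x4 : CStarAlgebra x2] : AddCommMonoid (TensorProduct ℂ x1 x2) := inferInstance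
theorem a31.{u1} {x1 : Type u1} [x2 : NonUnitalCStarAlgebra x1] : NonUnitalAlgHomClass (x1 ≃⋆ₐ[ℂ] x1) ℂ x1 x1 := inferInstance
theorem a32 : ContravariantClass ℝ ℝ (fun x1 x2 => x1 + x2) fun x1 x2 => x1 < x2 := inferInstance
theorem a33 : IsLeftCancelAdd ℝ := inferInstance
theorem a34.{u1} {x1 : Type u1} [x2 : NonUnitalCStarAlgebra x1] : DistribMulActionSemiHomClass (x1 →L[ℂ] x1) (⇑(RingHom.id ℂ)) x1 x1 := inferInstance
theorem a35.{u1, u2} {x1 : Type u1} {x2 : Type u2} [x3 : AddCommGroup x1] [x4 : NonUnitalCStarAlgebra x2] [x5 : Module ℂ x1] : ZeroHomClass (x1 →ₗ[ℂ] x2) x1 x2 := inferInstance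
@[reducible] noncomputable def a36.{u1} {x1 : Type u1} [x2 : NonUnitalCStarAlgebra x1] : NonAssocRing (DoubleCentralizer ℂ x1) := inferInstance
@[reducible] def a37.{u1} {x1 : Type u1} [x2 : NormedAddCommGroup x1] [x3 : InnerProductSpace ℂ x1] : AddCommMonoid (x1 →L[ℂ] x1) := inferInstance
@[reducible] def a38.{u1} {x1 : Type u1} [x2 : NormedAddCommGroup x1] [x3 : InnerProductSpace ℂ x1] : NonAssocSemiring (x1 →L[ℂ] x1) := inferInstance
@[reducible] noncomputable def a39.{u1} {x1 : Type u1} [x2 : NonUnitalCStarAlgebra x1] : MulOne (DoubleCentralizer ℂ x1 ≃⋆ₐ[ℂ] DoubleCentralizer ℂ x1) := inferInstance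
@[reducible] noncomputable def a40.{u1} {x1 : Type u1} [x2 : NonUnitalCStarAlgebra x1] : AddCommMonoid (DoubleCentralizer ℂ x1) := inferInstance
@[reducible] noncomputable def a41.{u1} {x1 : Type u1} [x2 : NonUnitalCStarAlgebra x1] : MulOneClass (DoubleCentralizer ℂ x1 ≃⋆ₐ[ℂ] DoubleCentralizer ℂ x1) := inferInstance
theorem a42 : ContravariantClass ℝ ℝ (Function.swap fun x1 x2 => x1 + x2) fun x1 x2 => x1 < x2 := inferInstance
@[reducible] noncomputable def a43.{u1} {x1 : Type u1} [x2 : NonUnitalCStarAlgebra x1] : NonUnitalNonAssocSemiring (DoubleCentralizer ℂ x1) := inferInstance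
theorem a44.{u1, u2} {x1 : Type u1} {x2 : Type u2} [x3 : AddCommGroup x1] [x4 : NonUnitalCStarAlgebra x2] [x5 : Module ℂ x1] : AddMonoidHomClass (x1 →ₗ[ℂ] x2) x1 x2 := inferInstance
@[reducible] noncomputable def a45.{u1, u2} {x1 : Type u1} {x2 : Type u2} [x3 : CStarAlgebra x2] : DistribMulAction ℝ (CStarMatrix x1 x1 x2) := inferInstance
theorem a46.{u1, u2} {x1 : Type u1} {x2 : Type u2} [x3 : AddCommGroup x1] [x4 : NonUnitalCStarAlgebra x2] [x5 : Module ℂ x1] : DistribMulActionSemiHomClass (x1 →ₗ[ℂ] x2) (⇑(RingHom.id ℂ)) x1 x2 := inferInstance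
theorem a47.{u1, u2} {x1 : Type u1} {x2 : Type u2} [x3 : CStarAlgebra x2] : StarModule ℝ (CStarMatrix x1 x1 x2) := inferInstance
@[reducible] noncomputable def a48.{u1} {x1 : Type u1} [x2 : NonUnitalCStarAlgebra x1] : Monoid (DoubleCentralizer ℂ x1 ≃⋆ₐ[ℂ] DoubleCentralizer ℂ x1) := inferInstance
theorem a49.{u1} {x1 : Type u1} [x2 : NonUnitalCStarAlgebra x1] : SemilinearMapClass (x1 →L[ℂ] x1) (RingHom.id ℂ) x1 x1 := inferInstance
theorem a50 : PosMulReflectLT ℝ := inferInstance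
theorem a51 : PosMulStrictMono ℝ := inferInstance
@[reducible] noncomputable def a52.{u1} {x1 : Type u1} [x2 : NonUnitalCStarAlgebra x1] : StarAddMonoid (DoubleCentralizer ℂ x1) := inferInstance
theorem a53 : PosMulReflectLE ℝ := inferInstance
@[reducible] noncomputable def a54.{u1} {x1 : Type u1} [x2 : NonUnitalCStarAlgebra x1] {x3 : Type u1} [x4 : CStarAlgebra x3] : NonUnitalNonAssocSemiring (TensorProduct ℂ (DoubleCentralizer ℂ x1) x3) := inferInstance
theorem a55.{u1} {x1 : Type u1} [x2 : NonUnitalCStarAlgebra x1] : AddMonoidHomClass (x1 →⋆ₙₐ[ℂ] DoubleCentralizer ℂ x1) x1 (DoubleCentralizer ℂ x1) := inferInstance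
@[reducible] noncomputable def a56.{u1} {x1 : Type u1} [x2 : NonUnitalCStarAlgebra x1] {x3 : Type u1} [x4 : CStarAlgebra x3] : NonAssocSemiring (TensorProduct ℂ (DoubleCentralizer ℂ x1) x3) := inferInstance
@[reducible] noncomputable def a57.{u1, u2} {x1 : Type u1} {x2 : Type u2} [x3 : CStarAlgebra x2] : Module ℝ (CStarMatrix x1 x1 x2) := inferInstance
@[reducible] def a58.{u1} {x1 : Type u1} [x2 : AddCommGroup x1] [x3 : Module ℂ x1] : Module ℂ (Module.End ℂ x1) := inferInstance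
@[reducible] noncomputable def a59.{u1} {x1 : Type u1} [x2 : NonUnitalCStarAlgebra x1] : Distrib (DoubleCentralizer ℂ x1) := inferInstance
@[reducible] noncomputable def a60.{u1} {x1 : Type u1} [x2 : NonUnitalCStarAlgebra x1] : Norm (x1 →L[ℂ] x1) := inferInstance
@[reducible] noncomputable def a61.{u1} {x1 : Type u1} [x2 : NonUnitalCStarAlgebra x1] : InvolutiveStar (DoubleCentralizer ℂ x1) := inferInstance
@[reducible] noncomputable def a62.{u1} {x1 : Type u1} {x2 : Type u1} [x3 : NonUnitalCStarAlgebra x1] [x4 : CStarAlgebra x2] : AddCommGroup (TensorProduct ℂ x1 x2) := inferInstance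
@[reducible] def a63 {x1 : Type} : MulOne (FreeGroup x1) := inferInstance
theorem a64.{u1} {x1 : Type u1} [x2 : NonUnitalCStarAlgebra x1] : MulHomClass (x1 ≃⋆ₐ[ℂ] x1) x1 x1 := inferInstance
@[reducible] noncomputable def a65.{u1} {x1 : Type u1} [x2 : NonUnitalCStarAlgebra x1] : MulOneClass (DoubleCentralizer ℂ x1) := inferInstance
@[reducible] def a66 {x1 : Type} : MulOneClass (FreeGroup x1) := inferInstance
end AFast791dddx8a
attribute [local instance] AFast791dddx8a.a0 AFast791dddx8a.a1 AFast791dddx8a.a2 AFast791dddx8a.a3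
  AFast791dddx8a.a4 AFast791dddx8a.a5 AFast791dddx8a.a6 AFast791dddx8a.a7 AFast791dddx8a.a8
  AFast791dddx8a.a9 AFast791dddx8a.a10 AFast791dddx8a.a11 AFast791dddx8a.a12 AFast791dddx8a.a13
  AFast791dddx8a.a14 AFast791dddx8a.a15 AFast791dddx8a.a16 AFast791dddx8a.a17 AFast791dddx8a.a18
  AFast791dddx8a.a19 AFast791dddx8a.a20 AFast791dddx8a.a21 AFast791dddx8a.a22 AFast791dddx8a.a23
  AFast791dddx8a.a24 AFast791dddx8a.a25 AFast791dddx8a.a26 AFast791dddx8a.a27 AFast791dddx8a.a28
  AFast791dddx8a.a29 AFast791dddx8a.a30 AFast791dddx8a.a31 AFast791dddx8a.a32 AFast791dddx8a.a33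
  AFast791dddx8a.a34 AFast791dddx8a.a35 AFast791dddx8a.a36 AFast791dddx8a.a37 AFast791dddx8a.a38
  AFast791dddx8a.a39 AFast791dddx8a.a40 AFast791dddx8a.a41 AFast791dddx8a.a42 AFast791dddx8a.a43
  AFast791dddx8a.a44 AFast791dddx8a.a45 AFast791dddx8a.a46 AFast791dddx8a.a47 AFast791dddx8a.a48
  AFast791dddx8a.a49 AFast791dddx8a.a50 AFast791dddx8a.a51 AFast791dddx8a.a52 AFast791dddx8a.a53
  AFast791dddx8a.a54 AFast791dddx8a.a55 AFast791dddx8a.a56 AFast791dddx8a.a57 AFast791dddx8a.a58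
  AFast791dddx8a.a59 AFast791dddx8a.a60 AFast791dddx8a.a61 AFast791dddx8a.a62 AFast791dddx8a.a63
  AFast791dddx8a.a64 AFast791dddx8a.a65 AFast791dddx8a.a66
namespace AFast791dddx8b
@[reducible] noncomputable def a0.{u1} {x1 : Type u1} [x2 : NonUnitalCStarAlgebra x1] : SMul ℂ (DoubleCentralizer ℂ x1) := inferInstance
@[reducible] noncomputable def a1.{u1} {x1 : Type u1} [x2 : NonUnitalCStarAlgebra x1] : DistribMulAction ℂ (DoubleCentralizer ℂ x1) := inferInstance
@[reducible] noncomputable def a2.{u1} {x1 : Type u1} [x2 : NonUnitalCStarAlgebra x1] : Module ℂ (DoubleCentralizer ℂ x1) := inferInstance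
@[reducible] noncomputable def a3.{u1} {x1 : Type u1} [x2 : NonUnitalCStarAlgebra x1] : SMulZeroClass ℝ (DoubleCentralizer ℂ x1) := inferInstance
@[reducible] noncomputable def a4.{u1} {x1 : Type u1} [x2 : NonUnitalCStarAlgebra x1] : DistribSMul ℝ (DoubleCentralizer ℂ x1) := inferInstance
@[reducible] noncomputable def a5.{u1} {x1 : Type u1} [x2 : NonUnitalCStarAlgebra x1] : DistribMulAction ℝ (DoubleCentralizer ℂ x1) := inferInstance
@[reducible] noncomputable def a6.{u1} {x1 : Type u1} [x2 : NonUnitalCStarAlgebra x1] : Module ℝ (DoubleCentralizer ℂ x1) := inferInstance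
@[reducible] noncomputable def a7.{u1} {x1 : Type u1} [x2 : NonUnitalCStarAlgebra x1] : SMulZeroClass ℂ (DoubleCentralizer ℂ x1) := inferInstance
@[reducible] noncomputable def a8.{u1} {x1 : Type u1} [x2 : NonUnitalCStarAlgebra x1] : DistribSMul ℂ (DoubleCentralizer ℂ x1) := inferInstance
@[reducible] def a9.{u1} {x1 : Type u1} [x2 : NormedAddCommGroup x1] [x3 : InnerProductSpace ℂ x1] : Algebra ℂ (x1 →L[ℂ] x1) := inferInstance
theorem a10.{u1} {x1 : Type u1} [x2 : NonUnitalCStarAlgebra x1] : NonUnitalStarRingHomClass (DoubleCentralizer ℂ x1 ≃⋆ₐ[ℂ] DoubleCentralizer ℂ x1) (DoubleCentralizer ℂ x1) (DoubleCentralizer ℂ x1) := inferInstance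
@[reducible] def a11.{u1} {x1 : Type u1} [x2 : NormedAddCommGroup x1] [x3 : InnerProductSpace ℂ x1] : Module ℂ (x1 →L[ℂ] x1) := inferInstance
theorem a12.{u1} {x1 : Type u1} [x2 : NonUnitalCStarAlgebra x1] : StarHomClass (x1 ≃⋆ₐ[ℂ] x1) x1 x1 := inferInstance
theorem a13.{u1} {x1 : Type u1} [x2 : NonUnitalCStarAlgebra x1] : MulActionSemiHomClass (x1 ≃⋆ₐ[ℂ] x1) (⇑(RingHom.id ℂ)) x1 x1 := inferInstance
theorem a14.{u1} {x1 : Type u1} {x2 : Type u1} [x3 : NonUnitalCStarAlgebra x1] [x4 : CStarAlgebra x2] {x5 : Type u1} [x6 : NonUnitalCStarAlgebra x5] : ZeroHomClass (TensorProduct ℂ x1 x2 →ₗ[ℂ] x5) (TensorProduct ℂ x1 x2) x5 := inferInstance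
theorem a15.{u1} {x1 : Type u1} [x2 : NonUnitalCStarAlgebra x1] : LinearMapClass (x1 ≃⋆ₐ[ℂ] x1) ℂ x1 x1 := inferInstance
theorem a16.{u1, u2} {x1 : Type u1} {x2 : Type u2} [x3 : CStarAlgebra x2] [x4 : PartialOrder x2] [x5 : StarOrderedRing x2] [x6 : Fintype x1] : AddLeftMono (CStarMatrix x1 x1 x2) := inferInstance
theorem a17.{u1, u2} {x1 : Type u1} {x2 : Type u2} [x3 : CStarAlgebra x2] [x4 : PartialOrder x2] [x5 : StarOrderedRing x2] [x6 : Fintype x1] [x7 : DecidableEq x1] : PosSMulMono ℝ (CStarMatrix x1 x1 x2) := inferInstance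
theorem a18.{u1} {x1 : Type u1} {x2 : Type u1} [x3 : NonUnitalCStarAlgebra x1] [x4 : CStarAlgebra x2] {x5 : Type u1} [x6 : NonUnitalCStarAlgebra x5] : AddMonoidHomClass (TensorProduct ℂ x1 x2 →ₗ[ℂ] x5) (TensorProduct ℂ x1 x2) x5 := inferInstance
theorem a19.{u1, u2} {x1 : Type u1} {x2 : Type u2} [x3 : Fintype x1] [x4 : CStarAlgebra x2] [x5 : PartialOrder x2] [x6 : StarOrderedRing x2] [x7 : DecidableEq x1] : IsOrderedModule ℝ (CStarMatrix x1 x1 x2) := inferInstance
theorem a20.{u1} {x1 : Type u1} {x2 : Type u1} [x3 : NonUnitalCStarAlgebra x1] [x4 : CStarAlgebra x2] {x5 : Type u1} [x6 : NonUnitalCStarAlgebra x5] : DistribMulActionSemiHomClass (TensorProduct ℂ x1 x2 →ₗ[ℂ] x5) (⇑(RingHom.id ℂ)) (TensorProduct ℂ x1 x2) x5 := inferInstance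
theorem a21.{u1, u2} {x1 : Type u1} {x2 : Type u2} [x3 : AddCommGroup x2] [x4 : Module ℂ x2] [x5 : CStarAlgebra x1] : AddHomClass (x1 →ₐ[ℂ] Module.End ℂ x2) x1 (Module.End ℂ x2) := inferInstance
theorem a22.{u1, u2} {x1 : Type u1} {x2 : Type u2} [x3 : AddCommGroup x2] [x4 : Module ℂ x2] [x5 : CStarAlgebra x1] : LinearMapClass (x1 →ₐ[ℂ] Module.End ℂ x2) ℂ x1 (Module.End ℂ x2) := inferInstance
theorem a23.{u1} {x1 : Type u1} [x2 : NonUnitalCStarAlgebra x1] : AddHomClass (x1 ≃⋆ₐ[ℂ] x1) x1 x1 := inferInstance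
theorem a24.{u1} {x1 : Type u1} [x2 : NonUnitalCStarAlgebra x1] : SemilinearMapClass (x1 ≃⋆ₐ[ℂ] x1) (RingHom.id ℂ) x1 x1 := inferInstance
end AFast791dddx8b
attribute [local instance] AFast791dddx8b.a0 AFast791dddx8b.a1 AFast791dddx8b.a2 AFast791dddx8b.a3
  AFast791dddx8b.a4 AFast791dddx8b.a5 AFast791dddx8b.a6 AFast791dddx8b.a7 AFast791dddx8b.a8
  AFast791dddx8b.a9 AFast791dddx8b.a10 AFast791dddx8b.a11 AFast791dddx8b.a12 AFast791dddx8b.a13
  AFast791dddx8b.a14 AFast791dddx8b.a15 AFast791dddx8b.a16 AFast791dddx8b.a17 AFast791dddx8b.a18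
  AFast791dddx8b.a19 AFast791dddx8b.a20 AFast791dddx8b.a21 AFast791dddx8b.a22 AFast791dddx8b.a23
  AFast791dddx8b.a24
section

/-! Cocycle conjugacy and `𝒵`-stability for nonunital C*-algebras. -/

open scoped MultiplierAlgebra TensorProduct

namespace Vale.Agent.P095R

universe u w

open Vale.Agent.P101

section mult

variable {B : Type u} [NonUnitalCStarAlgebra B]

/-- An automorphism as a continuous linear map. -/
noncomputable def autCLM (f : B ≃⋆ₐ[ℂ] B) : B →L[ℂ] B :=
  LinearMap.mkContinuous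
    { toFun := f
      map_add' := map_add f
      map_smul' := fun c x => map_smul f c x } 1
    (fun x => by simpa using NonUnitalStarAlgHom.norm_apply_le f x)

/-- The extension of an automorphism to the multiplier algebra, as a function. -/
noncomputable def multFun (f : B ≃⋆ₐ[ℂ] B) (x : 𝓜(ℂ, B)) : 𝓜(ℂ, B) where
  fst := (autCLM f).comp (x.fst.comp (autCLM f.symm))
  snd := (autCLM f).comp (x.snd.comp (autCLM f.symm))
  central := fun a b => by
    show f (x.snd (f.symm a)) * b = a * f (x.fst (f.symm b))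
    have h := congrArg f (x.central (f.symm a) (f.symm b))
    rw [map_mul, map_mul] at h
    simpa using h

theorem multFun_fst (f : B ≃⋆ₐ[ℂ] B) (x : 𝓜(ℂ, B)) (b : B) :
    (multFun f x).fst b = f (x.fst (f.symm b)) := rfl

theorem multFun_snd (f : B ≃⋆ₐ[ℂ] B) (x : 𝓜(ℂ, B)) (b : B) :
    (multFun f x).snd b = f (x.snd (f.symm b)) := rfl

theorem mult_ext {x y : 𝓜(ℂ, B)} (h1 : ∀ b, x.fst b = y.fst b) (h2 : ∀ b, x.snd b = y.snd b) :
    x = y :=
  DoubleCentralizer.ext ℂ B x y (Prod.ext (ContinuousLinearMap.ext h1) (ContinuousLinearMap.ext h2))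

/-- The extension of an automorphism to the multiplier algebra. -/
noncomputable def multAut (f : B ≃⋆ₐ[ℂ] B) : 𝓜(ℂ, B) ≃⋆ₐ[ℂ] 𝓜(ℂ, B) where
  toFun := multFun f
  invFun := multFun f.symm
  left_inv x := by
    refine mult_ext (fun b => ?_) (fun b => ?_) <;>
      simp [multFun_fst, multFun_snd]
  right_inv x := by
    refine mult_ext (fun b => ?_) (fun b => ?_) <;>
      simp [multFun_fst, multFun_snd]
  map_mul' x y := by
    refine mult_ext (fun b => ?_) (fun b => ?_) <;>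
      simp [multFun_fst, multFun_snd, DoubleCentralizer.mul_fst, DoubleCentralizer.mul_snd]
  map_add' x y := by
    refine mult_ext (fun b => ?_) (fun b => ?_) <;>
      simp [multFun_fst, multFun_snd, DoubleCentralizer.add_fst, DoubleCentralizer.add_snd]
  map_smul' c x := by
    refine mult_ext (fun b => ?_) (fun b => ?_) <;>
      simp [multFun_fst, multFun_snd, DoubleCentralizer.smul_fst, DoubleCentralizer.smul_snd]
  map_star' x := by
    refine mult_ext (fun b => ?_) (fun b => ?_) <;>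
      simp [multFun_fst, multFun_snd, DoubleCentralizer.star_fst, DoubleCentralizer.star_snd,
        map_star]

/-- The extension of an action to the multiplier algebra. -/
noncomputable def multAct {G : Type w} [Group G] (β : G →* (B ≃⋆ₐ[ℂ] B)) :
    G →* (𝓜(ℂ, B) ≃⋆ₐ[ℂ] 𝓜(ℂ, B)) where
  toFun g := multAut (β g)
  map_one' := by
    refine StarAlgEquiv.ext fun x => ?_
    refine mult_ext (fun b => ?_) (fun b => ?_)
    · show (β 1) (x.fst ((β 1).symm b)) = x.fst b
      rw [map_one]; rfl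
    · show (β 1) (x.snd ((β 1).symm b)) = x.snd b
      rw [map_one]; rfl
  map_mul' g h := by
    refine StarAlgEquiv.ext fun x => ?_
    refine mult_ext (fun b => ?_) (fun b => ?_)
    · show (β (g * h)) (x.fst ((β (g * h)).symm b)) =
        β g (β h (x.fst ((β h).symm ((β g).symm b))))
      rw [map_mul]; rfl
    · show (β (g * h)) (x.snd ((β (g * h)).symm b)) =
        β g (β h (x.snd ((β h).symm ((β g).symm b))))
      rw [map_mul]; rfl

theorem multAct_apply {G : Type w} [Group G] (β : G →* (B ≃⋆ₐ[ℂ] B)) (g : G) (x : 𝓜(ℂ, B)) :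
    multAct β g x = multAut (β g) x := rfl

theorem multAut_fst (f : B ≃⋆ₐ[ℂ] B) (x : 𝓜(ℂ, B)) (b : B) :
    (multAut f x).fst b = f (x.fst (f.symm b)) := rfl

theorem multAut_coe (f : B ≃⋆ₐ[ℂ] B) (b : B) :
    multAut f (b : 𝓜(ℂ, B)) = ((f b : B) : 𝓜(ℂ, B)) := by
  refine mult_ext (fun c => ?_) (fun c => ?_)
  · show f (b * f.symm c) = f b * c
    rw [map_mul]; simp
  · show f (f.symm c * b) = c * f b
    rw [map_mul]; simp

end mult

/-- The actions `α` and `β` on C*-algebras are cocycle conjugate. -/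
structure CocycleConjugateN {A B : Type u} [NonUnitalCStarAlgebra A] [NonUnitalCStarAlgebra B]
    {G : Type w} [Group G] (α : G →* (A ≃⋆ₐ[ℂ] A)) (β : G →* (B ≃⋆ₐ[ℂ] B)) : Prop where
  conj : ∃ (Φ : A ≃⋆ₐ[ℂ] B) (u : G → 𝓜(ℂ, B)), (∀ g, u g ∈ unitary 𝓜(ℂ, B)) ∧
    (∀ g h, u (g * h) = u g * multAut (β g) (u h)) ∧
    ∀ g a, ((Φ (α g a) : B) : 𝓜(ℂ, B)) = u g * ((β g (Φ a) : B) : 𝓜(ℂ, B)) * star (u g)

/-- `B` is, via `(a, z) ↦ T a z`, a C*-completion of the algebraic tensor product `A ⊗ Z`. -/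
structure IsTensorCompletionN {A Z B : Type u} [NonUnitalCStarAlgebra A] [CStarAlgebra Z]
    [NonUnitalCStarAlgebra B] (T : A →ₗ[ℂ] Z →ₗ[ℂ] B) : Prop where
  map_mul : ∀ a a' z z', T (a * a') (z * z') = T a z * T a' z'
  map_star : ∀ a z, T (star a) (star z) = star (T a z)
  injective : Function.Injective (TensorProduct.lift T)
  dense : DenseRange (TensorProduct.lift T)

/-- `α` is cocycle conjugate to `α ⊗ id` on `A ⊗ 𝒵`. -/
structure EquivariantlyZStableN {A : Type u} [NonUnitalCStarAlgebra A] {G : Type w} [Group G]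
    (α : G →* (A ≃⋆ₐ[ℂ] A)) : Prop where
  conj : ∀ (Z B : Type u) [CStarAlgebra Z] [NonUnitalCStarAlgebra B] (T : A →ₗ[ℂ] Z →ₗ[ℂ] B)
    (β : G →* (B ≃⋆ₐ[ℂ] B)), IsJiangSuAlgebra Z → IsTensorCompletionN T →
      (∀ g a z, β g (T a z) = T (α g a) z) → CocycleConjugateN α β

/-- Local form of: the fixed point algebra of the central sequence algebra of `A` has no
characters. -/
def NoCharLocalN {A : Type u} [NonUnitalCStarAlgebra A] {G : Type w} [Group G]
    (α : G →* (A ≃⋆ₐ[ℂ] A)) : Prop :=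
  ∃ (m : ℕ) (R : ℝ), ∀ (F : Finset A) (S : Finset G) (ε : ℝ), 0 < ε →
    ∃ x : Fin 4 → Fin m → A, (∀ q i, ‖x q i‖ ≤ R) ∧
      (∀ q i, ∀ a ∈ F, ‖x q i * a - a * x q i‖ ≤ ε) ∧
      (∀ q i, ∀ g ∈ S, ∀ a ∈ F, ‖a * (α g (x q i) - x q i)‖ ≤ ε) ∧
      ∀ a ∈ F, ‖a * (∑ i, x 0 i * (x 1 i * x 2 i - x 2 i * x 1 i) * x 3 i) - a‖ ≤ ε

end Vale.Agent.P095R
end

section

/-! Strict convergence of bounded sequences of multipliers. -/

open Filter Topology
open scoped MultiplierAlgebra

namespace Vale.Agent.P095R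

universe u w

variable {A : Type u} [NonUnitalCStarAlgebra A]

theorem rstrict_cancel_right {y z : A} (h : ∀ c : A, y * c = z * c) : y = z := by
  have h1 : (y - z) * star (y - z) = 0 := by rw [sub_mul, h, sub_self]
  rw [CStarRing.mul_star_self_eq_zero_iff] at h1
  exact sub_eq_zero.mp h1

theorem rstrict_cancel_left {y z : A} (h : ∀ c : A, c * y = c * z) : y = z := by
  have h1 : star (y - z) * (y - z) = 0 := by rw [mul_sub, h, sub_self]
  rw [CStarRing.star_mul_self_eq_zero_iff] at h1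
  exact sub_eq_zero.mp h1

theorem coe_mul_mult (a : A) (x : 𝓜(ℂ, A)) : (a : 𝓜(ℂ, A)) * x = ((x.snd a : A) : 𝓜(ℂ, A)) := by
  refine mult_ext (fun b => ?_) (fun b => ?_)
  · show a * x.fst b = x.snd a * b
    exact (x.central a b).symm
  · show x.snd (b * a) = b * x.snd a
    refine rstrict_cancel_right fun c => ?_
    rw [x.central, mul_assoc, mul_assoc, x.central]

theorem mult_mul_coe (a : A) (x : 𝓜(ℂ, A)) : x * (a : 𝓜(ℂ, A)) = ((x.fst a : A) : 𝓜(ℂ, A)) := by
  refine mult_ext (fun b => ?_) (fun b => ?_)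
  · show x.fst (a * b) = x.fst a * b
    refine rstrict_cancel_left fun c => ?_
    rw [← x.central, ← mul_assoc, ← mul_assoc, x.central]
  · show x.snd b * a = b * x.fst a
    exact x.central b a

theorem norm_coe_mult (a : A) : ‖(a : 𝓜(ℂ, A))‖ = ‖a‖ := by
  rw [← DoubleCentralizer.norm_fst, DoubleCentralizer.coe_fst]
  exact ContinuousLinearMap.opNorm_mul_apply ℂ A a

/-- Strict convergence of a bounded sequence. -/
structure StrictTo (t : ℕ → 𝓜(ℂ, A)) (X : 𝓜(ℂ, A)) : Prop where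
  bdd : ∃ C : ℝ, ∀ n, ‖t n‖ ≤ C
  left : ∀ a : A, Tendsto (fun n => (t n).fst a) atTop (𝓝 (X.fst a))
  right : ∀ a : A, Tendsto (fun n => (t n).snd a) atTop (𝓝 (X.snd a))

theorem exists_strict_limit (t : ℕ → A) {C : ℝ} (hC : ∀ n, ‖t n‖ ≤ C)
    (h1 : ∀ a : A, CauchySeq fun n => t n * a) (h2 : ∀ a : A, CauchySeq fun n => a * t n) :
    ∃ X : 𝓜(ℂ, A), StrictTo (fun n => (t n : 𝓜(ℂ, A))) X := by
  choose L hL using fun a => cauchySeq_tendsto_of_complete (h1 a)
  choose R hR using fun a => cauchySeq_tendsto_of_complete (h2 a)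
  have hL' : Tendsto (fun n x => (t n : 𝓜(ℂ, A)).fst x) atTop (𝓝 L) :=
    tendsto_pi_nhds.mpr hL
  have hR' : Tendsto (fun n x => (t n : 𝓜(ℂ, A)).snd x) atTop (𝓝 R) :=
    tendsto_pi_nhds.mpr hR
  refine ⟨⟨(continuousLinearMapOfTendsto (fun n => (t n : 𝓜(ℂ, A)).fst) hL',
    continuousLinearMapOfTendsto (fun n => (t n : 𝓜(ℂ, A)).snd) hR'), fun a b => ?_⟩,
    ⟨C, fun n => ?_⟩, hL, hR⟩
  · show R a * b = a * L b
    refine tendsto_nhds_unique ((hR a).mul_const b) ?_
    have h3 := (hL b).const_mul a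
    refine h3.congr fun n => ?_
    rw [mul_assoc]
  · rw [norm_coe_mult]; exact hC n

theorem StrictTo.const (X : 𝓜(ℂ, A)) : StrictTo (fun _ => X) X :=
  ⟨⟨‖X‖, fun _ => le_rfl⟩, fun _ => tendsto_const_nhds, fun _ => tendsto_const_nhds⟩

theorem StrictTo.add {t s : ℕ → 𝓜(ℂ, A)} {X Y : 𝓜(ℂ, A)} (h : StrictTo t X) (h' : StrictTo s Y) :
    StrictTo (fun n => t n + s n) (X + Y) := by
  obtain ⟨C, hC⟩ := h.bdd
  obtain ⟨C', hC'⟩ := h'.bdd
  exact ⟨⟨C + C', fun n => (norm_add_le _ _).trans (add_le_add (hC n) (hC' n))⟩,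
    fun a => (h.left a).add (h'.left a), fun a => (h.right a).add (h'.right a)⟩

theorem StrictTo.sub {t s : ℕ → 𝓜(ℂ, A)} {X Y : 𝓜(ℂ, A)} (h : StrictTo t X) (h' : StrictTo s Y) :
    StrictTo (fun n => t n - s n) (X - Y) := by
  obtain ⟨C, hC⟩ := h.bdd
  obtain ⟨C', hC'⟩ := h'.bdd
  exact ⟨⟨C + C', fun n => (norm_sub_le _ _).trans (add_le_add (hC n) (hC' n))⟩,
    fun a => (h.left a).sub (h'.left a), fun a => (h.right a).sub (h'.right a)⟩

theorem rstrict_tendsto_apply {T : ℕ → A →L[ℂ] A} {T' : A →L[ℂ] A} {C : ℝ} (hC : ∀ n, ‖T n‖ ≤ C)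
    (hT : ∀ a, Tendsto (fun n => T n a) atTop (𝓝 (T' a))) {v : ℕ → A} {v' : A}
    (hv : Tendsto v atTop (𝓝 v')) : Tendsto (fun n => T n (v n)) atTop (𝓝 (T' v')) := by
  have h1 : Tendsto (fun n => T n (v n - v')) atTop (𝓝 0) := by
    have h2 : Tendsto (fun n => C * ‖v n - v'‖) atTop (𝓝 0) := by
      have h3 : Tendsto (fun n => ‖v n - v'‖) atTop (𝓝 0) := tendsto_iff_norm_sub_tendsto_zero.mp hv
      simpa only [mul_zero] using h3.const_mul C
    refine squeeze_zero_norm (fun n => ?_) h2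
    exact ((T n).le_opNorm _).trans (mul_le_mul_of_nonneg_right (hC n) (norm_nonneg _))
  have h4 := h1.add (hT v')
  rw [zero_add] at h4
  refine h4.congr fun n => ?_
  rw [map_sub, sub_add_cancel]

theorem StrictTo.mul {t s : ℕ → 𝓜(ℂ, A)} {X Y : 𝓜(ℂ, A)} (h : StrictTo t X) (h' : StrictTo s Y) :
    StrictTo (fun n => t n * s n) (X * Y) := by
  obtain ⟨C, hC⟩ := h.bdd
  obtain ⟨C', hC'⟩ := h'.bdd
  have hC0 : 0 ≤ C := (norm_nonneg _).trans (hC 0)
  refine ⟨⟨C * C', fun n => (norm_mul_le _ _).trans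
    (mul_le_mul (hC n) (hC' n) (norm_nonneg _) hC0)⟩, fun a => ?_, fun a => ?_⟩
  · exact rstrict_tendsto_apply (C := C) (fun n => by rw [DoubleCentralizer.norm_fst]; exact hC n)
      h.left (h'.left a)
  · exact rstrict_tendsto_apply (C := C') (fun n => by rw [DoubleCentralizer.norm_snd]; exact hC' n)
      h'.right (h.right a)

theorem StrictTo.sum {ι : Type*} (s : Finset ι) {t : ι → ℕ → 𝓜(ℂ, A)} {X : ι → 𝓜(ℂ, A)}
    (h : ∀ i ∈ s, StrictTo (t i) (X i)) :
    StrictTo (fun n => ∑ i ∈ s, t i n) (∑ i ∈ s, X i) := by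
  classical
  induction s using Finset.induction_on with
  | empty => simpa using StrictTo.const (0 : 𝓜(ℂ, A))
  | insert i s hi ih =>
    have h1 := (h i (Finset.mem_insert_self i s)).add
      (ih fun j hj => h j (Finset.mem_insert_of_mem hj))
    simpa [Finset.sum_insert hi] using h1

theorem StrictTo.multAut {t : ℕ → 𝓜(ℂ, A)} {X : 𝓜(ℂ, A)} (h : StrictTo t X) (f : A ≃⋆ₐ[ℂ] A) :
    StrictTo (fun n => Vale.Agent.P095R.multAut f (t n)) (Vale.Agent.P095R.multAut f X) := by
  obtain ⟨C, hC⟩ := h.bdd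
  refine ⟨⟨C, fun n => ?_⟩, fun a => ?_, fun a => ?_⟩
  · exact (NonUnitalStarAlgHom.norm_apply_le (Vale.Agent.P095R.multAut f) (t n)).trans (hC n)
  · exact ((autCLM f).continuous.tendsto _).comp (h.left (f.symm a))
  · exact ((autCLM f).continuous.tendsto _).comp (h.right (f.symm a))

theorem StrictTo.norm_le {t : ℕ → 𝓜(ℂ, A)} {X : 𝓜(ℂ, A)} (h : StrictTo t X) {C : ℝ}
    (hC : ∀ n, ‖t n‖ ≤ C) : ‖X‖ ≤ C := by
  have hC0 : 0 ≤ C := (norm_nonneg _).trans (hC 0)
  rw [← DoubleCentralizer.norm_fst]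
  refine ContinuousLinearMap.opNorm_le_bound _ hC0 fun a => ?_
  refine le_of_tendsto (h.left a).norm (Eventually.of_forall fun n => ?_)
  refine ((t n).fst.le_opNorm a).trans (mul_le_mul_of_nonneg_right ?_ (norm_nonneg _))
  rw [DoubleCentralizer.norm_fst]; exact hC n

/-- an approximate unit converges strictly to one -/
theorem StrictTo.one {t : ℕ → A} {C : ℝ} (hC : ∀ n, ‖t n‖ ≤ C)
    (h1 : ∀ a : A, Tendsto (fun n => t n * a) atTop (𝓝 a))
    (h2 : ∀ a : A, Tendsto (fun n => a * t n) atTop (𝓝 a)) :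
    StrictTo (fun n => (t n : 𝓜(ℂ, A))) 1 :=
  ⟨⟨C, fun n => by rw [norm_coe_mult]; exact hC n⟩, h1, h2⟩

end Vale.Agent.P095R
end

section

namespace Vale.Agent.P095

open Finset

variable {ι : Type*} [Fintype ι] [DecidableEq ι] {N : ℕ}

/-- numerical value of a bit -/
def bit (b : Bool) : ℝ := if b then 1 else 0

/-- the indicator that `ω` and `η` agree at all times `< n` -/
noncomputable def agree (n : ℕ) (η ω : Fin N × ι → Bool) : ℝ :=
  open Classical in if ∀ m : Fin N, (m : ℕ) < n → ∀ i : ι, ω (m, i) = η (m, i) then 1 else 0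

/-- the martingale property of a weight `ν` with mean `μ` -/
def IsMart (μ : ℝ) (ν : (Fin N × ι → Bool) → ℝ) : Prop :=
  ∀ (n : Fin N) (i : ι) (η : Fin N × ι → Bool),
    ∑ ω, ν ω * agree n η ω * (bit (ω (n, i)) - μ) = 0

/-- the exponential process of coordinate `i` at time `n` -/
noncomputable def expo (μ θ : ℝ) (ω : Fin N × ι → Bool) (i : ι) (n : ℕ) : ℝ :=
  ∏ m : Fin N, if (m : ℕ) < n then 1 + θ * (bit (ω (m, i)) - μ) else 1

/-- the wealth process -/
noncomputable def wealth (μ θ c : ℝ) (K : Finset ι) (ω : Fin N × ι → Bool) (n : ℕ) : ℝ :=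
  c * ∑ i ∈ K, expo μ θ ω i n

/-- the event that the wealth process reaches `l` -/
def Hit (μ θ c l : ℝ) (K : Finset ι) (ω : Fin N × ι → Bool) : Prop :=
  ∃ n : ℕ, n ≤ N ∧ l ≤ wealth μ θ c K ω n

/-- decay rate -/
noncomputable def rate (μ θ : ℝ) : ℝ :=
  μ * Real.sqrt (1 + θ * (1 - μ)) + (1 - μ) * Real.sqrt (1 - θ * μ)

theorem rate_nonneg {μ θ : ℝ} (hμ : 0 < μ) (hμ' : μ < 1) (hθ : 0 < θ) (hθ' : θ < 1) :
    0 ≤ rate μ θ := by
  unfold rate
  have h1 : 0 ≤ 1 - μ := by linarith only [hμ']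
  positivity

theorem rate_lt_one {μ θ : ℝ} (hμ : 0 < μ) (hμ' : μ < 1) (hθ : 0 < θ) (hθ' : θ < 1) :
    rate μ θ < 1 := by
  have h0 := rate_nonneg hμ hμ' hθ hθ'
  unfold rate at h0 ⊢
  have hA : 0 < 1 + θ * (1 - μ) := by nlinarith only [hμ', hθ]
  have hB : 0 < 1 - θ * μ := by nlinarith only [hμ', hμ, hθ']
  have hA2 := Real.sq_sqrt hA.le
  have hB2 := Real.sq_sqrt hB.le
  have hlt : Real.sqrt (1 - θ * μ) < Real.sqrt (1 + θ * (1 - μ)) :=
    Real.sqrt_lt_sqrt hB.le (by nlinarith only [hθ])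
  set A := Real.sqrt (1 + θ * (1 - μ))
  set B := Real.sqrt (1 - θ * μ)
  have h1 : (μ * A + (1 - μ) * B) ^ 2 = 1 - μ * (1 - μ) * (A - B) ^ 2 := by
    have h2 : μ * A ^ 2 + (1 - μ) * B ^ 2 = 1 := by
      rw [hA2, hB2]
      ring
    linarith
  have h3 : 0 < μ * (1 - μ) * (A - B) ^ 2 := by
    have : 0 < A - B := by linarith
    have h4 : 0 < 1 - μ := by linarith
    positivity
  nlinarith only [h1, h3]

/-- `f` depends only on the bits at times `< n`. -/
def DepBefore (n : ℕ) (f : (Fin N × ι → Bool) → ℝ) : Prop :=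
  ∀ ω η : Fin N × ι → Bool, (∀ m : Fin N, (m : ℕ) < n → ∀ i : ι, ω (m, i) = η (m, i)) →
    f ω = f η

theorem agree_comm (n : ℕ) (η ω : Fin N × ι → Bool) : agree n η ω = agree n ω η := by
  unfold agree
  congr 1
  apply propext
  exact ⟨fun h m hm i => (h m hm i).symm, fun h m hm i => (h m hm i).symm⟩

theorem agree_self (n : ℕ) (ω : Fin N × ι → Bool) : agree n ω ω = 1 := by
  unfold agree
  simp

theorem agree_nonneg (n : ℕ) (η ω : Fin N × ι → Bool) : 0 ≤ agree n η ω := by
  unfold agree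
  split_ifs <;> norm_num

/-- The number of sequences agreeing with `η` before time `n`. -/
noncomputable def kapN (n : ℕ) (η : Fin N × ι → Bool) : ℝ := ∑ ω, agree n η ω

theorem kapN_pos (n : ℕ) (η : Fin N × ι → Bool) : 0 < kapN n η := by
  unfold kapN
  have h1 : agree n η η ≤ ∑ ω, agree n η ω :=
    Finset.single_le_sum (fun ω _ => agree_nonneg n η ω) (Finset.mem_univ η)
  rw [agree_self] at h1
  linarith

theorem agree_mul {n : ℕ} {f : (Fin N × ι → Bool) → ℝ} (hf : DepBefore n f)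
    (η ω : Fin N × ι → Bool) : f η * agree n η ω = f ω * agree n η ω := by
  unfold agree
  split_ifs with h
  · rw [hf ω η h]
  · simp

theorem kapN_dep (n : ℕ) : DepBefore n (kapN (N := N) (ι := ι) n) := by
  intro ω η h
  unfold kapN agree
  apply Finset.sum_congr rfl
  intro ζ _
  congr 1
  apply propext
  constructor
  · intro h1 m hm i
    rw [h1 m hm i, h m hm i]
  · intro h1 m hm i
    rw [h1 m hm i, h m hm i]

/-- General form of the martingale property. -/
theorem IsMart.general {μ : ℝ} {ν : (Fin N × ι → Bool) → ℝ} (hm : IsMart μ ν) (n : Fin N) (i : ι)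
    {f : (Fin N × ι → Bool) → ℝ} (hf : DepBefore (n : ℕ) f) :
    ∑ ω, ν ω * f ω * (bit (ω (n, i)) - μ) = 0 := by
  have hg : DepBefore (n : ℕ) (fun η => f η / kapN n η) := by
    intro ω η h
    simp only
    rw [hf ω η h, kapN_dep n ω η h]
  have h1 : ∀ ω, ∑ η, (f η / kapN n η) * agree n η ω = f ω := by
    intro ω
    have h2 : ∀ η ∈ (Finset.univ : Finset (Fin N × ι → Bool)),
        (f η / kapN n η) * agree n η ω = (f ω / kapN n ω) * agree n ω η := by
      intro η _
      rw [agree_mul hg η ω, agree_comm]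
    rw [Finset.sum_congr rfl h2, ← Finset.mul_sum]
    have h3 := kapN_pos (n : ℕ) ω
    change f ω / kapN n ω * kapN n ω = f ω
    (clear * - h3; field_simp)
  calc ∑ ω, ν ω * f ω * (bit (ω (n, i)) - μ)
      = ∑ ω, ν ω * (∑ η, (f η / kapN n η) * agree n η ω) * (bit (ω (n, i)) - μ) := by
        apply Finset.sum_congr rfl
        intro ω _
        rw [h1 ω]
    _ = ∑ ω, ∑ η, (f η / kapN n η) * (ν ω * agree n η ω * (bit (ω (n, i)) - μ)) := by
        apply Finset.sum_congr rfl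
        intro ω _
        rw [Finset.mul_sum, Finset.sum_mul]
        apply Finset.sum_congr rfl
        intro η _
        ring
    _ = ∑ η, (f η / kapN n η) * ∑ ω, (ν ω * agree n η ω * (bit (ω (n, i)) - μ)) := by
        rw [Finset.sum_comm]
        apply Finset.sum_congr rfl
        intro η _
        rw [Finset.mul_sum]
    _ = 0 := by
        apply Finset.sum_eq_zero
        intro η _
        rw [hm n i η, mul_zero]

theorem expo_zero (μ θ : ℝ) (ω : Fin N × ι → Bool) (i : ι) : expo μ θ ω i 0 = 1 := by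
  unfold expo
  simp only [not_lt_zero, ↓reduceIte, prod_const_one]

theorem expo_succ (μ θ : ℝ) (ω : Fin N × ι → Bool) (i : ι) (n : Fin N) :
    expo μ θ ω i (n + 1) = expo μ θ ω i n * (1 + θ * (bit (ω (n, i)) - μ)) := by
  unfold expo
  have h1 : ∀ m : Fin N, (if (m : ℕ) < (n : ℕ) + 1 then 1 + θ * (bit (ω (m, i)) - μ) else 1) =
      (if (m : ℕ) < (n : ℕ) then 1 + θ * (bit (ω (m, i)) - μ) else 1) *
        (if m = n then 1 + θ * (bit (ω (m, i)) - μ) else 1) := by
    intro m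
    rcases lt_trichotomy (m : ℕ) (n : ℕ) with h | h | h
    · rw [if_pos (by omega), if_pos h, if_neg (by intro h2; rw [h2] at h; omega), mul_one]
    · rw [if_pos (by omega), if_neg (by omega), if_pos (Fin.ext h), one_mul]
    · rw [if_neg (by omega), if_neg (by omega), if_neg (by intro h2; rw [h2] at h; omega), mul_one]
  rw [Finset.prod_congr rfl fun m _ => h1 m, Finset.prod_mul_distrib]
  congr 1
  rw [Finset.prod_ite_eq' Finset.univ n]
  simp only [mem_univ, ↓reduceIte]

theorem bit_bounds (b : Bool) : 0 ≤ bit b ∧ bit b ≤ 1 := by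
  cases b <;> simp [bit]

theorem fac_pos {μ θ : ℝ} (hμ : 0 < μ) (hμ' : μ < 1) (hθ : 0 < θ) (hθ' : θ < 1) (b : Bool) :
    0 < 1 + θ * (bit b - μ) := by
  have := bit_bounds b
  nlinarith [mul_nonneg hθ.le this.1]

theorem fac_le {μ θ : ℝ} (hμ : 0 < μ) (hθ : 0 < θ) (b : Bool) :
    1 + θ * (bit b - μ) ≤ 1 + θ := by
  have := bit_bounds b
  nlinarith [mul_nonneg hθ.le (sub_nonneg.2 this.2)]

theorem expo_pos {μ θ : ℝ} (hμ : 0 < μ) (hμ' : μ < 1) (hθ : 0 < θ) (hθ' : θ < 1)
    (ω : Fin N × ι → Bool) (i : ι) (n : ℕ) : 0 < expo μ θ ω i n := by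
  unfold expo
  apply Finset.prod_pos
  intro m _
  split_ifs
  · exact fac_pos hμ hμ' hθ hθ' _
  · exact one_pos

theorem expo_dep (μ θ : ℝ) (i : ι) {n k : ℕ} (hk : k ≤ n) :
    DepBefore n (fun ω : Fin N × ι → Bool => expo μ θ ω i k) := by
  intro ω η h
  simp only [expo]
  apply Finset.prod_congr rfl
  intro m _
  split_ifs with h1
  · rw [h m (by omega) i]
  · rfl

theorem wealth_dep (μ θ c : ℝ) (K : Finset ι) {n k : ℕ} (hk : k ≤ n) :
    DepBefore n (fun ω : Fin N × ι → Bool => wealth μ θ c K ω k) := by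
  intro ω η h
  simp only [wealth]
  congr 1
  apply Finset.sum_congr rfl
  intro i _
  exact expo_dep μ θ i hk ω η h

theorem wealth_succ (μ θ c : ℝ) (K : Finset ι) (ω : Fin N × ι → Bool) (n : Fin N) :
    wealth μ θ c K ω (n + 1) - wealth μ θ c K ω n =
      c * θ * ∑ i ∈ K, expo μ θ ω i n * (bit (ω (n, i)) - μ) := by
  unfold wealth
  rw [← mul_sub, ← Finset.sum_sub_distrib, mul_assoc, Finset.mul_sum K _ θ]
  congr 1
  apply Finset.sum_congr rfl
  intro i _
  rw [expo_succ]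
  ring

theorem wealth_zero (μ θ c : ℝ) (K : Finset ι) (ω : Fin N × ι → Bool) :
    wealth μ θ c K ω 0 = c * K.card := by
  unfold wealth
  simp [expo_zero]

theorem wealth_nonneg {μ θ c : ℝ} (hμ : 0 < μ) (hμ' : μ < 1) (hθ : 0 < θ) (hθ' : θ < 1)
    (hc : 0 < c) (K : Finset ι) (ω : Fin N × ι → Bool) (n : ℕ) :
    0 ≤ wealth μ θ c K ω n :=
  mul_nonneg hc.le (Finset.sum_nonneg fun i _ => (expo_pos hμ hμ' hθ hθ' ω i n).le)

theorem wealth_succ_le {μ θ c : ℝ} (hμ : 0 < μ) (hμ' : μ < 1) (hθ : 0 < θ) (hθ' : θ < 1)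
    (hc : 0 < c) (K : Finset ι) (ω : Fin N × ι → Bool) (n : Fin N) :
    wealth μ θ c K ω (n + 1) ≤ (1 + θ) * wealth μ θ c K ω n := by
  unfold wealth
  rw [mul_left_comm, Finset.mul_sum K _ (1 + θ)]
  apply mul_le_mul_of_nonneg_left _ hc.le
  apply Finset.sum_le_sum
  intro i _
  rw [expo_succ, mul_comm]
  exact mul_le_mul_of_nonneg_right (fac_le hμ hθ _) (expo_pos hμ hμ' hθ hθ' ω i n).le

/-- Indicator that the wealth stays below `l` up to time `n`. -/
noncomputable def aliveI (μ θ c l : ℝ) (K : Finset ι) (n : ℕ) (ω : Fin N × ι → Bool) : ℝ :=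
  open Classical in if ∀ m : ℕ, m ≤ n → wealth μ θ c K ω m < l then 1 else 0

theorem aliveI_dep (μ θ c l : ℝ) (K : Finset ι) (n : ℕ) :
    DepBefore n (aliveI (N := N) μ θ c l K n) := by
  intro ω η h
  unfold aliveI
  congr 1
  apply propext
  constructor
  · intro h1 m hm
    have h2 := wealth_dep (N := N) μ θ c K hm ω η h
    simp only at h2
    rw [← h2]
    exact h1 m hm
  · intro h1 m hm
    have h2 := wealth_dep (N := N) μ θ c K hm ω η h
    simp only at h2
    rw [h2]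
    exact h1 m hm

/-- The stopped wealth process. -/
noncomputable def stopW (μ θ c l : ℝ) (K : Finset ι) (ω : Fin N × ι → Bool) (n : ℕ) : ℝ :=
  wealth μ θ c K ω 0 + ∑ k ∈ Finset.range n,
    aliveI μ θ c l K k ω * (wealth μ θ c K ω (k + 1) - wealth μ θ c K ω k)

theorem stopW_mean {μ θ c l : ℝ} (K : Finset ι) (ν : (Fin N × ι → Bool) → ℝ) (hm : IsMart μ ν)
    {n : ℕ} (hn : n ≤ N) :
    ∑ ω, ν ω * stopW μ θ c l K ω n = c * K.card * ∑ ω, ν ω := by
  induction n with
  | zero =>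
    simp only [stopW, Finset.range_zero, Finset.sum_empty, add_zero, wealth_zero]
    rw [← Finset.sum_mul, mul_comm]
  | succ n ih =>
    rw [← ih (by omega)]
    have hlt : n < N := by omega
    have h1 : ∀ ω, stopW μ θ c l K ω (n + 1) = stopW μ θ c l K ω n +
        c * θ * ∑ i ∈ K, (aliveI μ θ c l K n ω * expo μ θ ω i n) * (bit (ω (⟨n, hlt⟩, i)) - μ) := by
      intro ω
      unfold stopW
      rw [Finset.sum_range_succ, ← add_assoc]
      congr 1
      have h2 := wealth_succ μ θ c K ω (⟨n, hlt⟩ : Fin N)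
      simp only at h2
      rw [h2, mul_left_comm, Finset.mul_sum K _ (aliveI μ θ c l K n ω)]
      congr 1
      apply Finset.sum_congr rfl
      intro i _
      ring
    have h3 : ∑ ω, ν ω * stopW μ θ c l K ω (n + 1) = ∑ ω, ν ω * stopW μ θ c l K ω n +
        c * θ * ∑ i ∈ K, ∑ ω, ν ω * (aliveI μ θ c l K n ω * expo μ θ ω i n) *
          (bit (ω (⟨n, hlt⟩, i)) - μ) := by
      rw [Finset.sum_comm, Finset.mul_sum, ← Finset.sum_add_distrib]
      apply Finset.sum_congr rfl
      intro ω _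
      rw [h1 ω, mul_add]
      congr 1
      rw [mul_left_comm, Finset.mul_sum K _ (ν ω)]
      congr 1
      apply Finset.sum_congr rfl
      intro i _
      ring
    rw [h3]
    have h4 : ∀ i ∈ K, ∑ ω, ν ω * (aliveI μ θ c l K n ω * expo μ θ ω i n) *
          (bit (ω (⟨n, hlt⟩, i)) - μ) = 0 := by
      intro i _
      apply hm.general ⟨n, hlt⟩ i (f := fun ω => aliveI μ θ c l K n ω * expo μ θ ω i n)
      intro ω η h
      simp only
      rw [aliveI_dep μ θ c l K n ω η h]
      congr 1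
      exact expo_dep μ θ i le_rfl ω η h
    rw [Finset.sum_eq_zero h4, mul_zero, add_zero]

theorem stopW_spec {μ θ c l : ℝ} (hμ : 0 < μ) (hμ' : μ < 1) (hθ : 0 < θ) (hθ' : θ < 1)
    (hc : 0 < c) (K : Finset ι) (ω : Fin N × ι → Bool) {n : ℕ} (hn : n ≤ N) :
    ((∀ m : ℕ, m ≤ n → wealth μ θ c K ω m < l) ∧ stopW μ θ c l K ω n = wealth μ θ c K ω n) ∨
    (¬ (∀ m : ℕ, m ≤ n → wealth μ θ c K ω m < l) ∧ l ≤ stopW μ θ c l K ω n ∧
      (c * K.card < l → stopW μ θ c l K ω n ≤ (1 + θ) * l)) := by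
  induction n with
  | zero =>
    have h0 : stopW μ θ c l K ω 0 = wealth μ θ c K ω 0 := by simp [stopW]
    rw [h0]
    by_cases h : wealth μ θ c K ω 0 < l
    · left
      refine ⟨?_, rfl⟩
      intro m hm
      rw [Nat.le_zero.1 hm]
      exact h
    · right
      refine ⟨fun h1 => h (h1 0 le_rfl), not_lt.1 h, ?_⟩
      intro h2
      rw [wealth_zero] at h
      exact absurd h2 h
  | succ n ih =>
    have hlt : n < N := by omega
    have h1 : stopW μ θ c l K ω (n + 1) = stopW μ θ c l K ω n + aliveI μ θ c l K n ω *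
        (wealth μ θ c K ω (n + 1) - wealth μ θ c K ω n) := by
      unfold stopW
      rw [Finset.sum_range_succ, ← add_assoc]
    rcases ih (by omega) with ⟨ha, hs⟩ | ⟨ha, hs1, hs2⟩
    · have h2 : aliveI μ θ c l K n ω = 1 := by
        unfold aliveI
        rw [if_pos ha]
      have h3 : stopW μ θ c l K ω (n + 1) = wealth μ θ c K ω (n + 1) := by
        rw [h1, h2, hs]
        ring
      rw [h3]
      by_cases h : wealth μ θ c K ω (n + 1) < l
      · left
        refine ⟨?_, rfl⟩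
        intro m hm
        rcases Nat.le_succ_iff.1 hm with h4 | h4
        · exact ha m h4
        · rw [h4]
          exact h
      · right
        refine ⟨fun h4 => h (h4 (n + 1) le_rfl), not_lt.1 h, fun _ => ?_⟩
        have h5 := wealth_succ_le hμ hμ' hθ hθ' hc K ω (⟨n, hlt⟩ : Fin N)
        have h6 := ha n le_rfl
        simp only at h5
        refine h5.trans ?_
        exact mul_le_mul_of_nonneg_left h6.le (by linarith only [hθ])
    · have h2 : aliveI μ θ c l K n ω = 0 := by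
        unfold aliveI
        rw [if_neg ha]
      right
      rw [h1, h2, zero_mul, add_zero]
      exact ⟨fun h4 => ha fun m hm => h4 m (by omega), hs1, hs2⟩

theorem hit_iff {μ θ c l : ℝ} (K : Finset ι) (ω : Fin N × ι → Bool) :
    Hit μ θ c l K ω ↔ ¬ (∀ m : ℕ, m ≤ N → wealth μ θ c K ω m < l) := by
  unfold Hit
  push_neg
  rfl

open Classical in
theorem hit_upper {μ θ c l : ℝ} (hμ : 0 < μ) (hμ' : μ < 1) (hθ : 0 < θ) (hθ' : θ < 1)
    (hc : 0 < c) (hl : 0 < l) (K : Finset ι) (ν : (Fin N × ι → Bool) → ℝ)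
    (hν : ∀ ω, 0 ≤ ν ω) (hm : IsMart μ ν) :
    l * ∑ ω, (if Hit μ θ c l K ω then ν ω else 0) ≤ c * K.card * ∑ ω, ν ω := by
  rw [← stopW_mean (θ := θ) (l := l) K ν hm le_rfl, Finset.mul_sum]
  apply Finset.sum_le_sum
  intro ω _
  rcases stopW_spec (l := l) hμ hμ' hθ hθ' hc K ω (le_refl N) with ⟨ha, hs⟩ | ⟨ha, hs1, _⟩
  · rw [if_neg (by rw [hit_iff]; exact not_not.2 ha), mul_zero, hs]
    exact mul_nonneg (hν ω) (wealth_nonneg hμ hμ' hθ hθ' hc K ω N)
  · rw [if_pos ((hit_iff K ω).2 ha), mul_comm]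
    exact mul_le_mul_of_nonneg_left hs1 (hν ω)

theorem sqrt_fac {μ θ : ℝ} (b : Bool) :
    Real.sqrt (1 + θ * (bit b - μ)) = rate μ θ +
      (Real.sqrt (1 + θ * (1 - μ)) - Real.sqrt (1 - θ * μ)) * (bit b - μ) := by
  cases b
  · have h1 : 1 + θ * (bit false - μ) = 1 - θ * μ := by
      simp [bit]
      ring
    rw [h1]
    simp only [bit, rate, Bool.false_eq_true, if_false]
    ring
  · have h1 : 1 + θ * (bit true - μ) = 1 + θ * (1 - μ) := by simp [bit]
    rw [h1]
    simp only [bit, rate, if_true]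
    ring

theorem sqrt_mean {μ θ : ℝ} (hμ : 0 < μ) (hμ' : μ < 1) (hθ : 0 < θ) (hθ' : θ < 1)
    (ν : (Fin N × ι → Bool) → ℝ) (hm : IsMart μ ν) (i : ι) {n : ℕ} (hn : n ≤ N) :
    ∑ ω, ν ω * Real.sqrt (expo μ θ ω i n) = rate μ θ ^ n * ∑ ω, ν ω := by
  induction n with
  | zero => simp [expo_zero]
  | succ n ih =>
    have hlt : n < N := by omega
    have h1 : ∀ ω, ν ω * Real.sqrt (expo μ θ ω i (n + 1)) =
        rate μ θ * (ν ω * Real.sqrt (expo μ θ ω i n)) +
        (Real.sqrt (1 + θ * (1 - μ)) - Real.sqrt (1 - θ * μ)) *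
          (ν ω * Real.sqrt (expo μ θ ω i n) * (bit (ω (⟨n, hlt⟩, i)) - μ)) := by
      intro ω
      have h2 := expo_succ μ θ ω i (⟨n, hlt⟩ : Fin N)
      simp only at h2
      rw [h2, Real.sqrt_mul (expo_pos hμ hμ' hθ hθ' ω i n).le, sqrt_fac]
      ring
    rw [Finset.sum_congr rfl fun ω _ => h1 ω, Finset.sum_add_distrib, ← Finset.mul_sum,
      ← Finset.mul_sum, ih (by omega),
      hm.general ⟨n, hlt⟩ i (f := fun ω => Real.sqrt (expo μ θ ω i n)), mul_zero, add_zero,
      pow_succ]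
    · ring
    · intro ω η h
      simp only
      congr 1
      exact expo_dep μ θ i le_rfl ω η h

theorem sqrt_sum_le_sum_sqrt (K : Finset ι) (f : ι → ℝ) (hf : ∀ i ∈ K, 0 ≤ f i) :
    Real.sqrt (∑ i ∈ K, f i) ≤ ∑ i ∈ K, Real.sqrt (f i) := by
  induction K using Finset.induction_on with
  | empty => simp
  | insert a s ha ih =>
    rw [Finset.sum_insert ha, Finset.sum_insert ha]
    have h1 : 0 ≤ f a := hf a (Finset.mem_insert_self a s)
    have h2 : 0 ≤ ∑ i ∈ s, f i := Finset.sum_nonneg fun i hi => hf i (Finset.mem_insert_of_mem hi)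
    have h3 : Real.sqrt (f a + ∑ i ∈ s, f i) ≤ Real.sqrt (f a) + Real.sqrt (∑ i ∈ s, f i) := by
      apply Real.sqrt_le_iff.2
      refine ⟨by (clear * -; positivity), ?_⟩
      have h4 := Real.sq_sqrt h1
      have h5 := Real.sq_sqrt h2
      nlinarith only [h4, h5, mul_nonneg (Real.sqrt_nonneg (f a)) (Real.sqrt_nonneg (∑ i ∈ s, f i))]
    exact h3.trans (by
      have := ih fun i hi => hf i (Finset.mem_insert_of_mem hi)
      linarith)

open Classical in
theorem hit_lower {μ θ c l : ℝ} (hμ : 0 < μ) (hμ' : μ < 1) (hθ : 0 < θ) (hθ' : θ < 1)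
    (hc : 0 < c) (hl : 0 < l) (K : Finset ι) (hK : c * K.card < l)
    (ν : (Fin N × ι → Bool) → ℝ)
    (hν : ∀ ω, 0 ≤ ν ω) (hm : IsMart μ ν) :
    (c * K.card - Real.sqrt (l * c) * K.card * rate μ θ ^ N) * ∑ ω, ν ω ≤
      (1 + θ) * l * ∑ ω, (if Hit μ θ c l K ω then ν ω else 0) := by
  have h1 := stopW_mean (θ := θ) (l := l) (c := c) K ν hm (le_refl N)
  have h2 : ∑ ω, ν ω * stopW μ θ c l K ω N ≤
      ∑ ω, ((1 + θ) * l * (if Hit μ θ c l K ω then ν ω else 0) +
        Real.sqrt (l * c) * ∑ i ∈ K, ν ω * Real.sqrt (expo μ θ ω i N)) := by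
    apply Finset.sum_le_sum
    intro ω _
    have hnn : 0 ≤ ∑ i ∈ K, ν ω * Real.sqrt (expo μ θ ω i N) :=
      Finset.sum_nonneg fun i _ => mul_nonneg (hν ω) (Real.sqrt_nonneg _)
    rcases stopW_spec (l := l) hμ hμ' hθ hθ' hc K ω (le_refl N) with ⟨ha, hs⟩ | ⟨ha, hs1, hs2⟩
    · rw [if_neg (by rw [hit_iff]; exact not_not.2 ha), mul_zero, zero_add, hs, ← Finset.mul_sum,
        mul_left_comm]
      apply mul_le_mul_of_nonneg_left _ (hν ω)
      have hw0 := wealth_nonneg hμ hμ' hθ hθ' hc K ω N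
      have hwl := ha N le_rfl
      have h3 : wealth μ θ c K ω N ≤ Real.sqrt l * Real.sqrt (wealth μ θ c K ω N) := by
        calc wealth μ θ c K ω N = Real.sqrt (wealth μ θ c K ω N) *
              Real.sqrt (wealth μ θ c K ω N) := (Real.mul_self_sqrt hw0).symm
          _ ≤ _ := mul_le_mul_of_nonneg_right (Real.sqrt_le_sqrt hwl.le) (Real.sqrt_nonneg _)
      refine h3.trans ?_
      rw [Real.sqrt_mul hl.le, mul_assoc]
      apply mul_le_mul_of_nonneg_left _ (Real.sqrt_nonneg _)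
      unfold wealth
      rw [Real.sqrt_mul hc.le]
      apply mul_le_mul_of_nonneg_left _ (Real.sqrt_nonneg _)
      exact sqrt_sum_le_sum_sqrt K _ fun i _ => (expo_pos hμ hμ' hθ hθ' ω i N).le
    · rw [if_pos ((hit_iff K ω).2 ha)]
      have h3 := mul_le_mul_of_nonneg_left (hs2 hK) (hν ω)
      have h4 : 0 ≤ Real.sqrt (l * c) * ∑ i ∈ K, ν ω * Real.sqrt (expo μ θ ω i N) :=
        mul_nonneg (Real.sqrt_nonneg _) hnn
      linarith only [h3, h4]
  have h3 : ∑ ω, ∑ i ∈ K, ν ω * Real.sqrt (expo μ θ ω i N) =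
      K.card * (rate μ θ ^ N * ∑ ω, ν ω) := by
    rw [Finset.sum_comm]
    rw [Finset.sum_congr rfl fun i _ => sqrt_mean hμ hμ' hθ hθ' ν hm i (le_refl N)]
    rw [Finset.sum_const, nsmul_eq_mul]
  rw [Finset.sum_add_distrib, ← Finset.mul_sum, ← Finset.mul_sum, h3, h1] at h2
  linarith only [h2]

end Vale.Agent.P095
end

section

/-! Multipliers of a C*-completion of `A ⊗ Z` coming from multipliers of `A` and from `Z`. -/

open Filter Topology
open scoped MultiplierAlgebra TensorProduct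

namespace Vale.Agent.P095R

universe u w

section general

variable {E : Type*} [AddCommGroup E] [Module ℂ E] {B : Type u} [NonUnitalCStarAlgebra B]

theorem rExt_eq_dense (L : E →ₗ[ℂ] B) (hL : DenseRange L) {f g : B → B} (hf : Continuous f)
    (hg : Continuous g) (h : ∀ s, f (L s) = g (L s)) (b : B) : f b = g b :=
  congrFun (hL.equalizer hf hg (funext h)) b

/-- A pair of adjoint bounded maps on a dense subspace defines a multiplier. -/
theorem exists_mult (L : E →ₗ[ℂ] B) (hL : DenseRange L) (X X' : E →ₗ[ℂ] E) (C : ℝ)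
    (hX : ∀ s, ‖L (X s)‖ ≤ C * ‖L s‖) (hX' : ∀ s, ‖L (X' s)‖ ≤ C * ‖L s‖)
    (hadj : ∀ s t, star (L (X s)) * L t = star (L s) * L (X' t)) :
    ∃ x : 𝓜(ℂ, B), (∀ s, x.fst (L s) = L (X s)) ∧ ∀ s, (star x).fst (L s) = L (X' s) := by
  let F : B →L[ℂ] B := (L ∘ₗ X).extendOfNorm L
  let F' : B →L[ℂ] B := (L ∘ₗ X').extendOfNorm L
  have hF : ∀ s, F (L s) = L (X s) := fun s =>
    LinearMap.extendOfNorm_eq (f := L ∘ₗ X) (e := L) hL ⟨C, hX⟩ s
  have hF' : ∀ s, F' (L s) = L (X' s) := fun s =>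
    LinearMap.extendOfNorm_eq (f := L ∘ₗ X') (e := L) hL ⟨C, hX'⟩ s
  have h1 : ∀ a b : B, star (F a) * b = star a * F' b := by
    intro a b
    refine rExt_eq_dense L hL (f := fun a => star (F a) * b) (g := fun a => star a * F' b)
      (by (clear * -; fun_prop)) (by fun_prop) (fun s => ?_) a
    refine rExt_eq_dense L hL (f := fun b => star (F (L s)) * b) (g := fun b => star (L s) * F' b)
      (by fun_prop) (by fun_prop) (fun t => ?_) b
    simp only [hF, hF']
    exact hadj s t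
  have h2 : ∀ a b : B, star (F' a) * b = star a * F b := by
    intro a b
    have := congrArg star (h1 b a)
    rw [star_mul, star_mul, star_star, star_star] at this
    exact this.symm
  let R : B →L[ℂ] B := LinearMap.mkContinuous
    { toFun := fun b => star (F' (star b))
      map_add' := fun a b => by rw [star_add, map_add, star_add]
      map_smul' := fun c b => by
        rw [star_smul, map_smul, star_smul, star_star, RingHom.id_apply] } ‖F'‖ (fun b => by
      have := F'.le_opNorm (star b)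
      rw [norm_star] at this
      change ‖star (F' (star b))‖ ≤ _
      rw [norm_star]
      exact this)
  have hR : ∀ b, R b = star (F' (star b)) := fun b => rfl
  let x : 𝓜(ℂ, B) :=
    { fst := F
      snd := R
      central := fun a b => by
        rw [hR, h2, star_star] }
  refine ⟨x, hF, fun s => ?_⟩
  rw [DoubleCentralizer.star_fst]
  change star (R (star (L s))) = _
  rw [hR, star_star, star_star, hF']

theorem rExt_right_cancel {a b : B} (h : ∀ c, a * c = b * c) : a = b := by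
  have h1 : (a - b) * star (a - b) = 0 := by rw [sub_mul, h, sub_self]
  have h2 : ‖(a - b) * star (a - b)‖ = ‖a - b‖ * ‖a - b‖ := CStarRing.norm_self_mul_star
  rw [h1, norm_zero] at h2
  have h3 : ‖a - b‖ = 0 := mul_self_eq_zero.1 h2.symm
  exact sub_eq_zero.1 (norm_eq_zero.1 h3)

theorem rExt_ext_fst {x y : 𝓜(ℂ, B)} (h : ∀ b, x.fst b = y.fst b) : x = y := by
  refine mult_ext h fun b => ?_
  refine rExt_right_cancel fun c => ?_
  rw [x.central, y.central, h]

theorem rExt_mul_fst (x y : 𝓜(ℂ, B)) (b : B) : (x * y).fst b = x.fst (y.fst b) := rfl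

theorem rExt_add_fst (x y : 𝓜(ℂ, B)) (b : B) : (x + y).fst b = x.fst b + y.fst b := rfl

/-- Two multipliers with the same left action on a dense subspace agree. -/
theorem mult_ext_dense (L : E →ₗ[ℂ] B) (hL : DenseRange L) {x y : 𝓜(ℂ, B)}
    (h : ∀ s, x.fst (L s) = y.fst (L s)) : x = y :=
  rExt_ext_fst fun b => rExt_eq_dense L hL (f := x.fst) (g := y.fst) x.fst.continuous
    y.fst.continuous h b

/-- a unital C*-algebra has square roots of `1 - x* x` for contractions `x` -/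
theorem rExt_sqrt {D : Type*} [CStarAlgebra D] (x : D) (hx : ‖x‖ ≤ 1) :
    ∃ c : D, star x * x + star c * c = 1 := by
  let _ := CStarAlgebra.spectralOrder D
  have _ := CStarAlgebra.spectralOrderedRing D
  have h1 : ‖star x * x‖ ≤ 1 := by
    rw [CStarRing.norm_star_mul_self]
    exact mul_le_one₀ hx (norm_nonneg _) hx
  have h2 : star x * x ≤ 1 :=
    (CStarAlgebra.norm_le_one_iff_of_nonneg (star x * x) (star_mul_self_nonneg x)).1 h1
  have h3 : 0 ≤ 1 - star x * x := sub_nonneg.2 h2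
  refine ⟨CFC.sqrt (1 - star x * x), ?_⟩
  have h4 : star (CFC.sqrt (1 - star x * x)) = CFC.sqrt (1 - star x * x) :=
    (CFC.sqrt_nonneg (1 - star x * x)).isSelfAdjoint.star_eq
  rw [h4, CFC.sqrt_mul_sqrt_self _ h3]
  abel

/-- boundedness of a *-representation on a dense subspace, general form -/
theorem rExt_norm_le {D : Type*} [CStarAlgebra D] (L : E →ₗ[ℂ] B) (R : D →ₐ[ℂ] Module.End ℂ E)
    (hadj : ∀ x s t, star (L (R x s)) * L t = star (L s) * L (R (star x) t)) (x : D) (s : E) :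
    ‖L (R x s)‖ ≤ ‖x‖ * ‖L s‖ := by
  have key : ∀ y : D, ‖y‖ ≤ 1 → ‖L (R y s)‖ ≤ ‖L s‖ := by
    intro y hy
    obtain ⟨c, hc⟩ := rExt_sqrt y hy
    let _ := CStarAlgebra.spectralOrder B
    have _ := CStarAlgebra.spectralOrderedRing B
    have h1 : star (L (R y s)) * L (R y s) + star (L (R c s)) * L (R c s) =
        star (L s) * L s := by
      rw [hadj, hadj, ← mul_add, ← map_add]
      congr 2
      have h2 : R (star y) (R y s) = R (star y * y) s := by rw [map_mul]; rfl
      have h3 : R (star c) (R c s) = R (star c * c) s := by rw [map_mul]; rfl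
      rw [h2, h3, ← LinearMap.add_apply, ← map_add, hc, map_one]
      rfl
    have h4 : star (L (R y s)) * L (R y s) ≤ star (L s) * L s := by
      rw [← h1]
      exact le_add_of_nonneg_right (star_mul_self_nonneg _)
    have h5 := CStarAlgebra.norm_le_norm_of_nonneg_of_le (star_mul_self_nonneg _) h4
    rw [CStarRing.norm_star_mul_self, CStarRing.norm_star_mul_self] at h5
    exact le_of_not_gt fun h => absurd h5 (not_le.2 (mul_self_lt_mul_self (norm_nonneg _) h))
  by_cases hx : x = 0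
  · subst hx
    rw [map_zero]
    simp only [LinearMap.zero_apply, map_zero, norm_zero, zero_mul, Std.le_refl]
  · have hx' : ‖x‖ ≠ 0 := norm_ne_zero_iff.2 hx
    have h1 := key ((‖x‖⁻¹ : ℂ) • x) (by
      rw [norm_smul, norm_inv, Complex.norm_real, norm_norm, inv_mul_cancel₀ hx'])
    rw [map_smul, LinearMap.smul_apply, map_smul, norm_smul, norm_inv, Complex.norm_real,
      norm_norm] at h1
    rwa [inv_mul_le_iff₀ (norm_pos_iff.2 hx)] at h1

/-- a *-representation on a dense subspace gives a *-homomorphism to the multipliers -/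
theorem rExt_exists_hom {D : Type*} [CStarAlgebra D] (L : E →ₗ[ℂ] B) (hL : DenseRange L)
    (R : D →ₐ[ℂ] Module.End ℂ E)
    (hadj : ∀ x s t, star (L (R x s)) * L t = star (L s) * L (R (star x) t)) :
    ∃ θ : D →⋆ₐ[ℂ] 𝓜(ℂ, B), ∀ x s, (θ x).fst (L s) = L (R x s) := by
  have h1 : ∀ x : D, ∃ y : 𝓜(ℂ, B), (∀ s, y.fst (L s) = L (R x s)) ∧
      ∀ s, (star y).fst (L s) = L (R (star x) s) := fun x =>
    exists_mult L hL (R x) (R (star x)) ‖x‖ (rExt_norm_le L R hadj x)
      (fun s => by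
        have := rExt_norm_le L R hadj (star x) s
        rwa [norm_star] at this) (hadj x)
  choose f hf hf' using h1
  refine ⟨{ toFun := f
            map_one' := ?_
            map_mul' := ?_
            map_zero' := ?_
            map_add' := ?_
            commutes' := ?_
            map_star' := ?_ }, hf⟩
  · refine mult_ext_dense L hL fun s => ?_
    rw [hf, map_one]
    rfl
  · intro x y
    refine mult_ext_dense L hL fun s => ?_
    rw [rExt_mul_fst, hf, map_mul, hf, hf]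
    rfl
  · refine mult_ext_dense L hL fun s => ?_
    rw [hf, map_zero, DoubleCentralizer.zero_fst]
    exact map_zero L
  · intro x y
    refine mult_ext_dense L hL fun s => ?_
    rw [rExt_add_fst, hf, map_add, hf, hf, LinearMap.add_apply, map_add]
  · intro r
    refine mult_ext_dense L hL fun s => ?_
    rw [hf, AlgHom.commutes, DoubleCentralizer.algebraMap_fst]
    exact map_smul L r s
  · intro x
    refine mult_ext_dense L hL fun s => ?_
    rw [hf, hf']

end general

/-- the left action of multipliers as an algebra homomorphism -/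
noncomputable def rExtFst (A : Type u) [NonUnitalCStarAlgebra A] :
    𝓜(ℂ, A) →ₐ[ℂ] Module.End ℂ A :=
  AlgHom.ofLinearMap
    { toFun := fun x => (x.fst : A →ₗ[ℂ] A)
      map_add' := fun _ _ => rfl
      map_smul' := fun _ _ => rfl } rfl (fun _ _ => rfl)

variable {A Z B : Type u} [NonUnitalCStarAlgebra A] [CStarAlgebra Z] [NonUnitalCStarAlgebra B]
  (T : A →ₗ[ℂ] Z →ₗ[ℂ] B) (hT : IsTensorCompletionN T)

/-- the action of `M(A)` on `A ⊗ Z` -/
noncomputable def rExtL (A Z : Type u) [NonUnitalCStarAlgebra A] [CStarAlgebra Z] :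
    𝓜(ℂ, A) →ₐ[ℂ] Module.End ℂ (A ⊗[ℂ] Z) :=
  (Module.End.rTensorAlgHom ℂ A Z).comp (rExtFst A)

theorem rExtL_apply (x : 𝓜(ℂ, A)) : rExtL A Z x = LinearMap.rTensor Z (x.fst : A →ₗ[ℂ] A) := rfl

/-- the action of `Z` on `A ⊗ Z` -/
noncomputable def rExtR (A Z : Type u) [NonUnitalCStarAlgebra A] [CStarAlgebra Z] :
    Z →ₐ[ℂ] Module.End ℂ (A ⊗[ℂ] Z) :=
  (Module.End.lTensorAlgHom ℂ Z A).comp (Algebra.lmul ℂ Z)

theorem rExtR_apply (z : Z) : rExtR A Z z = LinearMap.lTensor A (LinearMap.mulLeft ℂ z) := rfl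

theorem rExt_sesq {T : A →ₗ[ℂ] Z →ₗ[ℂ] B} {X X' : A ⊗[ℂ] Z →ₗ[ℂ] A ⊗[ℂ] Z}
    (h : ∀ a z a' z', star (TensorProduct.lift T (X (a ⊗ₜ z))) * T a' z' =
      star (T a z) * TensorProduct.lift T (X' (a' ⊗ₜ z'))) (s t : A ⊗[ℂ] Z) :
    star (TensorProduct.lift T (X s)) * TensorProduct.lift T t =
      star (TensorProduct.lift T s) * TensorProduct.lift T (X' t) := by
  induction s using TensorProduct.induction_on with
  | zero => simp
  | add s₁ s₂ h₁ h₂ => rw [map_add, map_add, map_add, star_add, star_add, add_mul, add_mul, h₁, h₂]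
  | tmul a z =>
    induction t using TensorProduct.induction_on with
    | zero => simp only [map_zero, mul_zero, TensorProduct.lift.tmul]
    | add t₁ t₂ h₁ h₂ => rw [map_add, map_add, map_add, mul_add, mul_add, h₁, h₂]
    | tmul a' z' =>
      rw [TensorProduct.lift.tmul, TensorProduct.lift.tmul]
      exact h a z a' z'

include hT

theorem rExt_adjL (x : 𝓜(ℂ, A)) (s t : A ⊗[ℂ] Z) :
    star (TensorProduct.lift T (rExtL A Z x s)) * TensorProduct.lift T t =
      star (TensorProduct.lift T s) * TensorProduct.lift T (rExtL A Z (star x) t) := by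
  refine rExt_sesq ?_ s t
  intro a z a' z'
  rw [rExtL_apply, rExtL_apply, LinearMap.rTensor_tmul, LinearMap.rTensor_tmul,
    TensorProduct.lift.tmul, TensorProduct.lift.tmul]
  change star (T (x.fst a) z) * T a' z' = star (T a z) * T ((star x).fst a') z'
  rw [← hT.map_star, ← hT.map_star, ← hT.map_mul, ← hT.map_mul]
  congr 2
  have h1 := (star x).central (star a) a'
  rw [DoubleCentralizer.star_snd, star_star] at h1
  exact h1

theorem rExt_adjR (x : Z) (s t : A ⊗[ℂ] Z) :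
    star (TensorProduct.lift T (rExtR A Z x s)) * TensorProduct.lift T t =
      star (TensorProduct.lift T s) * TensorProduct.lift T (rExtR A Z (star x) t) := by
  refine rExt_sesq ?_ s t
  intro a z a' z'
  rw [rExtR_apply, rExtR_apply, LinearMap.lTensor_tmul, LinearMap.lTensor_tmul,
    TensorProduct.lift.tmul, TensorProduct.lift.tmul, LinearMap.mulLeft_apply,
    LinearMap.mulLeft_apply, ← hT.map_star, ← hT.map_star, ← hT.map_mul, ← hT.map_mul,
    star_mul, mul_assoc]

/-- boundedness of the action of `Z` on the algebraic tensor product -/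
theorem norm_right_le (z : Z) (s : A ⊗[ℂ] Z) :
    ‖TensorProduct.lift T (LinearMap.lTensor A (LinearMap.mulLeft ℂ z) s)‖ ≤
      ‖z‖ * ‖TensorProduct.lift T s‖ :=
  rExt_norm_le (TensorProduct.lift T) (rExtR A Z) (rExt_adjR T hT) z s

theorem exists_leftHom : ∃ θ : 𝓜(ℂ, A) →⋆ₐ[ℂ] 𝓜(ℂ, B),
    ∀ x a z, (θ x).fst (T a z) = T (x.fst a) z := by
  obtain ⟨θ, h⟩ := rExt_exists_hom (TensorProduct.lift T) hT.dense (rExtL A Z) (rExt_adjL T hT)
  exact ⟨θ, fun x a z => h x (a ⊗ₜ z)⟩

theorem exists_rightHom : ∃ j : Z →⋆ₐ[ℂ] 𝓜(ℂ, B), ∀ z' a z, (j z').fst (T a z) = T a (z' * z) := by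
  obtain ⟨j, h⟩ := rExt_exists_hom (TensorProduct.lift T) hT.dense (rExtR A Z) (rExt_adjR T hT)
  exact ⟨j, fun x a z => h x (a ⊗ₜ z)⟩

/-- multipliers agreeing on elementary tensors are equal -/
theorem rExt_ext {x y : 𝓜(ℂ, B)} (h : ∀ a z, x.fst (T a z) = y.fst (T a z)) : x = y := by
  refine mult_ext_dense (TensorProduct.lift T) hT.dense fun s => ?_
  induction s using TensorProduct.induction_on with
  | zero => simp only [map_zero]
  | add s₁ s₂ h₁ h₂ => rw [map_add, map_add, map_add, h₁, h₂]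
  | tmul a z =>
    rw [TensorProduct.lift.tmul]
    exact h a z

variable (θ : 𝓜(ℂ, A) →⋆ₐ[ℂ] 𝓜(ℂ, B)) (hθ : ∀ x a z, (θ x).fst (T a z) = T (x.fst a) z)
  (j : Z →⋆ₐ[ℂ] 𝓜(ℂ, B)) (hj : ∀ z' a z, (j z').fst (T a z) = T a (z' * z))

include hθ hj

theorem ext_comm (x : 𝓜(ℂ, A)) (z : Z) : Commute (θ x) (j z) := by
  refine rExt_ext T hT fun a z' => ?_
  rw [rExt_mul_fst, rExt_mul_fst, hθ, hj, hj, hθ]

theorem ext_coe (a : A) (z : Z) : θ (a : 𝓜(ℂ, A)) * j z = ((T a z : B) : 𝓜(ℂ, B)) := by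
  refine rExt_ext T hT fun a' z' => ?_
  rw [rExt_mul_fst, hj, hθ]
  change T (a * a') (z * z') = T a z * T a' z'
  exact hT.map_mul _ _ _ _

/-- `M(A) ⊗ Z` acts faithfully. -/
theorem ext_injective (hc : ∀ x z, Commute (θ x) (j z)) : Function.Injective
    (Algebra.TensorProduct.lift (θ : 𝓜(ℂ, A) →ₐ[ℂ] 𝓜(ℂ, B)) (j : Z →ₐ[ℂ] 𝓜(ℂ, B)) hc) := by
  classical
  rw [injective_iff_map_eq_zero]
  intro t ht
  -- the linear maps `ev_a`
  let ev : A → (𝓜(ℂ, A) →ₗ[ℂ] A) := fun a =>
    { toFun := fun x => x.fst a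
      map_add' := fun _ _ => rfl
      map_smul' := fun _ _ => rfl }
  have h1 : ∀ (a : A) (t : 𝓜(ℂ, A) ⊗[ℂ] Z),
      (Algebra.TensorProduct.lift (θ : 𝓜(ℂ, A) →ₐ[ℂ] 𝓜(ℂ, B)) (j : Z →ₐ[ℂ] 𝓜(ℂ, B)) hc t).fst
        (T a 1) = TensorProduct.lift T (LinearMap.rTensor Z (ev a) t) := by
    intro a t
    induction t using TensorProduct.induction_on with
    | zero =>
      rw [map_zero, map_zero, map_zero, DoubleCentralizer.zero_fst]
      rfl
    | add s₁ s₂ h₁ h₂ =>
      rw [map_add, map_add, map_add, rExt_add_fst, h₁, h₂]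
    | tmul x z =>
      rw [Algebra.TensorProduct.lift_tmul, LinearMap.rTensor_tmul, TensorProduct.lift.tmul,
        rExt_mul_fst]
      change (θ x).fst ((j z).fst (T a 1)) = T (x.fst a) z
      rw [hj, hθ, mul_one]
  have h2 : ∀ a, LinearMap.rTensor Z (ev a) t = 0 := by
    intro a
    refine (injective_iff_map_eq_zero _).1 hT.injective _ ?_
    rw [← h1, ht, DoubleCentralizer.zero_fst]
    rfl
  let b := Module.Basis.ofVectorSpace ℂ Z
  have h3 : ∀ (a : A) (t : 𝓜(ℂ, A) ⊗[ℂ] Z) (i),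
      TensorProduct.equivFinsuppOfBasisRight b (LinearMap.rTensor Z (ev a) t) i =
        ev a (TensorProduct.equivFinsuppOfBasisRight b t i) := by
    intro a t i
    induction t using TensorProduct.induction_on with
    | zero => simp
    | add s₁ s₂ h₁ h₂ =>
      rw [map_add, map_add, map_add, Finsupp.add_apply, Finsupp.add_apply, map_add, h₁, h₂]
    | tmul x z =>
      rw [LinearMap.rTensor_tmul, TensorProduct.equivFinsuppOfBasisRight_apply_tmul_apply,
        TensorProduct.equivFinsuppOfBasisRight_apply_tmul_apply, map_smul]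
  have h4 : TensorProduct.equivFinsuppOfBasisRight b t = 0 := by
    ext1 i
    refine rExt_ext_fst fun a => ?_
    have h5 := h3 a t i
    rw [h2, map_zero] at h5
    exact h5.symm
  exact (LinearEquiv.map_eq_zero_iff _).1 h4

theorem ext_act (f : A ≃⋆ₐ[ℂ] A) (f' : B ≃⋆ₐ[ℂ] B) (hf : ∀ a z, f' (T a z) = T (f a) z)
    (x : 𝓜(ℂ, A)) (z : Z) :
    multAut f' (θ x) = θ (multAut f x) ∧ multAut f' (j z) = j z := by
  have hs : ∀ a z, f'.symm (T a z) = T (f.symm a) z := by
    intro a z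
    have h1 := hf (f.symm a) z
    rw [StarAlgEquiv.apply_symm_apply] at h1
    rw [← h1, StarAlgEquiv.symm_apply_apply]
  constructor
  · refine rExt_ext T hT fun a z' => ?_
    rw [multAut_fst, hs, hθ, hθ, hf, multAut_fst]
  · refine rExt_ext T hT fun a z' => ?_
    rw [multAut_fst, hs, hj, hj, hf, StarAlgEquiv.apply_symm_apply]

end Vale.Agent.P095R
end

section

/-! Residual finiteness of free groups, in the form: some finite quotient is injective on a
ball. -/

namespace Vale.Agent.P095C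

open FreeGroup

/-- balls of a free group of finite rank are finite -/
theorem ball_finite (I : Type) [Fintype I] [DecidableEq I] (R : ℕ) :
    {w : FreeGroup I | w.norm ≤ R}.Finite := by
  have h : (FreeGroup.toWord '' {w : FreeGroup I | w.norm ≤ R}).Finite := by
    refine (List.finite_length_le (I × Bool) R).subset ?_
    rintro _ ⟨w, hw, rfl⟩
    exact hw
  exact Set.Finite.of_finite_image h (toWord_injective.injOn)

section

variable (I : Type) [Fintype I] [DecidableEq I] (R : ℕ)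

/-- The ball of radius `R`. -/
abbrev FFBall : Type := {w : FreeGroup I // w.norm ≤ R}

instance : Finite (FFBall I R) := (ball_finite I R).to_subtype

variable {I}

/-- Left multiplication by a generator, where it stays in the ball. -/
def ffEquiv (c : I) : {w : FFBall I R // (FreeGroup.of c * w.1).norm ≤ R} ≃
    {w : FFBall I R // ((FreeGroup.of c)⁻¹ * w.1).norm ≤ R} where
  toFun w := ⟨⟨FreeGroup.of c * w.1.1, w.2⟩, by
    rw [inv_mul_cancel_left]; exact w.1.2⟩
  invFun w := ⟨⟨(FreeGroup.of c)⁻¹ * w.1.1, w.2⟩, by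
    rw [mul_inv_cancel_left]; exact w.1.2⟩
  left_inv w := by
    apply Subtype.ext
    apply Subtype.ext
    exact inv_mul_cancel_left _ _
  right_inv w := by
    apply Subtype.ext
    apply Subtype.ext
    exact mul_inv_cancel_left _ _

open Classical in
/-- A permutation of the ball extending the left multiplication by a generator. -/
noncomputable def ffPerm (c : I) : Equiv.Perm (FFBall I R) := (ffEquiv R c).extendSubtype

theorem ffPerm_apply (c : I) (w : FFBall I R) (h : (FreeGroup.of c * w.1).norm ≤ R) :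
    ffPerm R c w = ⟨FreeGroup.of c * w.1, h⟩ := by
  unfold ffPerm
  rw [Equiv.extendSubtype_apply_of_mem _ w h]
  rfl

theorem ffPerm_inv_apply (c : I) (w : FFBall I R) (h : ((FreeGroup.of c)⁻¹ * w.1).norm ≤ R) :
    (ffPerm R c)⁻¹ w = ⟨(FreeGroup.of c)⁻¹ * w.1, h⟩ := by
  rw [Equiv.Perm.inv_eq_iff_eq, ffPerm_apply]
  · apply Subtype.ext
    simp
  · simpa only [mul_inv_cancel_left] using w.2

/-- The finite quotient. -/
noncomputable def ffHom : FreeGroup I →* Equiv.Perm (FFBall I R) := FreeGroup.lift (ffPerm R)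

theorem ffHom_mk (L : List (I × Bool)) : IsReduced L → L.length ≤ R → ∀ h1 hL,
    ffHom R (FreeGroup.mk L) ⟨1, h1⟩ = ⟨FreeGroup.mk L, hL⟩ := by
  induction L with
  | nil =>
    intro _ _ h1 hL
    have : (FreeGroup.mk [] : FreeGroup I) = 1 := rfl
    simp only [this, _root_.map_one, Equiv.Perm.coe_one, id_eq]
  | cons a L ih =>
    intro hr hlen h1 hL
    have hr' : IsReduced L := List.IsChain.tail hr
    have hlen' : L.length ≤ R := by
      simp only [List.length_cons] at hlen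
      omega
    have hn' : (FreeGroup.mk L : FreeGroup I).norm ≤ R := norm_mk_le.trans hlen'
    have e : (FreeGroup.mk (a :: L) : FreeGroup I) = FreeGroup.mk [a] * FreeGroup.mk L := by
      rw [FreeGroup.mul_mk]; rfl
    have ih' := ih hr' hlen' h1 hn'
    have e2 : ffHom R (FreeGroup.mk (a :: L)) ⟨1, h1⟩
        = ffHom R (FreeGroup.mk [a]) ⟨FreeGroup.mk L, hn'⟩ := by
      rw [e, _root_.map_mul, Equiv.Perm.mul_apply, ih']
    rw [e2]
    obtain ⟨c, b⟩ := a
    cases b with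
    | true =>
      have e3 : (FreeGroup.mk [(c, true)] : FreeGroup I) = FreeGroup.of c := rfl
      rw [e3]
      have e4 : ffHom R (FreeGroup.of c) = ffPerm R c := by simp [ffHom]
      rw [e4, ffPerm_apply R c _ (by
        show (FreeGroup.of c * FreeGroup.mk L).norm ≤ R
        rw [← e3, ← e]; exact hL)]
      apply Subtype.ext
      show FreeGroup.of c * FreeGroup.mk L = _
      rw [← e3, ← e]
    | false =>
      have e3 : (FreeGroup.mk [(c, false)] : FreeGroup I) = (FreeGroup.of c)⁻¹ := rfl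
      rw [e3]
      have e4 : ffHom R (FreeGroup.of c)⁻¹ = (ffPerm R c)⁻¹ := by simp [ffHom]
      rw [e4, ffPerm_inv_apply R c _ (by
        show ((FreeGroup.of c)⁻¹ * FreeGroup.mk L).norm ≤ R
        rw [← e3, ← e]; exact hL)]
      apply Subtype.ext
      show (FreeGroup.of c)⁻¹ * FreeGroup.mk L = _
      rw [← e3, ← e]

end

/-- Some finite quotient of the free group is injective on a ball. -/
theorem exists_finite_quotient (I : Type) [Fintype I] [DecidableEq I] (R : ℕ) :
    ∃ (Q : Type) (_ : Group Q) (_ : Fintype Q) (_ : DecidableEq Q) (π : FreeGroup I →* Q),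
      ∀ w w' : FreeGroup I, w.norm ≤ R → w'.norm ≤ R → π w = π w' → w = w' := by
  classical
  have : Fintype (FFBall I R) := Fintype.ofFinite _
  refine ⟨Equiv.Perm (FFBall I R), inferInstance, inferInstance, inferInstance, ffHom R, ?_⟩
  intro w w' hw hw' h
  have h1 : (1 : FreeGroup I).norm ≤ R := by simp
  have key : ∀ w : FreeGroup I, ∀ hw : w.norm ≤ R, ffHom R w ⟨1, h1⟩ = ⟨w, hw⟩ := by
    intro w hw
    have h2 := ffHom_mk R w.toWord isReduced_toWord hw h1 (by rw [mk_toWord]; exact hw)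
    simpa only [mk_toWord] using h2
  have h3 := key w hw
  rw [h, key w' hw'] at h3
  exact (congrArg Subtype.val h3).symm

end Vale.Agent.P095C
end

section

/-! The complex matrices of the free group trick. -/

set_option linter.unusedSectionVars false

open scoped InnerProductSpace Matrix

namespace Vale.Agent.P095C

open Vale.Agent FreeGroup

section flat

variable {κ : Type*} [Fintype κ] [DecidableEq κ] {I : Type*} [Fintype I] [DecidableEq I]

/-- a matrix of matrices as a matrix -/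
def flat : Matrix I I (Matrix κ κ ℂ) ≃+* Matrix (I × κ) (I × κ) ℂ :=
  Matrix.compRingEquiv I κ ℂ

theorem flat_apply (M : Matrix I I (Matrix κ κ ℂ)) (P P' : I × κ) :
    flat M P P' = M P.1 P'.1 P.2 P'.2 := rfl

theorem flat_hermitian {M : Matrix I I (Matrix κ κ ℂ)} (h : ∀ p q, (M p q)ᴴ = M q p) :
    (flat M).IsHermitian := by
  ext P P'
  rw [Matrix.conjTranspose_apply, flat_apply, flat_apply, ← h P'.1 P.1,
    Matrix.conjTranspose_apply]

/-- the form `u* T v` as a linear map -/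
def sform (u v : κ → ℂ) : Matrix κ κ ℂ →ₗ[ℂ] ℂ where
  toFun T := ∑ a, ∑ b, star (u a) * (T a b * v b)
  map_add' S T := by
    simp only [Matrix.add_apply, add_mul, mul_add, Finset.sum_add_distrib]
  map_smul' c T := by
    simp only [Matrix.smul_apply, smul_eq_mul, RingHom.id_apply, Finset.mul_sum]
    refine Finset.sum_congr rfl fun a _ => Finset.sum_congr rfl fun b _ => ?_
    ring

theorem sform_apply (u v : κ → ℂ) (T : Matrix κ κ ℂ) :
    sform u v T = ∑ a, ∑ b, star (u a) * (T a b * v b) := rfl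

theorem quad_flat (M : Matrix I I (Matrix κ κ ℂ)) (x : I × κ → ℂ) :
    star x ⬝ᵥ (flat M *ᵥ x) =
      ∑ p, ∑ q, sform (fun a => x (p, a)) (fun b => x (q, b)) (M p q) := by
  simp only [dotProduct, Pi.star_apply, Matrix.mulVec, flat_apply, Fintype.sum_prod_type, Finset.mul_sum, sform_apply]
  refine Finset.sum_congr rfl fun p _ => ?_
  rw [Finset.sum_comm]

end flat

theorem sform_stine {D : Type*} [Ring D] [StarRing D] [Algebra ℂ D]
    {κ : Type*} [Fintype κ] [DecidableEq κ]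
    (α : D →ₗ[ℂ] Matrix κ κ ℂ) {H : Type*} [NormedAddCommGroup H]
    [InnerProductSpace ℂ H] [CompleteSpace H] (f : D →⋆ₐ[ℂ] (H →L[ℂ] H)) (ξ : κ → H)
    (hξ : ∀ d i j, ⟪ξ i, f d (ξ j)⟫_ℂ = α d i j) (u v : κ → ℂ) (d : D) :
    sform u v (α d) = ⟪∑ a, u a • ξ a, f d (∑ b, v b • ξ b)⟫_ℂ := by
  rw [sform_apply, sum_inner]
  refine Finset.sum_congr rfl fun a _ => ?_
  rw [map_sum, inner_sum]
  refine Finset.sum_congr rfl fun b _ => ?_
  rw [map_smul, inner_smul_left, inner_smul_right, hξ]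
  simp only [RCLike.star_def]
  ring

theorem sum_ball {L : ℕ} {Γ : Type*} [DecidableEq Γ] {E : Type*} [AddCommMonoid E] (B : Finset Γ)
    (F : Fin L × Γ → E) :
    ∑ p ∈ Finset.univ ×ˢ B, F p = ∑ p : Fin L × B, F (p.1, (p.2 : Γ)) := by
  rw [Finset.sum_product, Fintype.sum_prod_type]
  refine Finset.sum_congr rfl fun l _ => ?_
  exact (Finset.sum_coe_sort B (fun y => F (l, y))).symm

section ball

variable {D : Type*} [Ring D] [StarRing D] [Algebra ℂ D]
variable {κ : Type*} [Fintype κ] [DecidableEq κ]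

theorem norm_sq_stine (α : D →ₗ[ℂ] Matrix κ κ ℂ) (hα1 : α 1 = 1) {H : Type*}
    [NormedAddCommGroup H] [InnerProductSpace ℂ H] [CompleteSpace H] (f : D →⋆ₐ[ℂ] (H →L[ℂ] H))
    (ξ : κ → H) (hξ : ∀ d i j, ⟪ξ i, f d (ξ j)⟫_ℂ = α d i j) (u : κ → ℂ) :
    ‖∑ a, u a • ξ a‖ ^ 2 = ∑ a, ‖u a‖ ^ 2 := by
  have h := sform_stine α f ξ hξ u u 1
  rw [hα1, _root_.map_one f, show (1 : H →L[ℂ] H) (∑ b, u b • ξ b) = ∑ b, u b • ξ b from rfl,
    inner_self_eq_norm_sq_to_K, sform_apply] at h
  have h2 : ∀ a, ∑ b, star (u a) * ((1 : Matrix κ κ ℂ) a b * u b) = ((‖u a‖ ^ 2 : ℝ) : ℂ) := by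
    intro a
    rw [Finset.sum_eq_single a]
    · rw [Matrix.one_apply_eq, one_mul, RCLike.star_def, Complex.conj_mul']
      norm_cast
    · intro b _ hb
      rw [Matrix.one_apply_ne (Ne.symm hb), zero_mul, mul_zero]
    · simp only [Finset.mem_univ, not_true_eq_false, RCLike.star_def, Matrix.one_apply_eq, one_mul, mul_eq_zero, map_eq_zero, or_self, IsEmpty.forall_iff]
  rw [Finset.sum_congr rfl fun a _ => h2 a] at h
  have h3 := congrArg Complex.re h
  rw [Complex.re_sum] at h3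
  simp only [Complex.ofReal_re] at h3
  rw [h3]
  norm_cast

theorem quad_ball (α : D →ₗ[ℂ] Matrix κ κ ℂ) (hα1 : α 1 = 1) {H : Type*}
    [NormedAddCommGroup H] [InnerProductSpace ℂ H] [CompleteSpace H] (f : D →⋆ₐ[ℂ] (H →L[ℂ] H))
    (ξ : κ → H) (hξ : ∀ d i j, ⟪ξ i, f d (ξ j)⟫_ℂ = α d i j)
    {L N : ℕ} (z : Fin N → D) (e : D) {δ : ℝ} (hδ0 : 0 ≤ δ)
    (hδ1 : δ ≤ 1) (he : ‖f e‖ ≤ 1) (h1 : ‖f e - ∑ i, f (z i) * star (f (z i))‖ ≤ δ)
    (h2 : ‖∑ i, star (f (z i)) * f (z i)‖ ≤ δ) (B : Finset (FreeGroup (Fin L × Fin N)))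
    (x : (Fin L × B) × κ → ℂ) :
    |(star x ⬝ᵥ (flat (TMB (fun i j => α (z i * star (z j))) (α e) B) *ᵥ x)).re| ≤
      8 * (L + 1) * Real.sqrt δ * ∑ P, ‖x P‖ ^ 2 := by
  set η : Fin L × FreeGroup (Fin L × Fin N) → H := fun p =>
    if h : p.2 ∈ B then ∑ a, x ((p.1, ⟨p.2, h⟩), a) • ξ a else 0 with hη
  have hηB : ∀ p : Fin L × B, η (p.1, (p.2 : FreeGroup _)) = ∑ a, x (p, a) • ξ a := by
    intro p
    rw [hη]
    simp only [dif_pos p.2.2]
  have key := free_form_bound (fun i => f (z i)) (f e) hδ0 hδ1 he h1 h2 B η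
  have hnorm : ∑ p ∈ Finset.univ ×ˢ B, ‖η p‖ ^ 2 = ∑ P : (Fin L × B) × κ, ‖x P‖ ^ 2 := by
    rw [sum_ball, Fintype.sum_prod_type (f := fun P : (Fin L × B) × κ => ‖x P‖ ^ 2)]
    refine Finset.sum_congr rfl fun p _ => ?_
    rw [hηB, norm_sq_stine α hα1 f ξ hξ (fun a => x (p, a))]
  rw [hnorm] at key
  refine le_trans (le_of_eq ?_) key
  congr 1
  rw [quad_flat, sum_ball, sum_ball, Complex.re_sum]
  have e1 : ∀ p q : Fin L × B, sform (fun a => x (p, a)) (fun b => x (q, b))
      (TMB (fun i j => α (z i * star (z j))) (α e) B p q) =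
      (∑ i, ∑ j, if (of (p.1, i))⁻¹ * (p.2 : FreeGroup _) = (of (q.1, j))⁻¹ * (q.2 : FreeGroup _)
        then ⟪(star (f (z i))) (η (p.1, (p.2 : FreeGroup _))),
          (star (f (z j))) (η (q.1, (q.2 : FreeGroup _)))⟫_ℂ else 0) -
      if p = q then ⟪η (p.1, (p.2 : FreeGroup _)), f e (η (p.1, (p.2 : FreeGroup _)))⟫_ℂ
        else 0 := by
    intro p q
    rw [TMB, Matrix.of_apply, TM, map_sub, map_sum]
    congr 1
    · refine Finset.sum_congr rfl fun i _ => ?_
      rw [map_sum]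
      refine Finset.sum_congr rfl fun j _ => ?_
      by_cases hc : (of (p.1, i))⁻¹ * (p.2 : FreeGroup _) = (of (q.1, j))⁻¹ * (q.2 : FreeGroup _)
      · rw [if_pos hc, if_pos hc, sform_stine α f ξ hξ, hηB, hηB, _root_.map_mul, map_star,
          ContinuousLinearMap.star_eq_adjoint, ContinuousLinearMap.star_eq_adjoint,
          ContinuousLinearMap.adjoint_inner_left]
        rfl
      · rw [if_neg hc, if_neg hc, map_zero]
    · by_cases hpq : p = q
      · subst hpq
        rw [if_pos rfl, if_pos rfl, sform_stine α f ξ hξ, hηB]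
      · have hpq' : ¬ ((p.1, (p.2 : FreeGroup _)) = (q.1, (q.2 : FreeGroup (Fin L × Fin N)))) := by
          intro h
          apply hpq
          rw [Prod.mk.injEq] at h
          exact Prod.ext h.1 (Subtype.ext h.2)
        rw [if_neg hpq, if_neg hpq', map_zero]
  rw [← Finset.sum_sub_distrib]
  refine Finset.sum_congr rfl fun p _ => ?_
  rw [Complex.re_sum, sum_ball]
  simp only [e1, Complex.sub_re, Finset.sum_sub_distrib, Complex.re_sum]
  congr 1
  · refine Finset.sum_congr rfl fun q _ => Finset.sum_congr rfl fun i _ =>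
      Finset.sum_congr rfl fun j _ => ?_
    split_ifs <;> simp
  · rw [Finset.sum_eq_single p]
    · rw [if_pos rfl]
    · intro q _ hq
      rw [if_neg (Ne.symm hq), Complex.zero_re]
    · simp only [Finset.mem_univ, not_true_eq_false, ↓reduceIte, IsEmpty.forall_iff]

end ball

end Vale.Agent.P095C
end

section

/-! The transfer matrix of the finite quotient is bounded below up to small rank. -/

set_option linter.unusedSectionVars false

open scoped InnerProductSpace Matrix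

namespace Vale.Agent.P095C

open Vale.Agent FreeGroup

theorem star_TM {S : Type*} [Ring S] [StarRing S] {L N : ℕ} {Γ : Type*} [Group Γ] [DecidableEq Γ]
    (s : Fin L × Fin N → Γ) (c : Fin N → Fin N → S) (d : S) (hc : ∀ i j, star (c i j) = c j i)
    (hd : star d = d) (p q : Fin L × Γ) : star (TM s c d p q) = TM s c d q p := by
  unfold TM
  rw [star_sub, star_sum]
  congr 1
  · rw [Finset.sum_congr rfl fun i _ => star_sum _ _, Finset.sum_comm]
    refine Finset.sum_congr rfl fun i _ => Finset.sum_congr rfl fun j _ => ?_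
    by_cases h : (s (q.1, i))⁻¹ * q.2 = (s (p.1, j))⁻¹ * p.2
    · rw [if_pos h, if_pos h.symm, hc]
    · rw [if_neg h, if_neg (Ne.symm h), star_zero]
  · by_cases h : p = q
    · rw [if_pos h, if_pos h.symm, hd]
    · rw [if_neg h, if_neg (Ne.symm h), star_zero]

theorem TMQ_herm {κ : Type} [Fintype κ] [DecidableEq κ] {L N : ℕ}
    (c : Fin N → Fin N → Matrix κ κ ℂ) (d : Matrix κ κ ℂ) (hc : ∀ i j, star (c i j) = c j i)
    (hd : star d = d) {Q : Type} [Group Q] [Fintype Q] [DecidableEq Q] (s : Fin L × Fin N → Q) :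
    (flat (TMQ s c d)).IsHermitian := by
  refine flat_hermitian fun a b => ?_
  rw [TMQ, Matrix.of_apply, Matrix.of_apply, ← Matrix.star_eq_conjTranspose]
  exact star_TM s c d hc hd a b

theorem TMB_herm {κ : Type} [Fintype κ] [DecidableEq κ] {L N : ℕ}
    (c : Fin N → Fin N → Matrix κ κ ℂ) (d : Matrix κ κ ℂ) (hc : ∀ i j, star (c i j) = c j i)
    (hd : star d = d) (B : Finset (FreeGroup (Fin L × Fin N))) :
    (flat (TMB c d B)).IsHermitian := by
  refine flat_hermitian fun a b => ?_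
  rw [TMB, Matrix.of_apply, Matrix.of_apply, ← Matrix.star_eq_conjTranspose]
  exact star_TM (fun i => of i) c d hc hd _ _

theorem flat_pow_apply {κ : Type*} [Fintype κ] [DecidableEq κ] {I : Type*} [Fintype I]
    [DecidableEq I] (M : Matrix I I (Matrix κ κ ℂ)) (n : ℕ) (P P' : I × κ) :
    (flat M ^ n) P P' = (M ^ n) P.1 P'.1 P.2 P'.2 := by
  rw [← map_pow, flat_apply]

theorem TM_diag_eq {κ : Type} [Fintype κ] [DecidableEq κ] {L N : ℕ}
    (c : Fin N → Fin N → Matrix κ κ ℂ) (d : Matrix κ κ ℂ) {Q : Type} [Group Q] [Fintype Q]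
    [DecidableEq Q] (π : FreeGroup (Fin L × Fin N) →* Q) (R : ℕ)
    (B : Finset (FreeGroup (Fin L × Fin N)))
    (hB : ∀ w, w ∈ B ↔ w.norm ≤ R)
    (hπ : ∀ w w' : FreeGroup (Fin L × Fin N), w.norm ≤ R + 1 → w'.norm ≤ R + 1 → π w = π w' →
      w = w') (n : ℕ) (hn : 2 * n ≤ R) (l : Fin L) (q : Q) (a : κ) :
    (flat (TMQ (fun i => π (of i)) c d) ^ n) ((l, q), a) ((l, q), a) =
      (flat (TMB c d B) ^ n) ((l, ⟨1, (hB 1).2 (by simp)⟩), a)
        ((l, ⟨1, (hB 1).2 (by simp)⟩), a) := by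
  rw [flat_pow_apply, flat_pow_apply]
  have h1 := TMQ_pow_diag (fun i => π (of i)) c d n l q
  have h2 := TMQ_pow_eq π R B hB hπ c d n hn l l
  exact congrFun (congrFun (h1.trans h2) a) a

theorem exists_pow_ge (x : ℕ) : ∃ p : ℕ, x ≤ 4 ^ p :=
  ⟨x, (Nat.lt_pow_self (by norm_num)).le⟩

variable {D : Type*} [Ring D] [StarRing D] [Algebra ℂ D]
variable {κ : Type} [Fintype κ] [DecidableEq κ]

theorem exists_spectral_data (α : D →ₗ[ℂ] Matrix κ κ ℂ) (hα1 : α 1 = 1) {H : Type*}
    [NormedAddCommGroup H] [InnerProductSpace ℂ H] [CompleteSpace H] (f : D →⋆ₐ[ℂ] (H →L[ℂ] H))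
    (ξ : κ → H) (hξ : ∀ d i j, ⟪ξ i, f d (ξ j)⟫_ℂ = α d i j)
    {L N : ℕ} (z : Fin N → D) (e : D) (hse : star e = e) {δ θ : ℝ} (hδ0 : 0 ≤ δ)
    (hδ1 : δ ≤ 1) (he : ‖f e‖ ≤ 1) (h1 : ‖f e - ∑ i, f (z i) * star (f (z i))‖ ≤ δ)
    (h2 : ‖∑ i, star (f (z i)) * f (z i)‖ ≤ δ) (hθ : 0 < θ)
    (hδθ : 8 * (L + 1) * Real.sqrt δ ≤ θ) :
    ∃ (Q : Type) (_ : Group Q) (_ : Fintype Q) (_ : DecidableEq Q) (s : Fin L × Fin N → Q) (r : ℕ)
      (V : Matrix ((Fin L × Q) × κ) (Fin r) ℂ)
      (C : Matrix ((Fin L × Q) × κ) ((Fin L × Q) × κ) ℂ),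
      Fintype.card κ * r ≤ Fintype.card Q ∧
      flat (TMQ s (fun i j => α (z i * star (z j))) (α e)) +
        ((2 * θ : ℝ) : ℂ) • (1 : Matrix ((Fin L × Q) × κ) ((Fin L × Q) × κ) ℂ) + V * Vᴴ =
        Cᴴ * C := by
  have hαs : ∀ d, (α d)ᴴ = α (star d) := by
    intro d
    ext i j
    rw [Matrix.conjTranspose_apply, ← hξ, ← hξ, map_star, ContinuousLinearMap.star_eq_adjoint,
      ContinuousLinearMap.adjoint_inner_right, RCLike.star_def, inner_conj_symm]
  set c : Fin N → Fin N → Matrix κ κ ℂ := fun i j => α (z i * star (z j)) with hc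
  have hcs : ∀ i j, star (c i j) = c j i := by
    intro i j
    rw [Matrix.star_eq_conjTranspose, hc]
    simp only
    rw [hαs, star_mul, star_star]
  have hds : star (α e) = α e := by
    rw [Matrix.star_eq_conjTranspose, hαs, hse]
  obtain ⟨p, hp⟩ := exists_pow_ge (L * Fintype.card κ ^ 2)
  obtain ⟨Q, iG, iF, iD, π, hπ⟩ := exists_finite_quotient (Fin L × Fin N) (4 * p + 1)
  set B : Finset (FreeGroup (Fin L × Fin N)) :=
    (ball_finite (Fin L × Fin N) (4 * p)).toFinset with hB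
  have hBm : ∀ w, w ∈ B ↔ w.norm ≤ 4 * p := by
    intro w
    rw [hB, Set.Finite.mem_toFinset]
    rfl
  have hherm := TMQ_herm (L := L) c (α e) hcs hds (fun i => π (of i))
  have hhermB := TMB_herm c (α e) hcs hds B
  set r : ℕ := ⌊((L * Fintype.card Q * Fintype.card κ : ℕ) : ℝ) / 4 ^ p⌋₊ with hr
  have hr1 : ((L * Fintype.card Q * Fintype.card κ : ℕ) : ℝ) / 4 ^ p < r + 1 :=
    Nat.lt_floor_add_one _
  have hr2 : (r : ℝ) ≤ ((L * Fintype.card Q * Fintype.card κ : ℕ) : ℝ) / 4 ^ p :=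
    Nat.floor_le (by (clear * -; positivity))
  have hdiag : ∀ (P : (Fin L × Q) × κ),
      (((flat (TMQ (fun i => π (of i)) c (α e))) ^ (2 * p)) P P).re ≤ θ ^ (2 * p) := by
    rintro ⟨⟨l, q⟩, a⟩
    rw [TM_diag_eq c (α e) π (4 * p) B hBm hπ (2 * p) (by omega) l q a]
    exact diag_pow_le (flat (TMB c (α e) B)) hhermB hθ.le (fun x =>
      (quad_ball α hα1 f ξ hξ z e hδ0 hδ1 he h1 h2 B x).trans
        (mul_le_mul_of_nonneg_right hδθ (Finset.sum_nonneg fun _ _ => by (clear * -; positivity)))) p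
      ((l, ⟨1, (hBm 1).2 (by simp)⟩), a)
  have htr : (((flat (TMQ (fun i => π (of i)) c (α e))) ^ (2 * p)).trace).re <
      (r + 1) * (2 * θ) ^ (2 * p) := by
    rw [Matrix.trace, Complex.re_sum]
    have h3 : ∑ P : (Fin L × Q) × κ,
        (((flat (TMQ (fun i => π (of i)) c (α e))) ^ (2 * p)).diag P).re ≤
        ((L * Fintype.card Q * Fintype.card κ : ℕ) : ℝ) * θ ^ (2 * p) := by
      calc _ ≤ ∑ P : (Fin L × Q) × κ, θ ^ (2 * p) :=
            Finset.sum_le_sum fun P _ => hdiag P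
        _ = _ := by
          rw [Finset.sum_const, nsmul_eq_mul, Finset.card_univ, Fintype.card_prod,
            Fintype.card_prod, Fintype.card_fin]
    refine lt_of_le_of_lt h3 ?_
    have h4 : (2 * θ) ^ (2 * p) = 4 ^ p * θ ^ (2 * p) := by
      rw [mul_pow, pow_mul 2 2 p]
      (clear * -; norm_num)
    rw [h4, ← mul_assoc]
    refine mul_lt_mul_of_pos_right ?_ (by positivity)
    rwa [div_lt_iff₀ (by positivity)] at hr1
  obtain ⟨V, C, hVC⟩ := spectral_count _ hherm (θ := 2 * θ) (by positivity) p r htr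
  refine ⟨Q, iG, iF, iD, fun i => π (of i), r, V, C, ?_, hVC⟩
  have h5 : ((Fintype.card κ * r : ℕ) : ℝ) ≤ (Fintype.card Q : ℕ) := by
    rw [Nat.cast_mul]
    calc (Fintype.card κ : ℝ) * r
        ≤ Fintype.card κ * (((L * Fintype.card Q * Fintype.card κ : ℕ) : ℝ) / 4 ^ p) :=
          mul_le_mul_of_nonneg_left hr2 (by (clear * -; positivity))
      _ = ((L * Fintype.card κ ^ 2 : ℕ) : ℝ) * Fintype.card Q / 4 ^ p := by
          push_cast; ring
      _ ≤ ((4 ^ p : ℕ) : ℝ) * Fintype.card Q / 4 ^ p := by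
          (clear * - hp; gcongr)
      _ = Fintype.card Q := by
          push_cast
          field_simp
  exact_mod_cast h5

end Vale.Agent.P095C
end

section

/-! Gershgorin bound for self-adjoint matrices over a C*-algebra. -/

set_option linter.unusedSectionVars false
set_option linter.unusedSimpArgs false

namespace Vale.Agent.P095C

variable {A : Type*} [CStarAlgebra A] [PartialOrder A] [StarOrderedRing A]
variable {n : Type*} [Fintype n] [DecidableEq n]

/-- matrix units with coefficient -/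
def mu (p q : n) (a : A) : CStarMatrix n n A :=
  CStarMatrix.ofMatrix (Matrix.single p q a)

theorem mu_apply (p q : n) (a : A) (i j : n) :
    mu p q a i j = if p = i ∧ q = j then a else 0 := by
  unfold mu
  rw [CStarMatrix.ofMatrix_apply, Matrix.single_apply]

theorem mu_mul_mu (p q r s : n) (a b : A) :
    mu p q a * mu r s b = if q = r then mu p s (a * b) else 0 := by
  ext i j
  rw [CStarMatrix.mul_apply]
  simp only [mu_apply]
  split_ifs with h
  · subst h
    rw [Finset.sum_eq_single q]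
    · simp only [mu_apply, and_true, true_and]
      by_cases h1 : p = i <;> by_cases h2 : s = j <;> simp [h1, h2]
    · intro c _ hc
      simp [Ne.symm hc]
    · simp only [Finset.mem_univ, not_true_eq_false, and_true, true_and, mul_ite, ite_mul, zero_mul, mul_zero, ite_eq_right_iff, IsEmpty.forall_iff]
  · rw [CStarMatrix.zero_apply]
    apply Finset.sum_eq_zero
    intro c _
    by_cases h1 : q = c
    · have h2 : ¬ r = c := fun h2 => h (h1.trans h2.symm)
      simp [h2]
    · simp [h1]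

theorem star_mu (p q : n) (a : A) : star (mu p q a) = mu q p (star a) := by
  ext i j
  rw [CStarMatrix.star_apply, mu_apply, mu_apply]
  by_cases h1 : p = j <;> by_cases h2 : q = i <;> simp [h1, h2]

theorem mu_add (p q : n) (a b : A) : mu p q (a + b) = mu p q a + mu p q b := by
  ext i j
  rw [CStarMatrix.add_apply, mu_apply, mu_apply, mu_apply]
  split_ifs <;> simp

theorem mu_sub (p q : n) (a b : A) : mu p q (a - b) = mu p q a - mu p q b := by
  ext i j
  rw [CStarMatrix.sub_apply, mu_apply, mu_apply, mu_apply]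
  split_ifs <;> simp

theorem mu_sum {ι : Type*} (s : Finset ι) (p q : n) (f : ι → A) :
    mu p q (∑ i ∈ s, f i) = ∑ i ∈ s, mu p q (f i) := by
  classical
  induction s using Finset.induction_on with
  | empty => ext i j; simp [mu_apply]
  | insert a s ha ih => rw [Finset.sum_insert ha, Finset.sum_insert ha, mu_add, ih]

theorem sum_apply' {ι : Type*} (s : Finset ι) (f : ι → CStarMatrix n n A) (i j : n) :
    (∑ k ∈ s, f k) i j = ∑ k ∈ s, f k i j := by
  classical
  induction s using Finset.induction_on with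
  | empty => simp
  | insert a s ha ih => rw [Finset.sum_insert ha, Finset.sum_insert ha, CStarMatrix.add_apply, ih]

theorem sum_mu (M : CStarMatrix n n A) : ∑ p, ∑ q, mu p q (M p q) = M := by
  ext i j
  rw [sum_apply', Finset.sum_eq_single i]
  · rw [sum_apply', Finset.sum_eq_single j]
    · rw [mu_apply, if_pos ⟨rfl, rfl⟩]
    · intro b _ hb; rw [mu_apply, if_neg (fun h => hb h.2)]
    · simp only [Finset.mem_univ, not_true_eq_false, IsEmpty.forall_iff]
  · intro b _ hb
    rw [sum_apply']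
    apply Finset.sum_eq_zero
    intro c _
    rw [mu_apply, if_neg (fun h => hb h.1)]
  · simp only [Finset.mem_univ, not_true_eq_false, IsEmpty.forall_iff]

theorem mu_nonneg (p : n) {a : A} (ha : 0 ≤ a) : 0 ≤ mu p p a := by
  obtain ⟨b, hb⟩ := CStarAlgebra.nonneg_iff_eq_star_mul_self.1 ha
  have : mu p p a = star (mu p p b) * mu p p b := by
    rw [star_mu, mu_mul_mu, if_pos rfl, hb]
  rw [this]
  exact star_mul_self_nonneg _

theorem gersh_pair (p q : n) (a : A) :
    0 ≤ mu p p (‖a‖ • (1 : A)) + mu q q (‖a‖ • (1 : A)) - mu p q a - mu q p (star a) := by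
  rcases eq_or_ne a 0 with rfl | ha
  · have h0 : ∀ r s : n, mu r s (0 : A) = 0 := by
      intro r s; ext i j; rw [mu_apply]; simp
    simp [h0]
  have ht : 0 < ‖a‖ := norm_pos_iff.2 ha
  by_cases hpq : p = q
  · subst hpq
    rw [← mu_add, ← mu_sub, ← mu_sub]
    apply mu_nonneg
    have h1 : a + star a ≤ (2 * ‖a‖) • (1 : A) := by
      have hsa : IsSelfAdjoint (a + star a) := by
        rw [IsSelfAdjoint, star_add, star_star, add_comm]
      have h2 := hsa.le_algebraMap_norm_self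
      have h3 : ‖a + star a‖ ≤ 2 * ‖a‖ := by
        calc ‖a + star a‖ ≤ ‖a‖ + ‖star a‖ := norm_add_le _ _
          _ = 2 * ‖a‖ := by rw [norm_star]; ring
      refine h2.trans ?_
      rw [Algebra.algebraMap_eq_smul_one]
      exact smul_le_smul_of_nonneg_right h3 zero_le_one
    have h4 : ‖a‖ • (1 : A) + ‖a‖ • (1 : A) - a - star a = (2 * ‖a‖) • (1 : A) - (a + star a) := by
      rw [two_mul, add_smul]; abel
    rw [h4]
    exact sub_nonneg.2 h1
  · set X : CStarMatrix n n A := mu p p (‖a‖ • (1 : A)) - mu p q a with hX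
    have h1 : star a * a ≤ (‖a‖ ^ 2) • (1 : A) := by
      have hsa : IsSelfAdjoint (star a * a) := IsSelfAdjoint.star_mul_self a
      have h2 := hsa.le_algebraMap_norm_self
      rwa [Algebra.algebraMap_eq_smul_one, CStarRing.norm_star_mul_self, ← pow_two] at h2
    have h2 : ‖a‖ • (mu p p (‖a‖ • (1 : A)) + mu q q (‖a‖ • (1 : A)) - mu p q a -
        mu q p (star a)) = star X * X + mu q q ((‖a‖ ^ 2) • (1 : A) - star a * a) := by
      rw [hX, star_sub, star_mu, star_mu, sub_mul, mul_sub, mul_sub, mu_mul_mu, mu_mul_mu,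
        mu_mul_mu, mu_mul_mu, if_pos rfl, mu_sub]
      simp only [if_true]
      have e1 : star (‖a‖ • (1 : A)) * ‖a‖ • (1 : A) = (‖a‖ ^ 2) • (1 : A) := by
        simp only [star_smul, star_trivial, star_one, Algebra.mul_smul_comm, mul_one, smul_smul, pow_two]
      have e2 : star (‖a‖ • (1 : A)) * a = ‖a‖ • a := by simp only [star_smul, star_trivial, star_one, Algebra.smul_mul_assoc, one_mul]
      have e3 : star a * ‖a‖ • (1 : A) = ‖a‖ • star a := by simp only [Algebra.mul_smul_comm, mul_one]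
      rw [e1, e2, e3]
      ext i j
      simp only [CStarMatrix.smul_apply, CStarMatrix.sub_apply, CStarMatrix.add_apply, mu_apply]
      split_ifs <;> simp_all [smul_smul, pow_two, smul_sub, smul_add]
    have h3 : 0 ≤ ‖a‖ • (mu p p (‖a‖ • (1 : A)) + mu q q (‖a‖ • (1 : A)) - mu p q a -
        mu q p (star a)) := by
      rw [h2]
      exact add_nonneg (star_mul_self_nonneg _) (mu_nonneg q (sub_nonneg.2 h1))
    have h4 := smul_nonneg (inv_nonneg.2 ht.le) h3
    rwa [smul_smul, inv_mul_cancel₀ ht.ne', one_smul] at h4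

theorem gershgorin (M : CStarMatrix n n A) (hM : star M = M) {C : ℝ}
    (h : ∀ p, ∑ q, ‖M p q‖ ≤ C) : M ≤ C • (1 : CStarMatrix n n A) := by
  have hsym : ∀ p q, star (M p q) = M q p := by
    intro p q
    have := congrArg (fun X : CStarMatrix n n A => X q p) hM
    simpa only [CStarMatrix.star_apply] using this
  have h1 : C • (1 : CStarMatrix n n A) - M =
      ∑ p, mu p p ((C - ∑ q, ‖M p q‖) • (1 : A)) +
      (1 / 2 : ℝ) • ∑ p, ∑ q, (mu p p (‖M p q‖ • (1 : A)) + mu q q (‖M p q‖ • (1 : A)) -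
        mu p q (M p q) - mu q p (star (M p q))) := by
    have hn : ∀ p q, ‖M q p‖ = ‖M p q‖ := fun p q => by rw [← hsym p q, norm_star]
    have e1 : ∑ p, ∑ q, mu p q (M p q) = M := sum_mu M
    have e2 : ∑ p, ∑ q, mu q p (star (M p q)) = M := by
      simp_rw [hsym]
      rw [Finset.sum_comm]
      exact sum_mu M
    have e3 : ∑ p, ∑ q, mu p p (‖M p q‖ • (1 : A)) = ∑ p, mu p p ((∑ q, ‖M p q‖) • (1 : A)) := by
      refine Finset.sum_congr rfl fun p _ => ?_
      rw [Finset.sum_smul, mu_sum]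
    have e4 : ∑ p, ∑ q, mu q q (‖M p q‖ • (1 : A)) = ∑ p, mu p p ((∑ q, ‖M p q‖) • (1 : A)) := by
      rw [Finset.sum_comm, ← e3]
      refine Finset.sum_congr rfl fun p _ => Finset.sum_congr rfl fun q _ => ?_
      rw [hn]
    have e5 : ∑ p, mu p p (C • (1 : A)) = C • (1 : CStarMatrix n n A) := by
      ext i j
      rw [sum_apply', CStarMatrix.smul_apply, CStarMatrix.one_apply]
      simp only [mu_apply]
      by_cases hij : i = j
      · subst hij
        rw [Finset.sum_eq_single i]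
        · simp only [and_self, ↓reduceIte]
        · intro b _ hb; simp [hb]
        · simp only [Finset.mem_univ, not_true_eq_false, and_self, ↓reduceIte, smul_eq_zero, IsEmpty.forall_iff]
      · rw [if_neg hij, smul_zero]
        apply Finset.sum_eq_zero
        intro p _
        rw [if_neg]
        rintro ⟨rfl, rfl⟩
        exact hij rfl
    simp only [sub_smul, mu_sub, Finset.sum_sub_distrib, Finset.sum_add_distrib]
    rw [e1, e2, e3, e4, e5]
    module
  rw [← sub_nonneg, h1]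
  refine add_nonneg (Finset.sum_nonneg fun p _ => mu_nonneg p ?_)
    (smul_nonneg (by norm_num) (Finset.sum_nonneg fun p _ => Finset.sum_nonneg fun q _ =>
      gersh_pair p q _))
  exact smul_nonneg (sub_nonneg.2 (h p)) zero_le_one

end Vale.Agent.P095C
end

section

/-! The matrix inequality of the free group trick over the C*-algebra. -/

set_option linter.unusedSectionVars false

open scoped Matrix

namespace Vale.Agent.P095C

open Vale.Agent

variable {A : Type*} [CStarAlgebra A] [PartialOrder A] [StarOrderedRing A]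

theorem gram_nonneg {I : Type*} [Fintype I] [DecidableEq I] {K : Type*} [Fintype K]
    (w : K → I → A) :
    0 ≤ (CStarMatrix.ofMatrix (Matrix.of fun p q => ∑ k, star (w k p) * w k q) :
      CStarMatrix I I A) := by
  rcases isEmpty_or_nonempty I with hI | ⟨⟨p0⟩⟩
  · refine le_of_eq ?_
    ext p q
    exact hI.elim p
  have h : (CStarMatrix.ofMatrix (Matrix.of fun p q => ∑ k, star (w k p) * w k q) :
      CStarMatrix I I A) = ∑ k, star (∑ q, mu p0 q (w k q)) * ∑ q, mu p0 q (w k q) := by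
    ext p q
    rw [sum_apply', CStarMatrix.ofMatrix_apply, Matrix.of_apply]
    refine Finset.sum_congr rfl fun k _ => ?_
    have h1 : ∀ i j, (∑ q, mu p0 q (w k q) : CStarMatrix I I A) i j =
        if p0 = i then w k j else 0 := by
      intro i j
      rw [sum_apply', Finset.sum_eq_single j]
      · rw [mu_apply]; simp
      · intro b _ hb
        rw [mu_apply, if_neg (fun h => hb h.2)]
      · simp only [Finset.mem_univ, not_true_eq_false, IsEmpty.forall_iff]
    rw [CStarMatrix.mul_apply, Finset.sum_eq_single p0]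
    · rw [CStarMatrix.star_apply, h1, h1, if_pos rfl, if_pos rfl]
    · intro b _ hb
      rw [CStarMatrix.star_apply, h1, h1, if_neg (Ne.symm hb), star_zero, zero_mul]
    · simp only [Finset.mem_univ, not_true_eq_false, star_sum, IsEmpty.forall_iff]
  rw [h]
  exact Finset.sum_nonneg fun k _ => star_mul_self_nonneg _

section choi

variable {κ : Type*} [Fintype κ] [DecidableEq κ] (β : Matrix κ κ ℂ →ₗ[ℂ] A) (Y : κ → κ → A)
  (hY : ∀ m, β m = ∑ l, ∑ i, ∑ j, m i j • (star (Y l i) * Y l j))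

include hY

theorem choi_star (m : Matrix κ κ ℂ) : star (β m) = β mᴴ := by
  rw [hY, hY, star_sum]
  refine Finset.sum_congr rfl fun l _ => ?_
  simp only [star_sum, star_smul, star_mul, star_star, Matrix.conjTranspose_apply]
  exact Finset.sum_comm

variable {I : Type*} [Fintype I] [DecidableEq I]

theorem choi_vv {r : ℕ} (V : Matrix (I × κ) (Fin r) ℂ) (p q : I) :
    β (Matrix.of fun a b => (V * Vᴴ) (p, a) (q, b)) =
      ∑ x : κ × Fin r, (∑ a, V (p, a) x.2 • star (Y x.1 a)) *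
        star (∑ a, V (q, a) x.2 • star (Y x.1 a)) := by
  rw [hY, Fintype.sum_prod_type]
  refine Finset.sum_congr rfl fun l _ => ?_
  simp only [Matrix.of_apply, Matrix.mul_apply, Matrix.conjTranspose_apply, Finset.sum_smul,
    star_sum, star_smul, star_star, Finset.sum_mul_sum, smul_mul_smul_comm]
  calc _ = ∑ a, ∑ x, ∑ b, (V (p, a) x * star (V (q, b) x)) • (star (Y l a) * Y l b) :=
        Finset.sum_congr rfl fun a _ => Finset.sum_comm
    _ = _ := Finset.sum_comm

theorem choi_cc (C : Matrix (I × κ) (I × κ) ℂ) (p q : I) :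
    β (Matrix.of fun a b => (Cᴴ * C) (p, a) (q, b)) =
      ∑ x : (I × κ) × κ, star (∑ a, C x.1 (p, a) • Y x.2 a) *
        (∑ a, C x.1 (q, a) • Y x.2 a) := by
  rw [hY, Fintype.sum_prod_type, Finset.sum_comm (s := Finset.univ (α := I × κ))]
  refine Finset.sum_congr rfl fun l _ => ?_
  simp only [Matrix.of_apply, Matrix.mul_apply, Matrix.conjTranspose_apply, Finset.sum_smul,
    star_sum, star_smul, Finset.sum_mul_sum, smul_mul_smul_comm]
  calc _ = ∑ a, ∑ x, ∑ b, (star (C x (p, a)) * C x (q, b)) • (star (Y l a) * Y l b) :=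
        Finset.sum_congr rfl fun a _ => Finset.sum_comm
    _ = _ := Finset.sum_comm

end choi

section main

variable {κ : Type} [Fintype κ] [DecidableEq κ] {L N : ℕ} {Q : Type} [Group Q] [Fintype Q]
  [DecidableEq Q]

theorem TM_sub' {S : Type*} [Ring S] (s : Fin L × Fin N → Q) (c c' : Fin N → Fin N → S) (d d' : S)
    (p q : Fin L × Q) :
    TM s (fun i j => c i j - c' i j) (d - d') p q = TM s c d p q - TM s c' d' p q := by
  unfold TM
  have h1 : ∀ i j, (if (s (p.1, i))⁻¹ * p.2 = (s (q.1, j))⁻¹ * q.2 then c i j - c' i j else 0) =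
      (if (s (p.1, i))⁻¹ * p.2 = (s (q.1, j))⁻¹ * q.2 then c i j else 0) -
      (if (s (p.1, i))⁻¹ * p.2 = (s (q.1, j))⁻¹ * q.2 then c' i j else 0) := by
    intro i j
    split_ifs <;> simp
  simp only [h1, Finset.sum_sub_distrib]
  split_ifs <;> abel

theorem TM_map {S T : Type*} [Ring S] [Ring T] (f : S →+ T) (s : Fin L × Fin N → Q)
    (c : Fin N → Fin N → S) (d : S) (p q : Fin L × Q) :
    TM s (fun i j => f (c i j)) (f d) p q = f (TM s c d p q) := by
  unfold TM
  rw [map_sub, map_sum]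
  congr 1
  · refine Finset.sum_congr rfl fun i _ => ?_
    rw [map_sum]
    refine Finset.sum_congr rfl fun j _ => ?_
    split_ifs <;> simp only [map_zero]
  · split_ifs <;> simp only [map_zero]

/-- the columns of `Y` -/
def colY (s : Fin L × Fin N → Q) (z : Fin N → A) (p : Fin L × Q) (q' : Q) : A :=
  ∑ i, if (s (p.1, i))⁻¹ * p.2 = q' then z i else 0

theorem TM_gram (s : Fin L × Fin N → Q) (z : Fin N → A) (e : A) (p q : Fin L × Q) :
    TM s (fun i j => z i * star (z j)) e p q =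
      (∑ q', colY s z p q' * star (colY s z q q')) - if p = q then e else 0 := by
  unfold TM colY
  congr 1
  simp only [star_sum, Finset.sum_mul_sum]
  conv_rhs => rw [Finset.sum_comm]
  refine Finset.sum_congr rfl fun i _ => ?_
  conv_rhs => rw [Finset.sum_comm]
  refine Finset.sum_congr rfl fun j _ => ?_
  rw [Finset.sum_eq_single ((s (p.1, i))⁻¹ * p.2)]
  · rw [if_pos rfl]
    by_cases h : (s (p.1, i))⁻¹ * p.2 = (s (q.1, j))⁻¹ * q.2
    · rw [if_pos h, if_pos h.symm]
    · rw [if_neg h, if_neg (Ne.symm h), star_zero, mul_zero]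
  · intro b _ hb
    rw [if_neg (Ne.symm hb), zero_mul]
  · simp only [Finset.mem_univ, not_true_eq_false, ↓reduceIte, IsEmpty.forall_iff]

theorem TM_row_sum (s : Fin L × Fin N → Q) (c : Fin N → Fin N → A) (d : A) {ε1 : ℝ}
    (hc : ∀ i j, ‖c i j‖ ≤ ε1) (hd : ‖d‖ ≤ ε1) (p : Fin L × Q) :
    ∑ q, ‖TM s c d p q‖ ≤ (L * N ^ 2 + 1) * ε1 := by
  have h1 : ∀ q : Fin L × Q, ‖TM s c d p q‖ ≤
      (∑ i, ∑ j, if (s (p.1, i))⁻¹ * p.2 = (s (q.1, j))⁻¹ * q.2 then ε1 else 0) +
        if p = q then ε1 else 0 := by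
    intro q
    unfold TM
    refine (norm_sub_le _ _).trans (add_le_add ?_ ?_)
    · refine (norm_sum_le _ _).trans (Finset.sum_le_sum fun i _ => ?_)
      refine (norm_sum_le _ _).trans (Finset.sum_le_sum fun j _ => ?_)
      split_ifs
      · exact hc i j
      · rw [norm_zero]
    · split_ifs
      · exact hd
      · rw [norm_zero]
  refine (Finset.sum_le_sum fun q _ => h1 q).trans ?_
  rw [Finset.sum_add_distrib, Finset.sum_ite_eq Finset.univ p, if_pos (Finset.mem_univ _), add_mul,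
    one_mul]
  refine add_le_add ?_ le_rfl
  refine le_of_eq ?_
  calc ∑ q : Fin L × Q, ∑ i, ∑ j,
        (if (s (p.1, i))⁻¹ * p.2 = (s (q.1, j))⁻¹ * q.2 then ε1 else 0)
      = ∑ i : Fin N, ∑ j : Fin N, ∑ q : Fin L × Q,
        (if (s (p.1, i))⁻¹ * p.2 = (s (q.1, j))⁻¹ * q.2 then ε1 else 0) := by
        rw [Finset.sum_comm]
        exact Finset.sum_congr rfl fun i _ => Finset.sum_comm
    _ = ∑ i : Fin N, ∑ j : Fin N, ∑ l : Fin L, ε1 := by
        refine Finset.sum_congr rfl fun i _ => Finset.sum_congr rfl fun j _ => ?_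
        rw [Fintype.sum_prod_type]
        refine Finset.sum_congr rfl fun l _ => ?_
        rw [Finset.sum_eq_single (s (l, j) * ((s (p.1, i))⁻¹ * p.2))]
        · rw [if_pos]
          simp only [inv_mul_cancel_left]
        · intro b _ hb
          rw [if_neg]
          intro h
          apply hb
          rw [h]
          simp only [mul_inv_cancel_left]
        · simp only [Finset.mem_univ, not_true_eq_false, inv_mul_cancel_left, ↓reduceIte, IsEmpty.forall_iff]
    _ = _ := by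
        simp only [Finset.sum_const, Finset.card_univ, Fintype.card_fin, nsmul_eq_mul]
        ring

/-- all columns -/
def colX (Y : κ → κ → A) (s : Fin L × Fin N → Q) (z : Fin N → A) {r : ℕ}
    (V : Matrix ((Fin L × Q) × κ) (Fin r) ℂ) (p : Fin L × Q) (x : Q ⊕ (κ × Fin r)) : A :=
  Sum.elim (colY s z p) (fun y => ∑ a, V (p, a) y.2 • star (Y y.1 a)) x

end main

end Vale.Agent.P095C
end

section

/-! Quasicentral almost invariant approximate units by averaging. -/

open Filter Topology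
open scoped MultiplierAlgebra

namespace Vale.Agent.P095R

universe u w

variable {A : Type u} [NonUnitalCStarAlgebra A]

/-- sums of almost orthogonal elements: a finite family with `(c k)^* c l ≈ 0` for `k ≠ l` has
an average of small norm -/
theorem norm_avg_le {M : Type*} [NonUnitalCStarAlgebra M] (n : ℕ) (c : Fin n → M) {C δ : ℝ}
    (hδ : 0 ≤ δ) (hC0 : 0 ≤ C) (hC : ∀ k, ‖c k‖ ≤ C) (h : ∀ k l, k ≠ l → ‖star (c k) * c l‖ ≤ δ) :
    ‖∑ k, c k‖ ^ 2 ≤ n * C ^ 2 + n ^ 2 * δ := by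
  have h1 : ‖∑ k, c k‖ ^ 2 = ‖∑ k, ∑ l, star (c k) * c l‖ := by
    rw [sq, ← CStarRing.norm_star_mul_self, star_sum, Finset.sum_mul_sum]
  rw [h1]
  calc ‖∑ k, ∑ l, star (c k) * c l‖ ≤ ∑ k, ∑ l, ‖star (c k) * c l‖ :=
        (norm_sum_le _ _).trans (Finset.sum_le_sum fun k _ => norm_sum_le _ _)
    _ ≤ ∑ k : Fin n, ∑ l : Fin n, ((if k = l then C ^ 2 else 0) + δ) := by
      refine Finset.sum_le_sum fun k _ => Finset.sum_le_sum fun l _ => ?_
      by_cases hkl : k = l
      · subst hkl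
        rw [if_pos rfl, CStarRing.norm_star_mul_self]
        have h2 := mul_le_mul (hC k) (hC k) (norm_nonneg _) hC0
        linarith
      · rw [if_neg hkl, zero_add]
        exact h k l hkl
    _ = n * C ^ 2 + n ^ 2 * δ := by
      simp only [Finset.sum_add_distrib, Finset.sum_ite_eq, Finset.mem_univ, if_true,
        Finset.sum_const, Finset.card_univ, Fintype.card_fin, nsmul_eq_mul]
      ring

/-- averages of almost orthogonal families are small -/
theorem rqc_avg {M : Type*} [NonUnitalCStarAlgebra M] {n : ℕ} (hn : 0 < n) (c : ℕ → M)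
    {C δ ε : ℝ} (hδ : 0 ≤ δ) (hC0 : 0 ≤ C) (hε : 0 ≤ ε) (hC : ∀ k, ‖c k‖ ≤ C)
    (h : ∀ k l, k < l → ‖star (c k) * c l‖ ≤ δ) (hs : C ^ 2 / n + δ ≤ ε ^ 2) :
    ‖(n : ℝ)⁻¹ • ∑ k ∈ Finset.range n, c k‖ ≤ ε := by
  have h1 := norm_avg_le n (fun k : Fin n => c k) hδ hC0 (fun k => hC k) (fun k l hkl => by
    rcases lt_or_gt_of_ne (fun h => hkl (Fin.ext h) : (k : ℕ) ≠ l) with h2 | h2
    · exact h _ _ h2
    · have h3 := h _ _ h2
      rw [← norm_star, star_mul, star_star] at h3
      exact h3)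
  rw [← Finset.sum_range (fun k => c k)] at h1
  have hn' : (0 : ℝ) < n := by exact_mod_cast hn
  rw [norm_smul, norm_inv, RCLike.norm_natCast]
  have h4 : ((n : ℝ)⁻¹ * ‖∑ k ∈ Finset.range n, c k‖) ^ 2 ≤ ε ^ 2 := by
    rw [mul_pow]
    calc (n : ℝ)⁻¹ ^ 2 * ‖∑ k ∈ Finset.range n, c k‖ ^ 2
        ≤ (n : ℝ)⁻¹ ^ 2 * (n * C ^ 2 + n ^ 2 * δ) := by (clear * - h1 hn; gcongr)
      _ = C ^ 2 / n + δ := by (clear * - hn; field_simp)
      _ ≤ ε ^ 2 := hs
  exact le_of_sq_le_sq h4 hε

/-- one step -/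
theorem rqc_step [PartialOrder A] [StarOrderedRing A] (a : A) (ha : 0 ≤ a) (ha1 : ‖a‖ < 1)
    (F : Finset A) {δ : ℝ} (hδ : 0 < δ) :
    ∃ h : A, a ≤ h ∧ ‖h‖ < 1 ∧ ∀ b ∈ F, ‖h * b - b‖ ≤ δ ∧ ‖b * h - b‖ ≤ δ := by
  have hU := CStarAlgebra.increasingApproximateUnit A
  have h1 : ∀ᶠ x in CStarAlgebra.approximateUnit A,
      ∀ b ∈ F, ‖x * b - b‖ ≤ δ ∧ ‖b * x - b‖ ≤ δ := by
    rw [Filter.eventually_all_finset]
    intro b _
    have h2 := (hU.tendsto_mul_right b).eventually (Metric.closedBall_mem_nhds b hδ)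
    have h3 := (hU.tendsto_mul_left b).eventually (Metric.closedBall_mem_nhds b hδ)
    filter_upwards [h2, h3] with x hx1 hx2
    rw [← dist_eq_norm, ← dist_eq_norm]
    exact ⟨hx1, hx2⟩
  obtain ⟨v, ⟨hv0, hv1⟩, hv⟩ := (CStarAlgebra.hasBasis_approximateUnit A).eventually_iff.1 h1
  obtain ⟨h, ⟨hh0, hh1⟩, hah, hvh⟩ := CStarAlgebra.directedOn_nonneg_ball a
    ⟨ha, by simpa only [Metric.mem_ball, dist_zero_right] using ha1⟩ v ⟨hv0, by simpa only [Metric.mem_ball, dist_zero_right] using hv1⟩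
  have hh1' : ‖h‖ < 1 := by simpa only [Metric.mem_ball, dist_zero_right] using hh1
  exact ⟨h, hah, hh1', hv ⟨hvh, by simpa only [Metric.mem_closedBall, dist_zero_right] using hh1'.le⟩⟩

/-- the recursive choice -/
theorem rqc_seq [PartialOrder A] [StarOrderedRing A] (a : A) (ha : 0 ≤ a) (ha1 : ‖a‖ < 1)
    (F : Finset A) (T : A → Finset A) {δ : ℝ} (hδ : 0 < δ) :
    ∃ e : ℕ → A, (∀ k, a ≤ e k ∧ ‖e k‖ < 1) ∧
      (∀ k, ∀ b ∈ F, ‖e k * b - b‖ ≤ δ ∧ ‖b * e k - b‖ ≤ δ) ∧
      ∀ k l, k < l → ∀ b ∈ T (e k), ‖b * e l - b‖ ≤ δ := by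
  classical
  choose st hst1 hst2 hst3 using fun F' : Finset A => rqc_step a ha ha1 F' hδ
  let Fs : ℕ → Finset A := fun n => Nat.rec F (fun _ F' => F' ∪ T (st F')) n
  have hFs : ∀ n, Fs (n + 1) = Fs n ∪ T (st (Fs n)) := fun n => rfl
  have hmono : Monotone Fs := monotone_nat_of_le_succ fun n => by
    rw [hFs]
    exact Finset.subset_union_left
  refine ⟨fun n => st (Fs n), fun k => ⟨hst1 _, hst2 _⟩, fun k b hb => ?_, fun k l hkl b hb => ?_⟩
  · exact hst3 _ b (hmono (Nat.zero_le k) hb)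
  · refine (hst3 (Fs l) b (hmono (Nat.succ_le_of_lt hkl) ?_)).2
    show b ∈ Fs (k + 1)
    rw [hFs]
    exact Finset.mem_union_right _ hb

theorem rqc_coe_mul (a b : A) : ((a * b : A) : 𝓜(ℂ, A)) = (a : 𝓜(ℂ, A)) * (b : 𝓜(ℂ, A)) :=
  map_mul (DoubleCentralizer.coeHom (𝕜 := ℂ) (A := A)) a b

theorem rqc_coe_sub (a b : A) : ((a - b : A) : 𝓜(ℂ, A)) = (a : 𝓜(ℂ, A)) - (b : 𝓜(ℂ, A)) :=
  map_sub (DoubleCentralizer.coeHom (𝕜 := ℂ) (A := A)) a b

theorem rqc_coe_star (a : A) : ((star a : A) : 𝓜(ℂ, A)) = star (a : 𝓜(ℂ, A)) :=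
  map_star (DoubleCentralizer.coeHom (𝕜 := ℂ) (A := A)) a

/-- almost orthogonality of the commutators -/
theorem rqc_comm {M : Type*} [CStarAlgebra M] {y e f : M} {δ K : ℝ} (hδ : 0 ≤ δ)
    (he : star e = e) (hy : ‖y‖ ≤ K) (hK : 1 ≤ K)
    (h1 : ‖e * (star y * y) * f - e * (star y * y)‖ ≤ δ)
    (h2 : ‖e * star y * f - e * star y‖ ≤ δ)
    (h3 : ‖star y * (e * y) * f - star y * (e * y)‖ ≤ δ)
    (h4 : ‖e * f - e‖ ≤ δ) :
    ‖star (y * e - e * y) * (y * f - f * y)‖ ≤ 4 * K ^ 2 * δ := by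
  have hid : star (y * e - e * y) * (y * f - f * y) =
      (e * (star y * y) * f - e * (star y * y)) - (e * star y * f - e * star y) * y -
        (star y * (e * y) * f - star y * (e * y)) + star y * (e * f - e) * y := by
    rw [star_sub, star_mul, star_mul, he]
    noncomm_ring
  rw [hid]
  have hK0 : 0 ≤ K := by linarith only [hK]
  have h5 : ‖(e * star y * f - e * star y) * y‖ ≤ δ * K :=
    (norm_mul_le _ _).trans (mul_le_mul h2 hy (norm_nonneg _) hδ)
  have h6 : ‖star y * (e * f - e) * y‖ ≤ K * δ * K := by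
    refine (norm_mul_le _ _).trans (mul_le_mul ?_ hy (norm_nonneg _) (by positivity))
    refine (norm_mul_le _ _).trans (mul_le_mul ?_ h4 (norm_nonneg _) hK0)
    rw [norm_star]
    exact hy
  calc ‖(e * (star y * y) * f - e * (star y * y)) - (e * star y * f - e * star y) * y -
        (star y * (e * y) * f - star y * (e * y)) + star y * (e * f - e) * y‖
      ≤ δ + δ * K + δ + K * δ * K := by
        refine (norm_add_le _ _).trans (add_le_add ?_ h6)
        refine (norm_sub_le _ _).trans (add_le_add ?_ h3)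
        exact (norm_sub_le _ _).trans (add_le_add h1 h5)
    _ ≤ 4 * K ^ 2 * δ := by
        have : 2 + K + K ^ 2 ≤ 4 * K ^ 2 := by nlinarith only [hK]
        nlinarith only [hδ, this]

/-- almost orthogonality for the action -/
theorem rqc_act (α : A ≃⋆ₐ[ℂ] A) {e f : A} {δ : ℝ} (he : star e = e)
    (h1 : ‖e * f - e‖ ≤ δ) (h2 : ‖α e * f - α e‖ ≤ δ) (h3 : ‖α.symm e * f - α.symm e‖ ≤ δ) :
    ‖star (α e - e) * (α f - f)‖ ≤ 4 * δ := by
  have hid : star (α e - e) * (α f - f) =
      α (e * f - e) - (α e * f - α e) - α (α.symm e * f - α.symm e) + (e * f - e) := by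
    rw [star_sub, ← map_star, he, map_sub, map_mul, map_sub, map_mul]
    simp only [StarAlgEquiv.apply_symm_apply]
    noncomm_ring
  rw [hid]
  have h4 : ‖α (e * f - e)‖ ≤ δ := (NonUnitalStarAlgHom.norm_apply_le α _).trans h1
  have h5 : ‖α (α.symm e * f - α.symm e)‖ ≤ δ :=
    (NonUnitalStarAlgHom.norm_apply_le α _).trans h3
  calc ‖α (e * f - e) - (α e * f - α e) - α (α.symm e * f - α.symm e) + (e * f - e)‖
      ≤ δ + δ + δ + δ := by
        refine (norm_add_le _ _).trans (add_le_add ?_ h1)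
        refine (norm_sub_le _ _).trans (add_le_add ?_ h5)
        exact (norm_sub_le _ _).trans (add_le_add h4 h2)
    _ = 4 * δ := by ring

/-- Quasicentral, almost invariant approximate units. -/
theorem quasi_central [PartialOrder A] [StarOrderedRing A] {G : Type w} [Group G]
    (α : G →* (A ≃⋆ₐ[ℂ] A)) (a : A) (ha : 0 ≤ a) (ha1 : ‖a‖ < 1) (F : Finset A)
    (Y : Finset 𝓜(ℂ, A)) (S : Finset G) (ε : ℝ) (hε : 0 < ε) :
    ∃ h : A, a ≤ h ∧ ‖h‖ < 1 ∧ (∀ b ∈ F, ‖h * b - b‖ ≤ ε ∧ ‖b * h - b‖ ≤ ε) ∧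
      (∀ y ∈ Y, ‖y.fst h - y.snd h‖ ≤ ε) ∧ ∀ g ∈ S, ‖α g h - h‖ ≤ ε := by
  classical
  -- constants
  obtain ⟨K, hK1, hKY⟩ : ∃ K : ℝ, 1 ≤ K ∧ ∀ y ∈ Y, ‖y‖ ≤ K := by
    refine ⟨1 + ∑ y ∈ Y, ‖y‖, ?_, fun y hy => ?_⟩
    · have := Finset.sum_nonneg (s := Y) (f := fun y => ‖y‖) (fun y _ => norm_nonneg y)
      linarith only [this]
    · have := Finset.single_le_sum (s := Y) (f := fun y => ‖y‖) (fun y _ => norm_nonneg y) hy
      linarith only [this]
  have hK0 : 0 < K := by linarith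
  set δ : ℝ := min ε (ε ^ 2 / (8 * K ^ 2)) with hδdef
  have hδ : 0 < δ := lt_min hε (by (clear * - hε hK1; positivity))
  have hδε : δ ≤ ε := min_le_left _ _
  have hδ2 : 4 * K ^ 2 * δ ≤ ε ^ 2 / 2 := by
    have h1 : δ ≤ ε ^ 2 / (8 * K ^ 2) := min_le_right _ _
    rw [le_div_iff₀ (by positivity)] at h1
    linarith only [h1]
  obtain ⟨n, hn⟩ := exists_nat_gt (8 * K ^ 2 / ε ^ 2)
  have hn0' : (0 : ℝ) < n := lt_trans (by positivity) hn
  have hn0 : 0 < n := by exact_mod_cast hn0'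
  have hs : (2 * K) ^ 2 / n + 4 * K ^ 2 * δ ≤ ε ^ 2 := by
    have h1 : (2 * K) ^ 2 / n ≤ ε ^ 2 / 2 := by
      rw [div_lt_iff₀ (by positivity)] at hn
      rw [div_le_iff₀ hn0']
      nlinarith only [hn]
    linarith only [hδ2, h1]
  -- the sequence
  obtain ⟨e, he1, he2, he3⟩ := rqc_seq a ha ha1 F (fun e =>
    {e} ∪ Y.image (fun y => (star y * y).snd e) ∪ Y.image (fun y => (star y).snd e) ∪
      Y.image (fun y => (star y).fst (y.snd e)) ∪ S.image (fun g => α g e) ∪
      S.image (fun g => (α g).symm e)) hδ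
  have hsa : ∀ k, star (e k) = e k := fun k =>
    (IsSelfAdjoint.of_nonneg (ha.trans (he1 k).1)).star_eq
  have hA : ∀ k l, k < l → ‖e k * e l - e k‖ ≤ δ := fun k l hkl =>
    he3 k l hkl _ (by simp only [DoubleCentralizer.mul_snd, mul_apply_eq_comp, DoubleCentralizer.star_snd, Finset.singleton_union, Finset.insert_union, DoubleCentralizer.star_fst, Finset.union_assoc, Finset.mem_insert, Finset.mem_union, Finset.mem_image, true_or])
  have hY1 : ∀ k l, k < l → ∀ y ∈ Y,
      ‖(star y * y).snd (e k) * e l - (star y * y).snd (e k)‖ ≤ δ := fun k l hkl y hy =>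
    he3 k l hkl _ (by
      simp only [Finset.mem_union, Finset.mem_image]
      exact Or.inl (Or.inl (Or.inl (Or.inl (Or.inr ⟨y, hy, rfl⟩)))))
  have hY2 : ∀ k l, k < l → ∀ y ∈ Y,
      ‖(star y).snd (e k) * e l - (star y).snd (e k)‖ ≤ δ := fun k l hkl y hy =>
    he3 k l hkl _ (by
      simp only [Finset.mem_union, Finset.mem_image]
      exact Or.inl (Or.inl (Or.inl (Or.inr ⟨y, hy, rfl⟩))))
  have hY3 : ∀ k l, k < l → ∀ y ∈ Y,
      ‖(star y).fst (y.snd (e k)) * e l - (star y).fst (y.snd (e k))‖ ≤ δ := fun k l hkl y hy =>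
    he3 k l hkl _ (by
      simp only [Finset.mem_union, Finset.mem_image]
      exact Or.inl (Or.inl (Or.inr ⟨y, hy, rfl⟩)))
  have hS1 : ∀ k l, k < l → ∀ g ∈ S, ‖α g (e k) * e l - α g (e k)‖ ≤ δ := fun k l hkl g hg =>
    he3 k l hkl _ (by
      simp only [Finset.mem_union, Finset.mem_image]
      exact Or.inl (Or.inr ⟨g, hg, rfl⟩))
  have hS2 : ∀ k l, k < l → ∀ g ∈ S, ‖(α g).symm (e k) * e l - (α g).symm (e k)‖ ≤ δ :=
    fun k l hkl g hg => he3 k l hkl _ (by
      simp only [Finset.mem_union, Finset.mem_image]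
      exact Or.inr ⟨g, hg, rfl⟩)
  -- the average
  have hcard : (n : ℝ)⁻¹ * n = 1 := by (clear * - hn0; field_simp)
  have havg : ∀ (b : ℕ → A) {C : ℝ}, (∀ k, ‖b k‖ ≤ C) →
      ‖(n : ℝ)⁻¹ • ∑ k ∈ Finset.range n, b k‖ ≤ C := by
    intro b C hb
    rw [norm_smul, norm_inv, RCLike.norm_natCast]
    calc (n : ℝ)⁻¹ * ‖∑ k ∈ Finset.range n, b k‖ ≤ (n : ℝ)⁻¹ * ∑ k ∈ Finset.range n, C := by
          gcongr
          exact norm_sum_le_of_le _ (fun k _ => hb k)
      _ = C := by
          rw [Finset.sum_const, Finset.card_range, nsmul_eq_mul, ← mul_assoc, hcard, one_mul]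
  have hconst : ∀ b : A, b = (n : ℝ)⁻¹ • ∑ _k ∈ Finset.range n, b := by
    intro b
    rw [Finset.sum_const, Finset.card_range, ← Nat.cast_smul_eq_nsmul ℝ, smul_smul, hcard,
      one_smul]
  refine ⟨(n : ℝ)⁻¹ • ∑ k ∈ Finset.range n, e k, ?_, ?_, fun b hb => ⟨?_, ?_⟩, fun y hy => ?_,
    fun g hg => ?_⟩
  · conv_lhs => rw [hconst a]
    exact smul_le_smul_of_nonneg_left (Finset.sum_le_sum fun k _ => (he1 k).1) (by positivity)
  · rw [norm_smul, norm_inv, RCLike.norm_natCast, inv_mul_lt_iff₀ hn0', mul_one]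
    calc ‖∑ k ∈ Finset.range n, e k‖ ≤ ∑ k ∈ Finset.range n, ‖e k‖ := norm_sum_le _ _
      _ < ∑ k ∈ Finset.range n, (1 : ℝ) :=
          Finset.sum_lt_sum_of_nonempty ⟨0, Finset.mem_range.2 hn0⟩ (fun k _ => (he1 k).2)
      _ = n := by simp
  · have h1 : ((n : ℝ)⁻¹ • ∑ k ∈ Finset.range n, e k) * b - b =
        (n : ℝ)⁻¹ • ∑ k ∈ Finset.range n, (e k * b - b) := by
      rw [Finset.sum_sub_distrib, smul_sub, ← hconst, smul_mul_assoc, Finset.sum_mul]
    rw [h1]
    exact (havg _ (fun k => (he2 k b hb).1)).trans hδε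
  · have h1 : b * ((n : ℝ)⁻¹ • ∑ k ∈ Finset.range n, e k) - b =
        (n : ℝ)⁻¹ • ∑ k ∈ Finset.range n, (b * e k - b) := by
      rw [Finset.sum_sub_distrib, smul_sub, ← hconst, mul_smul_comm, Finset.mul_sum]
    rw [h1]
    exact (havg _ (fun k => (he2 k b hb).2)).trans hδε
  · -- commutators
    have hc : ∀ k l, k < l → ‖star (y * (e k : 𝓜(ℂ, A)) - (e k : 𝓜(ℂ, A)) * y) *
        (y * (e l : 𝓜(ℂ, A)) - (e l : 𝓜(ℂ, A)) * y)‖ ≤ 4 * K ^ 2 * δ := by
      intro k l hkl
      refine rqc_comm hδ.le (by rw [← rqc_coe_star, hsa]) (hKY y hy) hK1 ?_ ?_ ?_ ?_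
      · rw [coe_mul_mult, ← rqc_coe_mul, ← rqc_coe_sub, norm_coe_mult]
        exact hY1 k l hkl y hy
      · rw [coe_mul_mult, ← rqc_coe_mul, ← rqc_coe_sub, norm_coe_mult]
        exact hY2 k l hkl y hy
      · rw [coe_mul_mult, mult_mul_coe (y.snd (e k)) (star y), ← rqc_coe_mul, ← rqc_coe_sub,
          norm_coe_mult]
        exact hY3 k l hkl y hy
      · rw [← rqc_coe_mul, ← rqc_coe_sub, norm_coe_mult]
        exact hA k l hkl
    have hb : ∀ k, ‖y * (e k : 𝓜(ℂ, A)) - (e k : 𝓜(ℂ, A)) * y‖ ≤ 2 * K := by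
      intro k
      have h1 : ‖(e k : 𝓜(ℂ, A))‖ ≤ 1 := by rw [norm_coe_mult]; exact (he1 k).2.le
      have h2 := hKY y hy
      calc ‖y * (e k : 𝓜(ℂ, A)) - (e k : 𝓜(ℂ, A)) * y‖
          ≤ ‖y‖ * ‖(e k : 𝓜(ℂ, A))‖ + ‖(e k : 𝓜(ℂ, A))‖ * ‖y‖ :=
            (norm_sub_le _ _).trans (add_le_add (norm_mul_le _ _) (norm_mul_le _ _))
        _ ≤ K * 1 + 1 * K := by (clear * - h2 h1 hK1; gcongr)
        _ = 2 * K := by ring
    have h1 := rqc_avg hn0 (fun k => y * (e k : 𝓜(ℂ, A)) - (e k : 𝓜(ℂ, A)) * y)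
      (by positivity) (by positivity) hε.le hb hc hs
    have h2 : (n : ℝ)⁻¹ • ∑ k ∈ Finset.range n, (y * (e k : 𝓜(ℂ, A)) - (e k : 𝓜(ℂ, A)) * y) =
        ((y.fst ((n : ℝ)⁻¹ • ∑ k ∈ Finset.range n, e k) -
          y.snd ((n : ℝ)⁻¹ • ∑ k ∈ Finset.range n, e k) : A) : 𝓜(ℂ, A)) := by
      have h3 : (((n : ℝ)⁻¹ • ∑ k ∈ Finset.range n, e k : A) : 𝓜(ℂ, A)) =
          (n : ℝ)⁻¹ • ∑ k ∈ Finset.range n, (e k : 𝓜(ℂ, A)) := by
        rw [← Complex.coe_smul, ← Complex.coe_smul]
        refine (map_smul (DoubleCentralizer.coeHom (𝕜 := ℂ) (A := A)) _ _).trans ?_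
        rw [map_sum]
        rfl
      rw [Finset.sum_sub_distrib, ← Finset.mul_sum, ← Finset.sum_mul, rqc_coe_sub,
        ← mult_mul_coe, ← coe_mul_mult, h3, smul_sub, mul_smul_comm, smul_mul_assoc]
    rw [h2, norm_coe_mult] at h1
    exact h1
  · have hb : ∀ k, ‖α g (e k) - e k‖ ≤ 2 * K := by
      intro k
      have h1 : ‖α g (e k)‖ ≤ 1 := (NonUnitalStarAlgHom.norm_apply_le (α g) _).trans (he1 k).2.le
      calc ‖α g (e k) - e k‖ ≤ 1 + 1 := (norm_sub_le _ _).trans (add_le_add h1 (he1 k).2.le)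
        _ ≤ 2 * K := by linarith only [hK1]
    have h1 := rqc_avg hn0 (fun k => α g (e k) - e k)
      (by positivity) (by positivity) hε.le hb (fun k l hkl =>
        (rqc_act (α g) (hsa k) (hA k l hkl) (hS1 k l hkl g hg) (hS2 k l hkl g hg)).trans (by
          have : 1 ≤ K ^ 2 := by nlinarith only [hK1]
          nlinarith only [hδ, this])) hs
    have h2 : (n : ℝ)⁻¹ • ∑ k ∈ Finset.range n, (α g (e k) - e k) =
        α g ((n : ℝ)⁻¹ • ∑ k ∈ Finset.range n, e k) - (n : ℝ)⁻¹ • ∑ k ∈ Finset.range n, e k := by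
      rw [Finset.sum_sub_distrib, smul_sub]
      congr 1
      rw [← Complex.coe_smul, ← Complex.coe_smul, map_smul, map_sum]
    rw [← h2]
    exact h1

end Vale.Agent.P095R
end

section

set_option linter.all false

/-! Recursive choice of blocks. -/

open Filter Topology
open scoped MultiplierAlgebra

namespace Vale.Agent.P095R

universe u w

/-- Dependent choice with full history. -/
theorem exists_seq_history {X : Type*} [Nonempty X] (P : ℕ → (ℕ → X) → X → Prop)
    (hloc : ∀ n (t t' : ℕ → X) x, (∀ i < n, t i = t' i) → P n t x → P n t' x)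
    (hex : ∀ n t, (∀ i < n, P i t (t i)) → ∃ x, P n t x) : ∃ s : ℕ → X, ∀ n, P n s (s n) := by
  classical
  let F : ∀ n, (∀ i, i < n → X) → X := fun n ih =>
    Classical.epsilon (P n (fun i => if h : i < n then ih i h else Classical.arbitrary X))
  let s : ℕ → X := fun n => Nat.lt_wfRel.wf.fix F n
  have hs : ∀ n, s n = F n (fun i _ => s i) := fun n => Nat.lt_wfRel.wf.fix_eq F n
  refine ⟨s, fun n => ?_⟩
  induction n using Nat.strong_induction_on with
  | _ n ih =>
    have h1 : ∃ x, P n s x := hex n s ih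
    have hag : ∀ i < n, s i = (fun i => if h : i < n then s i else Classical.arbitrary X) i := by
      intro i hi
      simp [hi]
    have h2 : ∃ x, P n (fun i => if h : i < n then s i else Classical.arbitrary X) x := by
      obtain ⟨x, hx⟩ := h1
      exact ⟨x, hloc n _ _ x hag hx⟩
    have h3 := Classical.epsilon_spec h2
    have h4 : s n = Classical.epsilon
        (P n (fun i => if h : i < n then s i else Classical.arbitrary X)) := hs n
    rw [← h4] at h3
    exact hloc n _ _ _ (fun i hi => (hag i hi).symm) h3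

variable {A : Type u} [NonUnitalCStarAlgebra A]

theorem bsum_congr {m : ℕ} {h h' : ℕ → A} {x x' : ℕ → Fin 4 → Fin m → A} {n : ℕ}
    (hh : ∀ j ≤ n + 1, h j = h' j) (hx : ∀ k < n, x k = x' k) (r : ℕ) (q : Fin 4) (i : Fin m) :
    bsum h x r q i n = bsum h' x' r q i n := by
  unfold bsum
  refine Finset.sum_congr rfl fun k hk => ?_
  have hk' : k < n := by
    have := (Finset.mem_filter.mp hk).1
    exact Finset.mem_range.mp this
  have e1 : bu h k = bu h' k := by
    unfold bu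
    rw [hh (k + 1) (by omega), hh k (by omega)]
  have e2 : bg h k = bg h' k := by
    unfold bg
    rw [hh (k + 2) (by omega), hh (k - 1) (by omega)]
  rw [e1, e2, hx k hk']

/-- The conditions at step `n`. -/
structure StepOK [PartialOrder A] {G : Type w} [Group G] (α : G →* (A ≃⋆ₐ[ℂ] A)) (m : ℕ) (R : ℝ)
    (Y : Finset 𝓜(ℂ, A)) (S : Finset G) (η : ℕ → ℝ) (a : ℕ → A) (n : ℕ) (h : ℕ → A)
    (x : ℕ → Fin 4 → Fin m → A) : Prop where
  pos : 0 ≤ h (n + 2)
  mono : h (n + 1) ≤ h (n + 2)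
  hnorm : ‖h (n + 2)‖ < 1
  hh : ∀ j, j ≤ n + 1 → ‖h (n + 2) * h j - h j‖ ≤ η n ∧ ‖h j * h (n + 2) - h j‖ ≤ η n
  hsum : ∀ r q i, r < 4 → ‖h (n + 2) * bsum h x r q i n - bsum h x r q i n‖ ≤ η n ∧
    ‖bsum h x r q i n * h (n + 2) - bsum h x r q i n‖ ≤ η n
  ha : ∀ j, j ≤ n → ‖h (n + 2) * a j - a j‖ ≤ η n ∧ ‖a j * h (n + 2) - a j‖ ≤ η n
  hY : ∀ y ∈ Y, ‖y.fst (h (n + 2)) - y.snd (h (n + 2))‖ ≤ η n
  hS : ∀ g ∈ S, ‖α g (h (n + 2)) - h (n + 2)‖ ≤ η n
  xnorm : ∀ q i, ‖x n q i‖ ≤ R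
  xh : ∀ q i j, j ≤ n + 2 → ‖x n q i * h j - h j * x n q i‖ ≤ η n
  xa : ∀ q i j, j ≤ n → ‖x n q i * a j - a j * x n q i‖ ≤ η n
  xY : ∀ q i, ∀ y ∈ Y, ‖x n q i * y.snd (bg h n) - y.snd (bg h n) * x n q i‖ ≤ η n ∧
    ‖x n q i * y.snd (bu h n) - y.snd (bu h n) * x n q i‖ ≤ η n
  xS : ∀ q i, ∀ g ∈ S, ‖bg h n * (α g (x n q i) - x n q i)‖ ≤ η n ∧
    ‖bu h n * (α g (x n q i) - x n q i)‖ ≤ η n
  rel : ‖bu h n * (∑ i, x n 0 i * (x n 1 i * x n 2 i - x n 2 i * x n 1 i) * x n 3 i) -
    bu h n‖ ≤ η n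

theorem StepOK.congr [PartialOrder A] {G : Type w} [Group G] {α : G →* (A ≃⋆ₐ[ℂ] A)} {m : ℕ}
    {R : ℝ} {Y : Finset 𝓜(ℂ, A)} {S : Finset G} {η : ℕ → ℝ} {a : ℕ → A} {n : ℕ} {h h' : ℕ → A}
    {x x' : ℕ → Fin 4 → Fin m → A} (H : StepOK α m R Y S η a n h x)
    (hh : ∀ j ≤ n + 2, h j = h' j) (hx : ∀ k ≤ n, x k = x' k) : StepOK α m R Y S η a n h' x' := by
  have e2 : h (n + 2) = h' (n + 2) := hh _ le_rfl
  have e1 : h (n + 1) = h' (n + 1) := hh _ (by omega)
  have ex : x n = x' n := hx n le_rfl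
  have eb : ∀ r q i, bsum h x r q i n = bsum h' x' r q i n := fun r q i =>
    bsum_congr (fun j hj => hh j (by omega)) (fun k hk => hx k (by omega)) r q i
  have ebu : bu h n = bu h' n := by
    unfold bu
    rw [hh (n + 1) (by omega), hh n (by omega)]
  have ebg : bg h n = bg h' n := by
    unfold bg
    rw [hh (n + 2) (by omega), hh (n - 1) (by omega)]
  constructor
  · rw [← e2]; exact H.pos
  · rw [← e2, ← e1]; exact H.mono
  · rw [← e2]; exact H.hnorm
  · intro j hj
    rw [← e2, ← hh j (by omega)]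
    exact H.hh j hj
  · intro r q i hr
    rw [← e2, ← eb]
    exact H.hsum r q i hr
  · rw [← e2]; exact H.ha
  · rw [← e2]; exact H.hY
  · rw [← e2]; exact H.hS
  · rw [← ex]; exact H.xnorm
  · intro q i j hj
    rw [← ex, ← hh j hj]
    exact H.xh q i j hj
  · rw [← ex]; exact H.xa
  · rw [← ex, ← ebu, ← ebg]; exact H.xY
  · rw [← ex, ← ebu, ← ebg]; exact H.xS
  · rw [← ex, ← ebu]; exact H.rel

/-- the sequence `h` attached to the sequence of choices -/
def hseq {Z : Type*} (t : ℕ → A × Z) (j : ℕ) : A := if j < 2 then 0 else (t (j - 2)).1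

/-- the sequence `x` attached to the sequence of choices -/
def xseq {Z : Type*} (t : ℕ → A × Z) (j : ℕ) : Z := (t j).2

theorem hseq_add {Z : Type*} (t : ℕ → A × Z) (j : ℕ) : hseq t (j + 2) = (t j).1 := by
  simp only [hseq, Order.lt_two_iff, Nat.reduceLeDiff, ↓reduceIte, add_tsub_cancel_right]

theorem exists_blockSeq [PartialOrder A] [StarOrderedRing A] {G : Type w} [Group G]
    (α : G →* (A ≃⋆ₐ[ℂ] A)) (m : ℕ) (R : ℝ)
    (hN : ∀ (F : Finset A) (S : Finset G) (ε : ℝ), 0 < ε →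
      ∃ x : Fin 4 → Fin m → A, (∀ q i, ‖x q i‖ ≤ R) ∧
        (∀ q i, ∀ a ∈ F, ‖x q i * a - a * x q i‖ ≤ ε) ∧
        (∀ q i, ∀ g ∈ S, ∀ a ∈ F, ‖a * (α g (x q i) - x q i)‖ ≤ ε) ∧
        ∀ a ∈ F, ‖a * (∑ i, x 0 i * (x 1 i * x 2 i - x 2 i * x 1 i) * x 3 i) - a‖ ≤ ε)
    (Y : Finset 𝓜(ℂ, A)) (S : Finset G) (η : ℕ → ℝ) (hη : ∀ n, 0 < η n) (a : ℕ → A) :
    ∃ (h : ℕ → A) (x : ℕ → Fin 4 → Fin m → A), BlockSeq α m R Y S η a h x := by
  classical
  obtain ⟨s, hs⟩ := exists_seq_history (X := A × (Fin 4 → Fin m → A))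
    (fun n t p => StepOK α m R Y S η a n (hseq (Function.update t n p))
      (xseq (Function.update t n p)))
    (by
      intro n t t' p htt' H
      have key : ∀ i ≤ n, Function.update t n p i = Function.update t' n p i := by
        intro i hi
        rcases hi.lt_or_eq with h | h
        · rw [Function.update_of_ne h.ne, Function.update_of_ne h.ne, htt' i h]
        · subst h; simp
      refine H.congr (fun j hj => ?_) (fun k hk => ?_)
      · unfold hseq
        split_ifs with h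
        · rfl
        · rw [key (j - 2) (by omega)]
      · unfold xseq
        rw [key k hk])
    (by
      intro n t hP
      have hP' : ∀ i < n, StepOK α m R Y S η a i (hseq t) (xseq t) := by
        intro i hi
        have := hP i hi
        simpa only [Function.update_eq_self] using this
      set h : ℕ → A := hseq t with hh
      set x : ℕ → Fin 4 → Fin m → A := xseq t with hx
      have hpos : 0 ≤ h (n + 1) ∧ ‖h (n + 1)‖ < 1 := by
        rcases Nat.eq_zero_or_pos n with h0 | h0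
        · subst h0
          have : h (0 + 1) = 0 := by simp [hh, hseq]
          rw [this]
          simp only [Std.le_refl, norm_zero, zero_lt_one, and_self]
        · have := hP' (n - 1) (by omega)
          have e : n - 1 + 2 = n + 1 := by omega
          have h1 := this.pos
          have h2 := this.hnorm
          rw [e] at h1 h2
          exact ⟨h1, h2⟩
      let Hist : Finset A := ((Finset.range (n + 2)).image h ∪ (Finset.range (n + 1)).image a) ∪
        ((Finset.range 4 ×ˢ (Finset.univ : Finset (Fin 4 × Fin m))).image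
          (fun p => bsum h x p.1 p.2.1 p.2.2 n))
      obtain ⟨h', ha', hn', hF, hYq, hSq⟩ := quasi_central α (h (n + 1)) hpos.1 hpos.2 Hist Y S
        (η n) (hη n)
      let h2 : ℕ → A := Function.update h (n + 2) h'
      let F' : Finset A := ((Hist ∪ (Finset.range (n + 3)).image h2) ∪ {bg h2 n, bu h2 n}) ∪
        (Y.image (fun y => y.snd (bg h2 n)) ∪ Y.image (fun y => y.snd (bu h2 n)))
      obtain ⟨x', xn, xF, xS, xr⟩ := hN F' S (η n) (hη n)
      refine ⟨(h', x'), ?_⟩
      have eh : hseq (Function.update t n (h', x')) = h2 := by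
        funext j
        by_cases hj : j = n + 2
        · subst hj
          rw [hseq_add]
          simp [h2]
        · have : h2 j = h j := by simp [h2, hj]
          rw [this, hh]
          unfold hseq
          split_ifs with h
          · rfl
          · rw [Function.update_of_ne (by omega)]
      have ex : xseq (Function.update t n (h', x')) = Function.update x n x' := by
        funext k
        unfold xseq
        by_cases hk : k = n
        · subst hk; simp
        · rw [Function.update_of_ne hk, Function.update_of_ne hk, hx]; rfl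
      have h2n : h2 (n + 2) = h' := by simp [h2]
      have h2j : ∀ j ≤ n + 1, h2 j = h j := by
        intro j hj
        simp only [h2]
        rw [Function.update_of_ne (by omega)]
      have x2n : Function.update x n x' n = x' := by simp
      have x2k : ∀ k < n, Function.update x n x' k = x k := by
        intro k hk
        rw [Function.update_of_ne hk.ne]
      have eb : ∀ r q i, bsum h2 (Function.update x n x') r q i n = bsum h x r q i n :=
        fun r q i => bsum_congr h2j x2k r q i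
      have mh : ∀ j ≤ n + 1, h j ∈ Hist := by
        intro j hj
        refine Finset.mem_union_left _ (Finset.mem_union_left _ ?_)
        exact Finset.mem_image_of_mem _ (Finset.mem_range.mpr (by omega))
      have ma : ∀ j ≤ n, a j ∈ Hist := by
        intro j hj
        refine Finset.mem_union_left _ (Finset.mem_union_right _ ?_)
        exact Finset.mem_image_of_mem _ (Finset.mem_range.mpr (by omega))
      have mb : ∀ r q i, r < 4 → bsum h x r q i n ∈ Hist := by
        intro r q i hr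
        refine Finset.mem_union_right _ ?_
        refine Finset.mem_image.mpr ⟨(r, (q, i)), ?_, rfl⟩
        simp only [Finset.mem_product, Finset.mem_range, hr, Finset.mem_univ, and_self]
      have hHF : ∀ b ∈ Hist, b ∈ F' := by
        intro b hb
        exact Finset.mem_union_left _ (Finset.mem_union_left _ (Finset.mem_union_left _ hb))
      have mh2 : ∀ j ≤ n + 2, h2 j ∈ F' := by
        intro j hj
        refine Finset.mem_union_left _ (Finset.mem_union_left _ (Finset.mem_union_right _ ?_))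
        exact Finset.mem_image_of_mem _ (Finset.mem_range.mpr (by omega))
      have mbg : bg h2 n ∈ F' := by
        refine Finset.mem_union_left _ (Finset.mem_union_right _ ?_)
        simp
      have mbu : bu h2 n ∈ F' := by
        refine Finset.mem_union_left _ (Finset.mem_union_right _ ?_)
        simp
      have mYg : ∀ y ∈ Y, y.snd (bg h2 n) ∈ F' := by
        intro y hy
        refine Finset.mem_union_right _ (Finset.mem_union_left _ ?_)
        exact Finset.mem_image_of_mem (fun y : 𝓜(ℂ, A) => y.snd (bg h2 n)) hy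
      have mYu : ∀ y ∈ Y, y.snd (bu h2 n) ∈ F' := by
        intro y hy
        refine Finset.mem_union_right _ (Finset.mem_union_right _ ?_)
        exact Finset.mem_image_of_mem (fun y : 𝓜(ℂ, A) => y.snd (bu h2 n)) hy
      show StepOK α m R Y S η a n (hseq (Function.update t n (h', x')))
        (xseq (Function.update t n (h', x')))
      rw [eh, ex]
      constructor
      · rw [h2n]; exact hpos.1.trans ha'
      · rw [h2n, h2j (n + 1) le_rfl]; exact ha'
      · rw [h2n]; exact hn'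
      · intro j hj
        rw [h2n, h2j j hj]
        exact hF _ (mh j hj)
      · intro r q i hr
        rw [h2n, eb]
        exact hF _ (mb r q i hr)
      · intro j hj
        rw [h2n]
        exact hF _ (ma j hj)
      · intro y hy
        rw [h2n]
        exact hYq y hy
      · intro g hg
        rw [h2n]
        exact hSq g hg
      · rw [x2n]; exact xn
      · intro q i j hj
        rw [x2n]
        exact xF q i _ (mh2 j hj)
      · intro q i j hj
        rw [x2n]
        exact xF q i _ (hHF _ (ma j hj))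
      · intro q i y hy
        rw [x2n]
        exact ⟨xF q i _ (mYg y hy), xF q i _ (mYu y hy)⟩
      · intro q i g hg
        rw [x2n]
        exact ⟨xS q i g hg _ mbg, xS q i g hg _ mbu⟩
      · rw [x2n]
        exact xr _ mbu)
  have hs' : ∀ n, StepOK α m R Y S η a n (hseq s) (xseq s) := by
    intro n
    have := hs n
    simpa only [Function.update_eq_self] using this
  refine ⟨hseq s, xseq s, ?_⟩
  have h0 : hseq s 0 = 0 := by simp [hseq]
  have h1 : hseq s 1 = 0 := by simp [hseq]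
  exact
    { h0 := h0
      h1 := h1
      mono := by
        intro n
        rcases n with _ | n
        · rw [h0, h1]
        · exact (hs' n).mono
      hnorm := by
        intro n
        rcases n with _ | _ | n
        · rw [h0]; simp
        · rw [h1]; simp
        · exact (hs' n).hnorm.le
      hh := fun n => (hs' n).hh
      hsum := fun n => (hs' n).hsum
      ha := fun n => (hs' n).ha
      hY := fun n => (hs' n).hY
      hS := fun n => (hs' n).hS
      xnorm := fun n => (hs' n).xnorm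
      xh := fun n => (hs' n).xh
      xa := fun n => (hs' n).xa
      xY := fun n => (hs' n).xY
      xS := fun n => (hs' n).xS
      rel := fun n => (hs' n).rel }

end Vale.Agent.P095R
end

section

/-! The multiplier algebra has norm almost central and almost invariant families without
characters. -/

open Filter Topology
open scoped MultiplierAlgebra

namespace Vale.Agent.P095R

universe u w

variable {A : Type u} [NonUnitalCStarAlgebra A]

/-- Families in a set `E` of a unital C*-algebra which are almost central and almost fixed and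
have no common character. -/
def NoCharOn {M : Type u} [CStarAlgebra M] {G : Type w} [Group G] (γ : G →* (M ≃⋆ₐ[ℂ] M)) (m : ℕ)
    (R : ℝ) (E : Set M) : Prop :=
  ∀ (Y : Finset M) (S : Finset G) (ε : ℝ), 0 < ε → (∀ y ∈ Y, y ∈ E) →
    ∃ x : Fin 4 → Fin m → M, (∀ q i, x q i ∈ E) ∧ (∀ q i, ‖x q i‖ ≤ R) ∧
      (∀ q i, ∀ y ∈ Y, ‖x q i * y - y * x q i‖ ≤ ε) ∧
      (∀ q i, ∀ g ∈ S, ‖γ g (x q i) - x q i‖ ≤ ε) ∧
      ‖(∑ i, x 0 i * (x 1 i * x 2 i - x 2 i * x 1 i) * x 3 i) - 1‖ ≤ ε

/-- A bounded sequence of maps which is Cauchy on a dense sequence is Cauchy everywhere. -/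
theorem cauchy_of_dense {F : ℕ → A → A} {C : ℝ} (hF : ∀ n c d, ‖F n c - F n d‖ ≤ C * ‖c - d‖)
    {a : ℕ → A} (ha : DenseRange a) (h : ∀ j, CauchySeq fun n => F n (a j)) (c : A) :
    CauchySeq fun n => F n c := by
  have hC : 0 < |C| + 1 := by positivity
  rw [Metric.cauchySeq_iff]
  intro ε hε
  obtain ⟨j, hj⟩ := ha.exists_dist_lt c (show 0 < ε / (3 * (|C| + 1)) by positivity)
  obtain ⟨N, hN⟩ := Metric.cauchySeq_iff.1 (h j) (ε / 3) (by positivity)
  refine ⟨N, fun k hk l hl => ?_⟩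
  have h1 : ∀ n, dist (F n c) (F n (a j)) ≤ ε / 3 := by
    intro n
    rw [dist_eq_norm]
    have h2 := hF n c (a j)
    have h3 : ‖c - a j‖ ≤ ε / (3 * (|C| + 1)) := by rw [← dist_eq_norm]; exact hj.le
    calc ‖F n c - F n (a j)‖ ≤ C * ‖c - a j‖ := h2
      _ ≤ (|C| + 1) * ‖c - a j‖ :=
          mul_le_mul_of_nonneg_right (by linarith only [le_abs_self C]) (norm_nonneg _)
      _ ≤ (|C| + 1) * (ε / (3 * (|C| + 1))) := mul_le_mul_of_nonneg_left h3 hC.le
      _ = ε / 3 := by (clear * - hε; field_simp)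
  calc dist (F k c) (F l c) ≤ dist (F k c) (F k (a j)) + dist (F k (a j)) (F l (a j)) +
        dist (F l (a j)) (F l c) := dist_triangle4 _ _ _ _
    _ < ε / 3 + ε / 3 + ε / 3 := by
        have := hN k hk l hl
        have e1 := h1 k
        have e2 := h1 l
        rw [dist_comm] at e2
        linarith only [this, e1, e2]
    _ = ε := by ring

/-- A bounded sequence of maps which converges to the identity on a dense sequence converges to
the identity everywhere. -/
theorem tendsto_of_dense {F : ℕ → A → A} {C : ℝ} (hF : ∀ n c d, ‖F n c - F n d‖ ≤ C * ‖c - d‖)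
    {a : ℕ → A} (ha : DenseRange a) (h : ∀ j, Tendsto (fun n => F n (a j)) atTop (𝓝 (a j)))
    (c : A) : Tendsto (fun n => F n c) atTop (𝓝 c) := by
  have hC : 0 < |C| + 1 := by positivity
  rw [Metric.tendsto_atTop]
  intro ε hε
  obtain ⟨j, hj⟩ := ha.exists_dist_lt c (show 0 < ε / (3 * (|C| + 1)) by positivity)
  obtain ⟨N, hN⟩ := Metric.tendsto_atTop.1 (h j) (ε / 3) (by positivity)
  refine ⟨N, fun k hk => ?_⟩
  have h3 : ‖c - a j‖ ≤ ε / (3 * (|C| + 1)) := by rw [← dist_eq_norm]; exact hj.le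
  have h1 : dist (F k c) (F k (a j)) ≤ ε / 3 := by
    rw [dist_eq_norm]
    have h2 := hF k c (a j)
    calc ‖F k c - F k (a j)‖ ≤ C * ‖c - a j‖ := h2
      _ ≤ (|C| + 1) * ‖c - a j‖ :=
          mul_le_mul_of_nonneg_right (by linarith only [le_abs_self C]) (norm_nonneg _)
      _ ≤ (|C| + 1) * (ε / (3 * (|C| + 1))) := mul_le_mul_of_nonneg_left h3 hC.le
      _ = ε / 3 := by field_simp
  have h4 : dist (a j) c ≤ ε / 3 := by
    rw [dist_comm, dist_eq_norm]
    refine h3.trans ?_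
    have : (3 : ℝ) ≤ 3 * (|C| + 1) := by nlinarith only [abs_nonneg C]
    exact div_le_div_of_nonneg_left hε.le (by norm_num) this
  calc dist (F k c) c ≤ dist (F k c) (F k (a j)) + dist (F k (a j)) (a j) +
        dist (a j) c := dist_triangle4 _ _ _ _
    _ < ε / 3 + ε / 3 + ε / 3 := by
        have := hN k hk
        linarith only [h1, h4, this]
    _ = ε := by ring

theorem coeM_sub (a b : A) : ((a - b : A) : 𝓜(ℂ, A)) = (a : 𝓜(ℂ, A)) - (b : 𝓜(ℂ, A)) :=
  map_sub (DoubleCentralizer.coeHom (𝕜 := ℂ) (A := A)) a b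

theorem coeM_mul (a b : A) : ((a * b : A) : 𝓜(ℂ, A)) = (a : 𝓜(ℂ, A)) * (b : 𝓜(ℂ, A)) :=
  map_mul (DoubleCentralizer.coeHom (𝕜 := ℂ) (A := A)) a b

theorem coeM_sum {ι : Type*} (s : Finset ι) (f : ι → A) :
    ((∑ i ∈ s, f i : A) : 𝓜(ℂ, A)) = ∑ i ∈ s, (f i : 𝓜(ℂ, A)) :=
  map_sum (DoubleCentralizer.coeHom (𝕜 := ℂ) (A := A)) f s

theorem noCharOn_mult [TopologicalSpace.SeparableSpace A] {G : Type w} [Group G]
    (α : G →* (A ≃⋆ₐ[ℂ] A)) (hN : NoCharLocalN α) :
    ∃ (m : ℕ) (R : ℝ), NoCharOn (multAct α) m R Set.univ := by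
  let _ : PartialOrder A := CStarAlgebra.spectralOrder A
  have : StarOrderedRing A := CStarAlgebra.spectralOrderedRing A
  obtain ⟨m, R₀, hN⟩ := hN
  set R : ℝ := max R₀ 1 with hRdef
  have hR : 1 ≤ R := le_max_right _ _
  have hN' : ∀ (F : Finset A) (S : Finset G) (ε : ℝ), 0 < ε →
      ∃ x : Fin 4 → Fin m → A, (∀ q i, ‖x q i‖ ≤ R) ∧
        (∀ q i, ∀ a ∈ F, ‖x q i * a - a * x q i‖ ≤ ε) ∧
        (∀ q i, ∀ g ∈ S, ∀ a ∈ F, ‖a * (α g (x q i) - x q i)‖ ≤ ε) ∧
        ∀ a ∈ F, ‖a * (∑ i, x 0 i * (x 1 i * x 2 i - x 2 i * x 1 i) * x 3 i) - a‖ ≤ ε := by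
    intro F S ε hε
    obtain ⟨x, h1, h2⟩ := hN F S ε hε
    exact ⟨x, fun q i => (h1 q i).trans (le_max_left _ _), h2⟩
  refine ⟨4 * m, 3 * R, ?_⟩
  intro Y S ε hε _
  obtain ⟨ε', hε', hB⟩ := blockSeq_bounds α m R hR Y S ε hε
  obtain ⟨h, x, hbs⟩ := exists_blockSeq α m R hN' Y S (fun n => ε' * (1 / 2) ^ n)
    (fun n => by positivity) (TopologicalSpace.denseSeq A)
  obtain ⟨b1, b2, b3, b4, b5, b6⟩ := hB _ h x hbs
  have hda : DenseRange (TopologicalSpace.denseSeq A) := TopologicalSpace.denseRange_denseSeq A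
  have hlim : ∀ (r : Fin 4) (q : Fin 4) (i : Fin m), ∃ X : 𝓜(ℂ, A),
      StrictTo (fun n => ((bsum h x r q i n : A) : 𝓜(ℂ, A))) X := by
    intro r q i
    refine exists_strict_limit (fun n => bsum h x r q i n) (C := 3 * R)
      (fun n => b1 r r.2 q i n) (fun c => ?_) (fun c => ?_)
    · refine cauchy_of_dense (F := fun n c => bsum h x r q i n * c) (C := 3 * R) ?_ hda
        (fun j => (b5 r r.2 q i j).1) c
      intro n c d
      show ‖bsum h x r q i n * c - bsum h x r q i n * d‖ ≤ _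
      rw [← mul_sub]
      exact (norm_mul_le _ _).trans (mul_le_mul_of_nonneg_right (b1 r r.2 q i n) (norm_nonneg _))
    · refine cauchy_of_dense (F := fun n c => c * bsum h x r q i n) (C := 3 * R) ?_ hda
        (fun j => (b5 r r.2 q i j).2) c
      intro n c d
      show ‖c * bsum h x r q i n - d * bsum h x r q i n‖ ≤ _
      rw [← sub_mul, mul_comm (3 * R)]
      exact (norm_mul_le _ _).trans (mul_le_mul_of_nonneg_left (b1 r r.2 q i n) (norm_nonneg _))
  choose X hX using hlim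
  have hone : StrictTo (fun n => (h n : 𝓜(ℂ, A))) 1 := by
    refine StrictTo.one (C := 1) hbs.hnorm (fun c => ?_) (fun c => ?_)
    · refine tendsto_of_dense (F := fun n c => h n * c) (C := 1) ?_ hda (fun j => (b6 j).1) c
      intro n c d
      show ‖h n * c - h n * d‖ ≤ _
      rw [← mul_sub]
      exact (norm_mul_le _ _).trans (mul_le_mul_of_nonneg_right (hbs.hnorm n) (norm_nonneg _))
    · refine tendsto_of_dense (F := fun n c => c * h n) (C := 1) ?_ hda (fun j => (b6 j).2) c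
      intro n c d
      show ‖c * h n - d * h n‖ ≤ _
      rw [← sub_mul, mul_comm (1 : ℝ)]
      exact (norm_mul_le _ _).trans (mul_le_mul_of_nonneg_left (hbs.hnorm n) (norm_nonneg _))
  refine ⟨fun q k => X (finProdFinEquiv.symm k).1 q (finProdFinEquiv.symm k).2,
    fun _ _ => Set.mem_univ _, ?_, ?_, ?_, ?_⟩
  · intro q k
    refine (hX _ q _).norm_le (fun n => ?_)
    rw [norm_coe_mult]
    exact b1 _ (Fin.is_lt _) q _ n
  · intro q k y hy
    set r := (finProdFinEquiv.symm k).1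
    set i := (finProdFinEquiv.symm k).2
    have hc := StrictTo.const y
    refine (((hX r q i).mul hc).sub (hc.mul (hX r q i))).norm_le (fun n => ?_)
    show ‖((bsum h x r q i n : A) : 𝓜(ℂ, A)) * y - y * ((bsum h x r q i n : A) : 𝓜(ℂ, A))‖ ≤ ε
    rw [coe_mul_mult, mult_mul_coe, ← coeM_sub, norm_coe_mult]
    exact b2 r r.2 q i n y hy
  · intro q k g hg
    set r := (finProdFinEquiv.symm k).1
    set i := (finProdFinEquiv.symm k).2
    rw [multAct_apply]
    refine (((hX r q i).multAut (α g)).sub (hX r q i)).norm_le (fun n => ?_)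
    show ‖multAut (α g) ((bsum h x r q i n : A) : 𝓜(ℂ, A)) -
      ((bsum h x r q i n : A) : 𝓜(ℂ, A))‖ ≤ ε
    rw [multAut_coe, ← coeM_sub, norm_coe_mult]
    exact b3 r r.2 q i n g hg
  · have hsum : (∑ k : Fin (4 * m), X (finProdFinEquiv.symm k).1 0 (finProdFinEquiv.symm k).2 *
        (X (finProdFinEquiv.symm k).1 1 (finProdFinEquiv.symm k).2 *
          X (finProdFinEquiv.symm k).1 2 (finProdFinEquiv.symm k).2 -
          X (finProdFinEquiv.symm k).1 2 (finProdFinEquiv.symm k).2 *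
          X (finProdFinEquiv.symm k).1 1 (finProdFinEquiv.symm k).2) *
        X (finProdFinEquiv.symm k).1 3 (finProdFinEquiv.symm k).2) =
        ∑ r : Fin 4, ∑ i : Fin m, X r 0 i * (X r 1 i * X r 2 i - X r 2 i * X r 1 i) * X r 3 i := by
      rw [← Fintype.sum_prod_type' (fun (r : Fin 4) (i : Fin m) =>
        X r 0 i * (X r 1 i * X r 2 i - X r 2 i * X r 1 i) * X r 3 i)]
      exact Equiv.sum_comp finProdFinEquiv.symm (fun p : Fin 4 × Fin m =>
        X p.1 0 p.2 * (X p.1 1 p.2 * X p.1 2 p.2 - X p.1 2 p.2 * X p.1 1 p.2) * X p.1 3 p.2)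
    rw [hsum]
    have hst := (StrictTo.sum (Finset.univ : Finset (Fin 4)) (fun r _ =>
      StrictTo.sum (Finset.univ : Finset (Fin m)) (fun i _ =>
        ((hX r 0 i).mul (((hX r 1 i).mul (hX r 2 i)).sub ((hX r 2 i).mul (hX r 1 i)))).mul
          (hX r 3 i)))).sub hone
    refine hst.norm_le (fun n => ?_)
    have := b4 n
    rw [Finset.sum_range] at this
    rw [← norm_coe_mult, coeM_sub, coeM_sum] at this
    simp only [coeM_sum, coeM_mul, coeM_sub] at this
    exact this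

end Vale.Agent.P095R
end
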