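import Vale.Agent.P095.Bdl.B4
import Vale.Agent.P095.Bdl.B6

set_option linter.unusedSectionVars false
set_option linter.unusedVariables false
set_option linter.unusedSimpArgs false

namespace Vale.Agent.P095

open Finset ComplexConjugate

section
variable {Q : Type*} [Ring Q] [StarRing Q] [Algebra ℂ Q] [StarModule ℂ Q] {q : Q →ₗ[ℂ] ℂ}

section gen
variable {κ : Type*} [Fintype κ] [DecidableEq κ] {x : κ → Q}

/-- the weight attached to `b0` -/
noncomputable def wt (q : Q →ₗ[ℂ] ℂ) (x : κ → Q) (b0 : Q) (ω : κ → Bool) : ℝ :=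
  nrm q (b0 * atom x ω) ^ 2

theorem wt_nonneg (b0 : Q) (ω : κ → Bool) : 0 ≤ wt q x b0 ω := sq_nonneg _

theorem wt_eq (h : IsTracialState q) (hx : CommProj x) (b0 : Q) (ω : κ → Bool) :
    q (star b0 * b0 * atom x ω) = (wt q x b0 ω : ℂ) := by
  rw [hx.trace_atom h, nrm_sq' h, wt]

theorem tr_ev (h : IsTracialState q) (hx : CommProj x) (b0 : Q) (ψ : (κ → Bool) → ℂ) :
    q (star b0 * b0 * ev x ψ) = ∑ ω, ψ ω * (wt q x b0 ω : ℂ) := by
  unfold ev
  rw [Finset.mul_sum, map_sum]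
  apply Finset.sum_congr rfl
  intro ω _
  rw [mul_smul_comm, map_smul, wt_eq h hx, smul_eq_mul]

theorem sum_wt (h : IsTracialState q) (hx : CommProj x) (b0 : Q) :
    (∑ ω, wt q x b0 ω : ℝ) = nrm q b0 ^ 2 := by
  have h1 := tr_ev h hx b0 (fun _ => 1)
  rw [hx.ev_one, mul_one, nrm_sq' h] at h1
  simp only [one_mul] at h1
  exact_mod_cast h1.symm

theorem nrm_ev_sq (h : IsTracialState q) (hx : CommProj x) (ψ : (κ → Bool) → ℂ) :
    nrm q (ev x ψ) ^ 2 = ∑ ω, ‖ψ ω‖ ^ 2 * wt q x 1 ω := by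
  have h1 := tr_ev h hx 1 (fun ω => conj (ψ ω) * ψ ω)
  rw [star_one, one_mul, one_mul, hx.ev_mul, ← hx.ev_star, nrm_sq' h] at h1
  have h2 : (∑ ω, conj (ψ ω) * ψ ω * (wt q x 1 ω : ℂ)) =
      ((∑ ω, ‖ψ ω‖ ^ 2 * wt q x 1 ω : ℝ) : ℂ) := by
    push_cast
    apply Finset.sum_congr rfl
    intro ω _
    rw [Complex.conj_mul']
  rw [h2] at h1
  exact_mod_cast h1

end gen

section time
variable {N : ℕ} {ι : Type*} [Fintype ι] [DecidableEq ι] {x : Fin N × ι → Q}

/-- the martingale hypothesis in the algebra -/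
def AlgMart (q : Q →ₗ[ℂ] ℂ) (x : Fin N × ι → Q) (μ : ℝ) (b : Q) : Prop :=
  ∀ (n : Fin N) (i : ι) (η : Fin N × ι → Bool),
    q (b * ev x (fun ω => (agree n η ω : ℂ)) * x (n, i)) =
      μ * q (b * ev x (fun ω => (agree n η ω : ℂ)))

theorem isMart_wt (h : IsTracialState q) (hx : CommProj x) {μ : ℝ} {b0 : Q}
    (hm : AlgMart q x μ (star b0 * b0)) : IsMart μ (wt q x b0) := by
  intro n i η
  have h1 := hm n i η
  rw [← hx.ev_coord (n, i), mul_assoc, ← hx.ev_mul, tr_ev h hx, tr_ev h hx] at h1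
  have h2 : (((∑ ω, wt q x b0 ω * agree n η ω * (bit (ω (n, i)) - μ)) : ℝ) : ℂ) = 0 := by
    push_cast
    have h3 : ∀ ω : Fin N × ι → Bool, ((wt q x b0 ω : ℝ) : ℂ) * (agree n η ω : ℂ) *
        ((bit (ω (n, i)) : ℂ) - μ) = ((agree n η ω : ℂ) * (if ω (n, i) = true then 1 else 0)) *
          (wt q x b0 ω : ℂ) - μ * ((agree n η ω : ℂ) * (wt q x b0 ω : ℂ)) := by
      intro ω
      unfold bit
      split_ifs <;> push_cast <;> ring
    simp_rw [h3]
    rw [Finset.sum_sub_distrib, ← Finset.mul_sum, h1, sub_self]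
  exact_mod_cast h2

open Classical in
/-- indicator of an event -/
noncomputable def ind {κ : Type*} (E : (κ → Bool) → Prop) (ω : κ → Bool) : ℂ :=
  if E ω then 1 else 0

theorem ind_mul_self {κ : Type*} (E : (κ → Bool) → Prop) (ω : κ → Bool) :
    ind E ω * ind E ω = ind E ω := by
  unfold ind; split_ifs <;> simp

theorem conj_ind {κ : Type*} (E : (κ → Bool) → Prop) (ω : κ → Bool) :
    conj (ind E ω) = ind E ω := by
  unfold ind; split_ifs <;> simp

open Classical in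
theorem tr_ev_ind (h : IsTracialState q) (hx : CommProj x) (b0 : Q)
    (E : (Fin N × ι → Bool) → Prop) :
    q (star b0 * b0 * ev x (ind E)) = ((∑ ω, (if E ω then wt q x b0 ω else 0) : ℝ) : ℂ) := by
  rw [tr_ev h hx]
  push_cast
  apply Finset.sum_congr rfl
  intro ω _
  unfold ind
  split_ifs <;> simp

theorem trace_hit (h : IsTracialState q) (hx : CommProj x) {μ θ c l δ : ℝ} (hμ : 0 < μ)
    (hμ' : μ < 1) (hθ : 0 < θ) (hθ' : θ < 1) (hc : 0 < c) (hl : 1 < l) (K : Finset ι)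
    (hK : c * K.card = 1) (hδ : Real.sqrt (l * c) * K.card * rate μ θ ^ N ≤ δ) {b0 : Q}
    (hm : AlgMart q x μ (star b0 * b0)) :
    ‖q (star b0 * b0 * ev x (ind (Hit μ θ c l K))) - ((1 / l : ℝ) : ℂ) * q (star b0 * b0)‖ ≤
      (θ + δ) * nrm q b0 ^ 2 := by
  classical
  have hM := isMart_wt h hx hm
  have h1 := hit_upper hμ hμ' hθ hθ' hc (by linarith only [hl] : (0 : ℝ) < l) K _
    (wt_nonneg (q := q) (x := x) b0) hM
  have h2 := hit_lower hμ hμ' hθ hθ' hc (by linarith only [hl] : (0 : ℝ) < l) K (by rw [hK]; exact hl) _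
    (wt_nonneg (q := q) (x := x) b0) hM
  rw [sum_wt h hx] at h1 h2
  rw [hK] at h1 h2
  have hT : (0 : ℝ) ≤ nrm q b0 ^ 2 := sq_nonneg _
  rw [tr_ev_ind h hx, nrm_sq' h, ← Complex.ofReal_mul, ← Complex.ofReal_sub, Complex.norm_real,
    Real.norm_eq_abs]
  set P : ℝ := ∑ ω, (if Hit μ θ c l K ω then wt q x b0 ω else 0) with hP
  set T : ℝ := nrm q b0 ^ 2 with hTdef
  have hl0 : 0 < l := by linarith only [hl]
  have hP0 : 0 ≤ P := Finset.sum_nonneg (fun ω _ => by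
    split_ifs
    · exact wt_nonneg _ _
    · exact le_rfl)
  have hPle : P ≤ 1 / l * T := by
    rw [div_mul_eq_mul_div, one_mul, le_div_iff₀ hl0]; linarith only [h1]
  have hPT : P ≤ T := by
    have : 1 / l * T ≤ 1 * T := mul_le_mul_of_nonneg_right (by rw [div_le_one hl0]; exact hl.le) hT
    linarith only [hPle, this]
  have h3 : (1 - δ) * T ≤ (1 + θ) * l * P := le_trans (mul_le_mul_of_nonneg_right (by linarith only [hδ]) hT) h2
  have hlP : l * P ≤ T := by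
    have := mul_le_mul_of_nonneg_left hPle hl0.le
    rw [← mul_assoc, mul_one_div_cancel hl0.ne', one_mul] at this
    exact this
  have h4 : (1 - δ - θ) * T ≤ l * P := by nlinarith only [h3, hθ, h1]
  have h5 : 1 / l * T - P ≤ (θ + δ) * T := by
    have h6 : T - l * P ≤ (θ + δ) * T := by linarith only [h4]
    have h7 : 0 ≤ T - l * P := by linarith only [h1]
    have h8 : 1 / l * T - P = (T - l * P) / l := by (clear * - hl; field_simp)
    rw [h8]
    calc (T - l * P) / l ≤ T - l * P := div_le_self h7 hl.le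
      _ ≤ _ := h6
  rw [abs_le]
  constructor
  · linarith only [h5]
  · have : 0 ≤ (θ + δ) * T := by linarith only [h1, h4]
    linarith only [h1, hPle, h4]

theorem hit_mono {μ θ c l : ℝ} (hμ : 0 < μ) (hμ' : μ < 1) (hθ : 0 < θ) (hθ' : θ < 1)
    (hc : 0 < c) {K K' : Finset ι} (hK : K ⊆ K') (ω : Fin N × ι → Bool)
    (hω : Hit μ θ c l K ω) : Hit μ θ c l K' ω := by
  obtain ⟨n, hn, h1⟩ := hω
  refine ⟨n, hn, h1.trans ?_⟩
  unfold wealth
  apply mul_le_mul_of_nonneg_left _ hc.le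
  apply Finset.sum_le_sum_of_subset_of_nonneg hK
  intro i _ _
  unfold expo
  apply Finset.prod_nonneg
  intro m _
  split_ifs
  · have : 0 ≤ bit (ω (m, i)) ∧ bit (ω (m, i)) ≤ 1 := by
      unfold bit; split_ifs <;> norm_num
    nlinarith only [hθ', hμ', hθ, this]
  · exact zero_le_one

theorem real_aux {l θ δ ε P1 P2 P3 : ℝ} (hθ : 0 < θ) (hl : 1 < l)
    (a1 : l * P3 ≤ 1 + ε) (a2 : 1 - δ ≤ (1 + θ) * l * P1) (a3 : 1 - δ ≤ (1 + θ) * l * P2)
    (b1 : l * P1 ≤ 1) (b2 : l * P2 ≤ 1) (p13 : P1 ≤ P3) (p23 : P2 ≤ P3) :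
    (P3 - P1) + (P3 - P2) ≤ 2 * (θ + δ + ε) := by
  have c1 : θ * (l * P1) ≤ θ * 1 := mul_le_mul_of_nonneg_left b1 hθ.le
  have c2 : θ * (l * P2) ≤ θ * 1 := mul_le_mul_of_nonneg_left b2 hθ.le
  have d1 : (1 + θ) * l * P1 = l * P1 + θ * (l * P1) := by ring
  have d2 : (1 + θ) * l * P2 = l * P2 + θ * (l * P2) := by ring
  have f1 : 1 - δ - θ ≤ l * P1 := by linarith only [a2, c1]
  have f2 : 1 - δ - θ ≤ l * P2 := by linarith only [a3, c2]
  have hmono : ∀ u : ℝ, 0 ≤ u → u ≤ l * u := fun u hu => by nlinarith only [hl, hu]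
  have g1 := hmono _ (sub_nonneg.mpr p13)
  have g2 := hmono _ (sub_nonneg.mpr p23)
  rw [mul_sub] at g1 g2
  linarith only [a1, a2, a3, c1, c2, g1, g2]

theorem nrm_hit_sub (h : IsTracialState q) (hx : CommProj x) {μ θ c l δ ε : ℝ} (hμ : 0 < μ)
    (hμ' : μ < 1) (hθ : 0 < θ) (hθ' : θ < 1) (hc : 0 < c) (hl : 1 < l) (K K' : Finset ι)
    (hK : c * K.card = 1) (hK' : c * K'.card = 1) (hKK : c * (K ∪ K').card ≤ 1 + ε)
    (hδ : Real.sqrt (l * c) * K.card * rate μ θ ^ N ≤ δ)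
    (hm : AlgMart q x μ 1) :
    nrm q (ev x (ind (Hit μ θ c l K)) - ev x (ind (Hit μ θ c l K'))) ^ 2 ≤
      2 * (θ + δ + ε) := by
  classical
  have hm' : AlgMart q x μ (star (1 : Q) * 1) := by simpa using hm
  have hM := isMart_wt h hx hm'
  have hcard : K'.card = K.card := by
    have : c * (K'.card : ℝ) = c * K.card := by rw [hK, hK']
    exact_mod_cast mul_left_cancel₀ hc.ne' this
  have a1 := hit_upper hμ hμ' hθ hθ' hc (by linarith only [hl] : (0 : ℝ) < l) (K ∪ K') _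
    (wt_nonneg (q := q) (x := x) 1) hM
  have a2 := hit_lower hμ hμ' hθ hθ' hc (by linarith only [hl] : (0 : ℝ) < l) K (by rw [hK]; exact hl) _
    (wt_nonneg (q := q) (x := x) 1) hM
  have a3 := hit_lower hμ hμ' hθ hθ' hc (by linarith only [hl] : (0 : ℝ) < l) K' (by rw [hK']; exact hl) _
    (wt_nonneg (q := q) (x := x) 1) hM
  have b1 := hit_upper hμ hμ' hθ hθ' hc (by linarith only [hl] : (0 : ℝ) < l) K _
    (wt_nonneg (q := q) (x := x) 1) hM
  have b2 := hit_upper hμ hμ' hθ hθ' hc (by linarith only [hl] : (0 : ℝ) < l) K' _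
    (wt_nonneg (q := q) (x := x) 1) hM
  rw [sum_wt h hx, nrm_one h] at a1 a2 a3 b1 b2
  rw [hK] at a2 b1
  rw [hK'] at a3 b2
  rw [hcard] at a3
  rw [← ev_sub, nrm_ev_sq h hx]
  set P1 : ℝ := ∑ ω, (if Hit μ θ c l K ω then wt q x 1 ω else 0) with hP1
  set P2 : ℝ := ∑ ω, (if Hit μ θ c l K' ω then wt q x 1 ω else 0) with hP2
  set P3 : ℝ := ∑ ω, (if Hit μ θ c l (K ∪ K') ω then wt q x 1 ω else 0) with hP3
  have hle : ∑ ω, ‖ind (Hit μ θ c l K) ω - ind (Hit μ θ c l K') ω‖ ^ 2 * wt q x 1 ω ≤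
      (P3 - P1) + (P3 - P2) := by
    rw [hP1, hP2, hP3, ← Finset.sum_sub_distrib, ← Finset.sum_sub_distrib,
      ← Finset.sum_add_distrib]
    apply Finset.sum_le_sum
    intro ω _
    have hw := wt_nonneg (q := q) (x := x) 1 ω
    have m1 := hit_mono (l := l) hμ hμ' hθ hθ' hc (Finset.subset_union_left : K ⊆ K ∪ K') ω
    have m2 := hit_mono (l := l) hμ hμ' hθ hθ' hc (Finset.subset_union_right : K' ⊆ K ∪ K') ω
    unfold ind
    by_cases c1 : Hit μ θ c l K ω <;> by_cases c2 : Hit μ θ c l K' ω <;>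
      by_cases c3 : Hit μ θ c l (K ∪ K') ω <;> simp_all
  refine hle.trans ?_
  have p13 : P1 ≤ P3 := by
    apply Finset.sum_le_sum
    intro ω _
    have hw := wt_nonneg (q := q) (x := x) 1 ω
    have m1 := hit_mono (l := l) hμ hμ' hθ hθ' hc (Finset.subset_union_left : K ⊆ K ∪ K') ω
    by_cases c1 : Hit μ θ c l K ω <;> by_cases c3 : Hit μ θ c l (K ∪ K') ω <;> simp_all
  have p23 : P2 ≤ P3 := by
    apply Finset.sum_le_sum
    intro ω _
    have hw := wt_nonneg (q := q) (x := x) 1 ω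
    have m1 := hit_mono (l := l) hμ hμ' hθ hθ' hc (Finset.subset_union_right : K' ⊆ K ∪ K') ω
    by_cases c1 : Hit μ θ c l K' ω <;> by_cases c3 : Hit μ θ c l (K ∪ K') ω <;> simp_all
  apply real_aux hθ hl _ _ _ _ _ p13 p23
  · linarith only [hKK, a1]
  · linarith only [hδ, a2]
  · linarith only [hδ, a3]
  · linarith only [b1]
  · linarith only [b2]

end time

end

end Vale.Agent.P095
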