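import Vale.Agent.P095.MathlibUsed
import Vale.Agent.P095.Bdl.B9
import Vale.Agent.P095.Bdl.B4
import Vale.Agent.P095.Bdl.K_Step2a
import Vale.Agent.P095.Bdl.B2
import Vale.Agent.P095.Bdl.B7
import Vale.Agent.P095.Bdl.B8
import Vale.Agent.P095.Bdl.B3

set_option linter.all false

namespace AFast2d9c88x11a
@[reducible] noncomputable def a0.{u1} {x1 : Type u1} [x2 : CStarAlgebra x1] : Semiring ↥(Vale.Agent.P095.BSeq x1) := inferInstance
@[reducible] noncomputable def a1.{u1} {x1 : Type u1} [x2 : CStarAlgebra x1] : Ring ↥(Vale.Agent.P095.BSeq x1) := inferInstance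
theorem a2 : CovariantClass ℝ ℝ (Function.swap fun x1 x2 => x1 + x2) fun x1 x2 => x1 ≤ x2 := inferInstance
@[reducible] noncomputable def a3.{u1} {x1 : Type u1} [x2 : CStarAlgebra x1] : SetLike (StarSubalgebra ℂ (ℕ → x1)) (ℕ → x1) := inferInstance
theorem a4.{u1} {x1 : Type u1} [x2 : CStarAlgebra x1] : SubringClass (StarSubalgebra ℂ (ℕ → x1)) (ℕ → x1) := inferInstance
@[reducible] noncomputable def a5.{u1} {x1 : Type u1} [x2 : CStarAlgebra x1] : Star ↥(Vale.Agent.P095.BSeq x1) := inferInstance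
@[reducible] noncomputable def a6.{u1} {x1 : Type u1} [x2 : CStarAlgebra x1] : Mul ↥(Vale.Agent.P095.BSeq x1) := inferInstance
theorem a7.{u1} {x1 : Type u1} [x2 : CStarAlgebra x1] : StarModule ℂ (ℕ → x1) := inferInstance
@[reducible] noncomputable def a8.{u1} {x1 : Type u1} [x2 : CStarAlgebra x1] : Distrib ↥(Vale.Agent.P095.BSeq x1) := inferInstance
@[reducible] noncomputable def a9.{u1} {x1 : Type u1} [x2 : CStarAlgebra x1] : Algebra ℂ ↥(Vale.Agent.P095.BSeq x1) := inferInstance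
theorem a10 : AddLeftMono ℝ := inferInstance
theorem a11.{u1} {x1 : Type u1} [x2 : CStarAlgebra x1] : StarMemClass (StarSubalgebra ℂ (ℕ → x1)) (ℕ → x1) := inferInstance
@[reducible] def a12.{u1} {x1 : Type u1} {x2 : ℕ} [x3 : CStarAlgebra x1] : StarMul ((fun a => x1) x2) := inferInstance
@[reducible] def a13.{u1} {x1 : Type u1} [x2 : CStarAlgebra x1] : MulOne (x1 ≃⋆ₐ[ℂ] x1) := inferInstance
@[reducible] def a14.{u1} {x1 : Type u1} [x2 : CStarAlgebra x1] : MulOneClass (x1 ≃⋆ₐ[ℂ] x1) := inferInstance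
@[reducible] def a15.{u1} {x1 : Type u1} [x2 : CStarAlgebra x1] : Monoid (x1 ≃⋆ₐ[ℂ] x1) := inferInstance
@[reducible] noncomputable def a16.{u1} {x1 : Type u1} [x2 : CStarAlgebra x1] : Sub ↥(Vale.Agent.P095.BSeq x1) := inferInstance
theorem a17.{u1} {x1 : Type u1} [x2 : CStarAlgebra x1] : AddSubgroupClass (StarSubalgebra ℂ (ℕ → x1)) (ℕ → x1) := inferInstance
theorem a18 : CharZero ℝ := inferInstance
@[reducible] def a19.{u1} {x1 : Type u1} {x2 : ℕ} [x3 : CStarAlgebra x1] : InvolutiveStar ((fun a => x1) x2) := inferInstance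
theorem a20 : AddRightReflectLE ℝ := inferInstance
@[reducible] def a21.{u1} {x1 : Type u1} [x2 : CStarAlgebra x1] : Star (ℕ → x1) := inferInstance
theorem a22.{u1} {x1 : Type u1} [x2 : CStarAlgebra x1] : NonUnitalAlgHomClass (x1 ≃⋆ₐ[ℂ] x1) ℂ x1 x1 := inferInstance
theorem a23 : IsTopologicalRing ℂ := inferInstance
@[reducible] noncomputable def a24.{u1} {x1 : Type u1} [x2 : CStarAlgebra x1] : Add ↥(Vale.Agent.P095.BSeq x1) := inferInstance
@[reducible] noncomputable def a25.{u1} {x1 : Type u1} [x2 : CStarAlgebra x1] : AddCommMonoid ↥(Vale.Agent.P095.BSeq x1) := inferInstance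
@[reducible] noncomputable def a26.{u1} {x1 : Type u1} [x2 : CStarAlgebra x1] : NonAssocSemiring ↥(Vale.Agent.P095.BSeq x1) := inferInstance
theorem a27 : PosMulReflectLE ℝ := inferInstance
@[reducible] def a28.{u1} {x1 : Type u1} {x2 : ℕ} [x3 : CStarAlgebra x1] : NonUnitalSemiring ((fun a => x1) x2) := inferInstance
theorem a29 : PosMulReflectLT ℝ := inferInstance
@[reducible] noncomputable def a30.{u1} {x1 : Type u1} [x2 : CStarAlgebra x1] : StarRing (ℕ → x1) := inferInstance
end AFast2d9c88x11a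
attribute [local instance] AFast2d9c88x11a.a0 AFast2d9c88x11a.a1 AFast2d9c88x11a.a2
  AFast2d9c88x11a.a3 AFast2d9c88x11a.a4 AFast2d9c88x11a.a5 AFast2d9c88x11a.a6 AFast2d9c88x11a.a7
  AFast2d9c88x11a.a8 AFast2d9c88x11a.a9 AFast2d9c88x11a.a10 AFast2d9c88x11a.a11
  AFast2d9c88x11a.a12 AFast2d9c88x11a.a13 AFast2d9c88x11a.a14 AFast2d9c88x11a.a15
  AFast2d9c88x11a.a16 AFast2d9c88x11a.a17 AFast2d9c88x11a.a18 AFast2d9c88x11a.a19
  AFast2d9c88x11a.a20 AFast2d9c88x11a.a21 AFast2d9c88x11a.a22 AFast2d9c88x11a.a23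
  AFast2d9c88x11a.a24 AFast2d9c88x11a.a25 AFast2d9c88x11a.a26 AFast2d9c88x11a.a27
  AFast2d9c88x11a.a28 AFast2d9c88x11a.a29 AFast2d9c88x11a.a30
namespace AFast2d9c88x11b
@[reducible] noncomputable def a0.{u1} {x1 : Type u1} [x2 : CStarAlgebra x1] : Module ℂ ↥(Vale.Agent.P095.BSeq x1) := inferInstance
theorem a1.{u1} {x1 : Type u1} [x2 : CStarAlgebra x1] : LinearMapClass (x1 →⋆ₐ[ℂ] x1) ℂ x1 x1 := inferInstance
end AFast2d9c88x11b
attribute [local instance] AFast2d9c88x11b.a0 AFast2d9c88x11b.a1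
section

/-! Two commuting self-adjoint elements at positive distance have disjoint hat functions with
non-zero product. -/

open scoped BigOperators

namespace Vale.Agent.P095J

open Vale.Agent.P101

universe u

variable {F : Type u} [CStarAlgebra F] [PartialOrder F] [StarOrderedRing F]

/-- The norm of a self-adjoint element between `-r` and `r`. -/
theorem norm_le_of_between {x : F} {r : ℝ} (hr : 0 ≤ r) (hx : IsSelfAdjoint x)
    (h1 : x ≤ algebraMap ℝ F r) (h2 : -x ≤ algebraMap ℝ F r) : ‖x‖ ≤ r := by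
  rcases subsingleton_or_nontrivial F with hF | hF
  · rw [Subsingleton.elim x 0, norm_zero]; exact hr
  have h3 : spectrum ℝ x ⊆ Set.Icc (-r) r := by
    intro t ht
    constructor
    · have := (algebraMap_le_iff_le_spectrum (A := F) (r := -r) (a := x)).1 (by
        rw [map_neg]; exact neg_le.1 h2) t ht
      exact this
    · exact (le_algebraMap_iff_spectrum_le (A := F) (r := r) (a := x)).1 h1 t ht
  rw [← cfc_id' ℝ x]
  refine norm_cfc_le hr fun t ht => ?_
  rw [Real.norm_eq_abs, abs_le]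
  exact h3 ht

/-- The `j`-th hat function at scale `ε`, shifted by `S`. -/
noncomputable def hj (ε : ℝ) (S j : ℕ) (t : ℝ) : ℝ := Step3.hat j (t / ε + S)

theorem continuous_hj (ε : ℝ) (S j : ℕ) : Continuous (hj ε S j) :=
  Step3.continuous_hat_aff ε S j

theorem hj_nonneg (ε : ℝ) (S j : ℕ) (t : ℝ) : 0 ≤ hj ε S j t := Step3.hat_nonneg _ _

theorem mul_hj_le (ε : ℝ) (hε : 0 < ε) (S j : ℕ) (t : ℝ) :
    t * hj ε S j t ≤ ε * ((j : ℝ) + 1 - S) * hj ε S j t := by
  rcases (hj_nonneg ε S j t).eq_or_lt with h | h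
  · rw [← h, mul_zero, mul_zero]
  · refine mul_le_mul_of_nonneg_right ?_ h.le
    unfold hj Step3.hat at h
    have h1 : |t / ε + S - j| < 1 := by
      by_contra hc
      push Not at hc
      rw [max_eq_left (by linarith only [hc])] at h
      exact lt_irrefl _ h
    have h2 := (abs_lt.1 h1).2
    have h3 : t / ε < (j : ℝ) + 1 - S := by linarith only [h2]
    rw [div_lt_iff₀ hε] at h3
    linarith only [h3]

theorem le_mul_hj (ε : ℝ) (hε : 0 < ε) (S j : ℕ) (t : ℝ) :
    ε * ((j : ℝ) - 1 - S) * hj ε S j t ≤ t * hj ε S j t := by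
  rcases (hj_nonneg ε S j t).eq_or_lt with h | h
  · rw [← h, mul_zero, mul_zero]
  · refine mul_le_mul_of_nonneg_right ?_ h.le
    unfold hj Step3.hat at h
    have h1 : |t / ε + S - j| < 1 := by
      by_contra hc
      push Not at hc
      rw [max_eq_left (by linarith)] at h
      exact lt_irrefl _ h
    have h2 := (abs_lt.1 h1).1
    have h3 : (j : ℝ) - 1 - S < t / ε := by linarith only [h2]
    rw [lt_div_iff₀ hε] at h3
    linarith only [h3]

theorem sum_hj (x : F) (hx : IsSelfAdjoint x) (ε : ℝ) (hε : 0 < ε) (S : ℕ) (hS : ‖x‖ ≤ S * ε) :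
    ∑ j : Fin (2 * S + 1), cfc (hj ε S j) x = 1 := by
  rcases subsingleton_or_nontrivial F with hF | hF
  · exact Subsingleton.elim _ _
  rw [← cfc_sum (fun j : Fin (2 * S + 1) => hj ε S j) x Finset.univ
    (fun j _ => (continuous_hj ε S j).continuousOn), ← cfc_const_one ℝ x]
  refine cfc_congr fun t ht => ?_
  have h1 : |t| ≤ S * ε := by
    rw [← Real.norm_eq_abs]
    exact (spectrum.norm_le_norm_of_mem ht).trans hS
  rw [Finset.sum_apply]
  have h2 : |t / ε| ≤ S := by
    rw [abs_div, abs_of_pos hε, div_le_iff₀ hε]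
    exact h1
  have h3 := abs_le.1 h2
  exact Step3.sum_hat_eq_one (2 * S) (t / ε + S) (by linarith only [h3]) (by
    push_cast; linarith only [h3])

theorem sub_le_of_far (b β : F) (hb : IsSelfAdjoint b) (hβ : IsSelfAdjoint β)
    (hc : Commute b β) (ε : ℝ) (hε : 0 < ε) (S : ℕ) (hbS : ‖b‖ ≤ S * ε) (hβS : ‖β‖ ≤ S * ε)
    (h : ∀ j l : ℕ, 2 ≤ |(j : ℤ) - (l : ℤ)| → cfc (hj ε S j) b * cfc (hj ε S l) β = 0) :
    b - β ≤ algebraMap ℝ F (3 * ε) := by
  set P : Fin (2 * S + 1) → Fin (2 * S + 1) → F :=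
    fun j l => cfc (hj ε S j) b * cfc (hj ε S l) β with hP
  have hcc : ∀ f g : ℝ → ℝ, Commute (cfc f b) (cfc g β) := fun f g =>
    (hc.cfc_real f).symm.cfc_real g |>.symm
  have hP0 : ∀ j l, 0 ≤ P j l := fun j l =>
    (hcc _ _).mul_nonneg (cfc_nonneg fun t _ => hj_nonneg _ _ _ _)
      (cfc_nonneg fun t _ => hj_nonneg _ _ _ _)
  have hsum : ∑ j, ∑ l, P j l = 1 := by
    simp only [hP, ← Finset.mul_sum, ← Finset.sum_mul]
    rw [sum_hj b hb ε hε S hbS, sum_hj β hβ ε hε S hβS, one_mul]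
  have hbP : ∀ j l, b * P j l ≤ (ε * ((j : ℕ) + 1 - S : ℝ)) • P j l := by
    intro j l
    have h1 : b * cfc (hj ε S j) b ≤ (ε * ((j : ℕ) + 1 - S : ℝ)) • cfc (hj ε S j) b := by
      have e1 : b * cfc (hj ε S j) b = cfc (fun t : ℝ => t * hj ε S j t) b := by
        rw [cfc_mul (fun t : ℝ => t) (hj ε S j) b (by fun_prop)
          (continuous_hj ε S j).continuousOn, cfc_id' ℝ b]
      have e2 : (ε * ((j : ℕ) + 1 - S : ℝ)) • cfc (hj ε S j) b =
          cfc (fun t : ℝ => ε * ((j : ℕ) + 1 - S : ℝ) * hj ε S j t) b := by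
        rw [← cfc_const_mul _ (hj ε S j) b (continuous_hj ε S j).continuousOn]
      rw [e1, e2]
      have := continuous_hj ε S j
      exact cfc_mono (fun t _ => mul_hj_le ε hε S j t) (by (clear * - this; fun_prop)) (by fun_prop)
    have hcb : Commute b (cfc (hj ε S l) β) := by
      have := hcc (fun t => t) (hj ε S l)
      rwa [cfc_id' ℝ b] at this
    have hcm : Commute ((ε * ((j : ℕ) + 1 - S : ℝ)) • cfc (hj ε S j) b - b * cfc (hj ε S j) b)
        (cfc (hj ε S l) β) :=
      Commute.sub_left ((hcc _ _).smul_left _) (Commute.mul_left hcb (hcc _ _))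
    have h2 : 0 ≤ ((ε * ((j : ℕ) + 1 - S : ℝ)) • cfc (hj ε S j) b - b * cfc (hj ε S j) b) *
        cfc (hj ε S l) β :=
      hcm.mul_nonneg (sub_nonneg.2 h1) (cfc_nonneg fun t _ => hj_nonneg _ _ _ _)
    rw [← sub_nonneg]
    refine h2.trans (le_of_eq ?_)
    rw [hP, sub_mul, smul_mul_assoc, mul_assoc]
  have hβP : ∀ j l : Fin (2 * S + 1), (ε * ((l : ℕ) - 1 - S : ℝ)) • P j l ≤ β * P j l := by
    intro j l
    have h1 : (ε * ((l : ℕ) - 1 - S : ℝ)) • cfc (hj ε S l) β ≤ β * cfc (hj ε S l) β := by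
      have e1 : β * cfc (hj ε S l) β = cfc (fun t : ℝ => t * hj ε S l t) β := by
        rw [cfc_mul (fun t : ℝ => t) (hj ε S l) β (by fun_prop)
          (continuous_hj ε S l).continuousOn, cfc_id' ℝ β]
      have e2 : (ε * ((l : ℕ) - 1 - S : ℝ)) • cfc (hj ε S l) β =
          cfc (fun t : ℝ => ε * ((l : ℕ) - 1 - S : ℝ) * hj ε S l t) β := by
        rw [← cfc_const_mul _ (hj ε S l) β (continuous_hj ε S l).continuousOn]
      rw [e1, e2]
      have := continuous_hj ε S l
      exact cfc_mono (fun t _ => le_mul_hj ε hε S l t) (by fun_prop) (by fun_prop)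
    have hcβ : Commute (cfc (hj ε S j) b) β := by
      have := hcc (hj ε S j) (fun t => t)
      rwa [cfc_id' ℝ β] at this
    have hcm : Commute (cfc (hj ε S j) b) (β * cfc (hj ε S l) β -
        (ε * ((l : ℕ) - 1 - S : ℝ)) • cfc (hj ε S l) β) :=
      Commute.sub_right (Commute.mul_right hcβ (hcc _ _)) ((hcc _ _).smul_right _)
    have h2 : 0 ≤ cfc (hj ε S j) b * (β * cfc (hj ε S l) β -
        (ε * ((l : ℕ) - 1 - S : ℝ)) • cfc (hj ε S l) β) :=
      hcm.mul_nonneg (cfc_nonneg fun t _ => hj_nonneg _ _ _ _) (sub_nonneg.2 h1)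
    rw [← sub_nonneg]
    refine h2.trans (le_of_eq ?_)
    rw [hP, mul_sub, mul_smul_comm, ← mul_assoc, ← mul_assoc, hcβ.eq]
  have hkey : ∀ j l, (b - β) * P j l ≤ (3 * ε) • P j l := by
    intro j l
    by_cases hjl : 2 ≤ |((j : ℕ) : ℤ) - ((l : ℕ) : ℤ)|
    · have h0 : P j l = 0 := h j l hjl
      rw [h0, mul_zero, smul_zero]
    · push Not at hjl
      have h3 : ((j : ℕ) : ℤ) - ((l : ℕ) : ℤ) ≤ 1 := by
        have := (abs_lt.1 hjl).2
        omega
      have h4 : ((j : ℕ) : ℝ) - ((l : ℕ) : ℝ) ≤ 1 := by exact_mod_cast h3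
      rw [sub_mul]
      calc b * P j l - β * P j l ≤ (ε * ((j : ℕ) + 1 - S : ℝ)) • P j l -
            (ε * ((l : ℕ) - 1 - S : ℝ)) • P j l := sub_le_sub (hbP j l) (hβP j l)
        _ = (ε * ((j : ℕ) + 1 - S : ℝ) - ε * ((l : ℕ) - 1 - S : ℝ)) • P j l := by
            rw [← sub_smul]
        _ ≤ (3 * ε) • P j l := by
            refine smul_le_smul_of_nonneg_right ?_ (hP0 j l)
            nlinarith only [hε, h4]
  calc b - β = ∑ j, ∑ l, (b - β) * P j l := by
        simp only [← Finset.mul_sum]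
        rw [hsum, mul_one]
    _ ≤ ∑ j, ∑ l, (3 * ε) • P j l :=
        Finset.sum_le_sum fun j _ => Finset.sum_le_sum fun l _ => hkey j l
    _ = algebraMap ℝ F (3 * ε) := by
        simp only [← Finset.smul_sum]
        rw [hsum, Algebra.algebraMap_eq_smul_one]

/-- Disjoint functions. -/
theorem exists_hat_pair (b β : F) (hb : IsSelfAdjoint b) (hβ : IsSelfAdjoint β)
    (hc : Commute b β) (hne : b ≠ β) :
    ∃ f h : ℝ → ℝ, Continuous f ∧ Continuous h ∧ (∀ t, 0 ≤ f t) ∧ (∀ t, 0 ≤ h t) ∧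
      (∀ t, f t * h t = 0) ∧ cfc f b * cfc h β ≠ 0 := by
  by_contra hcon
  push Not at hcon
  have h0 : 0 < ‖b - β‖ := norm_pos_iff.2 (sub_ne_zero.2 hne)
  set ε := ‖b - β‖ / 4 with hε
  have hε0 : 0 < ε := by (clear * - h0; positivity)
  obtain ⟨S, hS⟩ := exists_nat_ge (max (‖b‖ / ε) (‖β‖ / ε))
  have hbS : ‖b‖ ≤ S * ε := by
    rw [← div_le_iff₀ hε0]; exact (le_max_left _ _).trans hS
  have hβS : ‖β‖ ≤ S * ε := by
    rw [← div_le_iff₀ hε0]; exact (le_max_right _ _).trans hS
  have hfar : ∀ j l : ℕ, 2 ≤ |(j : ℤ) - (l : ℤ)| → cfc (hj ε S j) b * cfc (hj ε S l) β = 0 := by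
    intro j l hjl
    exact hcon _ _ (continuous_hj ε S j) (continuous_hj ε S l) (hj_nonneg ε S j)
      (hj_nonneg ε S l) (fun t => Step3.hat_mul_hat j l hjl _)
  have hfar' : ∀ j l : ℕ, 2 ≤ |(j : ℤ) - (l : ℤ)| → cfc (hj ε S j) β * cfc (hj ε S l) b = 0 := by
    intro j l hjl
    have hcc : Commute (cfc (hj ε S j) β) (cfc (hj ε S l) b) :=
      (hc.symm.cfc_real (hj ε S j)).symm.cfc_real (hj ε S l) |>.symm
    rw [hcc.eq]
    exact hfar l j (by rw [abs_sub_comm]; exact hjl)
  have h1 := sub_le_of_far b β hb hβ hc ε hε0 S hbS hβS hfar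
  have h2 := sub_le_of_far β b hβ hb hc.symm ε hε0 S hβS hbS hfar'
  have h3 := norm_le_of_between (x := b - β) (r := 3 * ε) (by positivity) (hb.sub hβ) h1
    (by rw [neg_sub]; exact h2)
  rw [hε] at h3
  linarith only [h0, h3]

end Vale.Agent.P095J
end

section

/-! If an automorphism acts non-trivially on the central sequence algebra, then there is a positive
norm one central element orthogonal to its image. -/

open Filter Topology

namespace Vale.Agent.P095J

open Vale.Agent.P101 Vale.Agent.P101.SeqQuot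

universe u v w

section Abstract

variable {F : Type u} [CStarAlgebra F]

/-- Orthogonal element from a commuting pair. -/
theorem exists_orth_of_commute (a : F →⋆ₐ[ℂ] F) (B : F) (hB : IsSelfAdjoint B)
    (hc : Commute B (a B)) (hne : B ≠ a B) :
    ∃ c : F, (∃ d, c = star d * d) ∧ ‖c‖ = 1 ∧ c * a c = 0 := by
  let _ := CStarAlgebra.spectralOrder F
  have _ := CStarAlgebra.spectralOrderedRing F
  have haB : IsSelfAdjoint (a B) := by rw [IsSelfAdjoint, ← map_star, hB.star_eq]
  obtain ⟨f, h, hf, hh, hf0, hh0, hfh, hne0⟩ := exists_hat_pair B (a B) hB haB hc hne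
  set c₀ := cfc f B * cfc h (a B) with hc₀
  have hcc : Commute (cfc f B) (cfc h (a B)) := (hc.cfc_real f).symm.cfc_real h |>.symm
  have hc0 : 0 ≤ c₀ := hcc.mul_nonneg (cfc_nonneg fun t _ => hf0 t) (cfc_nonneg fun t _ => hh0 t)
  have hn0 : 0 < ‖c₀‖ := norm_pos_iff.2 hne0
  have hac : Continuous a :=
    AddMonoidHomClass.continuous_of_bound a 1
      (by simpa only [one_mul] using NonUnitalStarAlgHom.norm_apply_le a)
  have h1 : a (cfc f B) = cfc f (a B) :=
    StarAlgHomClass.map_cfc a f B (hf := hf.continuousOn) (hφ := hac)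
  have h2 : cfc h (a B) * cfc f (a B) = 0 := by
    rw [← cfc_mul h f (a B) hh.continuousOn hf.continuousOn]
    have : (fun x => h x * f x) = fun _ => (0 : ℝ) := by
      funext t; rw [mul_comm]; exact hfh t
    rw [this]
    exact cfc_const_zero ℝ (a B)
  have hkey : c₀ * a c₀ = 0 := by
    rw [hc₀, map_mul, h1]
    calc cfc f B * cfc h (a B) * (cfc f (a B) * a (cfc h (a B)))
        = cfc f B * (cfc h (a B) * cfc f (a B)) * a (cfc h (a B)) := by simp only [mul_assoc]
      _ = 0 := by rw [h2, mul_zero, zero_mul]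
  refine ⟨(1 / ‖c₀‖) • c₀, ?_, ?_, ?_⟩
  · have h3 : 0 ≤ (1 / ‖c₀‖) • c₀ := smul_nonneg (by positivity) hc0
    exact CStarAlgebra.nonneg_iff_eq_star_mul_self.1 h3
  · rw [norm_smul, Real.norm_of_nonneg (by positivity)]
    field_simp
  · rw [← Complex.coe_smul, map_smul, smul_mul_smul_comm, hkey, smul_zero]

/-- A self-adjoint contraction that is moved, with the norm of the difference in the spectrum. -/
theorem exists_sa_moved (a : F →⋆ₐ[ℂ] F) (y : F) (hy : a y ≠ y) :
    ∃ z : F, IsSelfAdjoint z ∧ ‖z‖ ≤ 1 ∧ ‖z - a z‖ ∈ spectrum ℝ (z - a z) ∧ z - a z ≠ 0 := by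
  have h1 : ∃ z : F, IsSelfAdjoint z ∧ a z ≠ z := by
    by_contra hcon
    push Not at hcon
    have e1 : IsSelfAdjoint (y + star y) := IsSelfAdjoint.add_star_self y
    have e2 : IsSelfAdjoint (Complex.I • (y - star y)) := by
      rw [IsSelfAdjoint, star_smul, star_sub, star_star]
      simp only [RCLike.star_def, Complex.conj_I, neg_smul, smul_sub]
      abel
    have h2 := hcon _ e1
    have h3 := hcon _ e2
    rw [map_smul] at h3
    have h4 : a (y - star y) = y - star y := by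
      have := congrArg (fun w => (-Complex.I) • w) h3
      simpa only [map_sub, smul_smul, neg_mul, Complex.I_mul_I, neg_neg, one_smul] using this
    apply hy
    have h5 : (2 : ℂ) • y = (y + star y) + (y - star y) := by
      rw [two_smul]; abel
    have h6 : (2 : ℂ) • a y = (2 : ℂ) • y := by
      rw [← map_smul, h5, map_add, h2, h4]
    exact smul_right_injective F (two_ne_zero) h6
  obtain ⟨z, hz, hne⟩ := h1
  have hntr : Nontrivial F := ⟨⟨_, _, hne⟩⟩
  have hz0 : z ≠ 0 := by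
    rintro rfl
    exact hne (map_zero a)
  have hzn : 0 < ‖z‖ := norm_pos_iff.2 hz0
  set w := (1 / ‖z‖) • z with hw
  have hwsa : IsSelfAdjoint w := IsSelfAdjoint.smul (IsSelfAdjoint.all _) hz
  have hw1 : ‖w‖ ≤ 1 := by
    rw [hw, norm_smul, Real.norm_of_nonneg (by positivity)]
    field_simp
    exact le_rfl
  have hwd : w - a w = (1 / ‖z‖) • (z - a z) := by
    rw [hw, smul_sub, ← Complex.coe_smul, ← Complex.coe_smul, map_smul]
  have hwne : w - a w ≠ 0 := by
    rw [hwd]
    exact smul_ne_zero (by positivity) (sub_ne_zero.2 hne.symm)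
  have hdsa : IsSelfAdjoint (w - a w) := by
    refine hwsa.sub ?_
    rw [IsSelfAdjoint, ← map_star, hwsa.star_eq]
  rcases CStarAlgebra.norm_or_neg_norm_mem_spectrum hdsa with h | h
  · exact ⟨w, hwsa, hw1, h, hwne⟩
  · have e : -w - a (-w) = -(w - a w) := by rw [map_neg]; abel
    refine ⟨-w, hwsa.neg, by rwa [norm_neg], ?_, ?_⟩
    · rw [e, norm_neg, ← spectrum.neg_eq]
      exact h
    · rw [e]
      exact neg_ne_zero.2 hwne

end Abstract

section Seq

variable {A : Type u} [CStarAlgebra A] {G : Type w} [Group G] (α : G →* (A ≃⋆ₐ[ℂ] A))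

theorem tendsto_of_le_div (f : ℕ → ℝ) (hf : ∀ n, 0 ≤ f n) (C : ℝ) (m : ℕ)
    (h : ∀ n, m ≤ n → f n ≤ C / ((n : ℝ) + 1)) : Tendsto f atTop (𝓝 0) := by
  have hlim : Tendsto (fun n : ℕ => C / ((n : ℝ) + 1)) atTop (𝓝 0) := by
    have := (tendsto_one_div_add_atTop_nhds_zero_nat (𝕜 := ℝ)).const_mul C
    rw [mul_zero] at this
    refine this.congr fun n => ?_
    rw [mul_one_div]
  refine squeeze_zero' (Eventually.of_forall hf) ?_ hlim
  filter_upwards [eventually_ge_atTop m] with n hn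
  exact h n hn

end Seq

end Vale.Agent.P095J
end

section

/-! Pairs of central elements with orthogonal translates. -/

open Filter Topology

namespace Vale.Agent.P095J

open Vale.Agent.P101 Vale.Agent.P101.SeqQuot

universe u v w

section Prod

variable {A : Type u} [CStarAlgebra A] [IsSimpleRing A] {G : Type w} [Group G]
  (α : G →* (A ≃⋆ₐ[ℂ] A))

end Prod

section Local

variable {A : Type u} [CStarAlgebra A] [IsSimpleRing A] {G : Type w} [Group G]
  (α : G →* (A ≃⋆ₐ[ℂ] A))

end Local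

end Vale.Agent.P095J
end

section

set_option linter.unusedSectionVars false
set_option linter.unusedVariables false
set_option linter.unusedSimpArgs false

namespace Vale.Agent.P095

open Filter Topology ComplexConjugate

theorem hit_comp {ι κ : Type*} [Fintype ι] [DecidableEq ι] [Fintype κ] [DecidableEq κ] {N : ℕ}
    {μ θ c l : ℝ} (f : κ ↪ ι) (ω : Fin N × ι → Bool) :
    Hit μ θ c l (Finset.univ : Finset κ) (fun k => ω (k.1, f k.2)) ↔
      Hit μ θ c l (Finset.univ.map f) ω := by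
  unfold Hit wealth
  simp only [Finset.sum_map]
  rfl

theorem polar {A : Type*} [Ring A] [StarRing A] [Algebra ℂ A] [StarModule ℂ A] (x : A) :
    x = (1 / 4 : ℂ) • ∑ k ∈ Finset.range 4, (Complex.I ^ k) •
      (star (x + (Complex.I ^ k) • (1 : A)) * (x + (Complex.I ^ k) • (1 : A))) := by
  have h2 : Complex.I ^ 2 = -1 := Complex.I_sq
  have h3 : Complex.I ^ 3 = -Complex.I := Complex.I_pow_three
  simp only [Finset.sum_range_succ, Finset.sum_range_zero, zero_add, pow_zero, pow_one, h2, h3,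
    one_smul, star_add, star_one, star_smul, neg_smul, star_neg, mul_add, add_mul, mul_one, one_mul,
    smul_mul_assoc, mul_smul_comm, smul_smul, smul_add, mul_neg, neg_mul, smul_neg, RCLike.star_def,
    map_one, map_neg, Complex.conj_I, Complex.I_mul_I, neg_neg]
  module

section
variable {A : Type*} [CStarAlgebra A]

theorem nrm_le_norm {τ : A →ₗ[ℂ] ℂ} (h : IsTracialState τ) (x : A) : nrm τ x ≤ ‖x‖ := by
  have h1 := h.mul_le x 1
  rw [mul_one, star_one, one_mul, h.map_one, Complex.one_re, mul_one] at h1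
  unfold nrm
  calc Real.sqrt (τ (star x * x)).re ≤ Real.sqrt (‖x‖ ^ 2) := Real.sqrt_le_sqrt h1
    _ = ‖x‖ := Real.sqrt_sq (norm_nonneg _)

theorem LimTr.nrm_cst_le (t : LimTr A) (b : A) : nrm t.val (cst A b) ≤ ‖b‖ :=
  le_of_tendsto' (t.tendsto_nrm (cst A b)) (fun n => nrm_le_norm (t.hτ n) b)

end

section words
variable {A : Type*} [CStarAlgebra A] {G : Type*} [Group G] (α : G →* (A ≃⋆ₐ[ℂ] A))

/-- translates of the elements of a list -/
noncomputable def lfam (L : Finset G) (l : List (BSeq A)) :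
    Fin l.length × {g // g ∈ L} → BSeq A :=
  fun i => actB (α i.2.1) (l.get i.1)

open Classical in
/-- the finite set of words -/
noncomputable def wordsL (L : Finset G) (F0 : Finset (BSeq A)) (l : List (BSeq A)) :
    Finset (BSeq A) :=
  (F0 ∪ Finset.univ.image (lfam α L l)) ∪
    (F0 ×ˢ (Finset.univ : Finset (Fin l.length × {g // g ∈ L} → Bool))).image
      (fun w => w.1 * atom (lfam α L l) w.2)

/-- the translated family -/
noncomputable def tfam (L : Finset G) (N : ℕ) (p : ℕ → BSeq A) :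
    Fin N × {g // g ∈ L} → BSeq A :=
  fun i => actB (α i.2.1) (p i.1)

open Classical in
/-- exactness of the translated family in the quotient -/
theorem tfam_exact (μ : ℝ) (L : Finset G) (N : ℕ) (F0 : Finset (BSeq A)) (p : ℕ → BSeq A)
    (hp : ∀ n, star (p n) = p n ∧ ∀ t : LimTr A,
      (∀ g, nrm t.val (actB (α g) (p n) * actB (α g) (p n) - actB (α g) (p n)) = 0) ∧
      (∀ g ∈ L, ∀ w ∈ wordsL α L F0 ((List.range n).map p),
        nrm t.val (actB (α g) (p n) * w - w * actB (α g) (p n)) = 0 ∧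
        t.val (w * actB (α g) (p n)) = μ * t.val w) ∧
      (∀ g ∈ L, ∀ h ∈ L,
        nrm t.val (actB (α g) (p n) * actB (α h) (p n) - actB (α h) (p n) * actB (α g) (p n))
          = 0)) (t : LimTr A) :
    CommProj (fun i => t.c (tfam α L N p i)) ∧
    (∀ b ∈ F0, ∀ i, t.c b * t.c (tfam α L N p i) = t.c (tfam α L N p i) * t.c b) ∧
    (∀ b ∈ F0, AlgMart t.q (fun i => t.c (tfam α L N p i)) μ (t.c b)) := by
  classical
  have hlt : ∀ (m n : ℕ), m < n → ∀ g ∈ L, ∀ h ∈ L,
      t.c (actB (α g) (p n)) * t.c (actB (α h) (p m)) =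
        t.c (actB (α h) (p m)) * t.c (actB (α g) (p n)) := by
    intro m n hmn g hg h hh
    have hw : actB (α h) (p m) ∈ wordsL α L F0 ((List.range n).map p) := by
      unfold wordsL
      apply Finset.mem_union_left
      apply Finset.mem_union_right
      rw [Finset.mem_image]
      refine ⟨(⟨m, by simpa using hmn⟩, ⟨h, hh⟩), Finset.mem_univ _, ?_⟩
      simp only [lfam, List.get_eq_getElem, List.getElem_map, List.getElem_range]
    have := (((hp n).2 t).2.1 g hg _ hw).1
    rw [← map_mul, ← map_mul]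
    exact t.c_eq this
  have hx : CommProj (fun i => t.c (tfam α L N p i)) := by
    refine ⟨?_, ?_, ?_⟩
    · rintro ⟨n, g, hg⟩
      rw [← map_mul]
      exact t.c_eq (((hp n).2 t).1 g)
    · rintro ⟨n, g, hg⟩ ⟨m, h, hh⟩
      show t.c (actB (α g) (p n)) * t.c (actB (α h) (p m)) =
        t.c (actB (α h) (p m)) * t.c (actB (α g) (p n))
      rcases lt_trichotomy (m : ℕ) (n : ℕ) with h1 | h1 | h1
      · exact hlt m n h1 g hg h hh
      · rw [h1, ← map_mul, ← map_mul]
        exact t.c_eq (((hp n).2 t).2.2 g hg h hh)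
      · exact (hlt n m h1 h hh g hg).symm
    · rintro ⟨n, g, hg⟩
      show star (t.c (actB (α g) (p n))) = t.c (actB (α g) (p n))
      rw [← t.c_star, ← map_star, (hp n).1]
  refine ⟨hx, ?_, ?_⟩
  · rintro b hb ⟨n, g, hg⟩
    have hw : b ∈ wordsL α L F0 ((List.range n).map p) := by
      unfold wordsL
      exact Finset.mem_union_left _ (Finset.mem_union_left _ hb)
    have := (((hp n).2 t).2.1 g hg _ hw).1
    show t.c b * t.c (actB (α g) (p n)) = t.c (actB (α g) (p n)) * t.c b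
    rw [← map_mul, ← map_mul]
    exact (t.c_eq this).symm
  · rintro b hb n ⟨g, hg⟩ η
    have hlen : ((List.range (n : ℕ)).map p).length = n := by simp
    let j : Fin ((List.range (n : ℕ)).map p).length × {g // g ∈ L} → Fin N × {g // g ∈ L} :=
      fun i => (⟨i.1.1, (lt_of_lt_of_eq i.1.2 hlen).trans n.2⟩, i.2)
    let η' : Fin ((List.range (n : ℕ)).map p).length × {g // g ∈ L} → Bool := fun i => η (j i)
    have hw : b * atom (lfam α L ((List.range (n : ℕ)).map p)) η' ∈
        wordsL α L F0 ((List.range n).map p) := by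
      unfold wordsL
      apply Finset.mem_union_right
      rw [Finset.mem_image]
      exact ⟨(b, η'), by simp only [Finset.mem_product, hb, Finset.mem_univ, and_self], rfl⟩
    have h1 := (((hp n).2 t).2.1 g hg _ hw).2
    have e1 : t.c (b * atom (lfam α L ((List.range (n : ℕ)).map p)) η') =
        t.c b * atom (fun i => t.c (lfam α L ((List.range (n : ℕ)).map p) i)) η' := by
      rw [map_mul, map_atom]
    have e2 : t.c (b * atom (lfam α L ((List.range (n : ℕ)).map p)) η' * actB (α g) (p n)) =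
        t.c (b * atom (lfam α L ((List.range (n : ℕ)).map p)) η') * t.c (actB (α g) (p n)) :=
      map_mul _ _ _
    rw [← t.q_c, ← t.q_c, e2, e1] at h1
    have h2 : (fun i => t.c (lfam α L ((List.range (n : ℕ)).map p) i)) =
        fun i => (fun i => t.c (tfam α L N p i)) (j i) := by
      funext i
      simp [lfam, tfam, j]
    rw [h2, hx.atom_comp j] at h1
    have h3 : (fun ω : Fin N × {g // g ∈ L} → Bool =>
        if (fun k => ω (j k)) = η' then (1 : ℂ) else 0) =
        fun ω => ((agree n η ω : ℝ) : ℂ) := by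
      funext ω
      unfold agree
      have h4 : ((fun k => ω (j k)) = η') ↔
          (∀ m : Fin N, (m : ℕ) < n → ∀ i : {g // g ∈ L}, ω (m, i) = η (m, i)) := by
        constructor
        · intro h m hm i
          exact congrFun h (⟨m, by rw [hlen]; exact hm⟩, i)
        · intro h
          funext k
          exact h _ (lt_of_lt_of_eq k.1.2 hlen) k.2
      by_cases h5 : (fun k => ω (j k)) = η'
      · rw [if_pos h5, if_pos (h4.mp h5)]; simp
      · rw [if_neg h5, if_neg (fun h6 => h5 (h4.mpr h6))]; simp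
    rw [h3] at h1
    exact h1

end words

section main
variable {A : Type*} [CStarAlgebra A] {G : Type*} [Group G] (α : G →* (A ≃⋆ₐ[ℂ] A))

theorem step2 (hG : IsAmenable G)
    (hgood : ∀ K : Finset G, ∃ μ : ℝ, 0 < μ ∧ μ < 1 ∧
      ∀ (F : Finset A) (ε : ℝ), 0 < ε → ∃ p, Good α μ K F ε p) :
    ∀ c : ℝ, 0 < c → c ≤ 1 → ∀ (F : Finset A) (S : Finset G) (ε : ℝ), 0 < ε →
      ∃ e, GoodE α c S F ε e := by
  classical
  intro c hc hc1 F S ε hε
  rcases eq_or_lt_of_le hc1 with rfl | hc1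
  · refine ⟨1, ⟨1, by simp only [star_one, mul_one]⟩, ?_, fun τ hτ => ⟨?_, ?_, ?_⟩⟩
    · rcases subsingleton_or_nontrivial A with h | h
      · rw [Subsingleton.elim (1 : A) 0, norm_zero]; exact zero_le_one
      · rw [CStarRing.norm_one]
    · simp [nrm_zero, hε.le]
    · intro a _; simp only [one_mul, mul_one, sub_self, nrm_zero, hε.le, Complex.ofReal_one, norm_zero, and_self]
    · intro s _
      rw [map_one (α s), sub_self, nrm_zero]; exact hε.le
  -- parameters
  set C : ℝ := 1 + ∑ a ∈ F, (‖a‖ + 1) ^ 2 with hC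
  have hCa : ∀ a ∈ F, (‖a‖ + 1) ^ 2 ≤ C := by
    intro a ha
    have := Finset.single_le_sum (f := fun a : A => (‖a‖ + 1) ^ 2) (fun _ _ => by (clear * -; positivity)) ha
    linarith only [this]
  have hC1 : 1 ≤ C := by
    have : 0 ≤ ∑ a ∈ F, (‖a‖ + 1) ^ 2 := Finset.sum_nonneg (fun _ _ => by (clear * -; positivity))
    linarith only [this]
  obtain ⟨θ, hθ, hθ1, hθ2, hθ3⟩ : ∃ θ : ℝ, 0 < θ ∧ θ < 1 ∧ θ * C * 8 ≤ ε ∧ θ * 32 ≤ ε ^ 2 := by
    refine ⟨min (1 / 2) (min (ε / (8 * C)) (ε ^ 2 / 32)), by (clear * - hε; positivity), ?_, ?_, ?_⟩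
    · exact lt_of_le_of_lt (min_le_left _ _) (by norm_num)
    · have : min (1 / 2) (min (ε / (8 * C)) (ε ^ 2 / 32)) ≤ ε / (8 * C) :=
        (min_le_right _ _).trans (min_le_left _ _)
      rw [le_div_iff₀ (by (clear * -; positivity))] at this
      linarith only [this]
    · have : min (1 / 2) (min (ε / (8 * C)) (ε ^ 2 / 32)) ≤ ε ^ 2 / 32 :=
        (min_le_right _ _).trans (min_le_right _ _)
      linarith
  obtain ⟨K, hKne, hKS⟩ := hG S θ hθ
  have hKpos : (0 : ℝ) < K.card := by exact_mod_cast hKne.card_pos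
  set L : Finset G := K ∪ S.biUnion (fun s => K.image (fun g => s * g)) with hL
  set K0 : Finset G := (L ×ˢ L).image (fun gh => gh.1⁻¹ * gh.2) with hK0
  obtain ⟨μ, hμ, hμ1, hμg⟩ := hgood K0
  set l : ℝ := 1 / c with hl
  have hl1 : 1 < l := by rw [hl, lt_div_iff₀ hc]; linarith only [hc1]
  set d : ℝ := 1 / K.card with hd
  have hd0 : 0 < d := by (clear * - hKne; positivity)
  obtain ⟨N, hN⟩ : ∃ N : ℕ, Real.sqrt (l * d) * K.card * rate μ θ ^ N ≤ θ := by
    have h1 : Tendsto (fun N : ℕ => Real.sqrt (l * d) * K.card * rate μ θ ^ N) atTop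
        (𝓝 (Real.sqrt (l * d) * K.card * 0)) :=
      (tendsto_pow_atTop_nhds_zero_of_lt_one (rate_nonneg hμ hμ1 hθ hθ1)
        (rate_lt_one hμ hμ1 hθ hθ1)).const_mul _
    rw [mul_zero] at h1
    exact (h1.eventually (eventually_le_nhds hθ)).exists
  -- the finite set
  set bk : A × ℕ → A := fun w => w.1 + (Complex.I ^ w.2) • (1 : A) with hbk
  set F0 : Finset (BSeq A) := insert 1 (F.image (cst A) ∪
    (F ×ˢ Finset.range 4).image (fun w => cst A (star (bk w) * bk w))) with hF0
  obtain ⟨p, hp⟩ := exists_fam α μ K0 L (by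
    intro g hg h hh
    rw [hK0, Finset.mem_image]
    exact ⟨(g, h), Finset.mem_product.mpr ⟨hg, hh⟩, rfl⟩) (lift_good α μ K0 hμg)
    (wordsL α L F0)
  have hex := tfam_exact α μ L N F0 p hp
  -- the element
  let XK : Fin N × {g // g ∈ K} → BSeq A := tfam α K N p
  let e0 : BSeq A := ev XK (ind (Hit μ θ d l Finset.univ))
  let fK : {g // g ∈ K} ↪ {g // g ∈ L} :=
    ⟨fun g => ⟨g.1, by rw [hL]; exact Finset.mem_union_left _ g.2⟩, fun a b hab => by
      apply Subtype.ext; exact congrArg (fun z : {g // g ∈ L} => z.1) hab⟩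
  have hcev : ∀ (t : LimTr A), t.c e0 = ev (fun i => t.c (tfam α L N p i))
      (ind (Hit μ θ d l (Finset.univ.map fK))) := by
    intro t
    have h1 : t.c e0 = ev (fun i => t.c (XK i)) (ind (Hit μ θ d l Finset.univ)) :=
      map_ev t.c (fun c x => t.c_smul c x) _ _
    rw [h1]
    have h2 : (fun i => t.c (XK i)) = fun i => (fun i => t.c (tfam α L N p i))
        ((fun k : Fin N × {g // g ∈ K} => (k.1, fK k.2)) i) := by
      funext i; rfl
    rw [h2, (hex t).1.ev_comp]
    congr 1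
    funext ω
    unfold ind
    have := hit_comp (μ := μ) (θ := θ) (c := d) (l := l) fK ω
    by_cases h : Hit μ θ d l (Finset.univ.map fK) ω
    · rw [if_pos h, if_pos (this.mpr h)]
    · rw [if_neg h, if_neg (fun h' => h (this.mp h'))]
  have hcevs : ∀ (t : LimTr A), ∀ s ∈ S, ∃ fs : {g // g ∈ K} ↪ {g // g ∈ L},
      (∀ g, (fs g).1 = s * g.1) ∧
      t.c (actB (α s) e0) = ev (fun i => t.c (tfam α L N p i))
      (ind (Hit μ θ d l (Finset.univ.map fs))) := by
    intro t s hs
    let fs : {g // g ∈ K} ↪ {g // g ∈ L} :=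
      ⟨fun g => ⟨s * g.1, by
        rw [hL]; apply Finset.mem_union_right
        exact Finset.mem_biUnion.mpr ⟨s, hs, Finset.mem_image_of_mem _ g.2⟩⟩, fun a b hab => by
        have : s * a.1 = s * b.1 := congrArg (fun z : {g // g ∈ L} => z.1) hab
        exact Subtype.ext (mul_left_cancel this)⟩
    refine ⟨fs, fun g => rfl, ?_⟩
    have h1 : actB (α s) e0 = ev (fun i => actB (α s) (XK i)) (ind (Hit μ θ d l Finset.univ)) :=
      map_ev ((actB (α s) : BSeq A →⋆ₐ[ℂ] BSeq A) : BSeq A →+* BSeq A)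
        (fun c x => map_smul (actB (α s)) c x) _ _
    have h3 : t.c (actB (α s) e0) = ev (fun i => t.c (actB (α s) (XK i)))
        (ind (Hit μ θ d l Finset.univ)) := by
      rw [h1]; exact map_ev t.c (fun c x => t.c_smul c x) _ _
    rw [h3]
    have h2 : (fun i => t.c (actB (α s) (XK i))) = fun i => (fun i => t.c (tfam α L N p i))
        ((fun k : Fin N × {g // g ∈ K} => (k.1, fs k.2)) i) := by
      funext i
      show t.c (actB (α s) (actB (α i.2.1) (p i.1))) = t.c (actB (α (s * i.2.1)) (p i.1))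
      rw [actB_mul]
    rw [h2, (hex t).1.ev_comp]
    congr 1
    funext ω
    unfold ind
    have := hit_comp (μ := μ) (θ := θ) (c := d) (l := l) fs ω
    by_cases h : Hit μ θ d l (Finset.univ.map fs) ω
    · rw [if_pos h, if_pos (this.mpr h)]
    · rw [if_neg h, if_neg (fun h' => h (this.mp h'))]
  have hcard : ∀ f : {g // g ∈ K} ↪ {g // g ∈ L}, d * ((Finset.univ.map f).card : ℝ) = 1 := by
    intro f
    rw [Finset.card_map, Finset.card_univ, Fintype.card_coe, hd]
    (clear * - hKne; field_simp)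
  have hidem : ∀ t : LimTr A, t.c e0 * t.c e0 = t.c e0 := by
    intro t
    rw [hcev t, ← (hex t).1.ev_mul]
    congr 1
    funext ω; exact ind_mul_self _ _
  have hstar : ∀ t : LimTr A, star (t.c e0) = t.c e0 := by
    intro t
    rw [hcev t, (hex t).1.ev_star]
    congr 1
    funext ω; exact conj_ind _ _
  obtain ⟨e, he1, he2⟩ := clampB e0
    (fun t => t.nrm_eq (by rw [map_mul]; exact hidem t))
    (fun t => t.nrm_eq (by rw [t.c_star]; exact hstar t))
  have hce : ∀ t : LimTr A, t.c e = t.c e0 := fun t => t.c_eq (he2 t)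
  -- transfers
  have T1 : ∀ᶠ n in atTop, ∀ τ : A →ₗ[ℂ] ℂ, IsTracialState τ →
      nrm τ ((e * e - e).1 n) ≤ ε := by
    apply transfer_nrm _ hε
    intro t
    rw [t.nrm_eq]
    rw [map_mul, hce, hidem]
  have T2 : ∀ a ∈ F, ∀ᶠ n in atTop, ∀ τ : A →ₗ[ℂ] ℂ, IsTracialState τ →
      nrm τ ((e * cst A a - cst A a * e).1 n) ≤ ε := by
    intro a ha
    apply transfer_nrm _ hε
    intro t
    rw [t.nrm_eq]
    rw [map_mul, map_mul, hce, hcev]
    exact (ev_commute _ ((hex t).2.1 _ (by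
      rw [hF0]
      exact Finset.mem_insert_of_mem (Finset.mem_union_left _ (Finset.mem_image_of_mem _ ha)))) _).symm
  have T3 : ∀ a ∈ F, ∀ᶠ n in atTop, ∀ τ : A →ₗ[ℂ] ℂ, IsTracialState τ →
      ‖τ ((cst A a * e - (c : ℂ) • cst A a).1 n)‖ ≤ ε := by
    intro a ha
    apply transfer_val _ (by linarith only [hε] : ε / 4 < ε)
    intro t
    rw [map_sub, map_smul, ← t.q_c, ← t.q_c, map_mul, hce, smul_eq_mul]
    have hpol := polar a
    have hB : ∀ k ∈ Finset.range 4,
        ‖t.q (t.c (cst A (star (bk (a, k)) * bk (a, k))) * t.c e0) -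
          (c : ℂ) * t.q (t.c (cst A (star (bk (a, k)) * bk (a, k))))‖ ≤ ε / 4 := by
      intro k hk
      have hmem : cst A (star (bk (a, k)) * bk (a, k)) ∈ F0 := by
        rw [hF0]
        exact Finset.mem_insert_of_mem (Finset.mem_union_right _
          (Finset.mem_image.mpr ⟨(a, k), Finset.mem_product.mpr ⟨ha, hk⟩, rfl⟩))
      have hm := (hex t).2.2 _ hmem
      have hs : t.c (cst A (star (bk (a, k)) * bk (a, k))) =
          star (t.c (cst A (bk (a, k)))) * t.c (cst A (bk (a, k))) := by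
        rw [map_mul, map_mul, ← t.c_star, map_star]
      rw [hs] at hm ⊢
      have := trace_hit (δ := θ) t.q_tracial (hex t).1 hμ hμ1 hθ hθ1 hd0 hl1 (Finset.univ.map fK)
        (hcard fK) (by rw [Finset.card_map, Finset.card_univ, Fintype.card_coe]; exact hN) hm
      rw [← hcev t] at this
      have hc' : (1 / l : ℝ) = c := by rw [hl, one_div_one_div]
      rw [hc'] at this
      refine this.trans ?_
      have hn : nrm t.q (t.c (cst A (bk (a, k)))) ≤ ‖a‖ + 1 := by
        rw [t.nrm_c]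
        refine (t.nrm_cst_le _).trans ?_
        rw [hbk]
        refine (norm_add_le _ _).trans ?_
        have : ‖(Complex.I ^ k) • (1 : A)‖ ≤ 1 := by
          refine (norm_smul_le _ _).trans ?_
          rw [norm_pow, Complex.norm_I, one_pow, one_mul]
          rcases subsingleton_or_nontrivial A with h | h
          · rw [Subsingleton.elim (1 : A) 0, norm_zero]; exact zero_le_one
          · rw [CStarRing.norm_one]
        linarith only [this]
      have hn2 : nrm t.q (t.c (cst A (bk (a, k)))) ^ 2 ≤ C :=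
        (pow_le_pow_left₀ (nrm_nonneg _) hn 2).trans (hCa a ha)
      calc (θ + θ) * nrm t.q (t.c (cst A (bk (a, k)))) ^ 2 ≤ (θ + θ) * C :=
            mul_le_mul_of_nonneg_left hn2 (by positivity)
        _ ≤ ε / 4 := by linarith only [hθ2]
    have hsum : t.c (cst A a) = (1 / 4 : ℂ) • ∑ k ∈ Finset.range 4,
        (Complex.I ^ k) • t.c (cst A (star (bk (a, k)) * bk (a, k))) := by
      conv_lhs => rw [hpol]
      rw [map_smul, t.c_smul, map_sum, map_sum]
      simp only [map_smul, t.c_smul]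
      rfl
    have hval : t.q (t.c (cst A a) * t.c e0) - (c : ℂ) * t.q (t.c (cst A a)) =
        (1 / 4 : ℂ) * ∑ k ∈ Finset.range 4, (Complex.I ^ k) *
          (t.q (t.c (cst A (star (bk (a, k)) * bk (a, k))) * t.c e0) -
          (c : ℂ) * t.q (t.c (cst A (star (bk (a, k)) * bk (a, k))))) := by
      rw [hsum, smul_mul_assoc, Finset.sum_mul, map_smul, map_smul, map_sum, map_sum, smul_eq_mul,
        smul_eq_mul, ← mul_assoc, mul_comm (c : ℂ), mul_assoc, ← mul_sub, Finset.mul_sum,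
        ← Finset.sum_sub_distrib]
      congr 1
      apply Finset.sum_congr rfl
      intro k _
      rw [smul_mul_assoc, map_smul, map_smul, smul_eq_mul, smul_eq_mul]
      ring
    rw [hval, norm_mul]
    have h6 : ‖∑ k ∈ Finset.range 4, (Complex.I ^ k) *
          (t.q (t.c (cst A (star (bk (a, k)) * bk (a, k))) * t.c e0) -
          (c : ℂ) * t.q (t.c (cst A (star (bk (a, k)) * bk (a, k)))))‖ ≤
          ∑ k ∈ Finset.range 4, ε / 4 := by
      refine (norm_sum_le _ _).trans (Finset.sum_le_sum (fun k hk => ?_))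
      rw [norm_mul, norm_pow, Complex.norm_I, one_pow, one_mul]
      exact hB k hk
    rw [Finset.sum_const, Finset.card_range, nsmul_eq_mul] at h6
    have h7 : ‖(1 / 4 : ℂ)‖ = 1 / 4 := by simp
    rw [h7]
    push_cast at h6
    linarith only [h6]
  have T4 : ∀ s ∈ S, ∀ᶠ n in atTop, ∀ τ : A →ₗ[ℂ] ℂ, IsTracialState τ →
      nrm τ ((actB (α s) e - e).1 n) ≤ ε := by
    intro s hs
    apply transfer_nrm _ (by linarith only [hε] : ε / 2 < ε)
    intro t
    obtain ⟨fs, hfs, hcs⟩ := hcevs t s hs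
    have hact : t.c (actB (α s) e) = t.c (actB (α s) e0) := by
      apply t.c_eq
      rw [← map_sub, ← t.comp_nrm]
      exact he2 _
    rw [← t.nrm_c, map_sub, hact, hce, hcs, hcev]
    have hm : AlgMart t.q (fun i => t.c (tfam α L N p i)) μ 1 := by
      have := (hex t).2.2 1 (by rw [hF0]; exact Finset.mem_insert_self _ _)
      rwa [map_one] at this
    have hun : d * (((Finset.univ.map fs) ∪ (Finset.univ.map fK)).card : ℝ) ≤ 1 + θ := by
      have hsub : (Finset.univ.map fs) \ (Finset.univ.map fK) ⊆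
          ((K.filter (fun g => s * g ∉ K)).attach.map
            ⟨fun g => (⟨g.1, (Finset.mem_filter.mp g.2).1⟩ : {g // g ∈ K}), fun a b hab => by
              apply Subtype.ext; exact congrArg (fun z : {g // g ∈ K} => z.1) hab⟩).map fs := by
        intro z hz
        rw [Finset.mem_sdiff, Finset.mem_map, Finset.mem_map] at hz
        obtain ⟨⟨g, _, rfl⟩, hz2⟩ := hz
        rw [Finset.mem_map]
        refine ⟨g, ?_, rfl⟩
        rw [Finset.mem_map]
        refine ⟨⟨g.1, Finset.mem_filter.mpr ⟨g.2, fun hcon => hz2 ?_⟩⟩, Finset.mem_attach _ _, rfl⟩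
        refine ⟨⟨s * g.1, hcon⟩, Finset.mem_univ _, ?_⟩
        apply Subtype.ext
        rw [hfs]; rfl
      have h8 := Finset.card_le_card hsub
      rw [Finset.card_map, Finset.card_map, Finset.card_attach] at h8
      have h9 := hKS s hs
      have h10 : ((Finset.univ.map fs) ∪ (Finset.univ.map fK)).card =
          ((Finset.univ.map fs) \ (Finset.univ.map fK)).card + (Finset.univ.map fK).card :=
        (Finset.card_sdiff_add_card _ _).symm
      rw [h10]
      push_cast
      rw [mul_add, hcard fK]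
      have h11 : (((Finset.univ.map fs) \ (Finset.univ.map fK)).card : ℝ) ≤ θ * K.card :=
        le_trans (by exact_mod_cast h8) h9
      have h12 : d * (((Finset.univ.map fs) \ (Finset.univ.map fK)).card : ℝ) ≤ d * (θ * K.card) :=
        mul_le_mul_of_nonneg_left h11 hd0.le
      have h13 : d * (θ * K.card) = θ := by rw [hd]; (clear * - hKne hθ; field_simp)
      linarith only [h12, h13]
    have := nrm_hit_sub (δ := θ) t.q_tracial (hex t).1 hμ hμ1 hθ hθ1 hd0 hl1 (Finset.univ.map fs)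
      (Finset.univ.map fK) (hcard fs) (hcard fK) hun
      (by rw [Finset.card_map, Finset.card_univ, Fintype.card_coe]; exact hN) hm
    have h14 : nrm t.q (ev (fun i => t.c (tfam α L N p i))
        (ind (Hit μ θ d l (Finset.univ.map fs))) - ev (fun i => t.c (tfam α L N p i))
        (ind (Hit μ θ d l (Finset.univ.map fK)))) ^ 2 ≤ (ε / 2) ^ 2 := by
      refine this.trans ?_
      nlinarith only [hθ3]
    exact le_of_sq_le_sq h14 (by linarith only [hε])
  obtain ⟨n, hn⟩ := (((T1.and ((Filter.eventually_all_finset F).mpr T2)).and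
    ((Filter.eventually_all_finset F).mpr T3)).and
    ((Filter.eventually_all_finset S).mpr T4)).exists
  obtain ⟨⟨⟨n1, n2⟩, n3⟩, n4⟩ := hn
  refine ⟨e.1 n, (he1 n).1, (he1 n).2.1, fun τ hτ => ⟨n1 τ hτ, fun a ha => ⟨n2 a ha τ hτ, ?_⟩,
    fun s hs => n4 s hs τ hτ⟩⟩
  have := n3 a ha τ hτ
  have h15 : τ ((cst A a * e - (c : ℂ) • cst A a).1 n) = τ (a * e.1 n) - c * τ a := by
    show τ (a * e.1 n - (c : ℂ) • a) = _
    rw [map_sub, map_smul, smul_eq_mul]
  rwa [h15] at this

end main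

end Vale.Agent.P095
end

section

/-! Averaging over cosets: from property (SI) to equivariant property (SI), local form. -/

open Filter Topology

namespace Vale.Agent.P095J

open Vale.Agent.P101 Vale.Agent.P101.SeqQuot Vale.Agent.P095

universe u v w

section Alg

variable {A : Type u} [CStarAlgebra A]

/-- Almost orthogonal sums. -/
theorem norm_quad_le {Q : Type*} [DecidableEq Q] (P : Finset Q) (f h : Q → A) (a b : Q → ℝ)
    (ha : ∀ q ∈ P, |a q| ≤ 1) (hb : ∀ q ∈ P, |b q| ≤ 1) (e : A) (η : ℝ)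
    (h1 : ∀ q ∈ P, ‖star (f q) * h q - e‖ ≤ η)
    (h2 : ∀ q ∈ P, ∀ q' ∈ P, q ≠ q' → ‖star (f q) * h q'‖ ≤ η) :
    ‖star (∑ q ∈ P, a q • f q) * (∑ q ∈ P, b q • h q) - (∑ q ∈ P, a q * b q) • e‖ ≤
      (P.card : ℝ) * (P.card * η) := by
  have e1 : star (∑ q ∈ P, a q • f q) * (∑ q ∈ P, b q • h q) - (∑ q ∈ P, a q * b q) • e =
      ∑ q ∈ P, ∑ q' ∈ P, (a q * b q') • (star (f q) * h q' - if q = q' then e else 0) := by
    rw [star_sum, Finset.sum_mul_sum, Finset.sum_smul, ← Finset.sum_sub_distrib]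
    refine Finset.sum_congr rfl fun q hq => ?_
    have e2 : (a q * b q) • e = ∑ q' ∈ P, (a q * b q') • (if q = q' then e else 0) := by
      rw [Finset.sum_eq_single q]
      · rw [if_pos rfl]
      · intro q' _ hne
        rw [if_neg (Ne.symm hne), smul_zero]
      · intro hn
        exact absurd hq hn
    rw [e2, ← Finset.sum_sub_distrib]
    refine Finset.sum_congr rfl fun q' _ => ?_
    rw [star_smul, star_trivial, smul_mul_smul_comm, smul_sub]
  rw [e1]
  have h3 : ∀ q ∈ P, ∀ q' ∈ P,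
      ‖(a q * b q') • (star (f q) * h q' - if q = q' then e else 0)‖ ≤ η := by
    intro q hq q' hq'
    rw [norm_smul, Real.norm_eq_abs, abs_mul]
    have h4 : ‖star (f q) * h q' - if q = q' then e else 0‖ ≤ η := by
      by_cases hqq : q = q'
      · subst hqq
        rw [if_pos rfl]
        exact h1 q hq
      · rw [if_neg hqq, sub_zero]
        exact h2 q hq q' hq' hqq
    calc |a q| * |b q'| * _ ≤ 1 * ‖star (f q) * h q' - if q = q' then e else 0‖ :=
          mul_le_mul_of_nonneg_right (mul_le_one₀ (ha q hq) (abs_nonneg _) (hb q' hq'))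
            (norm_nonneg _)
      _ ≤ η := by rw [one_mul]; exact h4
  calc ‖∑ q ∈ P, ∑ q' ∈ P, (a q * b q') • (star (f q) * h q' - if q = q' then e else 0)‖
      ≤ ∑ q ∈ P, ∑ q' ∈ P, η :=
        (norm_sum_le _ _).trans (Finset.sum_le_sum fun q hq =>
          (norm_sum_le _ _).trans (Finset.sum_le_sum fun q' hq' => h3 q hq q' hq'))
    _ = (P.card : ℝ) * (P.card * η) := by
        rw [Finset.sum_const, Finset.sum_const, nsmul_eq_mul, nsmul_eq_mul]

end Alg

section Triv

variable {A : Type u} [CStarAlgebra A] {G : Type w} [Group G] (α : G →* (A ≃⋆ₐ[ℂ] A))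

end Triv

section Main

variable {A : Type u} [CStarAlgebra A] {G : Type w} [Group G] (α : G →* (A ≃⋆ₐ[ℂ] A))

theorem exists_pos_le_finset {ι : Type*} (s : Finset ι) (f : ι → ℝ) (hf : ∀ i ∈ s, 0 < f i) :
    ∃ κ : ℝ, 0 < κ ∧ ∀ i ∈ s, κ ≤ f i := by
  classical
  induction s using Finset.induction_on with
  | empty => exact ⟨1, one_pos, fun i hi => absurd hi (Finset.notMem_empty i)⟩
  | insert a s ha ih =>
    obtain ⟨κ, hκ, h⟩ := ih fun i hi => hf i (Finset.mem_insert_of_mem hi)
    refine ⟨min κ (f a), lt_min hκ (hf a (Finset.mem_insert_self a s)), fun i hi => ?_⟩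
    rcases Finset.mem_insert.1 hi with rfl | hi
    · exact min_le_right _ _
    · exact (min_le_left _ _).trans (h i hi)

theorem sq_sqrt_sub_le {x y : ℝ} (hx : 0 ≤ x) (hy : 0 ≤ y) :
    (Real.sqrt x - Real.sqrt y) ^ 2 ≤ |x - y| := by
  have h1 := Real.sq_sqrt hx
  have h2 := Real.sq_sqrt hy
  have h3 := Real.sqrt_nonneg x
  have h4 := Real.sqrt_nonneg y
  have h5 : |x - y| = |Real.sqrt x - Real.sqrt y| * (Real.sqrt x + Real.sqrt y) := by
    rw [← abs_of_nonneg (add_nonneg h3 h4), ← abs_mul]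
    congr 1
    linarith
  rw [h5, ← sq_abs, sq]
  refine mul_le_mul_of_nonneg_left ?_ (abs_nonneg _)
  rw [abs_le]
  constructor <;> linarith

/-- The weighted sum over cosets. -/
noncomputable def cosetSum (N : Subgroup G) (K : Finset G) (P : Finset (G ⧸ N)) (s : A) : A :=
  ∑ q ∈ P, Real.sqrt (cosetDist N K q) • α (Quotient.out q) s

variable {α}

theorem act_smul_real (g : G) (r : ℝ) (x : A) : α g (r • x) = r • α g x := by
  rw [← Complex.coe_smul, ← Complex.coe_smul, map_smul]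

theorem cosetSum_comm (N : Subgroup G) (K : Finset G) (P : Finset (G ⧸ N)) (s x : A) (κ : ℝ)
    (h : ∀ q ∈ P, ‖s * α (Quotient.out q)⁻¹ x - α (Quotient.out q)⁻¹ x * s‖ ≤ κ) :
    ‖cosetSum α N K P s * x - x * cosetSum α N K P s‖ ≤ P.card * κ := by
  have e : cosetSum α N K P s * x - x * cosetSum α N K P s =
      ∑ q ∈ P, Real.sqrt (cosetDist N K q) • α (Quotient.out q)
        (s * α (Quotient.out q)⁻¹ x - α (Quotient.out q)⁻¹ x * s) := by
    unfold cosetSum
    rw [Finset.sum_mul, Finset.mul_sum, ← Finset.sum_sub_distrib]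
    refine Finset.sum_congr rfl fun q _ => ?_
    rw [map_sub, map_mul, map_mul, act_act_inv, smul_sub, smul_mul_assoc, mul_smul_comm]
  rw [e]
  refine (norm_sum_le _ _).trans ?_
  calc ∑ q ∈ P, ‖Real.sqrt (cosetDist N K q) • α (Quotient.out q)
        (s * α (Quotient.out q)⁻¹ x - α (Quotient.out q)⁻¹ x * s)‖ ≤ ∑ _q ∈ P, κ := by
        refine Finset.sum_le_sum fun q hq => ?_
        rw [norm_smul, norm_act, Real.norm_of_nonneg (Real.sqrt_nonneg _)]
        have h1 : Real.sqrt (cosetDist N K q) ≤ 1 := by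
          rw [Real.sqrt_le_one]
          exact cosetDist_le_one N K q
        calc Real.sqrt (cosetDist N K q) * _ ≤ 1 * ‖s * α (Quotient.out q)⁻¹ x -
              α (Quotient.out q)⁻¹ x * s‖ := mul_le_mul_of_nonneg_right h1 (norm_nonneg _)
          _ ≤ κ := by rw [one_mul]; exact h q hq
    _ = P.card * κ := by rw [Finset.sum_const, nsmul_eq_mul]

theorem sqrt_dist_abs_le (N : Subgroup G) (K : Finset G) (q : G ⧸ N) :
    |Real.sqrt (cosetDist N K q)| ≤ 1 := by
  rw [abs_of_nonneg (Real.sqrt_nonneg _), Real.sqrt_le_one]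
  exact cosetDist_le_one N K q

theorem sqrt_dist_sub_abs_le (N : Subgroup G) (K : Finset G) (q q' : G ⧸ N) :
    |Real.sqrt (cosetDist N K q) - Real.sqrt (cosetDist N K q')| ≤ 1 := by
  have h1 := Real.sqrt_nonneg (cosetDist N K q)
  have h2 := Real.sqrt_nonneg (cosetDist N K q')
  have h3 : Real.sqrt (cosetDist N K q) ≤ 1 := by
    rw [Real.sqrt_le_one]; exact cosetDist_le_one N K q
  have h4 : Real.sqrt (cosetDist N K q') ≤ 1 := by
    rw [Real.sqrt_le_one]; exact cosetDist_le_one N K q'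
  rw [abs_le]
  constructor <;> linarith only [h1, h4, h2, h3]

end Main

end Vale.Agent.P095J
end

section

/-! Almost unperforation for elements of a simple ideal. -/

namespace Vale.Agent.P095C

open Vale.Agent Vale.Agent.P133 Vale.Agent.P095N

universe u

section norms

variable {M : Type*} [CStarAlgebra M]

theorem un_norm_mul3 {x y z : M} {X Y Z : ℝ} (hx : ‖x‖ ≤ X) (hy : ‖y‖ ≤ Y) (hz : ‖z‖ ≤ Z)
    (hX : 0 ≤ X) (hY : 0 ≤ Y) : ‖x * y * z‖ ≤ X * Y * Z := by
  refine (norm_mul_le _ _).trans ?_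
  refine mul_le_mul ((norm_mul_le _ _).trans (mul_le_mul hx hy (norm_nonneg _) hX)) hz
    (norm_nonneg _) (by positivity)

/-- Expansion of the gluing product. -/
theorem un_expand {κ α : Type} [Fintype κ] [Fintype α] (v : κ → M) (x : κ → α → M) (g : α → M)
    (b : M) :
    (∑ i, ∑ j, v i * x i j * star (g j)) * b * star (∑ i, ∑ j, v i * x i j * star (g j)) =
      ∑ i, ∑ i', ∑ j, ∑ j', v i * x i j * (star (g j) * b * g j') * (star (x i' j') *
        star (v i')) := by
  rw [Finset.sum_mul, star_sum, Finset.sum_mul_sum]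
  refine Finset.sum_congr rfl fun i _ => Finset.sum_congr rfl fun i' _ => ?_
  rw [Finset.sum_mul, star_sum, Finset.sum_mul_sum]
  refine Finset.sum_congr rfl fun j _ => Finset.sum_congr rfl fun j' _ => ?_
  rw [star_mul, star_mul, star_star]
  simp only [mul_assoc]

theorem un_sum4 {κ α : Type} [Fintype κ] [Fintype α] (f f' : κ → κ → α → α → M) {C : ℝ}
    (h : ∀ i i' j j', ‖f i i' j j' - f' i i' j j'‖ ≤ C) :
    ‖(∑ i, ∑ i', ∑ j, ∑ j', f i i' j j') - ∑ i, ∑ i', ∑ j, ∑ j', f' i i' j j'‖ ≤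
      Fintype.card κ * (Fintype.card κ * (Fintype.card α * (Fintype.card α * C))) := by
  have s : ∀ {β : Type} [Fintype β] (u u' : β → M) {D : ℝ}, (∀ i, ‖u i - u' i‖ ≤ D) →
      ‖(∑ i, u i) - ∑ i, u' i‖ ≤ Fintype.card β * D := by
    intro β _ u u' D hu
    rw [← Finset.sum_sub_distrib]
    refine (norm_sum_le_of_le _ fun i _ => hu i).trans (le_of_eq ?_)
    rw [Finset.sum_const, Finset.card_univ, nsmul_eq_mul]
  exact s _ _ fun i => s _ _ fun i' => s _ _ fun j => s _ _ fun j' => h i i' j j'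

theorem un_sum3 {κ α : Type} [Fintype κ] [Fintype α] (f f' : κ → κ → α → M) {C : ℝ}
    (h : ∀ i i' j, ‖f i i' j - f' i i' j‖ ≤ C) :
    ‖(∑ i, ∑ i', ∑ j, f i i' j) - ∑ i, ∑ i', ∑ j, f' i i' j‖ ≤
      Fintype.card κ * (Fintype.card κ * (Fintype.card α * C)) := by
  have s : ∀ {β : Type} [Fintype β] (u u' : β → M) {D : ℝ}, (∀ i, ‖u i - u' i‖ ≤ D) →
      ‖(∑ i, u i) - ∑ i, u' i‖ ≤ Fintype.card β * D := by
    intro β _ u u' D hu
    rw [← Finset.sum_sub_distrib]
    refine (norm_sum_le_of_le _ fun i _ => hu i).trans (le_of_eq ?_)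
    rw [Finset.sum_const, Finset.card_univ, nsmul_eq_mul]
  exact s _ _ fun i => s _ _ fun i' => s _ _ fun j => h i i' j

theorem un_sum2 {κ : Type} [Fintype κ] (f f' : κ → κ → M) {C : ℝ}
    (h : ∀ i i', ‖f i i' - f' i i'‖ ≤ C) :
    ‖(∑ i, ∑ i', f i i') - ∑ i, ∑ i', f' i i'‖ ≤
      Fintype.card κ * (Fintype.card κ * C) := by
  have s : ∀ {β : Type} [Fintype β] (u u' : β → M) {D : ℝ}, (∀ i, ‖u i - u' i‖ ≤ D) →
      ‖(∑ i, u i) - ∑ i, u' i‖ ≤ Fintype.card β * D := by
    intro β _ u u' D hu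
    rw [← Finset.sum_sub_distrib]
    refine (norm_sum_le_of_le _ fun i _ => hu i).trans (le_of_eq ?_)
    rw [Finset.sum_const, Finset.card_univ, nsmul_eq_mul]
  exact s _ _ fun i => s _ _ fun i' => h i i'

theorem un_sum1 {κ : Type} [Fintype κ] (f f' : κ → M) {C : ℝ}
    (h : ∀ i, ‖f i - f' i‖ ≤ C) :
    ‖(∑ i, f i) - ∑ i, f' i‖ ≤ Fintype.card κ * C := by
  rw [← Finset.sum_sub_distrib]
  refine (norm_sum_le_of_le _ fun i _ => h i).trans (le_of_eq ?_)
  rw [Finset.sum_const, Finset.card_univ, nsmul_eq_mul]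

/-- The gluing estimate with approximate local data. -/
theorem un_glue {κ α : Type} [Fintype κ] [DecidableEq κ] [Fintype α] [DecidableEq α]
    {a b e : M} {v : κ → M} {x : κ → α → M} {g : α → M} {V X ρ δ₁ δ₂ : ℝ} (hV : 0 ≤ V)
    (hX : 0 ≤ X) (hδ₂ : 0 ≤ δ₂) (ha : star a = a)
    (he : ‖e‖ ≤ V) (hg : ∀ k, ‖g k‖ ≤ V) (hv : ∀ i, ‖v i‖ ≤ V) (hx : ∀ i j, ‖x i j‖ ≤ X)
    (hbX : ‖b‖ ≤ X)
    (hgb : ∀ k, ‖g k * b - b * g k‖ ≤ δ₂) (hex : ∀ i j, ‖e * x i j - x i j * e‖ ≤ δ₂)
    (hva : ∀ i, ‖v i * a - a * v i‖ ≤ δ₂)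
    (hgg : ∀ k k', ‖(star (g k) * g k' - if k = k' then e else 0) * b‖ ≤ δ₂)
    (hun : ‖((∑ i, v i * e * star (v i)) - 1) * a‖ ≤ δ₁)
    (hab : ∀ i i', ‖∑ j, x i j * b * star (x i' j) - (if i = i' then a else 0)‖ ≤ ρ) :
    ‖(∑ i, ∑ j, v i * x i j * star (g j)) * b * star (∑ i, ∑ j, v i * x i j * star (g j)) - a‖ ≤
      Fintype.card κ * (Fintype.card κ * (Fintype.card α * (Fintype.card α *
        ((V * X) * ((V + 1) * δ₂) * (X * V))))) +
      Fintype.card κ * (Fintype.card κ * (Fintype.card α * ((V * δ₂) * X * (X * V)))) +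
      Fintype.card κ * (Fintype.card κ * ((V * V) * ρ * V)) +
      Fintype.card κ * (V * V * δ₂) + δ₁ := by
  have hstar : ∀ {y : M} {Y : ℝ}, ‖y‖ ≤ Y → ‖star y‖ ≤ Y := fun h => by rwa [norm_star]
  -- step A
  set SA : M := ∑ i, ∑ i', ∑ j, ∑ j', v i * x i j * (if j = j' then e * b else 0) *
    (star (x i' j') * star (v i')) with hSA
  set SB : M := ∑ i, ∑ i', ∑ j, v i * x i j * (e * b) * (star (x i' j) * star (v i')) with hSB
  set SC : M := ∑ i, ∑ i', v i * e * (∑ j, x i j * b * star (x i' j)) * star (v i') with hSC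
  set SD : M := ∑ i, ∑ i', v i * e * (if i = i' then a else 0) * star (v i') with hSD
  set SE : M := ∑ i, v i * e * star (v i) * a with hSE
  have hA : ‖(∑ i, ∑ j, v i * x i j * star (g j)) * b *
      star (∑ i, ∑ j, v i * x i j * star (g j)) - SA‖ ≤
      Fintype.card κ * (Fintype.card κ * (Fintype.card α * (Fintype.card α *
        ((V * X) * ((V + 1) * δ₂) * (X * V))))) := by
    rw [un_expand, hSA]
    refine un_sum4 _ _ fun i i' j j' => ?_
    rw [← sub_mul, ← mul_sub]
    have h1 : ‖star (g j) * b * g j' - (if j = j' then e * b else 0)‖ ≤ (V + 1) * δ₂ := by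
      have e1 : star (g j) * b * g j' - (if j = j' then e * b else 0) =
          (star (g j) * g j' - if j = j' then e else 0) * b -
            star (g j) * (g j' * b - b * g j') := by
        split_ifs <;> noncomm_ring
      rw [e1]
      refine (norm_sub_le _ _).trans ?_
      have h2 := hgg j j'
      have h3 : ‖star (g j) * (g j' * b - b * g j')‖ ≤ V * δ₂ :=
        (norm_mul_le _ _).trans (mul_le_mul (hstar (hg j)) (hgb j') (norm_nonneg _) hV)
      linarith only [h2, h3]
    exact un_norm_mul3 ((norm_mul_le _ _).trans (mul_le_mul (hv i) (hx i j) (norm_nonneg _) hV)) h1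
      ((norm_mul_le _ _).trans (mul_le_mul (hstar (hx i' j')) (hstar (hv i')) (norm_nonneg _) hX))
      (by (clear * - hV hX; positivity)) (by (clear * - hV hδ₂; positivity))
  have hAB : SA = SB := by
    rw [hSA, hSB]
    refine Finset.sum_congr rfl fun i _ => Finset.sum_congr rfl fun i' _ =>
      Finset.sum_congr rfl fun j _ => ?_
    rw [Finset.sum_eq_single j]
    · rw [if_pos rfl]
    · intro j' _ hj'
      rw [if_neg (Ne.symm hj'), mul_zero, zero_mul]
    · simp only [Finset.mem_univ, not_true_eq_false, ↓reduceIte, IsEmpty.forall_iff]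
  have hB : ‖SB - SC‖ ≤
      Fintype.card κ * (Fintype.card κ * (Fintype.card α * ((V * δ₂) * X * (X * V)))) := by
    have e1 : SC = ∑ i, ∑ i', ∑ j, v i * e * (x i j * b) * (star (x i' j) * star (v i')) := by
      rw [hSC]
      refine Finset.sum_congr rfl fun i _ => Finset.sum_congr rfl fun i' _ => ?_
      rw [Finset.mul_sum, Finset.sum_mul]
      refine Finset.sum_congr rfl fun j _ => ?_
      simp only [mul_assoc]
    rw [e1, hSB]
    refine un_sum3 _ _ fun i i' j => ?_
    have e2 : v i * x i j * (e * b) * (star (x i' j) * star (v i')) -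
        v i * e * (x i j * b) * (star (x i' j) * star (v i')) =
        (v i * (x i j * e - e * x i j)) * b * (star (x i' j) * star (v i')) := by
      noncomm_ring
    rw [e2]
    have h2 : ‖x i j * e - e * x i j‖ ≤ δ₂ := by
      rw [norm_sub_rev]; exact hex i j
    exact un_norm_mul3 ((norm_mul_le _ _).trans (mul_le_mul (hv i) h2 (norm_nonneg _) hV)) hbX
      ((norm_mul_le _ _).trans (mul_le_mul (hstar (hx i' j)) (hstar (hv i')) (norm_nonneg _) hX))
      (by (clear * - hV hδ₂; positivity)) hX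
  have hC : ‖SC - SD‖ ≤ Fintype.card κ * (Fintype.card κ * ((V * V) * ρ * V)) := by
    rw [hSC, hSD]
    refine un_sum2 _ _ fun i i' => ?_
    rw [← sub_mul, ← mul_sub]
    exact un_norm_mul3 ((norm_mul_le _ _).trans (mul_le_mul (hv i) he (norm_nonneg _) hV))
      (hab i i') (hstar (hv i')) (by (clear * - hV; positivity)) ((norm_nonneg _).trans (hab i i'))
  have hD0 : SD = ∑ i, v i * e * a * star (v i) := by
    rw [hSD]
    refine Finset.sum_congr rfl fun i _ => ?_
    rw [Finset.sum_eq_single i]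
    · rw [if_pos rfl]
    · intro i' _ hi'
      rw [if_neg (Ne.symm hi'), mul_zero, zero_mul]
    · simp only [Finset.mem_univ, not_true_eq_false, ↓reduceIte, IsEmpty.forall_iff]
  have hD : ‖SD - SE‖ ≤ Fintype.card κ * (V * V * δ₂) := by
    rw [hD0, hSE]
    refine un_sum1 _ _ fun i => ?_
    have e2 : v i * e * a * star (v i) - v i * e * star (v i) * a =
        v i * e * (a * star (v i) - star (v i) * a) := by noncomm_ring
    rw [e2]
    have h2 : ‖a * star (v i) - star (v i) * a‖ ≤ δ₂ := by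
      have e3 : a * star (v i) - star (v i) * a = star (v i * a - a * v i) := by
        rw [star_sub, star_mul, star_mul, ha]
      rw [e3, norm_star]
      exact hva i
    exact (norm_mul_le _ _).trans (mul_le_mul
      ((norm_mul_le _ _).trans (mul_le_mul (hv i) he (norm_nonneg _) hV)) h2 (norm_nonneg _)
      (by (clear * - hV; positivity)))
  have hE : ‖SE - a‖ ≤ δ₁ := by
    have e1 : SE - a = ((∑ i, v i * e * star (v i)) - 1) * a := by
      rw [hSE, sub_mul, one_mul, Finset.sum_mul]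
    rw [e1]
    exact hun
  rw [← hAB] at hB
  set Z := (∑ i, ∑ j, v i * x i j * star (g j)) * b *
    star (∑ i, ∑ j, v i * x i j * star (g j)) with hZ
  have e9 : Z - a = (Z - SA) + (SA - SC) + (SC - SD) + (SD - SE) + (SE - a) := by abel
  rw [e9]
  refine (norm_add_le _ _).trans (add_le_add ?_ hE)
  refine (norm_add_le _ _).trans (add_le_add ?_ hD)
  refine (norm_add_le _ _).trans (add_le_add ?_ hC)
  exact (norm_add_le _ _).trans (add_le_add hA hB)

end norms

variable {M : Type u} [CStarAlgebra M] [PartialOrder M] [StarOrderedRing M]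

/-- One step: `2 ^ l + 1` copies below `2 ^ l` copies. -/
theorem unperfR_pow {I : CIdeal M} (hU : UPLocal I) {a b : M} (ha : 0 ≤ a) (hb : 0 ≤ b)
    (haI : a ∈ I) (hbI : b ∈ I) {l : ℕ}
    (h : P135.CuntzLE (fun _ : Option (Fin (2 ^ l)) => a) (fun _ : Fin (2 ^ l) => b)) :
    P135.CuntzLE (fun _ : Unit => a) (fun _ : Unit => b) := by
  classical
  have hsa : star a = a := ha.isSelfAdjoint.star_eq
  intro ε hε
  set δ₁ : ℝ := ε / (4 * (‖a‖ + 1)) with hδ₁
  have hδ₁0 : 0 < δ₁ := by (clear * - hε; positivity)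
  obtain ⟨V₀, hV₀⟩ := hU l δ₁ hδ₁0
  set V : ℝ := max V₀ 1 with hVdef
  have hV1 : 1 ≤ V := le_max_right _ _
  have hV0 : 0 ≤ V := by linarith only [hV1]
  have hVV : V₀ ≤ V := le_max_left _ _
  set c : ℝ := (Fintype.card (Option (Fin (2 ^ l))) : ℝ) with hc
  have hc0 : 0 ≤ c := Nat.cast_nonneg _
  set L : ℝ := c * (c * (V * V * V)) with hL
  have hL0 : 0 ≤ L := by (clear * -; positivity)
  set ρ : ℝ := ε / (8 * (L + 1)) with hρ
  have hρ0 : 0 < ρ := by (clear * - hε; positivity)
  obtain ⟨x₀, hx₀⟩ := h ρ hρ0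
  obtain ⟨ν, hν, hνa⟩ := exists_approx_unit I (c := fun _ : Unit => a) (fun _ => haI)
    (half_pos hρ0)
  have hν1 : ‖ν‖ ≤ 1 := (CStarAlgebra.norm_le_one_iff_of_nonneg ν hν.nonneg).2 hν.le_one
  have hνs : star ν = ν := hν.nonneg.isSelfAdjoint.star_eq
  set x : Option (Fin (2 ^ l)) → Fin (2 ^ l) → M := fun i j => ν * x₀ i j with hx
  have hxI : ∀ i j, x i j ∈ I := fun i j => I.mul_right' _ _ hν.mem
  have hab : ∀ i i', ‖∑ j, x i j * b * star (x i' j) - (if i = i' then a else 0)‖ ≤ 2 * ρ := by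
    intro i i'
    have e1 : ∑ j, x i j * b * star (x i' j) =
        ν * (∑ j, x₀ i j * b * star (x₀ i' j)) * ν := by
      rw [Finset.mul_sum, Finset.sum_mul]
      refine Finset.sum_congr rfl fun j _ => ?_
      rw [hx]
      simp only [star_mul, hνs, mul_assoc]
    have e2 : ∑ j, x i j * b * star (x i' j) - (if i = i' then a else 0) =
        ν * (∑ j, x₀ i j * b * star (x₀ i' j) - (if i = i' then a else 0)) * ν +
          (ν * (if i = i' then a else 0) * ν - (if i = i' then a else 0)) := by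
      rw [e1]; noncomm_ring
    rw [e2]
    have h1 : ‖ν * (∑ j, x₀ i j * b * star (x₀ i' j) - (if i = i' then a else 0)) * ν‖ ≤
        1 * ρ * 1 := un_norm_mul3 hν1 (hx₀ i i') hν1 zero_le_one hρ0.le
    have h2 : ‖ν * (if i = i' then a else 0) * ν - (if i = i' then a else 0)‖ ≤ ρ := by
      split_ifs
      · have e3 : ν * a * ν - a = -(ν * (a * (1 - ν))) - (1 - ν) * a := by noncomm_ring
        rw [e3]
        refine (norm_sub_le _ _).trans ?_
        rw [norm_neg]
        have h3 : ‖ν * (a * (1 - ν))‖ ≤ 1 * (ρ / 2) :=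
          (norm_mul_le _ _).trans (mul_le_mul hν1 (hνa ()).1.le (norm_nonneg _) zero_le_one)
        have h4 := (hνa ()).2
        linarith only [h3, h4]
      · simpa only [mul_zero, zero_mul, sub_self, norm_zero] using hρ0.le
    calc _ ≤ _ + _ := norm_add_le _ _
      _ ≤ 1 * ρ * 1 + ρ := add_le_add h1 h2
      _ = 2 * ρ := by ring
  -- bounds
  obtain ⟨X, hX0, hxX, hbX⟩ : ∃ X : ℝ, 0 ≤ X ∧ (∀ i j, ‖x i j‖ ≤ X) ∧ ‖b‖ ≤ X := by
    refine ⟨(∑ i, ∑ j, ‖x i j‖) + ‖b‖, by (clear * -; positivity), fun i j => ?_, ?_⟩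
    · have h1 : ‖x i j‖ ≤ ∑ j, ‖x i j‖ :=
        Finset.single_le_sum (f := fun j => ‖x i j‖) (fun _ _ => norm_nonneg _)
          (Finset.mem_univ j)
      have h2 : ∑ j, ‖x i j‖ ≤ ∑ i, ∑ j, ‖x i j‖ :=
        Finset.single_le_sum (f := fun i => ∑ j, ‖x i j‖)
          (fun _ _ => Finset.sum_nonneg fun _ _ => norm_nonneg _) (Finset.mem_univ i)
      linarith only [h1, h2, norm_nonneg b]
    · have : 0 ≤ ∑ i, ∑ j, ‖x i j‖ :=
        Finset.sum_nonneg fun _ _ => Finset.sum_nonneg fun _ _ => norm_nonneg _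
      linarith only [this]
  set d : ℝ := (Fintype.card (Fin (2 ^ l)) : ℝ) with hd
  have hd0 : 0 ≤ d := Nat.cast_nonneg _
  set K : ℝ := c * (c * (d * (d * ((V * X) * (V + 1) * (X * V))))) +
    c * (c * (d * (V * X * (X * V)))) + c * (V * V) + 1 with hK
  have hK0 : 0 ≤ K := by (clear * - hX0; positivity)
  set δ₂ : ℝ := ε / (4 * (K + 1)) with hδ₂
  have hδ₂0 : 0 < δ₂ := by (clear * - hε hX0; positivity)
  obtain ⟨e, g, v, he, hg, hv, hcom, hrel, hun⟩ := hV₀
    (insert a (insert b (Finset.univ.image fun p : Option (Fin (2 ^ l)) × Fin (2 ^ l) =>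
      x p.1 p.2))) δ₂ (by
      intro y hy
      rw [Finset.mem_insert, Finset.mem_insert, Finset.mem_image] at hy
      rcases hy with rfl | rfl | ⟨p, _, rfl⟩
      · exact haI
      · exact hbI
      · exact hxI _ _) hδ₂0
  have maF : a ∈ (insert a (insert b (Finset.univ.image
      fun p : Option (Fin (2 ^ l)) × Fin (2 ^ l) => x p.1 p.2))) := Finset.mem_insert_self _ _
  have mbF : b ∈ (insert a (insert b (Finset.univ.image
      fun p : Option (Fin (2 ^ l)) × Fin (2 ^ l) => x p.1 p.2))) :=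
    Finset.mem_insert_of_mem (Finset.mem_insert_self _ _)
  have mxF : ∀ i j, x i j ∈ (insert a (insert b (Finset.univ.image
      fun p : Option (Fin (2 ^ l)) × Fin (2 ^ l) => x p.1 p.2))) := fun i j =>
    Finset.mem_insert_of_mem (Finset.mem_insert_of_mem
      (Finset.mem_image.2 ⟨(i, j), Finset.mem_univ _, rfl⟩))
  have main := un_glue (κ := Option (Fin (2 ^ l))) (α := Fin (2 ^ l)) (a := a) (b := b) (e := e)
    (v := v) (x := x) (g := g) (V := V) (X := X) (ρ := 2 * ρ) (δ₁ := δ₁ * ‖a‖ + δ₂) (δ₂ := δ₂)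
    hV0 hX0 hδ₂0.le hsa (he.trans hVV) (fun k => (hg k).trans hVV) (fun i => (hv i).trans hVV)
    hxX hbX (fun k => (hcom b mbF).2.1 k) (fun i j => (hcom _ (mxF i j)).1)
    (fun i => (hcom a maF).2.2 i) (fun k k' => hrel b mbF k k') (hun a maF) hab
  refine ⟨fun _ _ => ∑ i, ∑ j, v i * x i j * star (g j), fun _ _ => ?_⟩
  rw [if_pos rfl, Fintype.sum_unique]
  refine main.trans ?_
  have t1 : K * δ₂ ≤ ε / 4 := by
    rw [hδ₂, show K * (ε / (4 * (K + 1))) = ε / 4 * (K / (K + 1)) by (clear * - hK0 hε; field_simp)]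
    have : K / (K + 1) ≤ 1 := by rw [div_le_one (by (clear * - hX0; positivity))]; linarith only []
    nlinarith only [hε, this]
  have t2 : L * (2 * ρ) ≤ ε / 4 := by
    rw [hρ, show L * (2 * (ε / (8 * (L + 1)))) = ε / 4 * (L / (L + 1)) by field_simp; ring]
    have : L / (L + 1) ≤ 1 := by rw [div_le_one (by (clear * -; positivity))]; linarith only []
    nlinarith only [hε, this]
  have t3 : δ₁ * ‖a‖ ≤ ε / 4 := by
    rw [hδ₁, show ε / (4 * (‖a‖ + 1)) * ‖a‖ = ε / 4 * (‖a‖ / (‖a‖ + 1)) by (clear * - hε; field_simp)]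
    have : ‖a‖ / (‖a‖ + 1) ≤ 1 := by rw [div_le_one (by (clear * -; positivity))]; linarith only []
    nlinarith only [hε, this]
  have t4 : c * (c * (d * (d * ((V * X) * ((V + 1) * δ₂) * (X * V))))) +
      c * (c * (d * ((V * δ₂) * X * (X * V)))) + c * (c * ((V * V) * (2 * ρ) * V)) +
      c * (V * V * δ₂) + (δ₁ * ‖a‖ + δ₂) = K * δ₂ + L * (2 * ρ) + δ₁ * ‖a‖ := by
    rw [hK, hL]; ring
  calc _ = K * δ₂ + L * (2 * ρ) + δ₁ * ‖a‖ := t4
    _ ≤ ε := by linarith only [hε, t1, t2, t3]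

theorem unperfR {I : CIdeal M} (hU : UPLocal I) {a b : M} (ha : 0 ≤ a) (hb : 0 ≤ b)
    (haI : a ∈ I) (hbI : b ∈ I) {K N : ℕ} (hKN : N < K)
    (h : P135.CuntzLE (fun _ : Fin K => a) (fun _ : Fin N => b)) :
    P135.CuntzLE (fun _ : Unit => a) (fun _ : Unit => b) := by
  rcases Nat.eq_zero_or_pos N with hM | hM
  · subst hM
    have ha0 : a = 0 := by
      rw [← norm_le_zero_iff]
      refine le_of_forall_pos_le_add fun ε hε => ?_
      obtain ⟨x, hx⟩ := h ε hε
      simpa only [zero_add, Finset.univ_eq_empty, Finset.sum_empty, ↓reduceIte, zero_sub, norm_neg] using     hx ⟨0, hKN⟩ ⟨0, hKN⟩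
    subst ha0
    exact fun ε hε => ⟨fun _ _ => 0, fun _ _ => by simpa only [Finset.univ_unique, PUnit.default_eq_unit, zero_mul, star_zero, mul_zero, Finset.sum_const_zero,     ↓reduceIte, sub_self, norm_zero] using hε.le⟩
  · refine unperfR_pow hU ha hb haI hbI (l := N * N) ?_
    set n := 2 ^ (N * N) with hn
    have hMn : N * N ≤ n := (Nat.lt_two_pow_self).le
    set j := n / N with hj
    have h1 : j * N ≤ n := Nat.div_mul_le_self n N
    have h2 : N ≤ j := (Nat.le_div_iff_mul_le hM).2 hMn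
    have h3 : n < j * N + N := by
      have := Nat.lt_div_mul_add (a := n) hM
      simpa only [gt_iff_lt] using this
    have h4 : n + 1 ≤ j * K := by
      have : j * (N + 1) ≤ j * K := Nat.mul_le_mul_left j hKN
      have e : j * (N + 1) = j * N + j := by ring
      omega
    have h5 := cuntz_mono_card (cuntz_mul h j) h4 h1
    let e2 : Option (Fin n) ≃ Fin (n + 1) :=
      Fintype.equivFinOfCardEq (by rw [Fintype.card_option, Fintype.card_fin])
    exact h5.reindex e2 (Equiv.refl _)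

end Vale.Agent.P095C
end
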