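import Vale.Agent.P095.MathlibUsed
import Vale.Agent.P095.Bdl.B6
import Vale.Agent.P095.Bdl.B8
import Vale.Agent.P095.Bdl.B1
import Vale.Agent.P095.Bdl.B7
import Vale.Agent.P095.Bdl.B5
import Vale.Agent.P095.Bdl.B2

set_option linter.all false

section

/-! From `w, s, t` to almost central families without characters. -/

open Filter Topology
open scoped MultiplierAlgebra

namespace Vale.Agent.P095R

universe u w

variable {A : Type u} [NonUnitalCStarAlgebra A]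

theorem coe_mul' (a b : A) : ((a * b : A) : 𝓜(ℂ, A)) = (a : 𝓜(ℂ, A)) * (b : 𝓜(ℂ, A)) :=
  map_mul (DoubleCentralizer.coeHom (𝕜 := ℂ) (A := A)) a b

theorem coe_sub' (a b : A) : ((a - b : A) : 𝓜(ℂ, A)) = (a : 𝓜(ℂ, A)) - (b : 𝓜(ℂ, A)) :=
  map_sub (DoubleCentralizer.coeHom (𝕜 := ℂ) (A := A)) a b

theorem coe_sum' {ι : Type*} (s : Finset ι) (f : ι → A) :
    ((∑ i ∈ s, f i : A) : 𝓜(ℂ, A)) = ∑ i ∈ s, (f i : 𝓜(ℂ, A)) :=
  map_sum (DoubleCentralizer.coeHom (𝕜 := ℂ) (A := A)) f s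

theorem coe_star' (a : A) : ((star a : A) : 𝓜(ℂ, A)) = star (a : 𝓜(ℂ, A)) :=
  map_star (DoubleCentralizer.coeHom (𝕜 := ℂ) (A := A)) a

theorem norm_multAct_le {G : Type w} [Group G] (α : G →* (A ≃⋆ₐ[ℂ] A)) (g : G) (x : 𝓜(ℂ, A)) :
    ‖multAct α g x‖ ≤ ‖x‖ :=
  NonUnitalStarAlgHom.norm_apply_le (multAct α g) x

theorem multAct_coe {G : Type w} [Group G] (α : G →* (A ≃⋆ₐ[ℂ] A)) (g : G) (a : A) :
    multAct α g (a : 𝓜(ℂ, A)) = ((α g a : A) : 𝓜(ℂ, A)) := multAut_coe (α g) a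

/-- an element which is almost a unit for finitely many elements -/
theorem exists_unit_like (T : Finset A) {δ : ℝ} (hδ : 0 < δ) :
    ∃ h : A, ‖h‖ ≤ 1 ∧ ∀ c ∈ T, ‖c * h - c‖ ≤ δ ∧ ‖h * c - c‖ ≤ δ := by
  let _ := CStarAlgebra.spectralOrder A
  let _ := CStarAlgebra.spectralOrderedRing A
  have hu := CStarAlgebra.increasingApproximateUnit A
  have h1 : ∀ᶠ h in CStarAlgebra.approximateUnit A, ∀ c ∈ T,
      ‖c * h - c‖ ≤ δ ∧ ‖h * c - c‖ ≤ δ := by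
    rw [Filter.eventually_all_finset]
    intro c _
    have e1 := (hu.tendsto_mul_left c).eventually (Metric.closedBall_mem_nhds c hδ)
    have e2 := (hu.tendsto_mul_right c).eventually (Metric.closedBall_mem_nhds c hδ)
    filter_upwards [e1, e2] with h k1 k2
    rw [dist_eq_norm] at k1 k2
    exact ⟨k1, k2⟩
  obtain ⟨h, hh⟩ := (h1.and hu.eventually_norm).exists
  exact ⟨h, hh.2, hh.1⟩

/-- one step of the comparison of `c x₁ h x₂ h ⋯` with `c x₁ x₂ ⋯` -/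
theorem step_cmp {P Q X H : 𝓜(ℂ, A)} {R e δ : ℝ} (hX : ‖X‖ ≤ R) (hH : ‖H‖ ≤ 1) (he : 0 ≤ e)
    (h1 : ‖P - Q‖ ≤ e) (h2 : ‖Q * X * H - Q * X‖ ≤ δ) :
    ‖P * (X * H) - Q * X‖ ≤ e * R + δ := by
  have e1 : P * (X * H) - Q * X = (P - Q) * X * H + (Q * X * H - Q * X) := by noncomm_ring
  rw [e1]
  refine (norm_add_le _ _).trans (add_le_add ?_ h2)
  have hR : 0 ≤ R := (norm_nonneg _).trans hX
  calc ‖(P - Q) * X * H‖ ≤ ‖(P - Q) * X‖ * ‖H‖ := norm_mul_le _ _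
    _ ≤ (e * R) * 1 := mul_le_mul ((norm_mul_le _ _).trans (mul_le_mul h1 hX (norm_nonneg _) he))
        hH (norm_nonneg _) (by positivity)
    _ = e * R := mul_one _

/-- multipliers can be cut down to elements of `A` -/
theorem cut_down {G : Type w} [Group G] (α : G →* (A ≃⋆ₐ[ℂ] A)) {m : ℕ} {R : ℝ}
    (F : Finset A) (S : Finset G) (ε : ℝ) (hε : 0 < ε)
    (x : Fin 4 → Fin m → 𝓜(ℂ, A)) (hR : ∀ q i, ‖x q i‖ ≤ R)
    (h1 : ∀ q i, ∀ a ∈ F, ‖x q i * (a : 𝓜(ℂ, A)) - (a : 𝓜(ℂ, A)) * x q i‖ ≤ ε / 2)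
    (h2 : ∀ q i, ∀ g ∈ S, ∀ a ∈ F, ‖(a : 𝓜(ℂ, A)) * (multAct α g (x q i) - x q i)‖ ≤ ε / 2)
    (h3 : ∀ a ∈ F, ‖(a : 𝓜(ℂ, A)) *
        ((∑ i, x 0 i * (x 1 i * x 2 i - x 2 i * x 1 i) * x 3 i) - 1)‖ ≤ ε / 2) :
    ∃ z : Fin 4 → Fin m → A, (∀ q i, ‖z q i‖ ≤ R) ∧
      (∀ q i, ∀ a ∈ F, ‖z q i * a - a * z q i‖ ≤ ε) ∧
      (∀ q i, ∀ g ∈ S, ∀ a ∈ F, ‖a * (α g (z q i) - z q i)‖ ≤ ε) ∧
      ∀ a ∈ F, ‖a * (∑ i, z 0 i * (z 1 i * z 2 i - z 2 i * z 1 i) * z 3 i) - a‖ ≤ ε := by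
  classical
  set R' : ℝ := max R 1 with hR'
  have hR'1 : 1 ≤ R' := le_max_right _ _
  have hR'0 : 0 ≤ R' := by linarith only [hR'1]
  have hRR : ∀ q i, ‖x q i‖ ≤ R' := fun q i => (hR q i).trans (le_max_left _ _)
  set δ : ℝ := ε / (2 * (8 * m * R' ^ 3 + 2 * R' + 2)) with hδd
  have hden : 0 < 2 * (8 * m * R' ^ 3 + 2 * R' + 2) := by (clear * -; positivity)
  have hδ : 0 < δ := by positivity
  have hδε : δ * (8 * m * R' ^ 3 + 2 * R' + 2) = ε / 2 := by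
    rw [hδd]; field_simp
  -- the finite sets
  let nx : Finset A → Finset A := fun T =>
    T.biUnion fun c => (Finset.univ : Finset (Fin 4 × Fin m)).image fun p => (x p.1 p.2).snd c
  have hnx : ∀ T : Finset A, ∀ c ∈ T, ∀ q i, (x q i).snd c ∈ nx T := by
    intro T c hc q i
    exact Finset.mem_biUnion.2 ⟨c, hc, Finset.mem_image.2 ⟨(q, i), Finset.mem_univ _, rfl⟩⟩
  set T0 : Finset A := F ∪ (F.biUnion fun b => S.image fun g => (α g).symm b) with hT0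
  set T1 := nx T0
  set T2 := nx T1
  set T3 := nx T2
  set T4 := nx T3
  obtain ⟨h, hh1, hh⟩ := exists_unit_like (F ∪ (T1 ∪ (T2 ∪ (T3 ∪ T4)))) hδ
  set H : 𝓜(ℂ, A) := (h : 𝓜(ℂ, A)) with hH
  have hHn : ‖H‖ ≤ 1 := by rw [hH, norm_coe_mult]; exact hh1
  -- right unit on the sets
  have hright : ∀ c : A, c ∈ T1 ∪ (T2 ∪ (T3 ∪ T4)) →
      ‖(c : 𝓜(ℂ, A)) * H - (c : 𝓜(ℂ, A))‖ ≤ δ := by
    intro c hc
    rw [hH, ← coe_mul', ← coe_sub', norm_coe_mult]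
    exact (hh c (Finset.mem_union_right _ hc)).1
  have hleft : ∀ c : A, c ∈ F → ‖H * (c : 𝓜(ℂ, A)) - (c : 𝓜(ℂ, A))‖ ≤ δ := by
    intro c hc
    rw [hH, ← coe_mul', ← coe_sub', norm_coe_mult]
    exact (hh c (Finset.mem_union_left _ hc)).2
  have hz : ∀ q i, (((x q i).fst h : A) : 𝓜(ℂ, A)) = x q i * H := fun q i =>
    (mult_mul_coe h (x q i)).symm
  have hstep : ∀ T : Finset A, nx T ⊆ T1 ∪ (T2 ∪ (T3 ∪ T4)) → ∀ c ∈ T, ∀ q i,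
      ‖(c : 𝓜(ℂ, A)) * x q i * H - (c : 𝓜(ℂ, A)) * x q i‖ ≤ δ := by
    intro T hT c hc q i
    rw [coe_mul_mult]
    exact hright _ (hT (hnx T c hc q i))
  have hs1 : nx T0 ⊆ T1 ∪ (T2 ∪ (T3 ∪ T4)) := Finset.subset_union_left
  have hs2 : nx T1 ⊆ T1 ∪ (T2 ∪ (T3 ∪ T4)) :=
    Finset.subset_union_left.trans Finset.subset_union_right
  have hs3 : nx T2 ⊆ T1 ∪ (T2 ∪ (T3 ∪ T4)) :=
    (Finset.subset_union_left.trans Finset.subset_union_right).trans Finset.subset_union_right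
  have hs4 : nx T3 ⊆ T1 ∪ (T2 ∪ (T3 ∪ T4)) :=
    (Finset.subset_union_right.trans Finset.subset_union_right).trans Finset.subset_union_right
  have hF0 : F ⊆ T0 := Finset.subset_union_left
  refine ⟨fun q i => (x q i).fst h, fun q i => ?_, fun q i a ha => ?_, fun q i g hg a ha => ?_,
    fun a ha => ?_⟩
  · rw [← norm_coe_mult, hz]
    refine (norm_mul_le _ _).trans ?_
    calc ‖x q i‖ * ‖H‖ ≤ ‖x q i‖ * 1 := mul_le_mul_of_nonneg_left hHn (norm_nonneg _)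
      _ ≤ R := by rw [mul_one]; exact hR q i
  · rw [← norm_coe_mult, coe_sub', coe_mul', coe_mul', hz]
    have e1 : x q i * H * (a : 𝓜(ℂ, A)) - (a : 𝓜(ℂ, A)) * (x q i * H) =
        x q i * (H * (a : 𝓜(ℂ, A)) - (a : 𝓜(ℂ, A))) +
        (x q i * (a : 𝓜(ℂ, A)) - (a : 𝓜(ℂ, A)) * x q i) -
        ((a : 𝓜(ℂ, A)) * x q i * H - (a : 𝓜(ℂ, A)) * x q i) := by noncomm_ring
    rw [e1]
    have n1 : ‖x q i * (H * (a : 𝓜(ℂ, A)) - (a : 𝓜(ℂ, A)))‖ ≤ R' * δ :=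
      (norm_mul_le _ _).trans (mul_le_mul (hRR q i) (hleft a ha) (norm_nonneg _) hR'0)
    have n2 := h1 q i a ha
    have n3 := hstep T0 hs1 a (hF0 ha) q i
    have n4 := norm_sub_le (x q i * (H * (a : 𝓜(ℂ, A)) - (a : 𝓜(ℂ, A))) +
        (x q i * (a : 𝓜(ℂ, A)) - (a : 𝓜(ℂ, A)) * x q i))
        ((a : 𝓜(ℂ, A)) * x q i * H - (a : 𝓜(ℂ, A)) * x q i)
    have n5 := norm_add_le (x q i * (H * (a : 𝓜(ℂ, A)) - (a : 𝓜(ℂ, A))))
        (x q i * (a : 𝓜(ℂ, A)) - (a : 𝓜(ℂ, A)) * x q i)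
    have n6 : R' * δ + δ ≤ ε / 2 := by
      rw [← hδε]
      have : 0 ≤ 8 * (m : ℝ) * R' ^ 3 := by (clear * -; positivity)
      nlinarith only [hε, hδε, this, hden]
    linarith only [n1, n2, n3, n4, n5, n6]
  · rw [← norm_coe_mult, coe_mul', coe_sub', ← multAct_coe, hz, map_mul]
    set b' : A := (α g).symm a with hb'
    have hb'0 : b' ∈ T0 := Finset.mem_union_right _
      (Finset.mem_biUnion.2 ⟨a, ha, Finset.mem_image.2 ⟨g, hg, rfl⟩⟩)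
    have hab : (a : 𝓜(ℂ, A)) = multAct α g (b' : 𝓜(ℂ, A)) := by
      rw [multAct_coe, hb', StarAlgEquiv.apply_symm_apply]
    have e1 : (a : 𝓜(ℂ, A)) * (multAct α g (x q i) * multAct α g H - x q i * H) =
        multAct α g ((b' : 𝓜(ℂ, A)) * x q i * H - (b' : 𝓜(ℂ, A)) * x q i) +
        (a : 𝓜(ℂ, A)) * (multAct α g (x q i) - x q i) -
        ((a : 𝓜(ℂ, A)) * x q i * H - (a : 𝓜(ℂ, A)) * x q i) := by
      rw [map_sub, map_mul, map_mul, ← hab]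
      noncomm_ring
    rw [e1]
    have n1 := (norm_multAct_le α g ((b' : 𝓜(ℂ, A)) * x q i * H - (b' : 𝓜(ℂ, A)) * x q i)).trans
      (hstep T0 hs1 b' hb'0 q i)
    have n2 := h2 q i g hg a ha
    have n3 := hstep T0 hs1 a (hF0 ha) q i
    have n4 := norm_sub_le (multAct α g ((b' : 𝓜(ℂ, A)) * x q i * H - (b' : 𝓜(ℂ, A)) * x q i) +
        (a : 𝓜(ℂ, A)) * (multAct α g (x q i) - x q i))
        ((a : 𝓜(ℂ, A)) * x q i * H - (a : 𝓜(ℂ, A)) * x q i)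
    have n5 := norm_add_le (multAct α g ((b' : 𝓜(ℂ, A)) * x q i * H - (b' : 𝓜(ℂ, A)) * x q i))
        ((a : 𝓜(ℂ, A)) * (multAct α g (x q i) - x q i))
    have n6 : δ + δ ≤ ε / 2 := by
      rw [← hδε]
      have : 0 ≤ 8 * (m : ℝ) * R' ^ 3 := by (clear * -; positivity)
      nlinarith only [hε, hδε, hR'1, this]
    linarith only [n1, n2, n3, n4, n5, n6]
  · -- words of length four
    have hword : ∀ q₁ q₂ q₃ q₄ : Fin 4, ∀ i : Fin m,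
        ‖(a : 𝓜(ℂ, A)) * (x q₁ i * H) * (x q₂ i * H) * (x q₃ i * H) * (x q₄ i * H) -
          (a : 𝓜(ℂ, A)) * x q₁ i * x q₂ i * x q₃ i * x q₄ i‖ ≤ 4 * R' ^ 3 * δ := by
      intro q₁ q₂ q₃ q₄ i
      have c1 : (x q₁ i).snd a ∈ T1 := hnx T0 a (hF0 ha) q₁ i
      have c2 : (x q₂ i).snd ((x q₁ i).snd a) ∈ T2 := hnx T1 _ c1 q₂ i
      have c3 : (x q₃ i).snd ((x q₂ i).snd ((x q₁ i).snd a)) ∈ T3 := hnx T2 _ c2 q₃ i
      have s1 := step_cmp (P := (a : 𝓜(ℂ, A))) (Q := (a : 𝓜(ℂ, A))) (hRR q₁ i) hHn le_rfl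
        (by simp) (hstep T0 hs1 a (hF0 ha) q₁ i)
      have s2 := step_cmp (hRR q₂ i) hHn (by (clear * - hε; positivity)) s1 (δ := δ) (by
        rw [coe_mul_mult a (x q₁ i)]
        exact hstep T1 hs2 _ c1 q₂ i)
      have s3 := step_cmp (hRR q₃ i) hHn (by (clear * - hε; positivity)) s2 (δ := δ) (by
        rw [coe_mul_mult a (x q₁ i), coe_mul_mult _ (x q₂ i)]
        exact hstep T2 hs3 _ c2 q₃ i)
      have s4 := step_cmp (hRR q₄ i) hHn (by (clear * - hε; positivity)) s3 (δ := δ) (by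
        rw [coe_mul_mult a (x q₁ i), coe_mul_mult _ (x q₂ i), coe_mul_mult _ (x q₃ i)]
        exact hstep T3 hs4 _ c3 q₄ i)
      refine s4.trans ?_
      have p2 : R' ≤ R' ^ 3 := by nlinarith only [hR'1, sq_nonneg (R' - 1)]
      have p3 : R' ^ 2 ≤ R' ^ 3 := by nlinarith only [hR'1]
      have p1 : 1 ≤ R' ^ 3 := by linarith only [hR'1, p2]
      nlinarith only [hR'1, hδ, p2, p3]
    have hterm : ∀ i : Fin m, ‖(a : 𝓜(ℂ, A)) * ((x 0 i * H) * ((x 1 i * H) * (x 2 i * H) -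
          (x 2 i * H) * (x 1 i * H)) * (x 3 i * H)) -
        (a : 𝓜(ℂ, A)) * (x 0 i * (x 1 i * x 2 i - x 2 i * x 1 i) * x 3 i)‖ ≤
          8 * R' ^ 3 * δ := by
      intro i
      have w1 := hword 0 1 2 3 i
      have w2 := hword 0 2 1 3 i
      have e1 : (a : 𝓜(ℂ, A)) * ((x 0 i * H) * ((x 1 i * H) * (x 2 i * H) -
          (x 2 i * H) * (x 1 i * H)) * (x 3 i * H)) -
        (a : 𝓜(ℂ, A)) * (x 0 i * (x 1 i * x 2 i - x 2 i * x 1 i) * x 3 i) =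
        ((a : 𝓜(ℂ, A)) * (x 0 i * H) * (x 1 i * H) * (x 2 i * H) * (x 3 i * H) -
          (a : 𝓜(ℂ, A)) * x 0 i * x 1 i * x 2 i * x 3 i) -
        ((a : 𝓜(ℂ, A)) * (x 0 i * H) * (x 2 i * H) * (x 1 i * H) * (x 3 i * H) -
          (a : 𝓜(ℂ, A)) * x 0 i * x 2 i * x 1 i * x 3 i) := by noncomm_ring
      rw [e1]
      refine (norm_sub_le _ _).trans ?_
      linarith only [w1, w2]
    rw [← norm_coe_mult, coe_sub', coe_mul', coe_sum']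
    have e2 : ∀ i : Fin m, (((x 0 i).fst h * ((x 1 i).fst h * (x 2 i).fst h -
        (x 2 i).fst h * (x 1 i).fst h) * (x 3 i).fst h : A) : 𝓜(ℂ, A)) =
        (x 0 i * H) * ((x 1 i * H) * (x 2 i * H) - (x 2 i * H) * (x 1 i * H)) * (x 3 i * H) := by
      intro i
      rw [coe_mul', coe_mul', coe_sub', coe_mul', coe_mul', hz, hz, hz, hz]
    simp only [e2]
    have e3 : (a : 𝓜(ℂ, A)) * (∑ i, (x 0 i * H) * ((x 1 i * H) * (x 2 i * H) -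
        (x 2 i * H) * (x 1 i * H)) * (x 3 i * H)) - (a : 𝓜(ℂ, A)) =
        (∑ i, ((a : 𝓜(ℂ, A)) * ((x 0 i * H) * ((x 1 i * H) * (x 2 i * H) -
          (x 2 i * H) * (x 1 i * H)) * (x 3 i * H)) -
        (a : 𝓜(ℂ, A)) * (x 0 i * (x 1 i * x 2 i - x 2 i * x 1 i) * x 3 i))) +
        (a : 𝓜(ℂ, A)) *
        ((∑ i, x 0 i * (x 1 i * x 2 i - x 2 i * x 1 i) * x 3 i) - 1) := by
      rw [Finset.sum_sub_distrib, mul_sub, mul_one, Finset.mul_sum, Finset.mul_sum]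
      abel
    rw [e3]
    refine (norm_add_le _ _).trans ?_
    have n1 : ‖∑ i : Fin m, ((a : 𝓜(ℂ, A)) * ((x 0 i * H) * ((x 1 i * H) * (x 2 i * H) -
          (x 2 i * H) * (x 1 i * H)) * (x 3 i * H)) -
        (a : 𝓜(ℂ, A)) * (x 0 i * (x 1 i * x 2 i - x 2 i * x 1 i) * x 3 i))‖ ≤
        m * (8 * R' ^ 3 * δ) := by
      refine (norm_sum_le _ _).trans ?_
      refine (Finset.sum_le_sum fun i _ => hterm i).trans ?_
      rw [Finset.sum_const, Finset.card_univ, Fintype.card_fin, nsmul_eq_mul]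
    have n2 := h3 a ha
    have n3 : (m : ℝ) * (8 * R' ^ 3 * δ) ≤ ε / 2 := by
      rw [← hδε]
      nlinarith only [hδ, hR'1]
    linarith only [n1, n2, n3]

/-- Multipliers `w, s, t` which are almost central and almost fixed, with
`s^* s = t^* t = D(w)`, `s^* t = 0` approximately. -/
def WSTLocalN {G : Type w} [Group G] (α : G →* (A ≃⋆ₐ[ℂ] A)) : Prop :=
  ∀ (F : Finset A) (S : Finset G) (ε : ℝ), 0 < ε → ∃ w s t : 𝓜(ℂ, A),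
    (‖w‖ ≤ 2 ∧ ‖s‖ ≤ 2 ∧ ‖t‖ ≤ 2) ∧
    (∀ a ∈ F, ‖w * (a : 𝓜(ℂ, A)) - (a : 𝓜(ℂ, A)) * w‖ ≤ ε ∧
      ‖s * (a : 𝓜(ℂ, A)) - (a : 𝓜(ℂ, A)) * s‖ ≤ ε ∧
      ‖t * (a : 𝓜(ℂ, A)) - (a : 𝓜(ℂ, A)) * t‖ ≤ ε) ∧
    (∀ g ∈ S, ∀ a ∈ F, ‖(a : 𝓜(ℂ, A)) * (multAct α g w - w)‖ ≤ ε ∧
      ‖(a : 𝓜(ℂ, A)) * (multAct α g s - s)‖ ≤ ε ∧
      ‖(a : 𝓜(ℂ, A)) * (multAct α g t - t)‖ ≤ ε) ∧
    ∀ a ∈ F, ‖(a : 𝓜(ℂ, A)) * (star s * s - Vale.Agent.P095.defect w)‖ ≤ ε ∧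
      ‖(a : 𝓜(ℂ, A)) * (star t * t - Vale.Agent.P095.defect w)‖ ≤ ε ∧
      ‖(a : 𝓜(ℂ, A)) * (star s * t)‖ ≤ ε

/-- The same as `NoCharLocalN` with multipliers. -/
def NoCharLocalM {G : Type w} [Group G] (α : G →* (A ≃⋆ₐ[ℂ] A)) : Prop :=
  ∃ (m : ℕ) (R : ℝ), ∀ (F : Finset A) (S : Finset G) (ε : ℝ), 0 < ε →
    ∃ x : Fin 4 → Fin m → 𝓜(ℂ, A), (∀ q i, ‖x q i‖ ≤ R) ∧
      (∀ q i, ∀ a ∈ F, ‖x q i * (a : 𝓜(ℂ, A)) - (a : 𝓜(ℂ, A)) * x q i‖ ≤ ε) ∧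
      (∀ q i, ∀ g ∈ S, ∀ a ∈ F, ‖(a : 𝓜(ℂ, A)) * (multAct α g (x q i) - x q i)‖ ≤ ε) ∧
      ∀ a ∈ F, ‖(a : 𝓜(ℂ, A)) *
        ((∑ i, x 0 i * (x 1 i * x 2 i - x 2 i * x 1 i) * x 3 i) - 1)‖ ≤ ε

/-- multipliers can be cut down to elements of `A` -/
theorem noCharLocalN_of_mult {G : Type w} [Group G] (α : G →* (A ≃⋆ₐ[ℂ] A))
    (h : NoCharLocalM α) : NoCharLocalN α := by
  obtain ⟨m, R, h⟩ := h
  refine ⟨m, R, fun F S ε hε => ?_⟩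
  obtain ⟨x, h1, h2, h3, h4⟩ := h F S (ε / 2) (by positivity)
  exact cut_down α F S ε hε x h1 h2 h3 h4

end Vale.Agent.P095R
end
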