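import Vale.Agent.P095.MathlibUsed
import Vale.Agent.P095.Bdl.B8
import Vale.Agent.P095.Bdl.B1
import Vale.Agent.P095.Bdl.B2
import Vale.Agent.P095.Bdl.B3

set_option linter.all false

namespace AFasta44975x10a
@[reducible] noncomputable def a0.{u1, u2} {x1 : Type u1} {x2 : Type u2} [x3 : CStarAlgebra x2] : Semiring ↥(Vale.Agent.P101.bddSeq x2 x1) := inferInstance
theorem a1 {x1 : Type} [x2 : Fintype x1] [x3 : DecidableEq x1] : StarModule ℂ C(↑unitInterval, Matrix x1 x1 ℂ) := inferInstance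
@[reducible] noncomputable def a2.{u1, u2} {x1 : Type u1} {x2 : Type u2} [x3 : CStarAlgebra x2] : Ring ↥(Vale.Agent.P101.bddSeq x2 x1) := inferInstance
theorem a3.{u1, u2} {x1 : Type u1} {x2 : Type u2} [x3 : CStarAlgebra x2] : SubringClass (StarSubalgebra ℂ (x1 → x2)) (x1 → x2) := inferInstance
@[reducible] noncomputable def a4.{u1, u2} {x1 : Type u1} {x2 : Type u2} [x3 : CStarAlgebra x2] : SetLike (StarSubalgebra ℂ (x1 → x2)) (x1 → x2) := inferInstance
theorem a5 {x1 : Type} [x2 : Fintype x1] [x3 : DecidableEq x1] : SubringClass (StarSubalgebra ℂ C(↑unitInterval, Matrix x1 x1 ℂ)) C(↑unitInterval, Matrix x1 x1 ℂ) := inferInstance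
theorem a6 {x1 : Type} [x2 : Fintype x1] [x3 : DecidableEq x1] : StarModule ℂ C(↑unitInterval, Matrix (x1 × Option x1) (x1 × Option x1) ℂ) := inferInstance
@[reducible] noncomputable def a7.{u1, u2} {x1 : Type u1} {x2 : Type u2} [x3 : CStarAlgebra x2] : Algebra ℂ ↥(Vale.Agent.P101.bddSeq x2 x1) := inferInstance
theorem a8 {x1 : Type} [x2 : Fintype x1] : IsTopologicalSemiring (Matrix x1 x1 ℂ) := inferInstance
@[reducible] noncomputable def a9 {x1 : Type} [x2 : DecidableEq x1] [x3 : Fintype x1] : Semiring C(↑unitInterval, Matrix x1 x1 ℂ) := inferInstance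
theorem a10.{u1, u2} {x1 : Type u1} {x2 : Type u2} [x3 : CStarAlgebra x2] : StarModule ℂ (x1 → x2) := inferInstance
theorem a11 {x1 : Type} [x2 : Fintype x1] [x3 : DecidableEq x1] : ContinuousConstSMul ℂ (Matrix x1 x1 ℂ) := inferInstance
@[reducible] noncomputable def a12.{u1, u2} {x1 : Type u1} [x2 : CStarAlgebra x1] {x3 : Type u2} {x4 : Filter x3} : AddCommMonoid (Vale.Agent.P101.Bq x1 x4) := inferInstance
theorem a13 : IsTopologicalSemiring ℂ := inferInstance
@[reducible] noncomputable def a14.{u1, u2} {x1 : Type u1} [x2 : CStarAlgebra x1] {x3 : Type u2} {x4 : Filter x3} : SetLike (StarSubalgebra ℂ (Vale.Agent.P101.Bq x1 x4)) (Vale.Agent.P101.Bq x1 x4) := inferInstance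
@[reducible] noncomputable def a15.{u1, u2} {x1 : Type u1} {x2 : Type u2} [x3 : CStarAlgebra x2] : Mul ↥(Vale.Agent.P101.bddSeq x2 x1) := inferInstance
@[reducible] noncomputable def a16.{u1, u2} {x1 : Type u1} {x2 : Type u2} [x3 : CStarAlgebra x2] : Distrib ↥(Vale.Agent.P101.bddSeq x2 x1) := inferInstance
@[reducible] noncomputable def a17 {x1 : Type} [x2 : DecidableEq x1] [x3 : Fintype x1] : Ring C(↑unitInterval, Matrix x1 x1 ℂ) := inferInstance
@[reducible] noncomputable def a18.{u1, u2} {x1 : Type u1} {x2 : Type u2} [x3 : CStarAlgebra x2] : NonUnitalNonAssocSemiring ↥(Vale.Agent.P101.bddSeq x2 x1) := inferInstance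
@[reducible] def a19.{u1, u2} {x1 : Type u1} {x2 : Type u2} {x3 : x1} [x4 : CStarAlgebra x2] : StarMul ((fun a => x2) x3) := inferInstance
@[reducible] noncomputable def a20 {x1 : Type} [x2 : DecidableEq x1] [x3 : Fintype x1] : Semiring C(↑unitInterval, Matrix (x1 × Option x1) (x1 × Option x1) ℂ) := inferInstance
@[reducible] noncomputable def a21.{u1, u2} {x1 : Type u1} {x2 : Type u2} [x3 : CStarAlgebra x2] : NonAssocSemiring ↥(Vale.Agent.P101.bddSeq x2 x1) := inferInstance
theorem a22 : IsTopologicalRing ℂ := inferInstance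
theorem a23 {x1 : Type} [x2 : Fintype x1] : IsTopologicalSemiring (Matrix (x1 × Option x1) (x1 × Option x1) ℂ) := inferInstance
theorem a24 {x1 : Type} [x2 : Fintype x1] [x3 : DecidableEq x1] : ContinuousConstSMul ℂ (Matrix (x1 × Option x1) (x1 × Option x1) ℂ) := inferInstance
@[reducible] noncomputable def a25 {x1 : Type} [x2 : Fintype x1] [x3 : DecidableEq x1] : SetLike (StarSubalgebra ℂ C(↑unitInterval, Matrix x1 x1 ℂ)) C(↑unitInterval, Matrix x1 x1 ℂ) := inferInstance
@[reducible] def a26.{u1, u2} {x1 : Type u1} {x2 : Type u2} {x3 : x1} [x4 : CStarAlgebra x2] : InvolutiveStar ((fun a => x2) x3) := inferInstance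
theorem a27 {x1 : Type} [x2 : Fintype x1] : IsTopologicalRing (Matrix x1 x1 ℂ) := inferInstance
@[reducible] noncomputable def a28 {x1 : Type} [x2 : Fintype x1] [x3 : DecidableEq x1] : Algebra ℂ C(↑unitInterval, Matrix x1 x1 ℂ) := inferInstance
@[reducible] noncomputable def a29 {x1 : Type} [x2 : Fintype x1] [x3 : DecidableEq x1] : Star ↥(Vale.Agent.P101.coneAlg x1) := inferInstance
@[reducible] noncomputable def a30.{u1, u2} {x1 : Type u1} {x2 : Type u2} [x3 : CStarAlgebra x2] : Add ↥(Vale.Agent.P101.bddSeq x2 x1) := inferInstance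
@[reducible] noncomputable def a31 {x1 : Type} [x2 : Fintype x1] [x3 : DecidableEq x1] : Zero ↥(Vale.Agent.P101.coneAlg x1) := inferInstance
@[reducible] noncomputable def a32.{u1, u2} {x1 : Type u1} {x2 : Type u2} [x3 : CStarAlgebra x2] : StarRing (x1 → x2) := inferInstance
theorem a33 {x1 : Type} : StarModule ℂ (Matrix x1 x1 ℂ) := inferInstance
@[reducible] def a34.{u1, u2} {x1 : Type u1} {x2 : Type u2} [x3 : CStarAlgebra x2] : Algebra ℂ (x1 → x2) := inferInstance
end AFasta44975x10a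
attribute [local instance] AFasta44975x10a.a0 AFasta44975x10a.a1 AFasta44975x10a.a2
  AFasta44975x10a.a3 AFasta44975x10a.a4 AFasta44975x10a.a5 AFasta44975x10a.a6 AFasta44975x10a.a7
  AFasta44975x10a.a8 AFasta44975x10a.a9 AFasta44975x10a.a10 AFasta44975x10a.a11
  AFasta44975x10a.a12 AFasta44975x10a.a13 AFasta44975x10a.a14 AFasta44975x10a.a15
  AFasta44975x10a.a16 AFasta44975x10a.a17 AFasta44975x10a.a18 AFasta44975x10a.a19
  AFasta44975x10a.a20 AFasta44975x10a.a21 AFasta44975x10a.a22 AFasta44975x10a.a23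
  AFasta44975x10a.a24 AFasta44975x10a.a25 AFasta44975x10a.a26 AFasta44975x10a.a27
  AFasta44975x10a.a28 AFasta44975x10a.a29 AFasta44975x10a.a30 AFasta44975x10a.a31
  AFasta44975x10a.a32 AFasta44975x10a.a33 AFasta44975x10a.a34
namespace AFasta44975x10b
theorem a0.{u1} {x1 : Type} [x2 : Fintype x1] [x3 : DecidableEq x1] {x4 : Type u1} [x5 : CStarAlgebra x4] : LinearMapClass (↥(Vale.Agent.P101.coneAlg x1) →⋆ₐ[ℂ] x4) ℂ (↥(Vale.Agent.P101.coneAlg x1)) x4 := inferInstance
@[reducible] noncomputable def a1 {x1 : Type} [x2 : Fintype x1] [x3 : DecidableEq x1] : Module ℂ ↥(Vale.Agent.P101.coneAlg x1) := inferInstance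
theorem a2.{u1} {x1 : Type} [x2 : Fintype x1] [x3 : DecidableEq x1] {x4 : Type u1} [x5 : CStarAlgebra x4] : AddHomClass (↥(Vale.Agent.P101.coneAlg x1) →⋆ₐ[ℂ] x4) (↥(Vale.Agent.P101.coneAlg x1)) x4 := inferInstance
@[reducible] noncomputable def a3.{u1, u2} {x1 : Type u1} [x2 : CStarAlgebra x1] {x3 : Type u2} {x4 : Filter x3} : StarAddMonoid (Vale.Agent.P101.Bq x1 x4) := inferInstance
theorem a4.{u1} {x1 : Type} [x2 : Fintype x1] [x3 : DecidableEq x1] {x4 : Type u1} [x5 : CStarAlgebra x4] : MulActionSemiHomClass (↥(Vale.Agent.P101.coneAlg x1) →⋆ₐ[ℂ] x4) (⇑(RingHom.id ℂ)) (↥(Vale.Agent.P101.coneAlg x1)) x4 := inferInstance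
@[reducible] noncomputable def a5 {x1 : Type} [x2 : Fintype x1] [x3 : DecidableEq x1] : Semiring ↥(Vale.Agent.P101.coneAlg x1) := inferInstance
@[reducible] noncomputable def a6 {x1 : Type} [x2 : Fintype x1] [x3 : DecidableEq x1] : Ring ↥(Vale.Agent.P101.coneAlg x1) := inferInstance
@[reducible] noncomputable def a7.{u1, u2} {x1 : Type u1} [x2 : CStarAlgebra x1] {x3 : Type u2} {x4 : Filter x3} : Star (Vale.Agent.P101.Bq x1 x4) := inferInstance
@[reducible] noncomputable def a8.{u1, u2} {x1 : Type u1} [x2 : CStarAlgebra x1] {x3 : Type u2} {x4 : Filter x3} : InvolutiveStar (Vale.Agent.P101.Bq x1 x4) := inferInstance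
@[reducible] noncomputable def a9 {x1 : Type} [x2 : Fintype x1] [x3 : DecidableEq x1] : Distrib ↥(Vale.Agent.P101.coneAlg x1) := inferInstance
theorem a10.{u1} {x1 : Type} [x2 : Fintype x1] [x3 : DecidableEq x1] {x4 : Type u1} [x5 : CStarAlgebra x4] : NonUnitalAlgHomClass (↥(Vale.Agent.P101.coneAlg x1) →⋆ₐ[ℂ] x4) ℂ (↥(Vale.Agent.P101.coneAlg x1)) x4 := inferInstance
theorem a11.{u1, u2} {x1 : Type u1} [x2 : CStarAlgebra x1] {x3 : Type u2} {x4 : Filter x3} : SeparatelyContinuousMul (Vale.Agent.P101.Bq x1 x4) := inferInstance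
@[reducible] noncomputable def a12 {x1 : Type} [x2 : Fintype x1] [x3 : DecidableEq x1] : Sub (Matrix (Option x1) (Option x1) ↥(Vale.Agent.P101.coneAlg x1)) := inferInstance
@[reducible] noncomputable def a13 {x1 : Type} [x2 : Fintype x1] [x3 : DecidableEq x1] : Sub ↥(Vale.Agent.P101.coneAlg x1) := inferInstance
theorem a14.{u1} {x1 : Type} [x2 : Fintype x1] [x3 : DecidableEq x1] {x4 : Type u1} [x5 : CStarAlgebra x4] : MonoidWithZeroHomClass (↥(Vale.Agent.P101.coneAlg x1) →⋆ₐ[ℂ] x4) (↥(Vale.Agent.P101.coneAlg x1)) x4 := inferInstance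
@[reducible] noncomputable def a15 {x1 : Type} [x2 : Fintype x1] [x3 : DecidableEq x1] : Add ↥(Vale.Agent.P101.coneAlg x1) := inferInstance
theorem a16.{u1, u2} {x1 : Type u1} [x2 : CStarAlgebra x1] {x3 : Type u2} {x4 : Filter x3} : IsSemitopologicalSemiring (Vale.Agent.P101.Bq x1 x4) := inferInstance
theorem a17 {x1 : Type} [x2 : Fintype x1] [x3 : DecidableEq x1] : NonUnitalSubsemiringClass (StarSubalgebra ℂ C(↑unitInterval, Matrix x1 x1 ℂ)) C(↑unitInterval, Matrix x1 x1 ℂ) := inferInstance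
theorem a18 {x1 : Type} [x2 : Fintype x1] [x3 : DecidableEq x1] : AddSubgroupClass (StarSubalgebra ℂ C(↑unitInterval, Matrix x1 x1 ℂ)) C(↑unitInterval, Matrix x1 x1 ℂ) := inferInstance
@[reducible] noncomputable def a19 {x1 : Type} [x2 : Fintype x1] [x3 : DecidableEq x1] : NonUnitalNonAssocSemiring ↥(Vale.Agent.P101.coneAlg x1) := inferInstance
@[reducible] noncomputable def a20 {x1 : Type} [x2 : Fintype x1] [x3 : DecidableEq x1] : Add (Matrix (Option x1) (Option x1) ↥(Vale.Agent.P101.coneAlg x1)) := inferInstance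
@[reducible] noncomputable def a21 {x1 : Type} [x2 : Fintype x1] [x3 : DecidableEq x1] : NonAssocSemiring ↥(Vale.Agent.P101.coneAlg x1) := inferInstance
@[reducible] noncomputable def a22 {x1 : Type} [x2 : Fintype x1] [x3 : DecidableEq x1] : AddCommMonoid ↥(Vale.Agent.P101.coneAlg x1) := inferInstance
@[reducible] noncomputable def a23 {x1 : Type} [x2 : Fintype x1] [x3 : DecidableEq x1] : Semiring ↥(Vale.Agent.P101.flipAlg x1) := inferInstance
@[reducible] noncomputable def a24 {x1 : Type} [x2 : Fintype x1] [x3 : DecidableEq x1] : Ring ↥(Vale.Agent.P101.flipAlg x1) := inferInstance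
@[reducible] noncomputable def a25 {x1 : Type} [x2 : Fintype x1] [x3 : DecidableEq x1] : Mul ↥(Vale.Agent.P101.coneAlg x1) := inferInstance
@[reducible] noncomputable def a26 {x1 : Type} [x2 : Fintype x1] [x3 : DecidableEq x1] : Distrib ↥(Vale.Agent.P101.flipAlg x1) := inferInstance
@[reducible] noncomputable def a27 {x1 : Type} [x2 : Fintype x1] [x3 : DecidableEq x1] : NonUnitalNonAssocRing ↥(Vale.Agent.P101.coneAlg x1) := inferInstance
@[reducible] noncomputable def a28.{u1, u2} {x1 : Type u1} [x2 : CStarAlgebra x1] {x3 : Type u2} {x4 : Filter x3} : StarMul (Vale.Agent.P101.Bq x1 x4) := inferInstance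
theorem a29.{u1} {x1 : Type} [x2 : Fintype x1] [x3 : DecidableEq x1] {x4 : Type u1} [x5 : CStarAlgebra x4] : OneHomClass (↥(Vale.Agent.P101.coneAlg x1) →⋆ₐ[ℂ] x4) (↥(Vale.Agent.P101.coneAlg x1)) x4 := inferInstance
theorem a30.{u1} {x1 : Type} [x2 : Fintype x1] [x3 : DecidableEq x1] {x4 : Type u1} [x5 : CStarAlgebra x4] : MonoidHomClass (↥(Vale.Agent.P101.coneAlg x1) →⋆ₐ[ℂ] x4) (↥(Vale.Agent.P101.coneAlg x1)) x4 := inferInstance
theorem a31.{u1} {x1 : Type} [x2 : Fintype x1] [x3 : DecidableEq x1] {x4 : Type u1} [x5 : CStarAlgebra x4] : ZeroHomClass (↥(Vale.Agent.P101.coneAlg x1) →⋆ₐ[ℂ] x4) (↥(Vale.Agent.P101.coneAlg x1)) x4 := inferInstance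
@[reducible] noncomputable def a32.{u1, u2} {x1 : Type u1} [x2 : CStarAlgebra x1] {x3 : Type u2} {x4 : Filter x3} : SMul ℂ (Vale.Agent.P101.Bq x1 x4) := inferInstance
@[reducible] noncomputable def a33.{u1} {x1 : Type u1} [x2 : NonUnitalCStarAlgebra x1] : DistribMulAction ℂ (DoubleCentralizer ℂ x1) := inferInstance
@[reducible] noncomputable def a34.{u1} {x1 : Type u1} [x2 : NonUnitalCStarAlgebra x1] : SMul ℂ (DoubleCentralizer ℂ x1) := inferInstance
@[reducible] noncomputable def a35 {x1 : Type} [x2 : Fintype x1] [x3 : DecidableEq x1] : NonAssocRing ↥(Vale.Agent.P101.coneAlg x1) := inferInstance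
theorem a36.{u1, u2} {x1 : Type u1} [x2 : CStarAlgebra x1] {x3 : Type u2} {x4 : Filter x3} : SubringClass (StarSubalgebra ℂ (Vale.Agent.P101.Bq x1 x4)) (Vale.Agent.P101.Bq x1 x4) := inferInstance
@[reducible] noncomputable def a37.{u1} {x1 : Type u1} [x2 : NonUnitalCStarAlgebra x1] : Module ℂ (DoubleCentralizer ℂ x1) := inferInstance
end AFasta44975x10b
attribute [local instance] AFasta44975x10b.a0 AFasta44975x10b.a1 AFasta44975x10b.a2
  AFasta44975x10b.a3 AFasta44975x10b.a4 AFasta44975x10b.a5 AFasta44975x10b.a6 AFasta44975x10b.a7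
  AFasta44975x10b.a8 AFasta44975x10b.a9 AFasta44975x10b.a10 AFasta44975x10b.a11
  AFasta44975x10b.a12 AFasta44975x10b.a13 AFasta44975x10b.a14 AFasta44975x10b.a15
  AFasta44975x10b.a16 AFasta44975x10b.a17 AFasta44975x10b.a18 AFasta44975x10b.a19
  AFasta44975x10b.a20 AFasta44975x10b.a21 AFasta44975x10b.a22 AFasta44975x10b.a23
  AFasta44975x10b.a24 AFasta44975x10b.a25 AFasta44975x10b.a26 AFasta44975x10b.a27
  AFasta44975x10b.a28 AFasta44975x10b.a29 AFasta44975x10b.a30 AFasta44975x10b.a31
  AFasta44975x10b.a32 AFasta44975x10b.a33 AFasta44975x10b.a34 AFasta44975x10b.a35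
  AFasta44975x10b.a36 AFasta44975x10b.a37

section

/-! The relative central sequence algebra `F(M, I)`: bounded functions with values in `M` which
asymptotically commute with `I` modulo the ones which are asymptotically annihilated by `I`. -/

set_option linter.unusedSectionVars false

open Filter Topology
open scoped CStarAlgebra ComplexOrder

namespace Vale.Agent.P095N

open Vale.Agent.P101 Vale.Agent.P101.SeqQuot Vale.Agent.P133

universe u v w

variable {M : Type u} [CStarAlgebra M] (I : CIdeal M) {ι : Type v} (μ : Filter ι)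

/-- Bounded functions which asymptotically commute with `I`. -/
def relSeq : StarSubalgebra ℂ (ι → M) where
  carrier := {x | (∃ C : ℝ, ∀ i, ‖x i‖ ≤ C) ∧
    ∀ b ∈ I, Tendsto (fun i => ‖x i * b - b * x i‖) μ (𝓝 0)}
  mul_mem' := by
    rintro x y ⟨⟨C, hC⟩, hx⟩ ⟨⟨D, hD⟩, hy⟩
    refine ⟨⟨C * D, fun i => (norm_mul_le _ _).trans
      (mul_le_mul (hC i) (hD i) (norm_nonneg _) ((norm_nonneg _).trans (hC i)))⟩, fun b hb => ?_⟩
    have h1 := ((hy b hb).const_mul C).add ((hx b hb).mul_const D)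
    rw [mul_zero, zero_mul, add_zero] at h1
    refine squeeze_zero (fun i => norm_nonneg _) (fun i => ?_) h1
    have e : (x * y) i * b - b * (x * y) i = x i * (y i * b - b * y i) + (x i * b - b * x i) * y i := by
      simp only [Pi.mul_apply]
      noncomm_ring
    rw [e]
    refine (norm_add_le _ _).trans (add_le_add ((norm_mul_le _ _).trans ?_)
      ((norm_mul_le _ _).trans ?_))
    · exact mul_le_mul_of_nonneg_right (hC i) (norm_nonneg _)
    · exact mul_le_mul_of_nonneg_left (hD i) (norm_nonneg _)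
  add_mem' := by
    rintro x y ⟨⟨C, hC⟩, hx⟩ ⟨⟨D, hD⟩, hy⟩
    refine ⟨⟨C + D, fun i => (norm_add_le _ _).trans (add_le_add (hC i) (hD i))⟩, fun b hb => ?_⟩
    have h1 := (hx b hb).add (hy b hb)
    rw [add_zero] at h1
    refine squeeze_zero (fun i => norm_nonneg _) (fun i => ?_) h1
    have e : (x + y) i * b - b * (x + y) i = (x i * b - b * x i) + (y i * b - b * y i) := by
      simp only [Pi.add_apply]
      noncomm_ring
    rw [e]
    exact norm_add_le _ _
  algebraMap_mem' := by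
    intro r
    refine ⟨⟨‖algebraMap ℂ M r‖, fun i => le_rfl⟩, fun b _ => ?_⟩
    have e : (fun i : ι => ‖(algebraMap ℂ (ι → M) r) i * b - b * (algebraMap ℂ (ι → M) r) i‖) =
        fun _ => 0 := by
      funext i
      rw [Pi.algebraMap_apply, Algebra.commutes, sub_self, norm_zero]
    rw [e]
    exact tendsto_const_nhds
  star_mem' := by
    rintro x ⟨⟨C, hC⟩, hx⟩
    refine ⟨⟨C, fun i => by simpa using hC i⟩, fun b hb => ?_⟩
    refine (hx (star b) (I.star_mem' b hb)).congr fun i => ?_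
    rw [← norm_star]
    simp only [star_sub, star_mul, star_star, Pi.star_apply]
    exact norm_sub_rev _ _

variable {I μ}

theorem relSeq_bdd (x : relSeq I μ) : ∃ C : ℝ, ∀ i, ‖(x : ι → M) i‖ ≤ C := x.2.1

theorem relSeq_comm (x : relSeq I μ) {b : M} (hb : b ∈ I) :
    Tendsto (fun i => ‖(x : ι → M) i * b - b * (x : ι → M) i‖) μ (𝓝 0) := x.2.2 b hb

/-- forget the commutation -/
def relSeq.toBdd (x : relSeq I μ) : bddSeq M ι := ⟨x, x.2.1⟩

variable (I μ)

/-- The relative commutant of `I` in the algebra of bounded functions modulo null functions. -/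
noncomputable def relComm : StarSubalgebra ℂ (Bq M μ) where
  carrier := {q | ∀ b ∈ I, q * Bq.constHom μ b = Bq.constHom μ b * q}
  mul_mem' := by
    intro x y hx hy b hb
    rw [mul_assoc, hy b hb, ← mul_assoc, hx b hb, mul_assoc]
  add_mem' := by
    intro x y hx hy b hb
    rw [add_mul, hx b hb, hy b hb, mul_add]
  algebraMap_mem' := by
    intro r b _
    rw [Algebra.commutes]
  star_mem' := by
    intro x hx b hb
    have h1 := congrArg star (hx (star b) (I.star_mem' b hb))
    rw [star_mul, star_mul, map_star, star_star] at h1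
    exact h1.symm

theorem isClosed_relComm : IsClosed (relComm I μ : Set (Bq M μ)) := by
  have e : (relComm I μ : Set (Bq M μ)) =
      ⋂ b : {b : M // b ∈ I}, {q | q * Bq.constHom μ (b : M) = Bq.constHom μ (b : M) * q} := by
    ext q
    simp only [Set.mem_iInter]
    exact ⟨fun h b => h b.1 b.2, fun h b hb => h ⟨b, hb⟩⟩
  rw [e]
  exact isClosed_iInter fun b => isClosed_eq (by fun_prop) (by fun_prop)

noncomputable instance : CStarAlgebra (relComm I μ) :=
  StarSubalgebra.cstarAlgebra _ (h_closed := isClosed_relComm I μ)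

/-- The ideal of elements annihilated by `I`. -/
noncomputable def annI : CIdeal (relComm I μ) where
  toSub :=
    { carrier := {q | ∀ b ∈ I, (q : Bq M μ) * Bq.constHom μ b = 0}
      zero_mem' := fun b _ => zero_mul _
      add_mem' := by
        intro x y hx hy b hb
        show ((x : Bq M μ) + (y : Bq M μ)) * _ = 0
        rw [add_mul, hx b hb, hy b hb, add_zero]
      smul_mem' := by
        intro c x hx b hb
        show (c • (x : Bq M μ)) * _ = 0
        rw [smul_mul_assoc, hx b hb, smul_zero] }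
  mul_left' := by
    intro a x hx b hb
    show ((a : Bq M μ) * (x : Bq M μ)) * _ = 0
    rw [mul_assoc, hx b hb, mul_zero]
  mul_right' := by
    intro a x hx b hb
    show ((x : Bq M μ) * (a : Bq M μ)) * _ = 0
    rw [mul_assoc, a.2 b hb, ← mul_assoc, hx b hb, zero_mul]
  star_mem' := by
    intro x hx b hb
    show star (x : Bq M μ) * _ = 0
    have h1 := hx (star b) (I.star_mem' b hb)
    rw [x.2 (star b) (I.star_mem' b hb)] at h1
    have h2 := congrArg star h1
    rw [star_mul, map_star, star_star, star_zero] at h2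
    exact h2
  closed' := by
    have e : ({q : relComm I μ | ∀ b ∈ I, (q : Bq M μ) * Bq.constHom μ b = 0} :
        Set (relComm I μ)) = ⋂ b : {b : M // b ∈ I},
          {q : relComm I μ | (q : Bq M μ) * Bq.constHom μ (b : M) = 0} := by
      ext q
      simp only [Set.mem_iInter]
      exact ⟨fun h b => h b.1 b.2, fun h b hb => h ⟨b, hb⟩⟩
    show IsClosed ({q : relComm I μ | ∀ b ∈ I, (q : Bq M μ) * Bq.constHom μ b = 0} :
        Set (relComm I μ))
    rw [e]
    exact isClosed_iInter fun b => isClosed_eq (by fun_prop) continuous_const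

theorem mem_annI {q : relComm I μ} : q ∈ annI I μ ↔ ∀ b ∈ I, (q : Bq M μ) * Bq.constHom μ b = 0 :=
  Iff.rfl

/-- The relative central sequence algebra. -/
def FR : Type (max u v) := Quo (annI I μ)

noncomputable instance : CStarAlgebra (FR I μ) :=
  inferInstanceAs (CStarAlgebra (Quo (annI I μ)))

/-- The class in the relative commutant. -/
noncomputable def toComm : relSeq I μ →⋆ₐ[ℂ] relComm I μ where
  toFun x := ⟨Bq.mk μ (relSeq.toBdd x), fun b hb =>
    (Bq.mk_eq_iff μ (relSeq.toBdd x * Bq.const b) (Bq.const b * relSeq.toBdd x)).2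
      (relSeq_comm x hb)⟩
  map_one' := rfl
  map_mul' _ _ := rfl
  map_zero' := rfl
  map_add' _ _ := rfl
  commutes' _ := rfl
  map_star' _ := rfl

namespace FR

/-- The class of a function. -/
noncomputable def mk : relSeq I μ →⋆ₐ[ℂ] FR I μ := (Quo.qm (annI I μ)).comp (toComm I μ)

variable {I μ}

theorem toComm_surjective : Function.Surjective (toComm I μ) := by
  rintro ⟨q, hq⟩
  obtain ⟨X, rfl⟩ := Bq.mk_surjective μ q
  exact ⟨⟨X, X.2, fun b hb => ((Bq.mk_eq_iff μ (X * Bq.const b) (Bq.const b * X)).1 (hq b hb) :)⟩, rfl⟩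

theorem mk_surjective : Function.Surjective (mk I μ) :=
  Quo.qm_surjective.comp toComm_surjective

theorem mk_eq_iff (x y : relSeq I μ) : mk I μ x = mk I μ y ↔
    ∀ b ∈ I, Tendsto (fun i => ‖((x : ι → M) i - (y : ι → M) i) * b‖) μ (𝓝 0) := by
  have h1 : mk I μ x = mk I μ y ↔ toComm I μ x - toComm I μ y ∈ annI I μ := Quo.qm_eq_iff
  rw [h1, mem_annI]
  refine forall₂_congr fun b hb => ?_
  have h2 : ((toComm I μ x - toComm I μ y : relComm I μ) : Bq M μ) * Bq.constHom μ b =
      Bq.mk μ ((relSeq.toBdd x - relSeq.toBdd y) * Bq.const b) := rfl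
  rw [h2, ← Bq.mk_zero, Bq.mk_eq_iff]
  refine tendsto_congr fun i => ?_
  show ‖((x : ι → M) i - (y : ι → M) i) * b - 0‖ = _
  rw [sub_zero]

theorem mk_eq_zero_iff (x : relSeq I μ) : mk I μ x = 0 ↔
    ∀ b ∈ I, Tendsto (fun i => ‖(x : ι → M) i * b‖) μ (𝓝 0) := by
  rw [← map_zero (mk I μ), mk_eq_iff]
  refine forall₂_congr fun b _ => tendsto_congr fun i => ?_
  show ‖((x : ι → M) i - 0) * b‖ = _
  rw [sub_zero]

end FR

end Vale.Agent.P095N
end
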