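import Vale.Agent.P095.MathlibUsed
import Vale.Agent.P095.Bdl.B6
import Vale.Agent.P095.Bdl.B8
import Vale.Agent.P095.Bdl.B1
import Vale.Agent.P095.Bdl.B7
import Vale.Agent.P095.Bdl.B5
import Vale.Agent.P095.Bdl.B2
import Vale.Agent.P095.Bdl.B21
import Vale.Agent.P095.Bdl.B23

set_option linter.all false

attribute [local instance] AFasta44975x10a.a0 AFasta44975x10a.a1 AFasta44975x10a.a2
  AFasta44975x10a.a3 AFasta44975x10a.a4 AFasta44975x10a.a5 AFasta44975x10a.a6 AFasta44975x10a.a7
  AFasta44975x10a.a8 AFasta44975x10a.a9 AFasta44975x10a.a10 AFasta44975x10a.a11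
  AFasta44975x10a.a12 AFasta44975x10a.a13 AFasta44975x10a.a14 AFasta44975x10a.a15
  AFasta44975x10a.a16 AFasta44975x10a.a17 AFasta44975x10a.a18 AFasta44975x10a.a19
  AFasta44975x10a.a20 AFasta44975x10a.a21 AFasta44975x10a.a22 AFasta44975x10a.a23
  AFasta44975x10a.a24 AFasta44975x10a.a25 AFasta44975x10a.a26 AFasta44975x10a.a27
  AFasta44975x10a.a28 AFasta44975x10a.a29 AFasta44975x10a.a30 AFasta44975x10a.a31
  AFasta44975x10a.a32 AFasta44975x10a.a33 AFasta44975x10a.a34
attribute [local instance] AFasta44975x10b.a0 AFasta44975x10b.a1 AFasta44975x10b.a2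
  AFasta44975x10b.a3 AFasta44975x10b.a4 AFasta44975x10b.a5 AFasta44975x10b.a6 AFasta44975x10b.a7
  AFasta44975x10b.a8 AFasta44975x10b.a9 AFasta44975x10b.a10 AFasta44975x10b.a11
  AFasta44975x10b.a12 AFasta44975x10b.a13 AFasta44975x10b.a14 AFasta44975x10b.a15
  AFasta44975x10b.a16 AFasta44975x10b.a17 AFasta44975x10b.a18 AFasta44975x10b.a19
  AFasta44975x10b.a20 AFasta44975x10b.a21 AFasta44975x10b.a22 AFasta44975x10b.a23
  AFasta44975x10b.a24 AFasta44975x10b.a25 AFasta44975x10b.a26 AFasta44975x10b.a27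
  AFasta44975x10b.a28 AFasta44975x10b.a29 AFasta44975x10b.a30 AFasta44975x10b.a31
  AFasta44975x10b.a32 AFasta44975x10b.a33 AFasta44975x10b.a34 AFasta44975x10b.a35
  AFasta44975x10b.a36 AFasta44975x10b.a37

namespace AFasta44975x502a
@[reducible] noncomputable def a0.{u1, u2} {x1 : Type u1} {x2 : Type u2} [x3 : CStarAlgebra x2] {x4 : Vale.Agent.P133.CIdeal x2} {x5 : Filter x1} : Semiring ↥(Vale.Agent.P095N.relSeq x4 x5) := inferInstance
@[reducible] noncomputable def a1.{u1, u2} {x1 : Type u1} {x2 : Type u2} [x3 : CStarAlgebra x2] {x4 : Vale.Agent.P133.CIdeal x2} {x5 : Filter x1} : Ring ↥(Vale.Agent.P095N.relSeq x4 x5) := inferInstance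
end AFasta44975x502a
attribute [local instance] AFasta44975x502a.a0 AFasta44975x502a.a1
namespace AFasta44975x502b
@[reducible] noncomputable def a0.{u1, u2} {x1 : Type u1} [x2 : CStarAlgebra x1] {x3 : Type u2} {x4 : Filter x3} {x5 : Vale.Agent.P133.CIdeal x1} : Ring ↥(Vale.Agent.P095N.relComm x5 x4) := inferInstance
@[reducible] noncomputable def a1.{u1, u2} {x1 : Type u1} [x2 : CStarAlgebra x1] {x3 : Type u2} {x4 : Filter x3} {x5 : Vale.Agent.P133.CIdeal x1} : Semiring ↥(Vale.Agent.P095N.relComm x5 x4) := inferInstance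
@[reducible] noncomputable def a2.{u1, u2} {x1 : Type u1} [x2 : CStarAlgebra x1] {x3 : Type u2} {x4 : Filter x3} {x5 : Vale.Agent.P133.CIdeal x1} : NonUnitalSeminormedRing ↥(Vale.Agent.P095N.relComm x5 x4) := inferInstance
@[reducible] noncomputable def a3.{u1, u2} {x1 : Type u1} [x2 : CStarAlgebra x1] {x3 : Type u2} {x4 : Filter x3} {x5 : Vale.Agent.P133.CIdeal x1} : NonUnitalNormedRing ↥(Vale.Agent.P095N.relComm x5 x4) := inferInstance
@[reducible] noncomputable def a4.{u1, u2} {x1 : Type u1} [x2 : CStarAlgebra x1] {x3 : Type u2} {x4 : Filter x3} {x5 : Vale.Agent.P133.CIdeal x1} : NonUnitalCStarAlgebra ↥(Vale.Agent.P095N.relComm x5 x4) := inferInstance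
@[reducible] noncomputable def a5.{u1, u2} {x1 : Type u1} [x2 : CStarAlgebra x1] {x3 : Type u2} {x4 : Filter x3} {x5 : Vale.Agent.P133.CIdeal x1} : AddCommMonoid ↥(Vale.Agent.P095N.relComm x5 x4) := inferInstance
@[reducible] noncomputable def a6.{u1, u2} {x1 : Type u1} [x2 : CStarAlgebra x1] {x3 : Type u2} {x4 : Filter x3} {x5 : Vale.Agent.P133.CIdeal x1} : NonUnitalNonAssocSemiring ↥(Vale.Agent.P095N.relComm x5 x4) := inferInstance
@[reducible] noncomputable def a7.{u1, u2} {x1 : Type u1} [x2 : CStarAlgebra x1] {x3 : Type u2} {x4 : Filter x3} {x5 : Vale.Agent.P133.CIdeal x1} : NonUnitalNonAssocRing ↥(Vale.Agent.P095N.relComm x5 x4) := inferInstance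
@[reducible] noncomputable def a8.{u1, u2} {x1 : Type u1} [x2 : CStarAlgebra x1] {x3 : Type u2} {x4 : Filter x3} {x5 : Vale.Agent.P133.CIdeal x1} : NonAssocRing ↥(Vale.Agent.P095N.relComm x5 x4) := inferInstance
@[reducible] noncomputable def a9.{u1, u2} {x1 : Type u1} [x2 : CStarAlgebra x1] {x3 : Type u2} {x4 : Filter x3} {x5 : Vale.Agent.P133.CIdeal x1} : Star ↥(Vale.Agent.P095N.relComm x5 x4) := inferInstance
@[reducible] noncomputable def a10.{u1, u2} {x1 : Type u1} [x2 : CStarAlgebra x1] {x3 : Type u2} {x4 : Filter x3} {x5 : Vale.Agent.P133.CIdeal x1} : AddMonoid ↥(Vale.Agent.P095N.relComm x5 x4) := inferInstance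
@[reducible] noncomputable def a11.{u1, u2} {x1 : Type u1} [x2 : CStarAlgebra x1] {x3 : Type u2} {x4 : Filter x3} {x5 : Vale.Agent.P133.CIdeal x1} : NonAssocSemiring ↥(Vale.Agent.P095N.relComm x5 x4) := inferInstance
@[reducible] noncomputable def a12.{u1, u2} {x1 : Type u1} [x2 : CStarAlgebra x1] {x3 : Type u2} {x4 : Filter x3} {x5 : Vale.Agent.P133.CIdeal x1} : NormedRing ↥(Vale.Agent.P095N.relComm x5 x4) := inferInstance
@[reducible] noncomputable def a13.{u1, u2} {x1 : Type u1} [x2 : CStarAlgebra x1] {x3 : Type u2} {x4 : Filter x3} {x5 : Vale.Agent.P133.CIdeal x1} : InvolutiveStar ↥(Vale.Agent.P095N.relComm x5 x4) := inferInstance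
@[reducible] noncomputable def a14.{u1, u2} {x1 : Type u1} [x2 : CStarAlgebra x1] {x3 : Type u2} {x4 : Filter x3} {x5 : Vale.Agent.P133.CIdeal x1} : Mul ↥(Vale.Agent.P095N.relComm x5 x4) := inferInstance
@[reducible] noncomputable def a15.{u1, u2} {x1 : Type u1} [x2 : CStarAlgebra x1] {x3 : Type u2} {x4 : Filter x3} {x5 : Vale.Agent.P133.CIdeal x1} : Add ↥(Vale.Agent.P095N.relComm x5 x4) := inferInstance
@[reducible] noncomputable def a16.{u1, u2} {x1 : Type u1} [x2 : CStarAlgebra x1] {x3 : Type u2} {x4 : Filter x3} {x5 : Vale.Agent.P133.CIdeal x1} : Distrib ↥(Vale.Agent.P095N.relComm x5 x4) := inferInstance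
@[reducible] noncomputable def a17.{u1, u2} {x1 : Type u1} [x2 : CStarAlgebra x1] {x3 : Type u2} {x4 : Filter x3} {x5 : Vale.Agent.P133.CIdeal x1} : AddZeroClass ↥(Vale.Agent.P095N.relComm x5 x4) := inferInstance
@[reducible] noncomputable def a18.{u1, u2} {x1 : Type u1} [x2 : CStarAlgebra x1] {x3 : Type u2} {x4 : Filter x3} {x5 : Vale.Agent.P133.CIdeal x1} : AddZero ↥(Vale.Agent.P095N.relComm x5 x4) := inferInstance
end AFasta44975x502b
attribute [local instance] AFasta44975x502b.a0 AFasta44975x502b.a1 AFasta44975x502b.a2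
  AFasta44975x502b.a3 AFasta44975x502b.a4 AFasta44975x502b.a5 AFasta44975x502b.a6
  AFasta44975x502b.a7 AFasta44975x502b.a8 AFasta44975x502b.a9 AFasta44975x502b.a10
  AFasta44975x502b.a11 AFasta44975x502b.a12 AFasta44975x502b.a13 AFasta44975x502b.a14
  AFasta44975x502b.a15 AFasta44975x502b.a16 AFasta44975x502b.a17 AFasta44975x502b.a18

section

/-! Second stage of the gluing construction. -/

open scoped BigOperators Kronecker

namespace Vale.Agent.P101

universe u

section Basics

variable {α : Type} [Fintype α] [DecidableEq α]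

/-- cut-off function: `1` on `[0,1/3]`, `0` on `[2/3,1]` -/
noncomputable def cutMu : C(unitInterval, ℂ) :=
  ⟨fun t => ((max 0 (min 1 (2 - 3 * (t : ℝ))) : ℝ) : ℂ), by fun_prop⟩

theorem cutMu_left (t : unitInterval) (ht : (t : ℝ) ≤ 1 / 3) : cutMu t = 1 := by
  have : max 0 (min 1 (2 - 3 * (t : ℝ))) = 1 := by
    rw [min_eq_left (by linarith)]; simp only [zero_le_one, sup_of_le_right]
  simp only [cutMu, ContinuousMap.coe_mk, this, Complex.ofReal_one]

theorem cutMu_right (t : unitInterval) (ht : 2 / 3 ≤ (t : ℝ)) : cutMu t = 0 := by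
  have : max 0 (min 1 (2 - 3 * (t : ℝ))) = 0 := by
    rw [min_eq_right (by linarith only [ht]), max_eq_left (by linarith only [ht])]
  simp only [cutMu, ContinuousMap.coe_mk, this, Complex.ofReal_zero]

theorem cutMu_star (t : unitInterval) : star (cutMu t) = cutMu t := by
  simp only [cutMu, ContinuousMap.coe_mk, RCLike.star_def, Complex.conj_ofReal]

/-- the blocks of `F` -/
noncomputable def blk (F : C(unitInterval, Matrix (α × Option α) (α × Option α) ℂ)) (b b' : Option α) :
    C(unitInterval, Matrix α α ℂ) :=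
  ⟨fun t => (F t).submatrix (fun k => (k, b)) (fun l => (l, b')),
    (map_continuous F).matrix_submatrix _ _⟩

omit [Fintype α] [DecidableEq α] in
@[simp] theorem blk_apply (F : C(unitInterval, Matrix (α × Option α) (α × Option α) ℂ))
    (b b' : Option α) (t : unitInterval) (k l : α) :
    blk F b b' t k l = F t (k, b) (l, b') := rfl

/-- the comparison matrix -/
noncomputable def Wf (x : Matrix α α ℂ) : Option α → Option α → C(unitInterval, Matrix α α ℂ)
  | none, none => ⟨fun t => cutMu t • x, (map_continuous cutMu).smul continuous_const⟩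
  | some k, some l => ContinuousMap.const _ (x k l • (1 : Matrix α α ℂ))
  | none, some _ => 0
  | some _, none => 0

theorem Wf_mem (x : Matrix α α ℂ) (b b' : Option α) : Wf x b b' ∈ coneAlg α := by
  rcases b with _ | k <;> rcases b' with _ | l
  · exact ⟨0, fun t ht => by simp [Wf, cutMu_right t ht]⟩
  · exact ⟨0, fun t ht => by simp only [Wf, ContinuousMap.zero_apply, zero_smul]⟩
  · exact ⟨0, fun t ht => by simp [Wf]⟩
  · exact ⟨x k l, fun t ht => by simp [Wf]⟩

theorem blk_mem (F : C(unitInterval, Matrix (α × Option α) (α × Option α) ℂ))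
    (hF : F ∈ flipAlg α) (b b' : Option α) : blk F b b' ∈ coneAlg α := by
  obtain ⟨-, y, hy⟩ := hF
  refine ⟨y b b', fun t ht => ?_⟩
  ext k l
  simp only [blk_apply, hy t ht, Matrix.kroneckerMap_apply, Matrix.one_apply, ite_mul, one_mul, zero_mul, Matrix.smul_apply, smul_eq_mul, mul_ite, mul_one, mul_zero]

/-- `Wf` as a matrix over the cone algebra -/
noncomputable def Wm (x : Matrix α α ℂ) : Matrix (Option α) (Option α) (coneAlg α) :=
  Matrix.of fun b b' => ⟨Wf x b b', Wf_mem x b b'⟩

/-- the blocks of `F` as a matrix over the cone algebra -/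
noncomputable def Bm (F : flipAlg α) : Matrix (Option α) (Option α) (coneAlg α) :=
  Matrix.of fun b b' => ⟨blk F b b', blk_mem F F.2 b b'⟩

/-- the matrix of `F` near `0` -/
noncomputable def xm (F : flipAlg α) : Matrix α α ℂ :=
  (((F : C(unitInterval, Matrix (α × Option α) (α × Option α) ℂ)) 0).submatrix
    (fun k => (k, none)) (fun l => (l, none)))

/-- the scalar path `(μ² - μ) x` -/
noncomputable def Nf (x : Matrix α α ℂ) : coneAlg α :=
  ⟨⟨fun t => (cutMu t * cutMu t - cutMu t) • x,
    (((map_continuous cutMu).mul (map_continuous cutMu)).sub (map_continuous cutMu)).smul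
      continuous_const⟩, ⟨0, fun t ht => by simp [cutMu_right t ht]⟩⟩

theorem coneAlg_ext {X Y : coneAlg α}
    (h : ∀ t, (X : C(unitInterval, Matrix α α ℂ)) t = (Y : C(unitInterval, Matrix α α ℂ)) t) :
    X = Y := Subtype.ext (ContinuousMap.ext h)

theorem coe_sum_apply {ι : Type*} (s : Finset ι) (f : ι → coneAlg α) (t : unitInterval) :
    ((∑ i ∈ s, f i : coneAlg α) : C(unitInterval, Matrix α α ℂ)) t
      = ∑ i ∈ s, ((f i : C(unitInterval, Matrix α α ℂ)) t) := by
  rw [AddSubmonoidClass.coe_finsetSum, ContinuousMap.sum_apply]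

theorem Bm_mul (F F' : flipAlg α) : Bm (F * F') = Bm F * Bm F' := by
  ext1 b b''
  refine coneAlg_ext fun t => ?_
  rw [Matrix.mul_apply, coe_sum_apply]
  ext k l
  rw [Matrix.sum_apply]
  simp only [Bm, Matrix.of_apply, MulMemClass.coe_mul, ContinuousMap.mul_apply,
    Matrix.mul_apply, blk_apply]
  rw [Fintype.sum_prod_type_right]

theorem Bm_add (F F' : flipAlg α) : Bm (F + F') = Bm F + Bm F' := by
  ext1 b b'
  refine coneAlg_ext fun t => ?_
  ext k l
  simp only [Bm, AddMemClass.coe_add, Matrix.of_apply, blk_apply, ContinuousMap.add_apply, Matrix.add_apply, AddMemClass.mk_add_mk]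

theorem Bm_smul (r : ℂ) (F : flipAlg α) : Bm (r • F) = r • Bm F := by
  ext1 b b'
  refine coneAlg_ext fun t => ?_
  ext k l
  simp only [Bm, SetLike.val_smul, Matrix.of_apply, blk_apply, ContinuousMap.coe_smul, Pi.smul_apply, Matrix.smul_apply, smul_eq_mul, SetLike.mk_smul_mk]

theorem Bm_star (F : flipAlg α) : Bm (star F) = (Bm F).conjTranspose := by
  ext1 b b'
  refine coneAlg_ext fun t => ?_
  ext k l
  simp only [Bm, StarMemClass.coe_star, Matrix.of_apply, blk_apply, ContinuousMap.star_apply, Matrix.star_apply, RCLike.star_def, Matrix.conjTranspose_apply]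

theorem Bm_one : Bm (1 : flipAlg α) = 1 := by
  ext1 b b'
  refine coneAlg_ext fun t => ?_
  ext k l
  by_cases h : b = b'
  · subst h; simp [Bm, Matrix.one_apply]
  · simp only [Bm, OneMemClass.coe_one, Matrix.of_apply, blk_apply, ContinuousMap.one_apply, ne_eq, Prod.mk.injEq, h, and_false, not_false_eq_true, Matrix.one_apply_ne, ZeroMemClass.coe_zero, ContinuousMap.zero_apply, Matrix.zero_apply]

theorem xm_mul (F F' : flipAlg α) : xm (F * F') = xm F * xm F' := by
  obtain ⟨⟨x, hx⟩, -⟩ := F.2
  obtain ⟨⟨x', hx'⟩, -⟩ := F'.2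
  have h1 := hx 0 (by norm_num)
  have h2 := hx' 0 (by norm_num)
  have e : ((F * F' : flipAlg α) : C(unitInterval, Matrix (α × Option α) (α × Option α) ℂ)) 0
      = flipMat (x * x') := by
    rw [flipMat_mul, ← h1, ← h2]; rfl
  unfold xm
  rw [e, h1, h2]
  ext k l
  simp only [flipMat, Matrix.mul_apply, Matrix.submatrix_apply, Matrix.of_apply, Option.elim_none]

theorem xm_add (F F' : flipAlg α) : xm (F + F') = xm F + xm F' := rfl

theorem xm_smul (r : ℂ) (F : flipAlg α) : xm (r • F) = r • xm F := rfl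

theorem xm_star (F : flipAlg α) : xm (star F) = star (xm F) := rfl

theorem xm_one : xm (1 : flipAlg α) = 1 := by
  ext k l
  simp only [xm, OneMemClass.coe_one, ContinuousMap.one_apply, Matrix.submatrix_apply, Matrix.one_apply, Prod.mk.injEq, and_true]

theorem Wm_add (x x' : Matrix α α ℂ) : Wm (x + x') = Wm x + Wm x' := by
  ext1 b b'
  refine coneAlg_ext fun t => ?_
  rcases b with _ | k <;> rcases b' with _ | l <;> simp [Wm, Wf, add_smul]

theorem Wm_smul (r : ℂ) (x : Matrix α α ℂ) : Wm (r • x) = r • Wm x := by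
  ext1 b b'
  refine coneAlg_ext fun t => ?_
  rcases b with _ | k <;> rcases b' with _ | l <;> simp [Wm, Wf, smul_smul, mul_comm]

theorem Wm_star (x : Matrix α α ℂ) : Wm (star x) = (Wm x).conjTranspose := by
  ext1 b b'
  refine coneAlg_ext fun t => ?_
  have := cutMu_star t
  rcases b with _ | k <;> rcases b' with _ | l <;>
    simp_all [Wm, Wf, Matrix.star_apply]

theorem Wm_mul (x x' : Matrix α α ℂ) :
    Wm x * Wm x' = Wm (x * x') + Matrix.single none none (Nf (x * x')) := by
  ext1 b b''
  refine coneAlg_ext fun t => ?_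
  rw [Matrix.mul_apply, coe_sum_apply, Fintype.sum_option]
  rcases b with _ | k <;> rcases b'' with _ | l
  · simp only [Wm, Wf, Matrix.of_apply, MulMemClass.mk_mul_mk, ContinuousMap.mul_apply, ContinuousMap.coe_mk, Algebra.mul_smul_comm, Algebra.smul_mul_assoc, smul_smul, mul_zero, ContinuousMap.zero_apply, Finset.sum_const_zero, add_zero, Nf, Matrix.add_apply, Matrix.single_apply_same, AddMemClass.coe_add, ContinuousMap.add_apply, ← add_smul, add_sub_cancel]
  · simp only [Wm, Wf, Matrix.of_apply, MulMemClass.mk_mul_mk, mul_zero, ContinuousMap.zero_apply, zero_mul, Finset.sum_const_zero, add_zero, Matrix.add_apply, reduceCtorEq, and_false, not_false_eq_true, Matrix.single_apply_of_ne]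
  · simp only [Wm, Wf, Matrix.of_apply, MulMemClass.mk_mul_mk, zero_mul, ContinuousMap.zero_apply, mul_zero, Finset.sum_const_zero, add_zero, Matrix.add_apply, reduceCtorEq, and_true, not_false_eq_true, Matrix.single_apply_of_ne]
  · simp only [Wm, Wf, Matrix.of_apply, MulMemClass.mk_mul_mk, mul_zero, ContinuousMap.zero_apply, ContinuousMap.mul_apply, ContinuousMap.const_apply, Algebra.mul_smul_comm, mul_one, smul_smul, mul_comm, zero_add, Matrix.mul_apply, Finset.sum_smul, Matrix.add_apply, reduceCtorEq, and_self, not_false_eq_true, Matrix.single_apply_of_ne, add_zero]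

/-- the difference -/
noncomputable def Em (F : flipAlg α) : Matrix (Option α) (Option α) (coneAlg α) :=
  Bm F - Wm (xm F)

theorem Em_left (F : flipAlg α) (b b' : Option α) (t : unitInterval) (ht : (t : ℝ) ≤ 1 / 3) :
    ((Em F b b' : coneAlg α) : C(unitInterval, Matrix α α ℂ)) t = 0 := by
  obtain ⟨⟨x, hx⟩, -⟩ := F.2
  have hx0 : xm F = x := by
    ext k l
    simp [xm, hx 0 (by norm_num), flipMat]
  have h : ((Bm F b b' : coneAlg α) : C(unitInterval, Matrix α α ℂ)) t
      = ((Wm x b b' : coneAlg α) : C(unitInterval, Matrix α α ℂ)) t := by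
    ext k l
    have e : ((Bm F b b' : coneAlg α) : C(unitInterval, Matrix α α ℂ)) t k l
        = flipMat x (k, b) (l, b') := by
      rw [← hx t ht]; rfl
    rw [e]
    rcases b with _ | k' <;> rcases b' with _ | l'
    · simp [Wm, Wf, flipMat, cutMu_left t ht]
    · simp only [flipMat, Matrix.of_apply, Option.elim_some, Option.elim_none, Wm, Wf, ContinuousMap.zero_apply, Matrix.zero_apply]
    · simp only [flipMat, Matrix.of_apply, Option.elim_none, Option.elim_some, Wm, Wf, ContinuousMap.zero_apply, Matrix.zero_apply]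
    · simp only [flipMat, Matrix.of_apply, Option.elim_some, Wm, Wf, ContinuousMap.const_apply, Matrix.smul_apply, Matrix.one_apply, smul_eq_mul, mul_ite, mul_one, mul_zero]
  simp only [Em, Matrix.sub_apply, AddSubgroupClass.coe_sub, ContinuousMap.sub_apply, hx0, h,
    sub_self]

theorem aux_ring {R : Type*} [Ring R] (B B' W W' WW N : R) (h : W * W' = WW + N) :
    B * B' - WW = N + W * (B' - W') + (B - W) * W' + (B - W) * (B' - W') := by
  have e : N = W * W' - WW := by rw [h]; abel
  rw [e]; noncomm_ring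

theorem Em_mul (F F' : flipAlg α) :
    Em (F * F') = Matrix.single none none (Nf (xm F * xm F'))
      + Wm (xm F) * Em F' + Em F * Wm (xm F') + Em F * Em F' := by
  unfold Em
  rw [Bm_mul, xm_mul]
  exact aux_ring (Bm F) (Bm F') (Wm (xm F)) (Wm (xm F')) (Wm (xm F * xm F')) _
    (Wm_mul (xm F) (xm F'))

end Basics

section Main

variable {G : Type u} [CStarAlgebra G] {α : Type} [Fintype α] [DecidableEq α]
  (C : ConeData α G)

/-- the row vector `(1, u)` -/
def ConeData.c : Option α → G
  | none => 1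
  | some k => C.u k

/-- `∑ c_a Γ(M_ab) c_b*` -/
noncomputable def ConeData.T (M : Matrix (Option α) (Option α) (coneAlg α)) : G :=
  ∑ a, ∑ b, C.c a * C.Γ (M a b) * star (C.c b)

/-- `Γ (μ x)` -/
noncomputable def ConeData.P (x : Matrix α α ℂ) : G := C.Γ (Wm x none none)

namespace ConeData

theorem T_add (M M' : Matrix (Option α) (Option α) (coneAlg α)) :
    C.T (M + M') = C.T M + C.T M' := by
  simp only [T, Matrix.add_apply, map_add, mul_add, add_mul, Finset.sum_add_distrib]

theorem T_smul (r : ℂ) (M : Matrix (Option α) (Option α) (coneAlg α)) :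
    C.T (r • M) = r • C.T M := by
  simp only [T, Matrix.smul_apply, map_smul, mul_smul_comm, smul_mul_assoc, Finset.smul_sum]

theorem T_star (M : Matrix (Option α) (Option α) (coneAlg α)) :
    C.T M.conjTranspose = star (C.T M) := by
  simp only [T, star_sum, star_mul, star_star, Matrix.conjTranspose_apply, map_star]
  rw [Finset.sum_comm]
  simp only [mul_assoc]

theorem T_single (N : coneAlg α) : C.T (Matrix.single none none N) = C.Γ N := by
  have : ∀ a b : Option α, C.c a * C.Γ (Matrix.single none none N a b) * star (C.c b)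
      = if a = none then (if b = none then C.Γ N else 0) else 0 := by
    intro a b
    rcases a with _ | a <;> rcases b with _ | b <;> simp [c]
  simp only [T, this]
  simp only [Finset.sum_ite_irrel, Finset.sum_ite_eq', Finset.mem_univ, ↓reduceIte, Finset.sum_const_zero]

theorem P_c (x : Matrix α α ℂ) (b : Option α) :
    C.P x * C.c b = ∑ a, C.c a * C.Γ (Wm x a b) := by
  rcases b with _ | k
  · rw [Fintype.sum_option]
    have : ∀ a : α, C.c (some a) * C.Γ (Wm x (some a) none) = 0 := by
      intro a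
      have e : Wm x (some a) none = 0 := coneAlg_ext fun t => by simp only [Wm, Wf, Matrix.of_apply, ContinuousMap.zero_apply, ZeroMemClass.coe_zero]
      rw [e, map_zero, mul_zero]
    rw [Finset.sum_eq_zero fun a _ => this a]
    simp [c, P]
  · rw [Fintype.sum_option]
    have e0 : Wm x none (some k) = 0 := coneAlg_ext fun t => by simp only [Wm, Wf, Matrix.of_apply, ContinuousMap.zero_apply, ZeroMemClass.coe_zero]
    rw [e0, map_zero, mul_zero, zero_add]
    change C.Γ (Wm x none none) * C.u k = _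
    rw [C.Γu]
    refine Finset.sum_congr rfl fun a _ => ?_
    have e1 : Wm x (some a) (some k) = (x a k) • (1 : coneAlg α) :=
      coneAlg_ext fun t => by simp only [Wm, Wf, Matrix.of_apply, ContinuousMap.const_apply, SetLike.val_smul, OneMemClass.coe_one, ContinuousMap.coe_smul, ContinuousMap.coe_one, Pi.smul_apply, Pi.one_apply]
    have e2 : (((Wm x none none : coneAlg α) : C(unitInterval, Matrix α α ℂ)) 0) a k = x a k := by
      simp only [Wm, Wf, Matrix.of_apply, ContinuousMap.coe_mk, cutMu_left 0 (by norm_num), Matrix.smul_apply, smul_eq_mul, one_mul]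
    rw [e1, e2, map_smul, map_one]
    simp [c]

theorem P_T (x : Matrix α α ℂ) (M : Matrix (Option α) (Option α) (coneAlg α)) :
    C.P x * C.T M = C.T (Wm x * M) := by
  calc C.P x * C.T M
      = ∑ a, ∑ b, (C.P x * C.c a) * C.Γ (M a b) * star (C.c b) := by
        rw [T, Finset.mul_sum]
        refine Finset.sum_congr rfl fun a _ => ?_
        rw [Finset.mul_sum]
        refine Finset.sum_congr rfl fun b _ => ?_
        simp only [mul_assoc]
    _ = ∑ a, ∑ b, ∑ a', C.c a' * (C.Γ (Wm x a' a) * C.Γ (M a b)) * star (C.c b) := by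
        refine Finset.sum_congr rfl fun a _ => Finset.sum_congr rfl fun b _ => ?_
        rw [C.P_c, Finset.sum_mul, Finset.sum_mul]
        refine Finset.sum_congr rfl fun a' _ => ?_
        simp only [mul_assoc]
    _ = ∑ a', ∑ b, ∑ a, C.c a' * (C.Γ (Wm x a' a) * C.Γ (M a b)) * star (C.c b) := by
        rw [Finset.sum_comm]
        rw [Finset.sum_comm]
        rw [Finset.sum_congr rfl fun a _ => Finset.sum_comm]
        rw [Finset.sum_comm]
        exact Finset.sum_congr rfl fun a' _ => Finset.sum_comm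
    _ = C.T (Wm x * M) := by
        rw [T]
        refine Finset.sum_congr rfl fun a' _ => Finset.sum_congr rfl fun b _ => ?_
        rw [Matrix.mul_apply, map_sum, Finset.mul_sum, Finset.sum_mul]
        simp only [map_mul]

theorem T_P (x : Matrix α α ℂ) (M : Matrix (Option α) (Option α) (coneAlg α)) :
    C.T M * C.P x = C.T (M * Wm x) := by
  have h := congrArg star (C.P_T (star x) M.conjTranspose)
  rw [star_mul, T_star, star_star] at h
  have e : star (C.P (star x)) = C.P x := by
    rw [P, Wm_star, Matrix.conjTranspose_apply, map_star, star_star]; rfl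
  rw [e] at h
  rw [h, ← T_star, Matrix.conjTranspose_mul, Wm_star, Matrix.conjTranspose_conjTranspose,
    Matrix.conjTranspose_conjTranspose]

theorem Γ_c_c_Γ (E E' : coneAlg α)
    (hE : ∀ t : unitInterval, (t : ℝ) ≤ 1 / 3 → (E : C(unitInterval, Matrix α α ℂ)) t = 0)
    (hE' : ∀ t : unitInterval, (t : ℝ) ≤ 1 / 3 → (E' : C(unitInterval, Matrix α α ℂ)) t = 0)
    (b b' : Option α) :
    C.Γ E * (star (C.c b) * C.c b') * C.Γ E' = if b = b' then C.Γ (E * E') else 0 := by
  have h1 : ∀ k, C.Γ E * C.u k = 0 := by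
    intro k
    rw [C.Γu, hE 0 (by norm_num)]
    simp only [Matrix.zero_apply, zero_smul, Finset.sum_const_zero]
  have h2 : ∀ k, star (C.u k) * C.Γ E' = 0 := by
    intro k
    have h3 : C.Γ (star E') * C.u k = 0 := by
      rw [C.Γu]
      have : ((star E' : coneAlg α) : C(unitInterval, Matrix α α ℂ)) 0 = 0 := by
        change star ((E' : C(unitInterval, Matrix α α ℂ)) 0) = 0
        rw [hE' 0 (by norm_num), star_zero]
      rw [this]
      simp only [Matrix.zero_apply, zero_smul, Finset.sum_const_zero]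
    have := congrArg star h3
    simpa only [star_mul, ← map_star, star_star, star_zero] using this
  rcases b with _ | k <;> rcases b' with _ | l
  · simp [c]
  · simp only [c, star_one, one_mul, reduceCtorEq, if_false, h1, zero_mul]
  · simp only [c, mul_one, reduceCtorEq, if_false]
    rw [mul_assoc, h2, mul_zero]
  · simp only [c, C.uu, Option.some.injEq]
    by_cases h : k = l
    · simp only [h, if_true]
      rw [← map_mul, ← map_mul]
      congr 1
      refine coneAlg_ext fun t => ?_
      simp only [MulMemClass.coe_mul, ContinuousMap.mul_apply]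
      by_cases ht : (t : ℝ) ≤ 1 / 3
      · rw [hE t ht]; simp
      · rw [C.m_eq t (by linarith only [ht]), mul_one]
    · simp [h]

theorem T_T (E E' : Matrix (Option α) (Option α) (coneAlg α))
    (hE : ∀ a b, ∀ t : unitInterval, (t : ℝ) ≤ 1 / 3 →
      (E a b : C(unitInterval, Matrix α α ℂ)) t = 0)
    (hE' : ∀ a b, ∀ t : unitInterval, (t : ℝ) ≤ 1 / 3 →
      (E' a b : C(unitInterval, Matrix α α ℂ)) t = 0) :
    C.T E * C.T E' = C.T (E * E') := by
  have key : ∀ a b a' b', (C.c a * C.Γ (E a b) * star (C.c b)) *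
      (C.c a' * C.Γ (E' a' b') * star (C.c b'))
      = if b = a' then C.c a * C.Γ (E a b * E' a' b') * star (C.c b') else 0 := by
    intro a b a' b'
    calc (C.c a * C.Γ (E a b) * star (C.c b)) * (C.c a' * C.Γ (E' a' b') * star (C.c b'))
        = C.c a * (C.Γ (E a b) * (star (C.c b) * C.c a') * C.Γ (E' a' b')) * star (C.c b') := by
          simp only [mul_assoc]
      _ = _ := by
          rw [C.Γ_c_c_Γ (E a b) (E' a' b') (hE a b) (hE' a' b')]
          split_ifs <;> simp
  calc C.T E * C.T E'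
      = ∑ a, ∑ b, ∑ a', ∑ b', (C.c a * C.Γ (E a b) * star (C.c b)) *
          (C.c a' * C.Γ (E' a' b') * star (C.c b')) := by
        rw [T, T, Finset.sum_mul]
        refine Finset.sum_congr rfl fun a _ => ?_
        rw [Finset.sum_mul]
        refine Finset.sum_congr rfl fun b _ => ?_
        rw [Finset.mul_sum]
        refine Finset.sum_congr rfl fun a' _ => ?_
        rw [Finset.mul_sum]
    _ = ∑ a, ∑ b, ∑ b', C.c a * C.Γ (E a b * E' b b') * star (C.c b') := by
        refine Finset.sum_congr rfl fun a _ => Finset.sum_congr rfl fun b _ => ?_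
        rw [Finset.sum_comm]
        refine Finset.sum_congr rfl fun b' _ => ?_
        simp only [key, Finset.sum_ite_eq, Finset.mem_univ, if_true]
    _ = C.T (E * E') := by
        rw [T]
        refine Finset.sum_congr rfl fun a _ => ?_
        rw [Finset.sum_comm]
        refine Finset.sum_congr rfl fun b' _ => ?_
        rw [Matrix.mul_apply, map_sum, Finset.mul_sum, Finset.sum_mul]

/-- the map of the theorem -/
noncomputable def Φ (F : flipAlg α) : G := C.P (xm F) + C.T (Em F)

theorem P_add (x x' : Matrix α α ℂ) : C.P (x + x') = C.P x + C.P x' := by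
  rw [P, Wm_add, Matrix.add_apply, map_add]; rfl

theorem P_smul (r : ℂ) (x : Matrix α α ℂ) : C.P (r • x) = r • C.P x := by
  rw [P, Wm_smul, Matrix.smul_apply, map_smul]; rfl

theorem P_mul (x x' : Matrix α α ℂ) : C.P x * C.P x' = C.P (x * x') + C.Γ (Nf (x * x')) := by
  rw [P, P, P, ← map_mul, ← map_add]
  congr 1
  refine coneAlg_ext fun t => ?_
  simp only [Wm, Wf, Matrix.of_apply, MulMemClass.mk_mul_mk, ContinuousMap.mul_apply, ContinuousMap.coe_mk, Algebra.mul_smul_comm, Algebra.smul_mul_assoc, smul_smul, Nf, AddMemClass.coe_add, ContinuousMap.add_apply, ← add_smul, add_sub_cancel]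

theorem P_star (x : Matrix α α ℂ) : C.P (star x) = star (C.P x) := by
  rw [P, Wm_star, Matrix.conjTranspose_apply, map_star]; rfl

theorem Em_add (F F' : flipAlg α) : Em (F + F') = Em F + Em F' := by
  unfold Em; rw [Bm_add, xm_add, Wm_add]; abel

theorem Em_smul (r : ℂ) (F : flipAlg α) : Em (r • F) = r • Em F := by
  unfold Em; rw [Bm_smul, xm_smul, Wm_smul]
  exact (smul_sub r (Bm F) (Wm (xm F))).symm

theorem Em_star (F : flipAlg α) : Em (star F) = (Em F).conjTranspose := by
  unfold Em; rw [Bm_star, xm_star, Wm_star]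
  exact (Matrix.conjTranspose_sub (Bm F) (Wm (xm F))).symm

theorem Φ_add (F F' : flipAlg α) : C.Φ (F + F') = C.Φ F + C.Φ F' := by
  unfold Φ; rw [xm_add, P_add, Em_add, T_add]; abel

theorem Φ_smul (r : ℂ) (F : flipAlg α) : C.Φ (r • F) = r • C.Φ F := by
  unfold Φ; rw [xm_smul, P_smul, Em_smul, T_smul, smul_add]

theorem Φ_star (F : flipAlg α) : C.Φ (star F) = star (C.Φ F) := by
  unfold Φ; rw [xm_star, P_star, Em_star, T_star, star_add]

theorem Φ_mul (F F' : flipAlg α) : C.Φ (F * F') = C.Φ F * C.Φ F' := by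
  unfold Φ
  rw [Em_mul, xm_mul, T_add, T_add, T_add, T_single, ← P_T, ← T_P,
    ← C.T_T (Em F) (Em F') (Em_left F) (Em_left F'), mul_add, add_mul, add_mul, P_mul]
  abel

theorem Φ_one : C.Φ 1 = 1 := by
  have e : Em (1 : flipAlg α) = Matrix.single none none (1 - Wm 1 none none : coneAlg α) := by
    unfold Em
    rw [Bm_one, xm_one]
    ext1 b b'
    refine coneAlg_ext fun t => ?_
    rcases b with _ | k <;> rcases b' with _ | l
    · simp only [Matrix.sub_apply, Matrix.one_apply_eq, AddSubgroupClass.coe_sub, OneMemClass.coe_one, ContinuousMap.sub_apply, ContinuousMap.one_apply, Matrix.single_apply_same]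
    · simp only [Wm, Wf, Matrix.sub_apply, ne_eq, reduceCtorEq, not_false_eq_true, Matrix.one_apply_ne, Matrix.of_apply, AddSubgroupClass.coe_sub, ZeroMemClass.coe_zero, sub_self, ContinuousMap.zero_apply, and_false, Matrix.single_apply_of_ne]
    · simp only [Wm, Wf, Matrix.sub_apply, ne_eq, reduceCtorEq, not_false_eq_true, Matrix.one_apply_ne, Matrix.of_apply, AddSubgroupClass.coe_sub, ZeroMemClass.coe_zero, sub_self, ContinuousMap.zero_apply, and_true, Matrix.single_apply_of_ne]
    · by_cases h : k = l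
      · subst h; simp only [Wm, Wf, Matrix.sub_apply, Matrix.one_apply_eq, Matrix.of_apply, one_smul, ContinuousMap.const_one, AddSubgroupClass.coe_sub, OneMemClass.coe_one, sub_self, ContinuousMap.zero_apply, reduceCtorEq, and_self, not_false_eq_true, Matrix.single_apply_of_ne, ZeroMemClass.coe_zero]
      · simp only [Wm, Wf, Matrix.sub_apply, ne_eq, Option.some.injEq, h, not_false_eq_true, Matrix.one_apply_ne, Matrix.of_apply, zero_smul, ContinuousMap.const_zero, AddSubgroupClass.coe_sub, ZeroMemClass.coe_zero, sub_self, ContinuousMap.zero_apply, reduceCtorEq, and_self, Matrix.single_apply_of_ne]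
  unfold Φ
  rw [e, T_single, xm_one, P, ← map_add]
  exact (congrArg C.Γ (add_sub_cancel _ _)).trans (map_one _)

end ConeData

theorem glueB [Nonempty α] (C : ConeData α G) : Nonempty (flipAlg α →⋆ₐ[ℂ] G) :=
  ⟨{ toFun := C.Φ
     map_one' := C.Φ_one
     map_mul' := C.Φ_mul
     map_zero' := by
      have := C.Φ_smul 0 0
      simpa using this
     map_add' := C.Φ_add
     commutes' := fun r => by
      rw [Algebra.algebraMap_eq_smul_one, C.Φ_smul, C.Φ_one, ← Algebra.algebraMap_eq_smul_one]
     map_star' := C.Φ_star }⟩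

end Main

end Vale.Agent.P101
end

section

/-! Restriction of actions to invariant closed subalgebras, and the conjugacy theorem for them. -/

open Filter Topology
open scoped TensorProduct

namespace Vale.Agent.P095R

universe u w

open Vale.Agent.P095 Vale.Agent.P095.ZS Vale.Agent.P101

section res

variable {M : Type u} [CStarAlgebra M] {G : Type w} [Group G]

/-- Restriction of an action to an invariant subalgebra. -/
noncomputable def resAct (γ : G →* (M ≃⋆ₐ[ℂ] M)) (E : StarSubalgebra ℂ M)
    (hE : ∀ g, ∀ x ∈ E, γ g x ∈ E) : G →* (E ≃⋆ₐ[ℂ] E) where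
  toFun g :=
    { toFun := fun x => ⟨γ g x, hE g x x.2⟩
      invFun := fun x => ⟨γ g⁻¹ x, hE g⁻¹ x x.2⟩
      left_inv := fun x => by
        refine Subtype.ext ?_
        show γ g⁻¹ (γ g (x : M)) = x
        have h : (γ g⁻¹ * γ g) (x : M) = x := by rw [← map_mul, inv_mul_cancel, map_one]; rfl
        exact h
      right_inv := fun x => by
        refine Subtype.ext ?_
        show γ g (γ g⁻¹ (x : M)) = x
        have h : (γ g * γ g⁻¹) (x : M) = x := by rw [← map_mul, mul_inv_cancel, map_one]; rfl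
        exact h
      map_mul' := fun x y => Subtype.ext (map_mul (γ g) (x : M) (y : M))
      map_add' := fun x y => Subtype.ext (map_add (γ g) (x : M) (y : M))
      map_smul' := fun c x => Subtype.ext (map_smul (γ g) c (x : M))
      map_star' := fun x => Subtype.ext (map_star (γ g) (x : M)) }
  map_one' := by
    refine StarAlgEquiv.ext fun x => Subtype.ext ?_
    show γ 1 (x : M) = x
    rw [map_one]; rfl
  map_mul' g h := by
    refine StarAlgEquiv.ext fun x => Subtype.ext ?_
    show γ (g * h) (x : M) = γ g (γ h (x : M))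
    rw [map_mul]; rfl

theorem noCharOn_res (γ : G →* (M ≃⋆ₐ[ℂ] M)) (E : StarSubalgebra ℂ M) [IsClosed (E : Set M)]
    (hE : ∀ g, ∀ x ∈ E, γ g x ∈ E) (m : ℕ) (R : ℝ) (h : NoCharOn γ m R (E : Set M)) :
    NoCharOn (resAct γ E hE) m R Set.univ := by
  classical
  intro Y S ε hε _
  obtain ⟨x, h0, h1, h2, h3, h4⟩ := h (Y.image (fun y : E => (y : M))) S ε hε (by
    intro y hy
    rw [Finset.mem_image] at hy
    obtain ⟨z, -, rfl⟩ := hy
    exact z.2)
  refine ⟨fun q i => ⟨x q i, h0 q i⟩, fun q i => Set.mem_univ _, fun q i => h1 q i, ?_, ?_, ?_⟩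
  · intro q i y hy
    exact h2 q i y (Finset.mem_image.2 ⟨y, hy, rfl⟩)
  · intro q i g hg
    exact h3 q i g hg
  · have e : (((∑ i, (⟨x 0 i, h0 0 i⟩ : E) * (⟨x 1 i, h0 1 i⟩ * ⟨x 2 i, h0 2 i⟩ -
        ⟨x 2 i, h0 2 i⟩ * ⟨x 1 i, h0 1 i⟩) * ⟨x 3 i, h0 3 i⟩) - 1 : E) : M) =
        (∑ i, x 0 i * (x 1 i * x 2 i - x 2 i * x 1 i) * x 3 i) - 1 := by
      push_cast
      rfl
    show ‖(((∑ i, (⟨x 0 i, h0 0 i⟩ : E) * (⟨x 1 i, h0 1 i⟩ * ⟨x 2 i, h0 2 i⟩ -
        ⟨x 2 i, h0 2 i⟩ * ⟨x 1 i, h0 1 i⟩) * ⟨x 3 i, h0 3 i⟩) - 1 : E) : M)‖ ≤ ε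
    rw [e]
    exact h4

end res

end Vale.Agent.P095R
end
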