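import Vale.Agent.P095.Bdl.B4
import Vale.Agent.P095.Bdl.B3

set_option linter.unusedSectionVars false
set_option linter.unusedVariables false
set_option linter.unusedSimpArgs false

namespace Vale.Agent.P095

open Finset ComplexConjugate

section
variable {B : Type*} [Ring B] [StarRing B] [Algebra ℂ B] [StarModule ℂ B] {σ : B →ₗ[ℂ] ℂ}

namespace CommAux

/-- `c + e s`, a unitary when `s` is a symmetry, `c` is real, `e` is imaginary and
`c ^ 2 - e ^ 2 = 1`. -/
noncomputable def uu (c e : ℂ) (s : B) : B := c • (1 : B) + e • s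

structure Par (c e : ℂ) : Prop where
  rel : c ^ 2 - e ^ 2 = 1
  hc : conj c = c
  he : conj e = -e

variable {c e : ℂ} {s t : B}

lemma star_uu (hp : Par c e) (hs : star s = s) : star (uu c e s) = uu c (-e) s := by
  unfold uu
  rw [star_add, star_smul, star_smul, star_one, hs, RCLike.star_def, hp.hc, hp.he]

lemma uu_mul (hp : Par c e) (hs : s * s = 1) : uu c e s * uu c (-e) s = 1 := by
  unfold uu
  simp only [add_mul, mul_add, smul_mul_assoc, mul_smul_comm, smul_smul, one_mul, mul_one, hs]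
  have h : (c ^ 2 - e ^ 2) • (1 : B) = 1 := by rw [hp.rel, one_smul]
  refine Eq.trans ?_ h
  module

lemma uu_mul' (hp : Par c e) (hs : s * s = 1) : uu c (-e) s * uu c e s = 1 := by
  unfold uu
  simp only [add_mul, mul_add, smul_mul_assoc, mul_smul_comm, smul_smul, one_mul, mul_one, hs]
  have h : (c ^ 2 - e ^ 2) • (1 : B) = 1 := by rw [hp.rel, one_smul]
  refine Eq.trans ?_ h
  module

lemma uu_unitary (hp : Par c e) (hs : s * s = 1) (hsa : star s = s) : uu c e s ∈ unitary B := by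
  rw [Unitary.mem_iff, star_uu hp hsa]
  exact ⟨uu_mul' hp hs, uu_mul hp hs⟩

lemma commute_uu {z : B} (h : Commute z s) : Commute z (uu c e s) := by
  unfold uu
  exact ((Commute.one_right z).smul_right c).add_right (h.smul_right e)

lemma key (h : IsTracialState σ) (hp : Par c e) {X : B} (hs : Commute X s) (ht : Commute X t)
    (hss : s * s = 1) (htt : t * t = 1) :
    σ (uu c (-e) t * (uu c (-e) s * (uu c e t * (uu c e s * X)))) =
      σ X + e ^ 4 * (σ (t * (s * (t * (s * X)))) - σ X) := by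
  have s2 : ∀ z : B, s * (s * z) = z := fun z => by rw [← mul_assoc, hss, one_mul]
  have t2 : ∀ z : B, t * (t * z) = z := fun z => by rw [← mul_assoc, htt, one_mul]
  have h1 : σ (s * (t * X)) = σ (t * (s * X)) := by
    rw [h.map_mul_comm s, mul_assoc, hs.eq]
  have h2 : σ (t * (s * (t * X))) = σ (s * X) := by
    rw [h.map_mul_comm t, mul_assoc, mul_assoc, ht.eq, t2]
  have h3 : σ (s * (t * (s * X))) = σ (t * X) := by
    rw [h.map_mul_comm s, mul_assoc, mul_assoc, hs.eq, s2]
  have hrel := hp.rel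
  simp only [uu, add_mul, mul_add, smul_mul_assoc, mul_smul_comm, smul_smul, one_mul, mul_one,
    map_add, map_smul, smul_eq_mul, s2, t2, h1, h2, h3]
  linear_combination (c ^ 2 - e ^ 2 + 1) * σ X * hrel


section lists

variable {ι : Type*} {S T : ι → B}

noncomputable def UU (c e : ℂ) (S : ι → B) (l : List ι) : B := (l.map (fun r => uu c e (S r))).prod

lemma UU_unitary (hp : Par c e) (hss : ∀ i, S i * S i = 1) (hsa : ∀ i, star (S i) = S i)
    (l : List ι) : UU c e S l ∈ unitary B := by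
  apply Submonoid.list_prod_mem
  intro z hz
  rw [List.mem_map] at hz
  obtain ⟨i, _, rfl⟩ := hz
  exact uu_unitary hp (hss i) (hsa i)

lemma commute_UU {z : B} {l : List ι} (h : ∀ i ∈ l, Commute z (S i)) : Commute z (UU c e S l) := by
  apply Commute.list_prod_right
  intro w hw
  rw [List.mem_map] at hw
  obtain ⟨i, hi, rfl⟩ := hw
  exact commute_uu (h i hi)

lemma UU_cons (a : ι) (l : List ι) : UU c e S (a :: l) = uu c e (S a) * UU c e S l := by
  simp [UU]

/-- the group commutator -/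
noncomputable def WW (c e : ℂ) (S T : ι → B) (l : List ι) : B :=
  star (UU c e T l) * (star (UU c e S l) * (UU c e T l * UU c e S l))

lemma trace_WW (h : IsTracialState σ) (hp : Par c e)
    (hss : ∀ i, S i * S i = 1) (hsa : ∀ i, star (S i) = S i)
    (htt : ∀ i, T i * T i = 1) (hta : ∀ i, star (T i) = T i)
    (hS : ∀ i j, Commute (S i) (S j)) (hT : ∀ i j, Commute (T i) (T j))
    (hST : ∀ i j, i ≠ j → Commute (S i) (T j)) (l : List ι) (hl : l.Nodup) :
    ‖σ (WW c e S T l) - 1‖ ≤ 2 * ‖e‖ ^ 4 * l.length := by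
  induction l with
  | nil => simp [WW, UU, h.map_one]
  | cons a l ih =>
    rw [List.nodup_cons] at hl
    have ih' := ih hl.2
    have hne : ∀ i ∈ l, a ≠ i := fun i hi hai => hl.1 (hai ▸ hi)
    -- commutation of the head with the tail
    have c1 : Commute (S a) (UU c e S l) := commute_UU fun i _ => hS a i
    have c2 : Commute (T a) (UU c e T l) := commute_UU fun i _ => hT a i
    have c3 : Commute (S a) (UU c e T l) := commute_UU fun i hi => hST a i (hne i hi)
    have c4 : Commute (T a) (UU c e S l) :=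
      commute_UU fun i hi => (hST i a (hne i hi).symm).symm
    have c1' : Commute (S a) (star (UU c e S l)) := by
      have := c1.star_star; rwa [hsa] at this
    have c2' : Commute (T a) (star (UU c e T l)) := by
      have := c2.star_star; rwa [hta] at this
    have c3' : Commute (S a) (star (UU c e T l)) := by
      have := c3.star_star; rwa [hsa] at this
    have c4' : Commute (T a) (star (UU c e S l)) := by
      have := c4.star_star; rwa [hta] at this
    have hX1 : Commute (WW c e S T l) (S a) :=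
      (c3'.mul_right (c1'.mul_right (c3.mul_right c1))).symm
    have hX2 : Commute (WW c e S T l) (T a) :=
      (c2'.mul_right (c4'.mul_right (c2.mul_right c4))).symm
    have hU : UU c e S l ∈ unitary B := UU_unitary hp hss hsa l
    have hV : UU c e T l ∈ unitary B := UU_unitary hp htt hta l
    have hW : WW c e S T l ∈ unitary B :=
      mul_mem (Unitary.star_mem hV) (mul_mem (Unitary.star_mem hU) (mul_mem hV hU))
    have hfac : WW c e S T (a :: l) = uu c (-e) (T a) * (uu c (-e) (S a) * (uu c e (T a) *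
        (uu c e (S a) * WW c e S T l))) := by
      have e1 : star (UU c e T l) * uu c (-e) (T a) = uu c (-e) (T a) * star (UU c e T l) :=
        (commute_uu c2'.symm).eq
      have e2 : star (UU c e T l) * uu c (-e) (S a) = uu c (-e) (S a) * star (UU c e T l) :=
        (commute_uu c3'.symm).eq
      have e3 : star (UU c e T l) * uu c e (T a) = uu c e (T a) * star (UU c e T l) :=
        (commute_uu c2'.symm).eq
      have e4 : star (UU c e T l) * uu c e (S a) = uu c e (S a) * star (UU c e T l) :=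
        (commute_uu c3'.symm).eq
      have e5 : star (UU c e S l) * uu c (-e) (S a) = uu c (-e) (S a) * star (UU c e S l) :=
        (commute_uu c1'.symm).eq
      have e6 : star (UU c e S l) * uu c e (T a) = uu c e (T a) * star (UU c e S l) :=
        (commute_uu c4'.symm).eq
      have e7 : star (UU c e S l) * uu c e (S a) = uu c e (S a) * star (UU c e S l) :=
        (commute_uu c1'.symm).eq
      have e8 : UU c e T l * uu c e (S a) = uu c e (S a) * UU c e T l :=
        (commute_uu c3.symm).eq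
      unfold WW
      rw [UU_cons, UU_cons, star_mul, star_mul, star_uu hp (hsa a), star_uu hp (hta a)]
      calc (star (UU c e T l) * uu c (-e) (T a)) * ((star (UU c e S l) * uu c (-e) (S a)) *
            ((uu c e (T a) * UU c e T l) * (uu c e (S a) * UU c e S l)))
          = uu c (-e) (T a) * (star (UU c e T l) * uu c (-e) (S a)) * (star (UU c e S l) *
            uu c e (T a)) * (UU c e T l * uu c e (S a)) * UU c e S l := by
            rw [e1, e5]; simp only [mul_assoc]
        _ = uu c (-e) (T a) * uu c (-e) (S a) * (star (UU c e T l) * uu c e (T a)) *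
            (star (UU c e S l) * uu c e (S a)) * UU c e T l * UU c e S l := by
            rw [e2, e6, e8]; simp only [mul_assoc]
        _ = uu c (-e) (T a) * uu c (-e) (S a) * uu c e (T a) * (star (UU c e T l) * uu c e (S a)) *
            star (UU c e S l) * UU c e T l * UU c e S l := by
            rw [e3, e7]; simp only [mul_assoc]
        _ = _ := by rw [e4]; simp only [mul_assoc]
    rw [hfac, key h hp hX1 hX2 (hss a) (htt a)]
    have b1 : ‖σ (WW c e S T l)‖ ≤ 1 := by
      refine (norm_map_le h _).trans ?_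
      have := nrm_unitary_mul (σ := σ) (Unitary.mem_iff.mp hW).1 1
      rw [mul_one, nrm_one h] at this
      exact this.le
    have b2 : ‖σ (T a * (S a * (T a * (S a * WW c e S T l))))‖ ≤ 1 := by
      refine (norm_map_le h _).trans ?_
      have hs1 : star (S a) * S a = 1 := by rw [hsa, hss]
      have ht1 : star (T a) * T a = 1 := by rw [hta, htt]
      rw [nrm_unitary_mul ht1, nrm_unitary_mul hs1, nrm_unitary_mul ht1, nrm_unitary_mul hs1]
      have := nrm_unitary_mul (σ := σ) (Unitary.mem_iff.mp hW).1 1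
      rw [mul_one, nrm_one h] at this
      exact this.le
    have b3 : ‖e ^ 4 * (σ (T a * (S a * (T a * (S a * WW c e S T l)))) - σ (WW c e S T l))‖ ≤
        ‖e‖ ^ 4 * 2 := by
      rw [norm_mul, norm_pow]
      apply mul_le_mul_of_nonneg_left _ (by (clear * -; positivity))
      exact (norm_sub_le _ _).trans (by linarith only [b1, b2])
    have : σ (WW c e S T l) + e ^ 4 * (σ (T a * (S a * (T a * (S a * WW c e S T l)))) -
        σ (WW c e S T l)) - 1 = (σ (WW c e S T l) - 1) +
        e ^ 4 * (σ (T a * (S a * (T a * (S a * WW c e S T l)))) - σ (WW c e S T l)) := by ring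
    rw [this]
    refine (norm_add_le _ _).trans ?_
    rw [List.length_cons]
    push_cast
    linarith

end lists

/-- For unitaries, the 2-norm of the commutator is controlled by the trace of the group
commutator. -/
lemma nrm_comm_sq_le (h : IsTracialState σ) {U V : B} (hU : U ∈ unitary B) (hV : V ∈ unitary B)
    {δ : ℝ} (hδ : ‖σ (star V * (star U * (V * U))) - 1‖ ≤ δ) :
    nrm σ (U * V - V * U) ^ 2 ≤ 2 * δ := by
  rw [Unitary.mem_iff] at hU hV
  rw [nrm_sq h]
  have e1 : star (U * V - V * U) * (U * V - V * U) =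
      2 - star V * (star U * (V * U)) - star (star V * (star U * (V * U))) := by
    have u1 : ∀ z : B, star U * (U * z) = z := fun z => by rw [← mul_assoc, hU.1, one_mul]
    have v1 : ∀ z : B, star V * (V * z) = z := fun z => by rw [← mul_assoc, hV.1, one_mul]
    simp only [star_sub, star_mul, star_star, sub_mul, mul_sub, mul_assoc, u1, v1, hU.1, hV.1]
    have : (2 : B) = 1 + 1 := by norm_num
    rw [this]
    abel
  have e2 : σ (star (U * V - V * U) * (U * V - V * U)) =
      2 - σ (star V * (star U * (V * U))) - conj (σ (star V * (star U * (V * U)))) := by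
    rw [e1, map_sub, map_sub, h.star_map]
    have : (2 : B) = (2 : ℂ) • (1 : B) := by
      rw [two_smul]; norm_num
    rw [this, map_smul, h.map_one]
    simp only [smul_eq_mul, mul_one]
  rw [e2]
  have e3 : (2 - σ (star V * (star U * (V * U))) - conj (σ (star V * (star U * (V * U))))).re =
      - 2 * (σ (star V * (star U * (V * U))) - 1).re := by
    simp only [Complex.sub_re, Complex.re_ofNat, Complex.conj_re, Complex.one_re, neg_mul]
    ring
  rw [e3]
  have e4 : -(σ (star V * (star U * (V * U))) - 1).re ≤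
      ‖σ (star V * (star U * (V * U))) - 1‖ := by
    have := Complex.abs_re_le_norm (σ (star V * (star U * (V * U))) - 1)
    exact (neg_le_abs _).trans this
  linarith only [hδ, e4]


lemma nrm_comm_star_right (h : IsTracialState σ) (U : B) {V : B} (hV : V ∈ unitary B) :
    nrm σ (U * star V - star V * U) = nrm σ (U * V - V * U) := by
  rw [Unitary.mem_iff] at hV
  have e1 : U * star V - star V * U = star V * (V * U - U * V) * star V := by
    have v1 : ∀ z : B, star V * (V * z) = z := fun z => by rw [← mul_assoc, hV.1, one_mul]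
    simp only [mul_sub, sub_mul, mul_assoc, hV.2, v1, mul_one]
  rw [e1, nrm_mul_unitary h (by rw [star_star, hV.1]), nrm_unitary_mul (by rw [star_star, hV.2]),
    nrm_sub_comm]

lemma nrm_comm_star_left (h : IsTracialState σ) {U : B} (V : B) (hU : U ∈ unitary B) :
    nrm σ (star U * V - V * star U) = nrm σ (U * V - V * U) := by
  rw [nrm_sub_comm, nrm_comm_star_right h V hU, nrm_sub_comm]

lemma nrm_comm_sin_le (h : IsTracialState σ) {U V : B} (hU : U ∈ unitary B)
    (hV : V ∈ unitary B) (w : ℂ) (hw : ‖w‖ ≤ 1 / 2) :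
    nrm σ ((w • (U - star U)) * (w • (V - star V)) - (w • (V - star V)) * (w • (U - star U))) ≤
      nrm σ (U * V - V * U) := by
  have e1 : (w • (U - star U)) * (w • (V - star V)) - (w • (V - star V)) * (w • (U - star U)) =
      (w * w) • (((U * V - V * U) - (U * star V - star V * U)) -
        ((star U * V - V * star U) - (star U * star V - star V * star U))) := by
    simp only [smul_mul_assoc, mul_smul_comm, smul_smul, ← smul_sub]
    congr 1
    noncomm_ring
  rw [e1, nrm_smul h, norm_mul]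
  have a1 := nrm_comm_star_right h U hV
  have a2 := nrm_comm_star_left h V hU
  have a3 := nrm_comm_star_left h (star V) hU
  rw [a1] at a3
  have b1 := nrm_sub_le h ((U * V - V * U) - (U * star V - star V * U))
    ((star U * V - V * star U) - (star U * star V - star V * star U))
  have b2 := nrm_sub_le h (U * V - V * U) (U * star V - star V * U)
  have b3 := nrm_sub_le h (star U * V - V * star U) (star U * star V - star V * star U)
  have n0 : 0 ≤ nrm σ (U * V - V * U) := nrm_nonneg _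
  have hw2 : ‖w‖ * ‖w‖ ≤ 1 / 4 := by nlinarith only [hw, norm_nonneg w]
  have b4 : nrm σ (((U * V - V * U) - (U * star V - star V * U)) -
        ((star U * V - V * star U) - (star U * star V - star V * star U))) ≤
        4 * nrm σ (U * V - V * U) := by linarith only [a1, a2, a3, b1, b2, b3]
  calc ‖w‖ * ‖w‖ * nrm σ (((U * V - V * U) - (U * star V - star V * U)) -
        ((star U * V - V * star U) - (star U * star V - star V * star U)))
      ≤ 1 / 4 * (4 * nrm σ (U * V - V * U)) := by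
        apply mul_le_mul hw2 b4 (nrm_nonneg _) (by norm_num)
    _ = nrm σ (U * V - V * U) := by ring

/-- the parameters -/
noncomputable def cc (R : ℕ) : ℂ := (Real.cos (Real.sqrt R)⁻¹ : ℂ)
noncomputable def ec (R : ℕ) : ℂ := Complex.I * (Real.sin (Real.sqrt R)⁻¹ : ℂ)

lemma par (R : ℕ) : Par (cc R) (ec R) where
  rel := by
    unfold cc ec
    have h := Real.cos_sq_add_sin_sq (Real.sqrt R)⁻¹
    have h' : ((Real.cos (Real.sqrt R)⁻¹ : ℂ)) ^ 2 + ((Real.sin (Real.sqrt R)⁻¹ : ℂ)) ^ 2 = 1 := by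
      exact_mod_cast h
    rw [mul_pow, Complex.I_sq]
    linear_combination h'
  hc := by unfold cc; exact Complex.conj_ofReal _
  he := by unfold ec; rw [map_mul, Complex.conj_ofReal, Complex.conj_I]; ring

lemma norm_ec_le (R : ℕ) : ‖ec R‖ ≤ (Real.sqrt R)⁻¹ := by
  unfold ec
  rw [norm_mul, Complex.norm_I, one_mul, Complex.norm_real, Real.norm_eq_abs]
  have h0 : 0 ≤ (Real.sqrt R)⁻¹ := by positivity
  have := Real.abs_sin_le_abs (x := (Real.sqrt R)⁻¹)
  rwa [abs_of_nonneg h0] at this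

variable {R : ℕ} {x y : Fin R → B}

/-- the symmetries -/
noncomputable def sy (x : Fin R → B) (i : Fin R) : B := (2 : ℂ) • x i - 1

lemma sy_sq (hx : CommProj x) (i : Fin R) : sy x i * sy x i = 1 := by
  unfold sy
  simp only [mul_sub, sub_mul, smul_mul_assoc, mul_smul_comm, smul_smul, hx.idem, mul_one, one_mul]
  module

lemma sy_sa (hx : CommProj x) (i : Fin R) : star (sy x i) = sy x i := by
  unfold sy
  rw [star_sub, star_smul, star_one, hx.sa]
  simp

lemma commute_sy {a b : B} (h : Commute a b) : Commute ((2 : ℂ) • a - 1) ((2 : ℂ) • b - 1) := by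
  exact (((h.smul_right (2 : ℂ)).smul_left (2 : ℂ)).sub_right (Commute.one_right _)).sub_left
    (Commute.one_left _)

lemma chi_eq (ω : Fin R → Bool) :
    Complex.exp ((signSum ω : ℂ) * Complex.I) =
      ((Finset.univ : Finset (Fin R)).toList.map
        (fun r => (cc R - ec R) * 1 + (2 * ec R) * (if ω r then 1 else 0))).prod := by
  rw [Finset.prod_map_toList]
  unfold signSum
  push_cast
  rw [Finset.sum_mul, Complex.exp_sum]
  apply Finset.prod_congr rfl
  intro r _
  have h1 : ∀ θ : ℝ, Complex.exp (θ * Complex.I) = Real.cos θ + Complex.I * Real.sin θ := by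
    intro θ
    rw [Complex.exp_mul_I, Complex.ofReal_cos, Complex.ofReal_sin]
    ring
  by_cases hω : ω r = true
  · have := h1 (Real.sqrt R)⁻¹
    simp only [hω, if_true]
    unfold cc ec
    push_cast at this ⊢
    rw [one_mul, this]
    ring
  · have := h1 (-(Real.sqrt R)⁻¹)
    simp only [hω, if_false, Bool.false_eq_true]
    unfold cc ec
    rw [Real.cos_neg, Real.sin_neg] at this
    push_cast at this ⊢
    rw [neg_one_mul, this]
    ring

lemma ev_chi (hx : CommProj x) :
    ev x (fun ω => Complex.exp ((signSum ω : ℂ) * Complex.I)) =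
      UU (cc R) (ec R) (sy x) (Finset.univ : Finset (Fin R)).toList := by
  simp_rw [chi_eq]
  rw [hx.ev_list_prod]
  unfold UU
  congr 1
  apply List.map_congr_left
  intro r _
  rw [ev_add, ev_smul, ev_smul, hx.ev_coord, hx.ev_one]
  unfold uu sy
  module

lemma ev_sin (hx : CommProj x) :
    ev x (fun ω => (Real.sin (signSum ω) : ℂ)) =
      (-Complex.I / 2) • (UU (cc R) (ec R) (sy x) (Finset.univ : Finset (Fin R)).toList -
        star (UU (cc R) (ec R) (sy x) (Finset.univ : Finset (Fin R)).toList)) := by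
  rw [← ev_chi hx, hx.ev_star, ← ev_sub, ← ev_smul]
  congr 1
  funext ω
  rw [← Complex.exp_conj, map_mul, Complex.conj_ofReal, Complex.conj_I, Complex.ofReal_sin,
    Complex.sin]
  rw [mul_neg, neg_mul]
  ring

end CommAux

open CommAux in
/-- Two independent-index families of commuting projections: the sines of the normalized sums
almost commute in 2-norm. -/
theorem comm_sin_bound (h : IsTracialState σ) {R : ℕ} (hR : 1 ≤ R) {x y : Fin R → B}
    (hx : CommProj x) (hy : CommProj y) (hxy : ∀ i j, i ≠ j → x i * y j = y j * x i) :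
    nrm σ (ev x (fun ω => (Real.sin (signSum ω) : ℂ)) * ev y (fun ω => (Real.sin (signSum ω) : ℂ))
      - ev y (fun ω => (Real.sin (signSum ω) : ℂ)) * ev x (fun ω => (Real.sin (signSum ω) : ℂ))) ^ 2
      ≤ 100 / Real.sqrt R := by
  have hU := UU_unitary (par R) (sy_sq hx) (sy_sa hx) (Finset.univ : Finset (Fin R)).toList
  have hV := UU_unitary (par R) (sy_sq hy) (sy_sa hy) (Finset.univ : Finset (Fin R)).toList
  have hW := trace_WW h (par R) (sy_sq hx) (sy_sa hx) (sy_sq hy) (sy_sa hy)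
    (fun i j => commute_sy (hx.comm i j)) (fun i j => commute_sy (hy.comm i j))
    (fun i j hij => commute_sy (hxy i j hij)) (Finset.univ : Finset (Fin R)).toList
    (Finset.nodup_toList _)
  have h1 := nrm_comm_sq_le h hU hV hW
  rw [ev_sin hx, ev_sin hy]
  have h2 := nrm_comm_sin_le h hU hV (-Complex.I / 2) (by simp)
  refine (pow_le_pow_left₀ (nrm_nonneg _) h2 2).trans (h1.trans ?_)
  rw [Finset.length_toList, Finset.card_univ, Fintype.card_fin]
  have hRr : (1 : ℝ) ≤ R := by exact_mod_cast hR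
  have hsq : (1 : ℝ) ≤ Real.sqrt R := by
    rw [Real.one_le_sqrt]; exact hRr
  have h3 : ‖ec R‖ ^ 4 ≤ ((Real.sqrt R)⁻¹) ^ 4 := pow_le_pow_left₀ (norm_nonneg _) (norm_ec_le R) 4
  have h4 : ((Real.sqrt R)⁻¹) ^ 4 = ((R : ℝ)⁻¹) ^ 2 := by
    rw [show (4 : ℕ) = 2 * 2 by norm_num, pow_mul, inv_pow, Real.sq_sqrt (by positivity)]
  rw [h4] at h3
  have h5 : 2 * (2 * ‖ec R‖ ^ 4 * R) ≤ 4 * (R : ℝ)⁻¹ := by
    have h6 : ‖ec R‖ ^ 4 * R ≤ ((R : ℝ)⁻¹) ^ 2 * R := mul_le_mul_of_nonneg_right h3 (by positivity)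
    have h7 : ((R : ℝ)⁻¹) ^ 2 * R = (R : ℝ)⁻¹ := by
      field_simp
    linarith only [h6, h7]
  refine h5.trans ?_
  have h8 : (R : ℝ)⁻¹ ≤ (Real.sqrt R)⁻¹ := by
    apply inv_anti₀ (by positivity)
    calc Real.sqrt R = Real.sqrt R * 1 := (mul_one _).symm
      _ ≤ Real.sqrt R * Real.sqrt R := mul_le_mul_of_nonneg_left hsq (by positivity)
      _ = R := Real.mul_self_sqrt (by positivity)
  rw [div_eq_mul_inv]
  have : 0 ≤ (Real.sqrt R)⁻¹ := by positivity
  linarith only [h8, this]


/-- Lipschitz constant of a polynomial for commutators. -/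
noncomputable def commConst (Q : Polynomial ℝ) : ℝ := (∑ k ∈ Q.support, |Q.coeff k| * k) ^ 2

namespace CommAux

lemma nrm_ev_sq (h : IsTracialState σ) {R : ℕ} {x : Fin R → B} (hx : CommProj x)
    (hlx : ∀ ω, σ (atom x ω) = (1 / 2 ^ R : ℂ)) (ψ : (Fin R → Bool) → ℝ) :
    nrm σ (ev x (fun ω => (ψ ω : ℂ))) ^ 2 = (∑ ω, ψ ω ^ 2) / 2 ^ R := by
  rw [nrm_sq h, hx.ev_star, ← hx.ev_mul]
  unfold ev
  rw [map_sum]
  simp only [map_smul, hlx, Complex.conj_ofReal, smul_eq_mul]
  rw [Finset.sum_div, Complex.re_sum]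
  apply Finset.sum_congr rfl
  intro ω _
  have : ((ψ ω : ℂ) * (ψ ω : ℂ)) * (1 / 2 ^ R : ℂ) = ((ψ ω ^ 2 / 2 ^ R : ℝ) : ℂ) := by
    push_cast; ring
  rw [this, Complex.ofReal_re]

lemma ev_pow {R : ℕ} {x : Fin R → B} (hx : CommProj x) (ψ : (Fin R → Bool) → ℂ) (k : ℕ) :
    ev x (fun ω => ψ ω ^ k) = ev x ψ ^ k := by
  induction k with
  | zero => simpa using hx.ev_one
  | succ k ih =>
    simp_rw [pow_succ]
    rw [hx.ev_mul, ih]

lemma ev_finsum {R : ℕ} {x : Fin R → B} {ι : Type*} (s : Finset ι) (a : ι → ℂ)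
    (ψ : ι → (Fin R → Bool) → ℂ) :
    ev x (fun ω => ∑ k ∈ s, a k * ψ k ω) = ∑ k ∈ s, a k • ev x (ψ k) := by
  unfold ev
  simp_rw [Finset.sum_smul, Finset.smul_sum, smul_smul]
  rw [Finset.sum_comm]

lemma ev_poly {R : ℕ} {x : Fin R → B} (hx : CommProj x) (Q : Polynomial ℝ)
    (ψ : (Fin R → Bool) → ℝ) :
    ev x (fun ω => ((Q.eval (ψ ω) : ℝ) : ℂ)) =
      ∑ k ∈ Q.support, (Q.coeff k : ℂ) • ev x (fun ω => (ψ ω : ℂ)) ^ k := by
  have h1 : (fun ω => ((Q.eval (ψ ω) : ℝ) : ℂ)) =
      fun ω => ∑ k ∈ Q.support, (Q.coeff k : ℂ) * ((fun ω => (ψ ω : ℂ) ^ k) ω) := by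
    funext ω
    rw [Polynomial.eval_eq_sum, Polynomial.sum_def]
    push_cast
    rfl
  rw [h1, ev_finsum]
  apply Finset.sum_congr rfl
  intro k _
  rw [ev_pow hx]

lemma nrm_pow_comm (h : IsTracialState σ) {X : B} (hXl : ∀ z, nrm σ (X * z) ≤ nrm σ z)
    (hXr : ∀ z, nrm σ (z * X) ≤ nrm σ z) (Z : B) (j : ℕ) :
    nrm σ (X ^ j * Z - Z * X ^ j) ≤ j * nrm σ (X * Z - Z * X) := by
  have hl : ∀ (i : ℕ) (z : B), nrm σ (X ^ i * z) ≤ nrm σ z := by
    intro i
    induction i with
    | zero => intro z; simp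
    | succ i ih =>
      intro z
      rw [pow_succ, mul_assoc]
      exact (ih _).trans (hXl z)
  induction j with
  | zero => simp [nrm_zero]
  | succ j ih =>
    have e1 : X ^ (j + 1) * Z - Z * X ^ (j + 1) =
        X ^ j * (X * Z - Z * X) + (X ^ j * Z - Z * X ^ j) * X := by
      rw [pow_succ]; noncomm_ring
    rw [e1]
    refine (nrm_add_le h _ _).trans ?_
    have a1 := hl j (X * Z - Z * X)
    have a2 := hXr (X ^ j * Z - Z * X ^ j)
    push_cast
    linarith

lemma nrm_pow_pow_comm (h : IsTracialState σ) {X Y : B} (hXl : ∀ z, nrm σ (X * z) ≤ nrm σ z)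
    (hXr : ∀ z, nrm σ (z * X) ≤ nrm σ z) (hYl : ∀ z, nrm σ (Y * z) ≤ nrm σ z)
    (hYr : ∀ z, nrm σ (z * Y) ≤ nrm σ z) (j k : ℕ) :
    nrm σ (X ^ j * Y ^ k - Y ^ k * X ^ j) ≤ j * k * nrm σ (X * Y - Y * X) := by
  have h1 := nrm_pow_comm h hXl hXr (Y ^ k) j
  have h2 := nrm_pow_comm h hYl hYr X k
  rw [nrm_sub_comm, nrm_sub_comm (Y * X)] at h2
  calc nrm σ (X ^ j * Y ^ k - Y ^ k * X ^ j) ≤ j * nrm σ (X * Y ^ k - Y ^ k * X) := h1
    _ ≤ j * (k * nrm σ (X * Y - Y * X)) := mul_le_mul_of_nonneg_left h2 (Nat.cast_nonneg _)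
    _ = _ := by ring

lemma nrm_poly_comm (h : IsTracialState σ) {X Y : B} (hXl : ∀ z, nrm σ (X * z) ≤ nrm σ z)
    (hXr : ∀ z, nrm σ (z * X) ≤ nrm σ z) (hYl : ∀ z, nrm σ (Y * z) ≤ nrm σ z)
    (hYr : ∀ z, nrm σ (z * Y) ≤ nrm σ z) (Q : Polynomial ℝ) :
    nrm σ ((∑ k ∈ Q.support, (Q.coeff k : ℂ) • X ^ k) * (∑ k ∈ Q.support, (Q.coeff k : ℂ) • Y ^ k) -
      (∑ k ∈ Q.support, (Q.coeff k : ℂ) • Y ^ k) * (∑ k ∈ Q.support, (Q.coeff k : ℂ) • X ^ k)) ≤
      commConst Q * nrm σ (X * Y - Y * X) := by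
  have e1 : (∑ k ∈ Q.support, (Q.coeff k : ℂ) • X ^ k) * (∑ k ∈ Q.support, (Q.coeff k : ℂ) • Y ^ k) -
      (∑ k ∈ Q.support, (Q.coeff k : ℂ) • Y ^ k) * (∑ k ∈ Q.support, (Q.coeff k : ℂ) • X ^ k) =
      ∑ j ∈ Q.support, ∑ k ∈ Q.support, ((Q.coeff j : ℂ) * (Q.coeff k : ℂ)) •
        (X ^ j * Y ^ k - Y ^ k * X ^ j) := by
    rw [Finset.sum_mul_sum, Finset.sum_mul_sum, Finset.sum_comm (s := Q.support) (t := Q.support)
      (f := fun i j => (Q.coeff i : ℂ) • Y ^ i * (Q.coeff j : ℂ) • X ^ j), ← Finset.sum_sub_distrib]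
    apply Finset.sum_congr rfl
    intro j _
    rw [← Finset.sum_sub_distrib]
    apply Finset.sum_congr rfl
    intro k _
    simp only [smul_mul_assoc, mul_smul_comm, smul_smul, smul_sub]
    rw [mul_comm (Q.coeff k : ℂ)]
  rw [e1]
  refine (nrm_sum_le h _ _).trans ?_
  unfold commConst
  rw [pow_two, Finset.sum_mul_sum, Finset.sum_mul]
  apply Finset.sum_le_sum
  intro j _
  refine (nrm_sum_le h _ _).trans ?_
  rw [Finset.sum_mul]
  apply Finset.sum_le_sum
  intro k _
  rw [nrm_smul h, norm_mul, Complex.norm_real, Complex.norm_real, Real.norm_eq_abs,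
    Real.norm_eq_abs]
  have := nrm_pow_pow_comm h hXl hXr hYl hYr j k
  calc |Q.coeff j| * |Q.coeff k| * nrm σ (X ^ j * Y ^ k - Y ^ k * X ^ j)
      ≤ |Q.coeff j| * |Q.coeff k| * (j * k * nrm σ (X * Y - Y * X)) :=
        mul_le_mul_of_nonneg_left this (by (clear * -; positivity))
    _ = _ := by ring

lemma nrm_comm_le (h : IsTracialState σ) {C : ℝ} {X Z : B} (h1 : nrm σ (X * Z) ≤ C * nrm σ Z)
    (h2 : nrm σ (Z * X) ≤ C * nrm σ Z) : nrm σ (X * Z - Z * X) ≤ 2 * C * nrm σ Z := by
  refine (nrm_sub_le h _ _).trans ?_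
  linarith

end CommAux

open CommAux in
/-- The indicator of a set of patterns that is L2-close to a polynomial in the sine of the
normalized sum almost commutes. -/
theorem comm_ind_bound (h : IsTracialState σ) {R : ℕ} (hR : 1 ≤ R) {x y : Fin R → B}
    (hx : CommProj x) (hy : CommProj y) (hxy : ∀ i j, i ≠ j → x i * y j = y j * x i)
    (hlx : ∀ ω, σ (atom x ω) = (1 / 2 ^ R : ℂ)) (hly : ∀ ω, σ (atom y ω) = (1 / 2 ^ R : ℂ))
    (Q : Polynomial ℝ) (hQ : ∀ t ∈ Set.Icc (-1 : ℝ) 1, |Q.eval t| ≤ 2)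
    (Φ : Finset (Fin R → Bool)) (ε : ℝ) (hε : 0 ≤ ε)
    (hΦ : (∑ ω, ((if ω ∈ Φ then (1 : ℝ) else 0) - Q.eval (Real.sin (signSum ω))) ^ 2) / 2 ^ R ≤ ε) :
    nrm σ (ev x (fun ω => if ω ∈ Φ then 1 else 0) * ev y (fun ω => if ω ∈ Φ then 1 else 0)
      - ev y (fun ω => if ω ∈ Φ then 1 else 0) * ev x (fun ω => if ω ∈ Φ then 1 else 0))
      ≤ 6 * Real.sqrt ε + commConst Q * Real.sqrt (100 / Real.sqrt R) := by
  set Ex := ev x (fun ω => if ω ∈ Φ then (1 : ℂ) else 0) with hEx
  set Ey := ev y (fun ω => if ω ∈ Φ then (1 : ℂ) else 0) with hEy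
  set Dx := ev x (fun ω => ((Q.eval (Real.sin (signSum ω)) : ℝ) : ℂ)) with hDx
  set Dy := ev y (fun ω => ((Q.eval (Real.sin (signSum ω)) : ℝ) : ℂ)) with hDy
  have hdist : ∀ {z : Fin R → B}, CommProj z → (∀ ω, σ (atom z ω) = (1 / 2 ^ R : ℂ)) →
      nrm σ (ev z (fun ω => if ω ∈ Φ then (1 : ℂ) else 0) -
        ev z (fun ω => ((Q.eval (Real.sin (signSum ω)) : ℝ) : ℂ))) ≤ Real.sqrt ε := by
    intro z hz hlz
    rw [← ev_sub]
    have e1 : (fun ω : Fin R → Bool => (if ω ∈ Φ then (1 : ℂ) else 0) -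
        ((Q.eval (Real.sin (signSum ω)) : ℝ) : ℂ)) =
        fun ω => (((if ω ∈ Φ then (1 : ℝ) else 0) - Q.eval (Real.sin (signSum ω)) : ℝ) : ℂ) := by
      funext ω
      push_cast
      split_ifs <;> simp
    rw [e1]
    apply Real.le_sqrt_of_sq_le
    rw [nrm_ev_sq h hz hlz]
    exact hΦ
  have dx : nrm σ (Ex - Dx) ≤ Real.sqrt ε := hdist hx hlx
  have dy : nrm σ (Ey - Dy) ≤ Real.sqrt ε := hdist hy hly
  have hind : ∀ ω : Fin R → Bool, ‖(if ω ∈ Φ then (1 : ℂ) else 0)‖ ≤ 1 := by
    intro ω; split_ifs <;> simp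
  have hQb : ∀ ω : Fin R → Bool, ‖((Q.eval (Real.sin (signSum ω)) : ℝ) : ℂ)‖ ≤ 2 := by
    intro ω
    rw [Complex.norm_real, Real.norm_eq_abs]
    exact hQ _ ⟨Real.neg_one_le_sin _, Real.sin_le_one _⟩
  have hsb : ∀ ω : Fin R → Bool, ‖((Real.sin (signSum ω) : ℝ) : ℂ)‖ ≤ 1 := by
    intro ω
    rw [Complex.norm_real, Real.norm_eq_abs]
    exact Real.abs_sin_le_one _
  -- three pieces
  have p1 : nrm σ (Ey * (Ex - Dx) - (Ex - Dx) * Ey) ≤ 2 * 1 * nrm σ (Ex - Dx) :=
    nrm_comm_le h (hy.nrm_ev_mul_le h _ 1 (by norm_num) hind _)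
      (hy.nrm_mul_ev_le h _ 1 (by norm_num) hind _)
  have p2 : nrm σ (Dx * (Ey - Dy) - (Ey - Dy) * Dx) ≤ 2 * 2 * nrm σ (Ey - Dy) :=
    nrm_comm_le h (hx.nrm_ev_mul_le h _ 2 (by norm_num) hQb _)
      (hx.nrm_mul_ev_le h _ 2 (by norm_num) hQb _)
  have p3 : nrm σ (Dx * Dy - Dy * Dx) ≤ commConst Q * Real.sqrt (100 / Real.sqrt R) := by
    rw [hDx, hDy, ev_poly hx, ev_poly hy]
    refine (nrm_poly_comm h (fun z => ?_) (fun z => ?_) (fun z => ?_) (fun z => ?_) Q).trans ?_
    · simpa using hx.nrm_ev_mul_le h _ 1 (by norm_num) hsb z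
    · simpa using hx.nrm_mul_ev_le h _ 1 (by norm_num) hsb z
    · simpa using hy.nrm_ev_mul_le h _ 1 (by norm_num) hsb z
    · simpa using hy.nrm_mul_ev_le h _ 1 (by norm_num) hsb z
    · apply mul_le_mul_of_nonneg_left _ (by unfold commConst; (clear * -; positivity))
      apply Real.le_sqrt_of_sq_le
      exact comm_sin_bound h hR hx hy hxy
  have e2 : Ex * Ey - Ey * Ex = -(Ey * (Ex - Dx) - (Ex - Dx) * Ey) +
      (Dx * (Ey - Dy) - (Ey - Dy) * Dx) + (Dx * Dy - Dy * Dx) := by noncomm_ring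
  rw [e2]
  have q1 := nrm_add_le h (-(Ey * (Ex - Dx) - (Ex - Dx) * Ey) +
      (Dx * (Ey - Dy) - (Ey - Dy) * Dx)) (Dx * Dy - Dy * Dx)
  have q2 := nrm_add_le h (-(Ey * (Ex - Dx) - (Ex - Dx) * Ey)) (Dx * (Ey - Dy) - (Ey - Dy) * Dx)
  rw [nrm_neg] at q2
  linarith only [dx, dy, p1, p2, p3, q1, q2]

end

end Vale.Agent.P095
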