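import Vale.Agent.P095.MathlibUsed
import Vale.Agent.P095.Bdl.B13
import Vale.Agent.P095.Bdl.K_Comm
import Vale.Agent.P095.Bdl.B3
import Vale.Agent.P095.Bdl.B11
import Vale.Agent.P095.Bdl.B23
import Vale.Agent.P095.Bdl.B5
import Vale.Agent.P095.Bdl.B7
import Vale.Agent.P095.Bdl.B4
import Vale.Agent.P095.Bdl.B1
import Vale.Agent.P095.Bdl.B8
import Vale.Agent.P095.Bdl.B6
import Vale.Agent.P095.EqStmt
import Vale.Agent.P083.NuclearDef
import Vale.Agent.P095R.NStmt

set_option linter.all false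

section

set_option linter.unusedSectionVars false
set_option linter.unusedVariables false
set_option linter.unusedSimpArgs false

namespace Vale.Agent.P095

open Filter Topology ComplexConjugate

section law
variable {Q : Type*} [Ring Q] [StarRing Q] [Algebra ℂ Q] [StarModule ℂ Q] {q : Q →ₗ[ℂ] ℂ}
  {N : ℕ} {ι : Type*} [Fintype ι] [DecidableEq ι] {x : Fin N × ι → Q}

theorem law_agree (hx : CommProj x) (i0 : ι) (hi : ∀ i, i = i0) {b : Q}
    (hm : AlgMart q x (1 / 2) b) (η : Fin N × ι → Bool) :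
    ∀ n : ℕ, n ≤ N → q (b * ev x (fun ω => (agree n η ω : ℂ))) = (1 / 2 : ℂ) ^ n * q b := by
  intro n
  induction n with
  | zero =>
    intro _
    have : (fun ω : Fin N × ι → Bool => ((agree 0 η ω : ℝ) : ℂ)) = fun _ => 1 := by
      funext ω
      unfold agree
      rw [if_pos (by intro m hm; omega)]; simp
    rw [this, hx.ev_one, mul_one, pow_zero, one_mul]
  | succ n ih =>
    intro hn
    have ih' := ih (by omega)
    have hm' := hm ⟨n, by omega⟩ i0 η
    have hco := hx.ev_coord (⟨n, by omega⟩, i0)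
    have key : (fun ω : Fin N × ι → Bool => ((agree (n + 1) η ω : ℝ) : ℂ)) =
        fun ω => ((agree n η ω : ℝ) : ℂ) * (if η (⟨n, by omega⟩, i0) = true then
          (if ω (⟨n, by omega⟩, i0) = true then 1 else 0) else
          (1 - (if ω (⟨n, by omega⟩, i0) = true then 1 else 0))) := by
      funext ω
      unfold agree
      have h1 : (∀ m : Fin N, (m : ℕ) < n + 1 → ∀ i, ω (m, i) = η (m, i)) ↔
          (∀ m : Fin N, (m : ℕ) < n → ∀ i, ω (m, i) = η (m, i)) ∧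
          ω (⟨n, by omega⟩, i0) = η (⟨n, by omega⟩, i0) := by
        constructor
        · intro h
          exact ⟨fun m hm => h m (by omega), h ⟨n, by omega⟩ (by simp) i0⟩
        · rintro ⟨h, h'⟩ m hm i
          rcases Nat.lt_succ_iff_lt_or_eq.mp hm with h2 | h2
          · exact h m h2 i
          · have : m = ⟨n, by omega⟩ := Fin.ext h2
            rw [this, hi i]; exact h'
      by_cases h2 : ∀ m : Fin N, (m : ℕ) < n → ∀ i, ω (m, i) = η (m, i)
      · rw [if_pos h2]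
        by_cases h3 : ω (⟨n, by omega⟩, i0) = η (⟨n, by omega⟩, i0)
        · rw [if_pos (h1.mpr ⟨h2, h3⟩), h3]
          cases η (⟨n, by omega⟩, i0) <;> simp
        · rw [if_neg (fun h => h3 (h1.mp h).2)]
          cases h4 : η (⟨n, by omega⟩, i0) <;> cases h5 : ω (⟨n, by omega⟩, i0) <;>
            simp_all
      · rw [if_neg h2, if_neg (fun h => h2 (h1.mp h).1)]; simp
    rw [key]
    cases h4 : η (⟨n, by omega⟩, i0)
    · simp only [Bool.false_eq_true, if_false]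
      have h5 : ev x (fun ω : Fin N × ι → Bool => ((agree n η ω : ℝ) : ℂ) *
          (1 - (if ω (⟨n, by omega⟩, i0) = true then 1 else 0))) =
          ev x (fun ω => ((agree n η ω : ℝ) : ℂ)) -
            ev x (fun ω => ((agree n η ω : ℝ) : ℂ)) * x (⟨n, by omega⟩, i0) := by
        rw [← hco, ← hx.ev_mul, ← ev_sub]
        congr 1; funext ω; ring
      rw [h5, mul_sub, map_sub, ← mul_assoc, hm', ih', pow_succ]
      push_cast
      ring
    · simp only [if_true]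
      rw [hx.ev_mul, hco, ← mul_assoc, hm', ih', pow_succ]
      push_cast
      ring

theorem law_half (hx : CommProj x) (i0 : ι) (hi : ∀ i, i = i0) {b : Q}
    (hm : AlgMart q x (1 / 2) b) (η : Fin N → Bool) :
    q (b * atom (fun r => x (r, i0)) η) = (1 / 2 : ℂ) ^ N * q b := by
  have h1 := law_agree hx i0 hi hm (fun k => η k.1) N le_rfl
  rw [← h1, hx.atom_comp (fun r => (r, i0))]
  congr 3
  funext ω
  unfold agree
  have h2 : ((fun k => ω (k, i0)) = η) ↔
      (∀ m : Fin N, (m : ℕ) < N → ∀ i, ω (m, i) = η m) := by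
    constructor
    · intro h m _ i
      rw [hi i]; exact congrFun h m
    · intro h; funext k; exact h k k.2 i0
  by_cases h3 : (fun k => ω (k, i0)) = η
  · rw [if_pos h3, if_pos (h2.mp h3)]; simp
  · rw [if_neg h3, if_neg (fun h => h3 (h2.mpr h))]; simp

end law

section fam
variable {A : Type*} [CStarAlgebra A] {G : Type*} [Group G] (α : G →* (A ≃⋆ₐ[ℂ] A))

/-- successive choice of good elements, general form -/
theorem exists_fam' (μ : ℝ) (K L : Finset G)
    (good : ∀ F : Finset (BSeq A), ∃ p, GoodB α μ K F p)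
    (W : List (BSeq A) → Finset (BSeq A)) :
    ∃ p : ℕ → BSeq A, ∀ n, star (p n) = p n ∧ ∀ t : LimTr A,
      (∀ g, nrm t.val (actB (α g) (p n) * actB (α g) (p n) - actB (α g) (p n)) = 0) ∧
      (∀ g ∈ L, ∀ w ∈ W ((List.range n).map p),
        nrm t.val (actB (α g) (p n) * w - w * actB (α g) (p n)) = 0 ∧
        t.val (w * actB (α g) (p n)) = μ * t.val w) := by
  classical
  choose f hf using good
  let V : List (BSeq A) → Finset (BSeq A) := fun l =>
    L.biUnion (fun g => (W l).image (fun w => actB (α g⁻¹) w))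
  let Ls : ℕ → List (BSeq A) := fun n => Nat.rec [] (fun _ l => l ++ [f (V l)]) n
  let p : ℕ → BSeq A := fun n => f (V (Ls n))
  have hLs : ∀ n, Ls n = (List.range n).map p := by
    intro n
    induction n with
    | zero => rfl
    | succ n ih =>
      have h1 : Ls (n + 1) = Ls n ++ [p n] := rfl
      rw [h1, ih, List.range_succ, List.map_append]
      rfl
  refine ⟨p, fun n => ?_⟩
  obtain ⟨h1, h2, h3⟩ := hf (V (Ls n))
  refine ⟨h1, fun t => ⟨fun g => ?_, fun g hg w hw => ?_⟩⟩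
  · have := (h3 (t.comp (α g))).1
    rw [t.comp_nrm, map_sub, map_mul] at this
    exact this
  · rw [← hLs] at hw
    have hw' : actB (α g⁻¹) w ∈ V (Ls n) :=
      Finset.mem_biUnion.mpr ⟨g, hg, Finset.mem_image_of_mem _ hw⟩
    have h4 := (h3 (t.comp (α g))).2.1 _ hw'
    constructor
    · have := h4.1
      rw [t.comp_nrm, map_sub, map_mul, map_mul, actB_inv] at this
      exact this
    · have := h4.2
      rw [t.comp_val, t.comp_val, map_mul, actB_inv] at this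
      exact this

/-- consequences in the tracial quotients for half-trace families -/
theorem half_family (K : Finset G) (F0 : Finset (BSeq A)) (h1F : (1 : BSeq A) ∈ F0)
    (good : ∀ F : Finset (BSeq A), ∃ p, GoodB α (1 / 2) ∅ F p) (R : ℕ) :
    ∃ p : Fin R → BSeq A, ∀ t : LimTr A,
      CommProj (fun r => t.c (p r)) ∧
      (∀ b ∈ F0, ∀ r, t.c b * t.c (p r) = t.c (p r) * t.c b) ∧
      (∀ b ∈ F0, ∀ ω, t.q (t.c b * atom (fun r => t.c (p r)) ω) = (1 / 2 : ℂ) ^ R * t.q (t.c b)) ∧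
      (∀ g ∈ K, CommProj (fun r => t.c (actB (α g) (p r))) ∧
        (∀ i j, i ≠ j → t.c (p i) * t.c (actB (α g) (p j)) = t.c (actB (α g) (p j)) * t.c (p i)) ∧
        ∀ ω, t.q (atom (fun r => t.c (actB (α g) (p r))) ω) = (1 / 2 : ℂ) ^ R) := by
  classical
  let L : Finset G := insert 1 K
  obtain ⟨p, hp⟩ := exists_fam' α (1 / 2) ∅ L good
    (fun l => wordsL α {1} F0 l ∪ wordsL α L ∅ l)
  have hex := tfam_exact α (1 / 2) {1} R F0 p (by
    intro n
    refine ⟨(hp n).1, fun t => ⟨((hp n).2 t).1, fun g hg w hw => ?_, fun g hg h hh => ?_⟩⟩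
    · have hg' : g ∈ L := by
        rw [Finset.mem_singleton.mp hg]; exact Finset.mem_insert_self _ _
      have := ((hp n).2 t).2 g hg' w (Finset.mem_union_left _ hw)
      refine ⟨this.1, ?_⟩
      rw [this.2]
    · rw [Finset.mem_singleton.mp hg, Finset.mem_singleton.mp hh, sub_self, nrm_zero])
  have hlt : ∀ (t : LimTr A) (m n : ℕ), m < n → ∀ g ∈ L, ∀ h ∈ L,
      t.c (actB (α g) (p n)) * t.c (actB (α h) (p m)) =
        t.c (actB (α h) (p m)) * t.c (actB (α g) (p n)) := by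
    intro t m n hmn g hg h hh
    have hw : actB (α h) (p m) ∈ wordsL α L ∅ ((List.range n).map p) := by
      unfold wordsL
      apply Finset.mem_union_left
      apply Finset.mem_union_right
      rw [Finset.mem_image]
      refine ⟨(⟨m, by simpa using hmn⟩, ⟨h, hh⟩), Finset.mem_univ _, ?_⟩
      simp [lfam]
    have := (((hp n).2 t).2 g hg _ (Finset.mem_union_right _ hw)).1
    rw [← map_mul, ← map_mul]
    exact t.c_eq this
  have hne : ∀ (t : LimTr A) (m n : ℕ), m ≠ n → ∀ g ∈ L, ∀ h ∈ L,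
      t.c (actB (α g) (p n)) * t.c (actB (α h) (p m)) =
        t.c (actB (α h) (p m)) * t.c (actB (α g) (p n)) := by
    intro t m n hmn g hg h hh
    rcases lt_or_gt_of_ne hmn with h1 | h1
    · exact hlt t m n h1 g hg h hh
    · exact (hlt t n m h1 h hh g hg).symm
  let i0 : {g // g ∈ ({1} : Finset G)} := ⟨1, Finset.mem_singleton_self _⟩
  have hi0 : ∀ i : {g // g ∈ ({1} : Finset G)}, i = i0 := by
    rintro ⟨i, hi⟩
    exact Subtype.ext (Finset.mem_singleton.mp hi)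
  have hx0 : ∀ (t : LimTr A), (fun r : Fin R => t.c (p r)) =
      fun r => (fun i => t.c (tfam α {1} R p i)) (r, i0) := by
    intro t
    funext r
    show t.c (p r) = t.c (actB (α 1) (p r))
    rw [actB_one]
  have hlaw : ∀ (t : LimTr A), ∀ b ∈ F0, ∀ ω,
      t.q (t.c b * atom (fun r : Fin R => t.c (p r)) ω) = (1 / 2 : ℂ) ^ R * t.q (t.c b) := by
    intro t b hb ω
    rw [hx0 t]
    exact law_half (hex t).1 i0 hi0 ((hex t).2.2 b hb) ω
  have hcp : ∀ (t : LimTr A), ∀ g ∈ L, CommProj (fun r : Fin R => t.c (actB (α g) (p r))) := by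
    intro t g hg
    refine ⟨fun r => ?_, fun r s => ?_, fun r => ?_⟩
    · rw [← map_mul]; exact t.c_eq (((hp r).2 t).1 g)
    · by_cases h : r = s
      · rw [h]
      · exact hne t s r (fun h' => h (Fin.ext h'.symm)) g hg g hg
    · show star (t.c (actB (α g) (p r))) = t.c (actB (α g) (p r))
      rw [← t.c_star, ← map_star, (hp r).1]
  refine ⟨fun r => p r, fun t => ⟨?_, ?_, hlaw t, fun g hg => ⟨?_, ?_, ?_⟩⟩⟩
  · have := hcp t 1 (Finset.mem_insert_self _ _)
    simp only [actB_one] at this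
    exact this
  · intro b hb r
    have := (hex t).2.1 b hb (r, i0)
    have h2 : t.c (tfam α {1} R p (r, i0)) = t.c (p r) := by
      show t.c (actB (α 1) (p r)) = t.c (p r)
      rw [actB_one]
    rw [h2] at this
    exact this
  · exact hcp t g (Finset.mem_insert_of_mem hg)
  · intro i j hij
    have := hne t j i (fun h' => hij (Fin.ext h'.symm)) 1 (Finset.mem_insert_self _ _) g
      (Finset.mem_insert_of_mem hg)
    rw [actB_one] at this
    exact this
  · intro ω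
    have h1 := hlaw (t.comp (α g)) 1 h1F ω
    rw [map_one, one_mul, (t.comp (α g)).q_tracial.map_one, mul_one] at h1
    rw [← h1]
    have h2 : atom (fun r : Fin R => t.c (actB (α g) (p r))) ω =
        t.c (actB (α g) (atom (fun r : Fin R => p r) ω)) := by
      have e1 := map_atom ((actB (α g) : BSeq A →⋆ₐ[ℂ] BSeq A) : BSeq A →+* BSeq A)
        (fun r : Fin R => p r) ω
      have e2 : (actB (α g)) (atom (fun r : Fin R => p r) ω) =
        atom (fun r : Fin R => actB (α g) (p r)) ω := e1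
      rw [e2, map_atom]
    have h3 : atom (fun r : Fin R => (t.comp (α g)).c (p r)) ω =
        (t.comp (α g)).c (atom (fun r : Fin R => p r) ω) := by
      rw [map_atom]
    rw [h2, h3, t.q_c, (t.comp (α g)).q_c, t.comp_val]

end fam

section main
variable {A : Type*} [CStarAlgebra A] {G : Type*} [Group G] (α : G →* (A ≃⋆ₐ[ℂ] A))

theorem nrm_le_of_two {τ : A →ₗ[ℂ] ℂ} {x : A} {ε : ℝ} (hε : 0 ≤ ε)
    (h : (τ (star x * x)).re ≤ ε ^ 2) : nrm τ x ≤ ε := by
  unfold nrm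
  calc Real.sqrt (τ (star x * x)).re ≤ Real.sqrt (ε ^ 2) := Real.sqrt_le_sqrt h
    _ = ε := Real.sqrt_sq hε

theorem good_half (hΓ : UniformGamma A) (F : Finset A) (ε : ℝ) (hε : 0 < ε) :
    ∃ p, Good α (1 / 2) ∅ F ε p := by
  obtain ⟨e, h1, h2, h3, h4⟩ := hΓ 2 (by norm_num) F ε hε
  obtain ⟨⟨b, hb⟩, hn, hi⟩ := h1 0
  refine ⟨e 0, ?_, hn, fun τ hτ => ⟨nrm_le_of_two hε.le (hi τ hτ), fun a ha =>
    ⟨nrm_le_of_two hε.le (h3 0 a ha τ hτ), ?_⟩, fun g hg => absurd hg (Finset.notMem_empty g)⟩⟩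
  · rw [hb, star_mul, star_star]
  · have := h4 0 a ha τ hτ
    refine le_of_eq_of_le ?_ this
    congr 2
    push_cast
    ring

theorem ev_ind_law {Q : Type*} [Ring Q] [StarRing Q] [Algebra ℂ Q] {q : Q →ₗ[ℂ] ℂ} {R : ℕ}
    {x : Fin R → Q} (b : Q) (Φ : Finset (Fin R → Bool))
    (h : ∀ ω, q (b * atom x ω) = (1 / 2 : ℂ) ^ R * q b) :
    q (b * ev x (fun ω => if ω ∈ Φ then 1 else 0)) =
      (((Φ.card : ℝ) / 2 ^ R : ℝ) : ℂ) * q b := by
  unfold ev
  rw [Finset.mul_sum, map_sum]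
  have h1 : ∀ ω : Fin R → Bool, q (b * (if ω ∈ Φ then (1 : ℂ) else 0) • atom x ω) =
      if ω ∈ Φ then (1 / 2 : ℂ) ^ R * q b else 0 := by
    intro ω
    rw [mul_smul_comm, map_smul, h ω]
    split_ifs <;> simp
  simp_rw [h1]
  rw [Finset.sum_ite_mem, Finset.univ_inter, Finset.sum_const, nsmul_eq_mul]
  push_cast
  rw [one_div, inv_pow]
  ring

theorem step1a (hΓ : UniformGamma A) (K : Finset G) (F : Finset A) (ε : ℝ) (hε : 0 < ε) :
    ∃ μ : ℝ, μ ∈ Set.Icc (1 / 40 : ℝ) (39 / 40) ∧ ∃ p, Good α μ K F ε p := by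
  classical
  have hε1 : (0 : ℝ) < (ε / 24) ^ 2 := by positivity
  obtain ⟨M, Q, hQ, hwin⟩ := cube_window ((ε / 24) ^ 2) hε1
  obtain ⟨R, hR1, hR⟩ : ∃ R : ℕ, 1 ≤ R ∧ ∀ i, commConst (Q i) * Real.sqrt (100 / Real.sqrt R) ≤
      ε / 4 := by
    have h1 : Tendsto (fun R : ℕ => Real.sqrt (100 / Real.sqrt R)) atTop (𝓝 0) := by
      have h2 : Tendsto (fun R : ℕ => Real.sqrt (R : ℝ)) atTop atTop :=
        Real.tendsto_sqrt_atTop.comp tendsto_natCast_atTop_atTop
      have h3 : Tendsto (fun R : ℕ => 100 / Real.sqrt (R : ℝ)) atTop (𝓝 0) :=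
        tendsto_const_nhds.div_atTop h2
      have h4 := (Real.continuous_sqrt.tendsto 0).comp h3
      rw [Real.sqrt_zero] at h4
      exact h4
    have h2 : ∀ i, ∀ᶠ R : ℕ in atTop, commConst (Q i) * Real.sqrt (100 / Real.sqrt R) ≤ ε / 4 := by
      intro i
      have h3 := h1.const_mul (commConst (Q i))
      rw [mul_zero] at h3
      exact h3.eventually (eventually_le_nhds (by positivity))
    obtain ⟨R, hR⟩ := ((Filter.eventually_all.mpr h2).and (eventually_ge_atTop 1)).exists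
    exact ⟨R, hR.2, hR.1⟩
  obtain ⟨i, Φ, hΦ1, hΦ2, hΦ⟩ := hwin R hR1
  set μ : ℝ := (Φ.card : ℝ) / 2 ^ R with hμ
  refine ⟨μ, ⟨hΦ1, hΦ2⟩, ?_⟩
  set F0 : Finset (BSeq A) := insert 1 (F.image (cst A)) with hF0
  obtain ⟨p, hp⟩ := half_family α K F0 (Finset.mem_insert_self _ _)
    (lift_good α (1 / 2) ∅ (fun F ε hε => good_half α hΓ F ε hε)) R
  let ψ : (Fin R → Bool) → ℂ := fun ω => if ω ∈ Φ then 1 else 0
  have hψ1 : ∀ ω, ψ ω * ψ ω = ψ ω := by intro ω; simp only [ψ]; split_ifs <;> simp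
  have hψ2 : ∀ ω, conj (ψ ω) = ψ ω := by intro ω; simp only [ψ]; split_ifs <;> simp
  let e0 : BSeq A := ev p ψ
  have hce0 : ∀ t : LimTr A, t.c e0 = ev (fun r => t.c (p r)) ψ := fun t =>
    map_ev t.c (fun c x => t.c_smul c x) _ _
  have hidem : ∀ t : LimTr A, t.c e0 * t.c e0 = t.c e0 := by
    intro t
    rw [hce0 t, ← (hp t).1.ev_mul]
    congr 1
    funext ω; exact hψ1 ω
  have hstar : ∀ t : LimTr A, star (t.c e0) = t.c e0 := by
    intro t
    rw [hce0 t, (hp t).1.ev_star]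
    congr 1
    funext ω; exact hψ2 ω
  obtain ⟨e, he1, he2⟩ := clampB e0
    (fun t => t.nrm_eq (by rw [map_mul]; exact hidem t))
    (fun t => t.nrm_eq (by rw [t.c_star]; exact hstar t))
  have hce : ∀ t : LimTr A, t.c e = t.c e0 := fun t => t.c_eq (he2 t)
  have T1 : ∀ᶠ n in atTop, ∀ τ : A →ₗ[ℂ] ℂ, IsTracialState τ →
      nrm τ ((e * e - e).1 n) ≤ ε := by
    apply transfer_nrm _ hε
    intro t
    rw [t.nrm_eq]
    rw [map_mul, hce, hidem]
  have hmem : ∀ a ∈ F, cst A a ∈ F0 := fun a ha =>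
    Finset.mem_insert_of_mem (Finset.mem_image_of_mem _ ha)
  have T2 : ∀ a ∈ F, ∀ᶠ n in atTop, ∀ τ : A →ₗ[ℂ] ℂ, IsTracialState τ →
      nrm τ ((e * cst A a - cst A a * e).1 n) ≤ ε := by
    intro a ha
    apply transfer_nrm _ hε
    intro t
    rw [t.nrm_eq]
    rw [map_mul, map_mul, hce, hce0]
    exact (ev_commute _ ((hp t).2.1 _ (hmem a ha)) _).symm
  have T3 : ∀ a ∈ F, ∀ᶠ n in atTop, ∀ τ : A →ₗ[ℂ] ℂ, IsTracialState τ →
      ‖τ ((cst A a * e - (μ : ℂ) • cst A a).1 n)‖ ≤ ε := by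
    intro a ha
    apply transfer_val _ hε
    intro t
    rw [map_sub, map_smul, ← t.q_c, ← t.q_c, map_mul, hce, hce0, smul_eq_mul,
      ev_ind_law _ Φ (fun ω => (hp t).2.2.1 _ (hmem a ha) ω), sub_self, norm_zero]
  have T4 : ∀ g ∈ K, ∀ᶠ n in atTop, ∀ τ : A →ₗ[ℂ] ℂ, IsTracialState τ →
      nrm τ ((e * actB (α g) e - actB (α g) e * e).1 n) ≤ ε := by
    intro g hg
    apply transfer_nrm _ (by linarith only [hε] : ε / 2 < ε)
    intro t
    have hact : t.c (actB (α g) e) = t.c (actB (α g) e0) := by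
      apply t.c_eq
      rw [← map_sub, ← t.comp_nrm]
      exact he2 _
    have hact0 : t.c (actB (α g) e0) = ev (fun r => t.c (actB (α g) (p r))) ψ := by
      have h1 : actB (α g) e0 = ev (fun r => actB (α g) (p r)) ψ :=
        map_ev ((actB (α g) : BSeq A →⋆ₐ[ℂ] BSeq A) : BSeq A →+* BSeq A)
          (fun c x => map_smul (actB (α g)) c x) _ _
      rw [h1]
      exact map_ev t.c (fun c x => t.c_smul c x) _ _
    rw [← t.nrm_c, map_sub, map_mul, map_mul, hact, hact0, hce, hce0]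
    obtain ⟨h1, h2, h3⟩ := (hp t).2.2.2 g hg
    have hlx : ∀ ω, t.q (atom (fun r => t.c (p r)) ω) = (1 / 2 ^ R : ℂ) := by
      intro ω
      have := (hp t).2.2.1 1 (Finset.mem_insert_self _ _) ω
      rw [map_one, one_mul, t.q_tracial.map_one, mul_one] at this
      rw [this, one_div_pow]
    have hly : ∀ ω, t.q (atom (fun r => t.c (actB (α g) (p r))) ω) = (1 / 2 ^ R : ℂ) := by
      intro ω
      rw [h3 ω, one_div_pow]
    have := comm_ind_bound t.q_tracial hR1 (hp t).1 h1 h2 hlx hly (Q i) (hQ i) Φ ((ε / 24) ^ 2)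
      hε1.le hΦ
    refine this.trans ?_
    rw [Real.sqrt_sq (by positivity)]
    have := hR i
    linarith only [this]
  obtain ⟨n, hn⟩ := (((T1.and ((Filter.eventually_all_finset F).mpr T2)).and
    ((Filter.eventually_all_finset F).mpr T3)).and
    ((Filter.eventually_all_finset K).mpr T4)).exists
  obtain ⟨⟨⟨n1, n2⟩, n3⟩, n4⟩ := hn
  refine ⟨e.1 n, (he1 n).2.2, (he1 n).2.1, fun τ hτ => ⟨n1 τ hτ, fun a ha =>
    ⟨n2 a ha τ hτ, ?_⟩, fun s hs => n4 s hs τ hτ⟩⟩
  have := n3 a ha τ hτ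
  have h15 : τ ((cst A a * e - (μ : ℂ) • cst A a).1 n) = τ (a * e.1 n) - μ * τ a := by
    show τ (a * e.1 n - (μ : ℂ) • a) = _
    rw [map_sub, map_smul, smul_eq_mul]
  rwa [h15] at this

theorem step1 (hΓ : UniformGamma A) (K : Finset G) :
    ∃ μ : ℝ, 0 < μ ∧ μ < 1 ∧ ∀ (F : Finset A) (ε : ℝ), 0 < ε → ∃ p, Good α μ K F ε p := by
  classical
  have h0 : ∀ w : Finset A × ℕ, ∃ μ : ℝ, μ ∈ Set.Icc (1 / 40 : ℝ) (39 / 40) ∧
      ∃ p, Good α μ K w.1 (1 / ((w.2 : ℝ) + 1)) p :=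
    fun w => step1a α hΓ K w.1 _ (by (clear * -; positivity))
  choose m hm p hp using h0
  let U : Ultrafilter (Finset A × ℕ) := Ultrafilter.of atTop
  have hU : (U : Filter (Finset A × ℕ)) ≤ atTop := Ultrafilter.of_le _
  obtain ⟨μ, hμ, hlim⟩ := (isCompact_Icc : IsCompact (Set.Icc (1 / 40 : ℝ) (39 / 40))).ultrafilter_le_nhds
    (U.map m) (by
      rw [le_principal_iff, Ultrafilter.coe_map, Filter.mem_map]
      exact Filter.Eventually.of_forall (p := fun w => m w ∈ Set.Icc (1 / 40 : ℝ) (39 / 40)) hm)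
  have hlim' : Tendsto m U (𝓝 μ) := hlim
  refine ⟨μ, by linarith [hμ.1], by linarith only [hμ.2], fun F ε hε => ?_⟩
  set C : ℝ := 1 + ∑ a ∈ F, ‖a‖ with hC
  have hCa : ∀ a ∈ F, ‖a‖ ≤ C := by
    intro a ha
    have := Finset.single_le_sum (f := fun a : A => ‖a‖) (fun _ _ => by positivity) ha
    linarith
  have hC0 : 0 < C := by
    have : 0 ≤ ∑ a ∈ F, ‖a‖ := Finset.sum_nonneg (fun _ _ => by positivity)
    linarith
  obtain ⟨N, hN⟩ := exists_nat_gt (2 / ε)
  have e1 : ∀ᶠ w in (U : Filter (Finset A × ℕ)), (F, N) ≤ w :=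
    hU (eventually_ge_atTop (F, N))
  have e2 : ∀ᶠ w in (U : Filter (Finset A × ℕ)), |m w - μ| < ε / (2 * C) := by
    have := hlim'.eventually (Metric.ball_mem_nhds μ (by (clear * - hε; positivity) : 0 < ε / (2 * C)))
    refine this.mono (fun w hw => ?_)
    rwa [Real.dist_eq] at hw
  obtain ⟨w, hw1, hw2⟩ := (e1.and e2).exists
  obtain ⟨h1, h2, h3⟩ := hp w
  have hb : 1 / ((w.2 : ℝ) + 1) ≤ ε / 2 := by
    have hN2 : (N : ℝ) ≤ w.2 := by exact_mod_cast hw1.2
    rw [div_le_iff₀ (by (clear * -; positivity))]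
    rw [div_lt_iff₀ hε] at hN
    nlinarith only [hN, hN2]
  refine ⟨p w, h1, h2, fun τ hτ => ?_⟩
  obtain ⟨g1, g2, g3⟩ := h3 τ hτ
  refine ⟨by linarith, fun a ha => ⟨?_, ?_⟩, fun g hg => (g3 g hg).trans (by linarith only [hε, hb])⟩
  · exact (g2 a (hw1.1 ha)).1.trans (by linarith only [hε, hb])
  · have g4 := (g2 a (hw1.1 ha)).2
    have g5 : τ (a * p w) - μ * τ a = (τ (a * p w) - m w * τ a) + ((m w - μ : ℝ) : ℂ) * τ a := by
      push_cast; ring
    rw [g5]
    refine (norm_add_le _ _).trans ?_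
    rw [norm_mul, Complex.norm_real, Real.norm_eq_abs]
    have g6 : ‖τ a‖ ≤ C := (hτ.norm_le a).trans (hCa a ha)
    have g7 : |m w - μ| * ‖τ a‖ ≤ ε / (2 * C) * C :=
      mul_le_mul hw2.le g6 (norm_nonneg _) (by (clear * - hε; positivity))
    have g8 : ε / (2 * C) * C = ε / 2 := by field_simp
    linarith only [hb, g4, g7, g8]

end main

end Vale.Agent.P095
end

section

/-! Norms and lifts in the relative central sequence algebra. -/

set_option linter.unusedSectionVars false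

open Filter Topology
open scoped CStarAlgebra ComplexOrder

namespace Vale.Agent.P095N

open Vale.Agent.P101 Vale.Agent.P101.SeqQuot Vale.Agent.P133

universe u v w

section cut

variable {E : Type v} [CStarAlgebra E] [PartialOrder E] [StarOrderedRing E]

/-- the cut function -/
noncomputable def cutf (r : ℝ) (t : ℝ) : ℝ := max (t - r) 0

theorem continuous_cutf (r : ℝ) : Continuous (cutf r) := by unfold cutf; fun_prop

theorem cutf_nonneg (x : E) (r : ℝ) : 0 ≤ cfc (cutf r) x := cfc_nonneg fun t _ => le_max_right _ _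

theorem cutf_ne_zero (x : E) (hx : 0 ≤ x) (r : ℝ) (hr : r < ‖x‖) (hr0 : 0 ≤ r) :
    cfc (cutf r) x ≠ 0 := by
  have hx0 : 0 < ‖x‖ := lt_of_le_of_lt hr0 hr
  have hntr : Nontrivial E := by
    by_contra hn
    rw [not_nontrivial_iff_subsingleton] at hn
    rw [Subsingleton.elim x 0, norm_zero] at hx0
    exact lt_irrefl _ hx0
  have hsa : IsSelfAdjoint x := hx.isSelfAdjoint
  intro h0
  have hmem : ‖x‖ ∈ spectrum ℝ x := CStarAlgebra.norm_mem_spectrum_of_nonneg hx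
  have hspec : spectrum ℝ (cfc (cutf r) x) = cutf r '' spectrum ℝ x :=
    cfc_map_spectrum (cutf r) x (hf := (continuous_cutf r).continuousOn)
  have h1 : cutf r ‖x‖ ∈ spectrum ℝ (cfc (cutf r) x) := by
    rw [hspec]
    exact ⟨‖x‖, hmem, rfl⟩
  rw [h0, spectrum.zero_eq] at h1
  have h2 : max (‖x‖ - r) 0 = 0 := h1
  have h3 : ‖x‖ - r ≤ 0 := by
    rw [← h2]; exact le_max_left _ _
  linarith only [hr, h3]

theorem cutf_smul_le (x : E) (hx : 0 ≤ x) (r : ℝ) : r • cfc (cutf r) x ≤ x * cfc (cutf r) x := by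
  have hsa : IsSelfAdjoint x := hx.isSelfAdjoint
  have hc := continuous_cutf r
  have e1 : x * cfc (cutf r) x = cfc (fun t : ℝ => t * cutf r t) x := by
    rw [cfc_mul (fun t : ℝ => t) (cutf r) x (by fun_prop) (by (clear * - hc; fun_prop)), cfc_id' ℝ x]
  have e2 : r • cfc (cutf r) x = cfc (fun t : ℝ => r * cutf r t) x := by
    rw [← cfc_const_mul _ (cutf r) x (by fun_prop)]
  rw [e1, e2]
  refine cfc_mono (fun t _ => ?_) (by fun_prop) (by fun_prop)
  unfold cutf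
  rcases le_total (t - r) 0 with h | h
  · rw [max_eq_right h, mul_zero, mul_zero]
  · exact mul_le_mul_of_nonneg_right (by linarith only [h]) (le_max_right _ _)

end cut

variable {M : Type u} [CStarAlgebra M] {I : CIdeal M} {ι : Type v} {μ : Filter ι}

theorem comm_const (q : relComm I μ) {b : M} (hb : b ∈ I) :
    (q : Bq M μ) * Bq.constHom μ b = Bq.constHom μ b * (q : Bq M μ) := q.2 b hb

/-- `I` is simple: an element of `I` which annihilates an element of the relative commutant kills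
`I`. -/
theorem mem_annI_of_simple (hS : SimpleI I) (q : relComm I μ) {a : M} (ha : a ∈ I) (ha0 : a ≠ 0)
    (h : (q : Bq M μ) * Bq.constHom μ a = 0) : q ∈ annI I μ := by
  rw [mem_annI]
  intro b hb
  rw [← norm_eq_zero]
  refine le_antisymm (le_of_forall_pos_le_add fun ε hε => ?_) (norm_nonneg _)
  have hq : 0 < ‖(q : Bq M μ)‖ + 1 := by (clear * -; positivity)
  obtain ⟨n, l, r, hl, hr, hlr⟩ := hS a ha ha0 b hb (ε / (‖(q : Bq M μ)‖ + 1)) (by positivity)
  have h1 : (q : Bq M μ) * Bq.constHom μ (∑ i, l i * a * r i) = 0 := by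
    rw [map_sum, Finset.mul_sum]
    refine Finset.sum_eq_zero fun i _ => ?_
    rw [map_mul, map_mul, ← mul_assoc, ← mul_assoc, comm_const q (hl i), mul_assoc _ (q : Bq M μ), h,
      mul_zero, zero_mul]
  have h2 : (q : Bq M μ) * Bq.constHom μ b =
      -((q : Bq M μ) * Bq.constHom μ (∑ i, l i * a * r i - b)) := by
    rw [map_sub, mul_sub, h1, zero_sub, neg_neg]
  rw [h2, norm_neg, zero_add]
  calc ‖(q : Bq M μ) * Bq.constHom μ (∑ i, l i * a * r i - b)‖
      ≤ ‖(q : Bq M μ)‖ * ‖∑ i, l i * a * r i - b‖ :=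
        (norm_mul_le _ _).trans (mul_le_mul_of_nonneg_left
          (NonUnitalStarAlgHom.norm_apply_le (Bq.constHom μ) _) (norm_nonneg _))
    _ ≤ (‖(q : Bq M μ)‖ + 1) * (ε / (‖(q : Bq M μ)‖ + 1)) :=
        mul_le_mul (by linarith only []) hlr (norm_nonneg _) hq.le
    _ = ε := by (clear * - hε; field_simp)

section abstractNorm

variable {R : Type w} [CStarAlgebra R] {B : Type v} [CStarAlgebra B] {N : Type u} [CStarAlgebra N]

theorem abs_norm_pos [PartialOrder N] [StarOrderedRing N] [PartialOrder B] [StarOrderedRing B]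
    [PartialOrder R] [StarOrderedRing R] (inc : R →⋆ₐ[ℂ] B) (κ : N →⋆ₐ[ℂ] B) (J : CIdeal R)
    (K' : CIdeal N) (hcomm : ∀ q : R, ∀ b ∈ K', inc q * κ b = κ b * inc q)
    (hkill : ∀ q : R, ∀ a ∈ K', a ≠ 0 → inc q * κ a = 0 → q ∈ J)
    (y : R) (hy : 0 ≤ y) {p : N} (hp : 0 ≤ p) (hpI : p ∈ K') :
    ‖Quo.qm J y‖ * ‖p‖ ≤ ‖inc y * κ p‖ := by
  by_contra hlt
  push Not at hlt
  set Y : Quo J := Quo.qm J y with hY
  have hp0 : 0 < ‖p‖ := by
    rcases (norm_nonneg p).eq_or_lt with h | h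
    · rw [← h, mul_zero] at hlt
      exact absurd hlt (not_lt.2 (norm_nonneg _))
    · exact h
  have hq0 : 0 < ‖Y‖ := by
    rcases (norm_nonneg Y).eq_or_lt with h | h
    · rw [← h, zero_mul] at hlt
      exact absurd hlt (not_lt.2 (norm_nonneg _))
    · exact h
  obtain ⟨c, hc0, hc1, hcl⟩ : ∃ c : ℝ, 0 ≤ c ∧ c < 1 ∧
      ‖inc y * κ p‖ < (c * ‖Y‖) * (c * ‖p‖) := by
    have hcont : Tendsto (fun c : ℝ => (c * ‖Y‖) * (c * ‖p‖)) (𝓝[<] 1)
        (𝓝 ((1 * ‖Y‖) * (1 * ‖p‖))) := by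
      apply Tendsto.mono_left _ nhdsWithin_le_nhds
      have : Continuous (fun c : ℝ => (c * ‖Y‖) * (c * ‖p‖)) := by fun_prop
      exact this.tendsto 1
    have h1 := hcont.eventually_const_lt (u := ‖inc y * κ p‖) (by simpa only [one_mul] using hlt)
    have h2 : ∀ᶠ c : ℝ in 𝓝[<] 1, 0 ≤ c := by
      filter_upwards [mem_nhdsWithin_of_mem_nhds (Ioi_mem_nhds (show (0:ℝ) < 1 by norm_num))]
        with c hc
      exact le_of_lt hc
    obtain ⟨c, ⟨h3, h4⟩, h5⟩ := ((h1.and h2).and self_mem_nhdsWithin).exists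
    exact ⟨c, h4, h5, h3⟩
  have hysa : IsSelfAdjoint y := hy.isSelfAdjoint
  -- cuts
  set g : N := cfc (cutf (c * ‖p‖)) p with hg
  have hg0 : g ≠ 0 := cutf_ne_zero p hp _ (by nlinarith only [hp0, hc1]) (by (clear * - hc0 hp0; positivity))
  have hgI : g ∈ K' := K.cfc_mem_ideal K' (continuous_cutf _) (by
    unfold cutf; rw [max_eq_right]; simp only [zero_sub, Left.neg_nonpos_iff]; (clear * - hc0 hp0; positivity)) hp.isSelfAdjoint hpI
  have hgpos : 0 ≤ g := cutf_nonneg p _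
  have hgle : (c * ‖p‖) • g ≤ p * g := cutf_smul_le p hp _
  set f : R := cfc (cutf (c * ‖Y‖)) y with hf
  have hYpos : 0 ≤ Y := map_nonneg (Quo.qm J) hy
  have hfne : Quo.qm J f ≠ 0 := by
    rw [hf, Quo.qm_cfc (continuous_cutf _) hysa]
    exact cutf_ne_zero Y hYpos _ (by nlinarith only [hq0, hc1]) (by (clear * - hc0 hq0; positivity))
  have hfpos : 0 ≤ f := cutf_nonneg y _
  have hfle : (c * ‖Y‖) • f ≤ y * f := cutf_smul_le y hy _
  have hne : inc f * κ g ≠ 0 := by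
    intro h0
    exact hfne (Quo.qm_zero_of_mem (hkill f g hgI hg0 h0))
  have hκg : 0 ≤ κ g := map_nonneg κ hgpos
  have hF : 0 ≤ inc f := map_nonneg inc hfpos
  have hsm : inc ((c * ‖Y‖) • f) = (c * ‖Y‖) • inc f := by
    rw [← Complex.coe_smul, ← Complex.coe_smul, map_smul]
  have hYf : 0 ≤ inc y * inc f - (c * ‖Y‖) • inc f := by
    have h1 : 0 ≤ inc (y * f - (c * ‖Y‖) • f) := map_nonneg inc (sub_nonneg.2 hfle)
    rwa [map_sub, map_mul, hsm] at h1
  have hyf : Commute y f := by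
    have h1 := cfc_commute_cfc (fun t : ℝ => t) (cutf (c * ‖Y‖)) y
    rwa [cfc_id' ℝ y] at h1
  have hyf0 : 0 ≤ inc y * inc f := by
    have h1 : 0 ≤ inc (y * f) := map_nonneg inc (hyf.mul_nonneg hy hfpos)
    rwa [map_mul] at h1
  have cgf : Commute (inc f) (κ g) := hcomm f g hgI
  have hgf : 0 ≤ inc f * κ g := cgf.mul_nonneg hF hκg
  have hpg : 0 ≤ κ (p * g) - (c * ‖p‖) • κ g := by
    have h2 : (c * ‖p‖) • κ g = κ ((c * ‖p‖) • g) := by
      rw [← Complex.coe_smul, ← Complex.coe_smul, map_smul]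
    rw [h2, ← map_sub]
    exact map_nonneg κ (sub_nonneg.2 hgle)
  have hpgI : p * g ∈ K' := K'.mul_left' _ _ hgI
  have cY : ∀ b ∈ K', Commute (inc y * inc f) (κ b) := fun b hb =>
    Commute.mul_left (hcomm y b hb) (hcomm f b hb)
  have hmain : ((c * ‖Y‖) * (c * ‖p‖)) • (inc f * κ g) ≤
      (inc y * κ p) * (inc f * κ g) := by
    have e0 : (inc y * κ p) * (inc f * κ g) = (inc y * inc f) * κ (p * g) := by
      rw [map_mul, mul_assoc (inc y), ← mul_assoc (κ p), ← hcomm f p hpI]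
      simp only [mul_assoc]
    have h3 : 0 ≤ (inc y * inc f) * (κ (p * g) - (c * ‖p‖) • κ g) :=
      ((cY _ hpgI).sub_right ((cY _ hgI).smul_right _)).mul_nonneg hyf0 hpg
    have h4 : 0 ≤ (inc y * inc f - (c * ‖Y‖) • inc f) * κ g :=
      ((cY _ hgI).sub_left (cgf.smul_left _)).mul_nonneg hYf hκg
    rw [e0, ← sub_nonneg]
    have h5 : (inc y * inc f) * κ (p * g) - ((c * ‖Y‖) * (c * ‖p‖)) • (inc f * κ g) =
        (inc y * inc f) * (κ (p * g) - (c * ‖p‖) • κ g) +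
          (c * ‖p‖) • ((inc y * inc f - (c * ‖Y‖) • inc f) * κ g) := by
      rw [mul_sub, sub_mul, smul_sub, smul_mul_assoc, mul_smul_comm, smul_smul,
        mul_comm (c * ‖p‖) (c * ‖Y‖)]
      abel
    rw [h5]
    exact add_nonneg h3 (smul_nonneg (by (clear * - hc0 hp0; positivity)) h4)
  have hn : ((c * ‖Y‖) * (c * ‖p‖)) * ‖inc f * κ g‖ ≤ ‖inc y * κ p‖ * ‖inc f * κ g‖ := by
    have h6 : 0 ≤ ((c * ‖Y‖) * (c * ‖p‖)) • (inc f * κ g) := smul_nonneg (by (clear * - hc0 hq0 hp0; positivity)) hgf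
    have h7 := CStarAlgebra.norm_le_norm_of_nonneg_of_le h6 hmain
    rw [norm_smul, Real.norm_of_nonneg (by (clear * - hc0 hq0 hp0; positivity))] at h7
    exact h7.trans (norm_mul_le _ _)
  have h8 : 0 < ‖inc f * κ g‖ := norm_pos_iff.2 hne
  have h9 := le_of_mul_le_mul_right hn h8
  linarith only [hcl, h9]

/-- Norm multiplicativity. -/
theorem abs_norm_mul (inc : R →⋆ₐ[ℂ] B) (κ : N →⋆ₐ[ℂ] B) (J : CIdeal R)
    (K' : CIdeal N) (hcomm : ∀ q : R, ∀ b ∈ K', inc q * κ b = κ b * inc q)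
    (hkill : ∀ q : R, ∀ a ∈ K', a ≠ 0 → inc q * κ a = 0 → q ∈ J)
    (hJ : ∀ q ∈ J, ∀ a ∈ K', inc q * κ a = 0)
    (y : R) {b : N} (hb : b ∈ K') :
    ‖inc y * κ b‖ = ‖Quo.qm J y‖ * ‖b‖ := by
  let _ := CStarAlgebra.spectralOrder N
  have _ := CStarAlgebra.spectralOrderedRing N
  let _ := CStarAlgebra.spectralOrder B
  have _ := CStarAlgebra.spectralOrderedRing B
  let _ := CStarAlgebra.spectralOrder R
  have _ := CStarAlgebra.spectralOrderedRing R
  refine le_antisymm ?_ ?_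
  · refine le_of_forall_pos_le_add fun ε hε => ?_
    obtain ⟨z, hz, hz'⟩ := Quo.exists_qm_norm_lt (I := J) (Quo.qm J y) (ε := ε / (‖b‖ + 1))
      (by positivity)
    have h1 : inc y * κ b = inc z * κ b := by
      rw [← sub_eq_zero, ← sub_mul, ← map_sub]
      exact hJ _ (by rw [← Quo.qm_eq_iff]; exact hz.symm) b hb
    rw [h1]
    calc ‖inc z * κ b‖ ≤ ‖z‖ * ‖b‖ := (norm_mul_le _ _).trans (mul_le_mul
          (NonUnitalStarAlgHom.norm_apply_le inc z) (NonUnitalStarAlgHom.norm_apply_le κ b)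
          (norm_nonneg _) (norm_nonneg _))
      _ ≤ (‖Quo.qm J y‖ + ε / (‖b‖ + 1)) * ‖b‖ :=
          mul_le_mul_of_nonneg_right hz'.le (norm_nonneg _)
      _ ≤ ‖Quo.qm J y‖ * ‖b‖ + ε := by
          rw [add_mul]
          have : ε / (‖b‖ + 1) * ‖b‖ ≤ ε := by
            rw [div_mul_eq_mul_div, div_le_iff₀ (by positivity)]
            linarith
          linarith only [this]
  · have h1 := abs_norm_pos inc κ J K' hcomm hkill (star y * y) (star_mul_self_nonneg y)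
      (star_mul_self_nonneg b) (K'.mul_left' _ _ hb)
    have e : inc (star y * y) * κ (star b * b) = star (inc y * κ b) * (inc y * κ b) := by
      rw [star_mul, map_mul, map_mul, ← mul_assoc, mul_assoc (inc (star y)),
        hcomm y (star b) (K'.star_mem' b hb), ← mul_assoc, hcomm (star y) _ (K'.star_mem' b hb),
        map_star, map_star]
      simp only [mul_assoc]
    rw [e, map_mul, map_star, CStarRing.norm_star_mul_self, CStarRing.norm_star_mul_self,
      CStarRing.norm_star_mul_self] at h1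
    have h2 : (‖Quo.qm J y‖ * ‖b‖) * (‖Quo.qm J y‖ * ‖b‖) ≤ ‖inc y * κ b‖ * ‖inc y * κ b‖ := by
      linarith only [h1]
    exact (mul_self_le_mul_self_iff (by (clear * -; positivity)) (norm_nonneg _)).2 h2

end abstractNorm

/-- Norm multiplicativity for the relative central sequence algebra. -/
theorem FR.norm_mul_const (hS : SimpleI I) (x : relSeq I μ) {b : M} (hb : b ∈ I) :
    ‖Bq.mk μ (relSeq.toBdd x * Bq.const b)‖ = ‖FR.mk I μ x‖ * ‖b‖ :=
  abs_norm_mul (relComm I μ).subtype (Bq.constHom μ) (annI I μ) I (fun q b hb => q.2 b hb)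
    (fun q _ ha ha0 h => mem_annI_of_simple hS q ha ha0 h) (fun _ hq a ha => hq a ha)
    (toComm I μ x) hb

theorem FR.norm_mk_le (x : relSeq I μ) {C : ℝ} (hC : 0 ≤ C)
    (h : ∀ᶠ i in μ, ‖(x : ι → M) i‖ ≤ C) : ‖FR.mk I μ x‖ ≤ C := by
  refine (Quo.norm_qm_le (I := annI I μ) (toComm I μ x)).trans ?_
  show ‖Bq.mk μ (relSeq.toBdd x)‖ ≤ C
  rw [Bq.norm_mk]
  exact nrm_le hC h

theorem FR.norm_mul_const_le (x : relSeq I μ) {b : M} (hb : b ∈ I) :
    ‖Bq.mk μ (relSeq.toBdd x * Bq.const b)‖ ≤ ‖FR.mk I μ x‖ * ‖b‖ := by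
  refine le_of_forall_pos_le_add fun ε hε => ?_
  obtain ⟨z, hz, hz'⟩ := Quo.exists_qm_norm_lt (I := annI I μ) (Quo.qm _ (toComm I μ x))
    (ε := ε / (‖b‖ + 1)) (by positivity)
  have h1 : Bq.mk μ (relSeq.toBdd x * Bq.const b) = (z : Bq M μ) * Bq.constHom μ b := by
    have h2 : toComm I μ x - z ∈ annI I μ := by rw [← Quo.qm_eq_iff]; exact hz.symm
    have h3 : ((toComm I μ x : Bq M μ) - (z : Bq M μ)) * Bq.constHom μ b = 0 := h2 b hb
    rw [sub_mul, sub_eq_zero] at h3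
    exact h3
  rw [h1]
  calc ‖(z : Bq M μ) * Bq.constHom μ b‖ ≤ ‖z‖ * ‖b‖ := (norm_mul_le _ _).trans (mul_le_mul_of_nonneg_left
        (NonUnitalStarAlgHom.norm_apply_le (Bq.constHom μ) b) (norm_nonneg _))
    _ ≤ (‖FR.mk I μ x‖ + ε / (‖b‖ + 1)) * ‖b‖ :=
        mul_le_mul_of_nonneg_right hz'.le (norm_nonneg _)
    _ ≤ ‖FR.mk I μ x‖ * ‖b‖ + ε := by
        rw [add_mul]
        have : ε / (‖b‖ + 1) * ‖b‖ ≤ ε := by
          rw [div_mul_eq_mul_div, div_le_iff₀ (by positivity)]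
          linarith
        linarith only [this]

/-- eventual norm bounds -/
theorem FR.eventually_mul_lt (x : relSeq I μ) {b : M} (hb : b ∈ I) {c : ℝ}
    (h : ‖FR.mk I μ x‖ * ‖b‖ < c) : ∀ᶠ i in μ, ‖(x : ι → M) i * b‖ < c :=
  Bq.eventually_norm_lt μ (relSeq.toBdd x * Bq.const b) ((FR.norm_mul_const_le x hb).trans_lt h)

theorem FR.frequently_lt_mul (hS : SimpleI I) (x : relSeq I μ) {b : M} (hb : b ∈ I) {c : ℝ}
    (hc : 0 ≤ c) (h : c < ‖FR.mk I μ x‖ * ‖b‖) : ∃ᶠ i in μ, c < ‖(x : ι → M) i * b‖ := by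
  intro hcon
  have h1 : ‖Bq.mk μ (relSeq.toBdd x * Bq.const b)‖ ≤ c := by
    rw [Bq.norm_mk]
    refine nrm_le hc ?_
    filter_upwards [hcon] with i hi
    exact not_lt.1 hi
  rw [FR.norm_mul_const hS x hb] at h1
  linarith only [h, h1]

/-- The whole algebra as an ideal. -/
noncomputable def topIdeal (R : Type w) [CStarAlgebra R] : CIdeal R where
  toSub := ⊤
  mul_left' _ _ _ := trivial
  mul_right' _ _ _ := trivial
  star_mem' _ _ := trivial
  closed' := isClosed_univ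

theorem exists_lift_comm (q : FR I μ) (hq : ‖q‖ ≤ 1) :
    ∃ b : relComm I μ, ‖(b : Bq M μ)‖ ≤ 1 ∧ Quo.qm (annI I μ) b = q := by
  let _ := CStarAlgebra.spectralOrder (relComm I μ)
  have _ := CStarAlgebra.spectralOrderedRing (relComm I μ)
  obtain ⟨a, ha⟩ := Quo.qm_surjective (I := annI I μ) q
  have hq' : ‖Quo.qm (annI I μ) a‖ ≤ 1 := by
    have : ‖Quo.qm (annI I μ) a‖ = ‖q‖ := congrArg norm ha
    rw [this]; exact hq
  obtain ⟨b, -, hb1, hb⟩ := exists_lift_contraction (I := annI I μ) (A := topIdeal (relComm I μ))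
    (a := a) trivial hq'
  exact ⟨b, hb1, hb.trans ha⟩

/-- Lifting contractions. -/
theorem FR.exists_lift_one (q : FR I μ) (hq : ‖q‖ ≤ 1) :
    ∃ x : relSeq I μ, FR.mk I μ x = q ∧ ∀ i, ‖(x : ι → M) i‖ ≤ 1 := by
  obtain ⟨b, hb1, hb⟩ := exists_lift_comm q hq
  obtain ⟨X, hX, hX1⟩ := P095.NCG.exists_lift_one μ (b : Bq M μ) hb1
  have hc : ∀ c ∈ I, Bq.mk μ (X * Bq.const c) = Bq.mk μ (Bq.const c * X) := by
    intro c hc
    have h1 := b.2 c hc
    rw [← hX] at h1
    exact h1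
  refine ⟨⟨X, X.2, fun c hc' => (Bq.mk_eq_iff μ (X * Bq.const c) (Bq.const c * X)).1 (hc c hc')⟩,
    ?_, hX1⟩
  rw [← hb]
  exact congrArg (Quo.qm (annI I μ)) (Subtype.ext hX)

end Vale.Agent.P095N
end

section

/-! Functoriality of the relative central sequence algebra: action, pull-back, commuting copies. -/

set_option linter.unusedSectionVars false

open Filter Topology
open scoped CStarAlgebra ComplexOrder

namespace Vale.Agent.P095N

open Vale.Agent.P101 Vale.Agent.P101.SeqQuot Vale.Agent.P133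

universe u v w

variable {M : Type u} [CStarAlgebra M] (I : CIdeal M)

namespace FR

section lift

variable {I} {ι : Type v} {μ : Filter ι} {C : Type*} [Ring C] [StarRing C] [Algebra ℂ C]

/-- a representative -/
noncomputable def rep (q : FR I μ) : relSeq I μ := Function.surjInv (mk_surjective (I := I)) q

theorem mk_rep (q : FR I μ) : mk I μ (rep q) = q := Function.surjInv_eq (mk_surjective (I := I)) q

/-- Universal property. -/
noncomputable def lift (f : relSeq I μ →⋆ₐ[ℂ] C)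
    (h : ∀ x y : relSeq I μ, mk I μ x = mk I μ y → f x = f y) : FR I μ →⋆ₐ[ℂ] C where
  toFun q := f (rep q)
  map_one' := by
    rw [← map_one f]
    exact h _ _ (by rw [mk_rep, map_one])
  map_mul' p q := by
    rw [← map_mul f]
    exact h _ _ (by rw [mk_rep, map_mul, mk_rep, mk_rep])
  map_zero' := by
    rw [← map_zero f]
    exact h _ _ (by rw [mk_rep, map_zero])
  map_add' p q := by
    rw [← map_add f]
    exact h _ _ (by rw [mk_rep, map_add, mk_rep, mk_rep])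
  commutes' r := by
    have h1 : f (rep (algebraMap ℂ (FR I μ) r)) = f (algebraMap ℂ (relSeq I μ) r) :=
      h _ _ (by rw [mk_rep]; exact (AlgHomClass.commutes (mk I μ) r).symm)
    rw [h1]
    exact AlgHomClass.commutes f r
  map_star' p := by
    rw [← map_star f]
    exact h _ _ (by rw [mk_rep, map_star, mk_rep])

theorem lift_mk (f : relSeq I μ →⋆ₐ[ℂ] C)
    (h : ∀ x y : relSeq I μ, mk I μ x = mk I μ y → f x = f y) (x : relSeq I μ) :
    lift f h (mk I μ x) = f x := h _ _ (mk_rep _)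

end lift

section pull

variable {ι ι' : Type v} {μ : Filter ι} {μ' : Filter ι'}

/-- pull-back of functions -/
def pullSeq (f : ι' → ι) (hf : Tendsto f μ' μ) : relSeq I μ →⋆ₐ[ℂ] relSeq I μ' where
  toFun x := ⟨fun i => (x : ι → M) (f i), by
    obtain ⟨⟨C, hC⟩, hx⟩ := x.2
    exact ⟨⟨C, fun i => hC (f i)⟩, fun a ha => (hx a ha).comp hf⟩⟩
  map_one' := rfl
  map_mul' _ _ := rfl
  map_zero' := rfl
  map_add' _ _ := rfl
  commutes' _ := rfl
  map_star' _ := rfl

variable {I}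

/-- pull-back -/
noncomputable def pull (f : ι' → ι) (hf : Tendsto f μ' μ) : FR I μ →⋆ₐ[ℂ] FR I μ' :=
  lift ((mk I μ').comp (pullSeq I f hf)) (by
    intro x y hxy
    rw [mk_eq_iff] at hxy
    show mk I μ' _ = mk I μ' _
    rw [mk_eq_iff]
    exact fun b hb => (hxy b hb).comp hf)

theorem pull_mk (f : ι' → ι) (hf : Tendsto f μ' μ) (x : relSeq I μ) :
    pull f hf (mk I μ x) = mk I μ' (pullSeq I f hf x) := lift_mk _ _ _

end pull

section curry

variable {I} {ι ι' : Type v} (μ : Filter ι) (μ' : Filter ι')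

theorem pull_commute (x : FR I μ') (y : FR I μ) :
    Commute (pull Prod.fst (tendsto_fst_curry μ μ') x : FR I (μ'.curry μ))
      (pull Prod.snd (tendsto_snd_curry μ μ') y) := by
  obtain ⟨x, rfl⟩ := mk_surjective x
  obtain ⟨y, rfl⟩ := mk_surjective y
  rw [pull_mk, pull_mk]
  show _ * _ = _ * _
  rw [← map_mul, ← map_mul, mk_eq_iff]
  intro b hb
  refine Filter.Tendsto.curry (f := fun i j => ‖((x : ι' → M) i * (y : ι → M) j
    - (y : ι → M) j * (x : ι' → M) i) * b‖) (Filter.Eventually.of_forall fun i => ?_)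
  have h1 := (relSeq_comm y hb).const_mul ‖(x : ι' → M) i‖
  have h2 := relSeq_comm y (I.mul_left' ((x : ι' → M) i) b hb)
  have h3 := h1.add h2
  rw [mul_zero, add_zero] at h3
  refine squeeze_zero (fun j => norm_nonneg _) (fun j => ?_) h3
  have e : ((x : ι' → M) i * (y : ι → M) j - (y : ι → M) j * (x : ι' → M) i) * b =
      (x : ι' → M) i * ((y : ι → M) j * b - b * (y : ι → M) j) -
        ((y : ι → M) j * ((x : ι' → M) i * b) - ((x : ι' → M) i * b) * (y : ι → M) j) := by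
    noncomm_ring
  rw [e]
  exact (norm_sub_le _ _).trans (add_le_add (norm_mul_le _ _) le_rfl)

/-- `‖a y‖ = ‖a‖ ‖y‖` for `a ∈ I`. -/
theorem nrm_const_mul (hS : SimpleI I) {a : M} (ha : a ∈ I) (y : relSeq I μ) :
    nrm μ (fun j => (y : ι → M) j * a) = ‖mk I μ y‖ * ‖a‖ := by
  rw [← norm_mul_const hS y ha, Bq.norm_mk]
  rfl

theorem norm_pull_mul (hS : SimpleI I) (hI : ∃ b ∈ I, b ≠ 0) (x : FR I μ')
    (y : FR I μ) :
    ‖(pull Prod.fst (tendsto_fst_curry μ μ') x : FR I (μ'.curry μ)) *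
      pull Prod.snd (tendsto_snd_curry μ μ') y‖ = ‖x‖ * ‖y‖ := by
  refine le_antisymm ((norm_mul_le _ _).trans (mul_le_mul
    (NonUnitalStarAlgHom.norm_apply_le _ _) (NonUnitalStarAlgHom.norm_apply_le _ _)
    (norm_nonneg _) (norm_nonneg _))) ?_
  obtain ⟨b, hb, hb0⟩ := hI
  have hbn : 0 < ‖b‖ := norm_pos_iff.2 hb0
  rw [(pull_commute μ μ' x y).eq]
  obtain ⟨x, rfl⟩ := mk_surjective x
  obtain ⟨y, rfl⟩ := mk_surjective y
  rw [pull_mk, pull_mk, ← map_mul]
  set z : relSeq I (μ'.curry μ) := pullSeq I Prod.snd (tendsto_snd_curry μ μ') y *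
    pullSeq I Prod.fst (tendsto_fst_curry μ μ') x with hz
  set N := ‖mk I (μ'.curry μ) z‖ with hN
  rcases (norm_nonneg (mk I μ y)).eq_or_lt with hy | hy
  · rw [← hy, mul_zero]; exact norm_nonneg _
  refine le_of_forall_pos_le_add fun ε hε => ?_
  have h1 := eventually_mul_lt z hb (c := (N + ε) * ‖b‖) (by
    rw [← hN]; exact mul_lt_mul_of_pos_right (by linarith only [hε]) hbn)
  rw [eventually_curry_iff] at h1
  have h2 : ∀ᶠ i in μ', ‖(x : ι' → M) i * b‖ ≤ (N + ε) * ‖b‖ / ‖mk I μ y‖ := by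
    filter_upwards [h1] with i hi
    rw [le_div_iff₀ hy, mul_comm, ← nrm_const_mul μ hS (I.mul_left' ((x : ι' → M) i) b hb) y]
    refine nrm_le (by positivity) ?_
    filter_upwards [hi] with j hj
    rw [← mul_assoc]
    exact hj.le
  have h3 : ‖mk I μ' x‖ * ‖b‖ ≤ (N + ε) * ‖b‖ / ‖mk I μ y‖ := by
    rw [← nrm_const_mul μ' hS hb x]
    exact nrm_le (by (clear * - hε hb0 hy; positivity)) h2
  rw [le_div_iff₀ hy] at h3
  have h4 : (‖mk I μ' x‖ * ‖mk I μ y‖) * ‖b‖ ≤ (N + ε) * ‖b‖ := by linarith only [h3]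
  exact le_of_mul_le_mul_right h4 hbn

end curry

section act

variable {I} {G : Type w} [Group G] (β : G →* (M ≃⋆ₐ[ℂ] M)) (hβ : InvI I β) {ι : Type v}
  (μ : Filter ι)

theorem norm_β (g : G) (x : M) : ‖β g x‖ = ‖x‖ := by
  refine le_antisymm (NonUnitalStarAlgHom.norm_apply_le ((β g : M ≃⋆ₐ[ℂ] M) : M →⋆ₐ[ℂ] M) x) ?_
  have h := NonUnitalStarAlgHom.norm_apply_le ((β g⁻¹ : M ≃⋆ₐ[ℂ] M) : M →⋆ₐ[ℂ] M) (β g x)
  have e : ((β g⁻¹ : M ≃⋆ₐ[ℂ] M) : M →⋆ₐ[ℂ] M) (β g x) = x := by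
    show (β g⁻¹ * β g) x = x
    rw [← map_mul, inv_mul_cancel, map_one]
    rfl
  rwa [e] at h

theorem β_β_inv (g : G) (x : M) : β g (β g⁻¹ x) = x := by
  show (β g * β g⁻¹) x = x
  rw [← map_mul, mul_inv_cancel, map_one]
  rfl

include hβ in
theorem act_mem {x : ι → M} (hx : x ∈ relSeq I μ) (g : G) :
    (fun i => β g (x i)) ∈ relSeq I μ := by
  obtain ⟨⟨C, hC⟩, hx⟩ := hx
  refine ⟨⟨C, fun i => by rw [norm_β]; exact hC i⟩, fun a ha => ?_⟩
  refine (hx (β g⁻¹ a) (hβ g⁻¹ a ha)).congr fun i => ?_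
  have e : β g (x i) * a - a * β g (x i) = β g (x i * β g⁻¹ a - β g⁻¹ a * x i) := by
    rw [map_sub, map_mul, map_mul, β_β_inv]
  rw [e, norm_β]

/-- The action on functions. -/
def actSeq (g : G) : relSeq I μ →⋆ₐ[ℂ] relSeq I μ where
  toFun x := ⟨fun i => β g ((x : ι → M) i), act_mem β hβ μ x.2 g⟩
  map_one' := Subtype.ext (funext fun _ => map_one _)
  map_mul' _ _ := Subtype.ext (funext fun _ => map_mul _ _ _)
  map_zero' := Subtype.ext (funext fun _ => map_zero _)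
  map_add' _ _ := Subtype.ext (funext fun _ => map_add _ _ _)
  commutes' r := Subtype.ext (funext fun _ => AlgHomClass.commutes (β g) r)
  map_star' _ := Subtype.ext (funext fun _ => map_star _ _)

/-- The action. -/
noncomputable def act (g : G) : FR I μ →⋆ₐ[ℂ] FR I μ :=
  lift ((mk I μ).comp (actSeq β hβ μ g)) (by
    intro x y hxy
    rw [mk_eq_iff] at hxy
    show mk I μ _ = mk I μ _
    rw [mk_eq_iff]
    intro b hb
    refine (hxy (β g⁻¹ b) (hβ g⁻¹ b hb)).congr fun i => ?_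
    show _ = ‖(β g ((x : ι → M) i) - β g ((y : ι → M) i)) * b‖
    have e : (β g ((x : ι → M) i) - β g ((y : ι → M) i)) * b =
        β g (((x : ι → M) i - (y : ι → M) i) * β g⁻¹ b) := by
      rw [map_mul, map_sub, β_β_inv]
    rw [e, norm_β])

theorem act_mk (g : G) (x : relSeq I μ) :
    act β hβ μ g (mk I μ x) = mk I μ (actSeq β hβ μ g x) := lift_mk _ _ _

theorem act_one (q : FR I μ) : act β hβ μ 1 q = q := by
  obtain ⟨x, rfl⟩ := mk_surjective q
  rw [act_mk]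
  congr 1
  refine Subtype.ext (funext fun i => ?_)
  show β 1 _ = _
  rw [map_one]
  rfl

theorem act_mul (g h : G) (q : FR I μ) : act β hβ μ (g * h) q = act β hβ μ g (act β hβ μ h q) := by
  obtain ⟨x, rfl⟩ := mk_surjective q
  rw [act_mk, act_mk, act_mk]
  congr 1
  refine Subtype.ext (funext fun i => ?_)
  show β (g * h) _ = β g (β h _)
  rw [map_mul]
  rfl

/-- The action by automorphisms. -/
noncomputable def actE : G →* (FR I μ ≃⋆ₐ[ℂ] FR I μ) where
  toFun g :=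
    { toFun := act β hβ μ g
      invFun := act β hβ μ g⁻¹
      left_inv := fun q => by rw [← act_mul, inv_mul_cancel, act_one]
      right_inv := fun q => by rw [← act_mul, mul_inv_cancel, act_one]
      map_mul' := fun p q => map_mul _ p q
      map_add' := fun p q => map_add _ p q
      map_star' := fun p => map_star _ p
      map_smul' := fun c p => map_smul _ c p }
  map_one' := by
    ext q
    exact act_one β hβ μ q
  map_mul' g h := by
    ext q
    exact act_mul β hβ μ g h q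

theorem actE_apply (g : G) (q : FR I μ) : actE β hβ μ g q = act β hβ μ g q := rfl

theorem norm_act (g : G) (q : FR I μ) : ‖act β hβ μ g q‖ = ‖q‖ := by
  refine le_antisymm (NonUnitalStarAlgHom.norm_apply_le (act β hβ μ g) q) ?_
  have h := NonUnitalStarAlgHom.norm_apply_le (act β hβ μ g⁻¹) (act β hβ μ g q)
  rwa [← act_mul, inv_mul_cancel, act_one] at h

theorem pull_act {ι' : Type v} {μ : Filter ι} {μ' : Filter ι'} (f : ι' → ι) (hf : Tendsto f μ' μ)
    (g : G) (q : FR I μ) : pull f hf (act β hβ μ g q) = act β hβ μ' g (pull f hf q) := by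
  obtain ⟨x, rfl⟩ := mk_surjective q
  rw [act_mk, pull_mk, pull_mk, act_mk]
  rfl

end act

section legs

variable {I} {G : Type w} [Group G] (β : G →* (M ≃⋆ₐ[ℂ] M)) (hβ : InvI I β)

/-- Commuting equivariant copies with multiplicative norms. -/
structure NLegs {k : ℕ} {ι ι' : Type v} (μ : Filter ι) (μ' : Filter ι')
    (L : Legs (Fin k) (FR I μ) (FR I μ')) : Prop where
  equi : ∀ i g x, L.σ i (act β hβ μ g x) = act β hβ μ' g (L.σ i x)
  norm : ∀ z : Fin k → FR I μ, ‖L.prodHom z‖ = ∏ i, ‖z i‖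
  ultra : (∀ s, s ∈ μ ∨ sᶜ ∈ μ) → ∀ s, s ∈ μ' ∨ sᶜ ∈ μ'

theorem ultra_curry {ι ι' : Type v} (μ : Filter ι) (μ' : Filter ι')
    (h : ∀ s, s ∈ μ ∨ sᶜ ∈ μ) (h' : ∀ s, s ∈ μ' ∨ sᶜ ∈ μ') (s : Set (ι' × ι)) :
    s ∈ μ'.curry μ ∨ sᶜ ∈ μ'.curry μ := by
  have e : ∀ t : Set (ι' × ι), t ∈ μ'.curry μ ↔ ∀ᶠ i in μ', ∀ᶠ j in μ, (i, j) ∈ t := fun t =>
    eventually_curry_iff
  rw [e, e]
  rcases h' {i | ∀ᶠ j in μ, (i, j) ∈ s} with h1 | h1
  · exact Or.inl h1
  · refine Or.inr (Filter.mem_of_superset h1 fun i hi => ?_)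
    rcases h {j | (i, j) ∈ s} with h2 | h2
    · exact absurd h2 hi
    · exact h2

theorem norm_one_FR (hS : SimpleI I) (hI : ∃ b ∈ I, b ≠ 0) {ι : Type v} (μ : Filter ι) [NeBot μ] :
    ‖(1 : FR I μ)‖ = 1 := by
  obtain ⟨b, hb, hb0⟩ := hI
  have hbn : 0 < ‖b‖ := norm_pos_iff.2 hb0
  have h1 := nrm_const_mul μ hS hb (1 : relSeq I μ)
  rw [map_one] at h1
  have h2 : nrm μ (fun j => ((1 : relSeq I μ) : ι → M) j * b) = ‖b‖ := by
    refine le_antisymm (nrm_le (norm_nonneg _) (Eventually.of_forall fun j => ?_)) ?_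
    · show ‖(1 : M) * b‖ ≤ _
      rw [one_mul]
    · refine le_of_forall_pos_le_add fun ε hε => ?_
      obtain ⟨n, hn⟩ := (eventually_lt (μ := μ)
        (x := fun j => ((1 : relSeq I μ) : ι → M) j * b) ⟨‖b‖, fun j => by
          show ‖(1 : M) * b‖ ≤ _
          rw [one_mul]⟩ (c := nrm μ (fun j => ((1 : relSeq I μ) : ι → M) j * b) + ε)
        (by linarith only [hε])).exists
      have h3 : ‖(1 : M) * b‖ < nrm μ (fun j => ((1 : relSeq I μ) : ι → M) j * b) + ε := hn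
      rw [one_mul] at h3
      exact h3.le
  rw [h2] at h1
  have h3 : 1 * ‖b‖ = ‖(1 : FR I μ)‖ * ‖b‖ := by rw [one_mul]; exact h1
  exact (mul_right_cancel₀ hbn.ne' h3).symm

theorem exists_nlegs (hS : SimpleI I) (hI : ∃ b ∈ I, b ≠ 0) (k : ℕ) {ι : Type} (μ : Filter ι)
    [NeBot μ] :
    ∃ (ι' : Type) (μ' : Filter ι') (_ : NeBot μ') (L : Legs (Fin k) (FR I μ) (FR I μ')),
      NLegs β hβ μ μ' L := by
  induction k with
  | zero =>
    refine ⟨ι, μ, inferInstance, ⟨fun i => i.elim0, fun i => i.elim0⟩, ⟨fun i => i.elim0,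
      fun z => ?_, fun h => h⟩⟩
    have : z = 1 := funext fun i => i.elim0
    subst this
    rw [map_one, norm_one_FR hS hI]
    simp only [Finset.univ_eq_empty, Pi.one_apply, Finset.prod_const, Finset.card_empty, pow_zero]
  | succ k ih =>
    obtain ⟨ι', μ', hμ', L, hL⟩ := ih
    let p1 : FR I μ' →⋆ₐ[ℂ] FR I (μ'.curry μ) := pull Prod.fst (tendsto_fst_curry μ μ')
    let p2 : FR I μ →⋆ₐ[ℂ] FR I (μ'.curry μ) := pull Prod.snd (tendsto_snd_curry μ μ')
    let L' : Legs (Fin (k + 1)) (FR I μ) (FR I (μ'.curry μ)) :=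
      ⟨fun i => Fin.cases p2 (fun i => p1.comp (L.σ i)) i, by
        intro i j
        refine Fin.cases ?_ (fun i => ?_) i
        · refine Fin.cases (fun h => (h rfl).elim) (fun j _ x y => ?_) j
          exact (pull_commute μ μ' (L.σ j y) x).symm
        · refine Fin.cases (fun _ x y => ?_) (fun j h x y => ?_) j
          · exact pull_commute μ μ' (L.σ i x) y
          · have h' : i ≠ j := fun e => h (congrArg Fin.succ e)
            exact (L.comm i j h' x y).map p1⟩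
    refine ⟨ι' × ι, μ'.curry μ, curry_neBot μ μ', L', ⟨fun i g x => ?_, fun z => ?_,
      fun h => ultra_curry μ μ' h (hL.ultra h)⟩⟩
    · refine Fin.cases ?_ (fun i => ?_) i
      · show p2 (act β hβ μ g x) = act β hβ (μ'.curry μ) g (p2 x)
        exact pull_act β hβ _ _ g x
      · show p1 (L.σ i (act β hβ μ g x)) = act β hβ (μ'.curry μ) g (p1 (L.σ i x))
        rw [hL.equi]
        exact pull_act β hβ _ _ g _
    · -- the product
      let c : (Fin k → FR I μ) →* (Fin (k + 1) → FR I μ) :=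
        { toFun := fun w => Fin.cons 1 w
          map_one' := by
            funext i
            refine Fin.cases ?_ (fun i => ?_) i <;> simp
          map_mul' := fun a b => by
            funext i
            refine Fin.cases ?_ (fun i => ?_) i <;> simp }
      have h1 : L'.prodHom.comp c = (p1 : FR I μ' →* FR I (μ'.curry μ)).comp L.prodHom := by
        refine MonoidHom.pi_ext fun i x => ?_
        have e1 : c (Pi.mulSingle i x) = Pi.mulSingle i.succ x := by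
          funext j
          refine Fin.cases ?_ (fun j => ?_) j
          · show (1 : FR I μ) = _
            rw [Pi.mulSingle_eq_of_ne (Fin.succ_ne_zero i).symm]
          · show (Pi.mulSingle i x : Fin k → FR I μ) j = _
            by_cases h : j = i
            · subst h; simp
            · rw [Pi.mulSingle_eq_of_ne h, Pi.mulSingle_eq_of_ne]
              exact fun e => h (Fin.succ_injective k e)
        show L'.prodHom (c (Pi.mulSingle i x)) = p1 (L.prodHom (Pi.mulSingle i x))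
        rw [e1, L'.prodHom_mulSingle, L.prodHom_mulSingle]
        rfl
      have h2 : z = c (Fin.tail z) * Pi.mulSingle 0 (z 0) := by
        funext i
        refine Fin.cases ?_ (fun i => ?_) i
        · simp [c]
        · rw [Pi.mul_apply, Pi.mulSingle_eq_of_ne (Fin.succ_ne_zero i), mul_one]
          rfl
      have h3 : L'.prodHom z = p1 (L.prodHom (Fin.tail z)) * p2 (z 0) := by
        conv_lhs => rw [h2, map_mul, L'.prodHom_mulSingle]
        congr 1
        exact congrArg (fun f => f (Fin.tail z)) h1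
      rw [h3, norm_pull_mul μ μ' hS hI, hL.norm, Fin.prod_univ_succ, mul_comm]
      rfl

end legs

end FR

end Vale.Agent.P095N
end

section

/-! Relative estimates: averaging over cosets, measured against fixed elements. -/

open Filter Topology

namespace Vale.Agent.P095K

open Vale.Agent.P095 Vale.Agent.P095J

universe u v w

variable {M : Type u} [CStarAlgebra M] {G : Type w} [Group G] {β : G →* (M ≃⋆ₐ[ℂ] M)}

theorem act_mul_eq (g h : G) (x : M) : β (g * h) x = β g (β h x) := by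
  rw [map_mul]; rfl

/-- Relative orthogonality of translates. -/
theorem off_diagR (s t c c' : M) (hs : ‖s‖ ≤ 2) (ht : ‖t‖ ≤ 2) (hc : IsSelfAdjoint c)
    (hc1 : ‖c‖ ≤ 1) (ε κ δ B : ℝ) (hcs : ‖c * s - s‖ ≤ ε) (hct : ‖c' * t - t‖ ≤ ε)
    (g h : G) (b : M) (hb : ‖b‖ ≤ B)
    (hbt : ‖t * β h⁻¹ b - β h⁻¹ b * t‖ ≤ κ) (hbc : ‖c' * β h⁻¹ b - β h⁻¹ b * c'‖ ≤ δ)
    (hgh : ‖c * β (g⁻¹ * h) c' * β g⁻¹ b‖ ≤ δ) :
    ‖star (β g s) * β h t * b‖ ≤ 4 * B * ε + 2 * κ + 8 * δ := by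
  have e1 : star (β g s) * β h t * b = β g (star s * β (g⁻¹ * h) t * β g⁻¹ b) := by
    rw [map_mul, map_mul, map_star, act_act_inv]
    congr 2
    rw [← act_mul_eq, mul_inv_cancel_left]
  have ek : β h⁻¹ b = β (g⁻¹ * h)⁻¹ (β g⁻¹ b) := by
    rw [← act_mul_eq, mul_inv_rev, inv_inv, mul_assoc, mul_inv_cancel, mul_one]
  rw [ek] at hbt hbc
  have hb' : ‖β g⁻¹ b‖ ≤ B := by rw [norm_act]; exact hb
  rw [e1, norm_act]
  generalize β g⁻¹ b = b' at *
  generalize g⁻¹ * h = k at *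
  have hbt' : ‖β k t * b' - b' * β k t‖ ≤ κ := by
    have e : β k t * b' - b' * β k t = β k (t * β k⁻¹ b' - β k⁻¹ b' * t) := by
      rw [map_sub, map_mul, map_mul, act_act_inv]
    rw [e, norm_act]; exact hbt
  have hbc' : ‖β k c' * b' - b' * β k c'‖ ≤ δ := by
    have e : β k c' * b' - b' * β k c' = β k (c' * β k⁻¹ b' - β k⁻¹ b' * c') := by
      rw [map_sub, map_mul, map_mul, act_act_inv]
    rw [e, norm_act]; exact hbc
  have hct' : ‖β k c' * β k t - β k t‖ ≤ ε := by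
    have e : β k c' * β k t - β k t = β k (c' * t - t) := by rw [map_sub, map_mul]
    rw [e, norm_act]; exact hct
  have hkt : ‖β k t‖ ≤ 2 := by rw [norm_act]; exact ht
  generalize β k t = t' at *
  generalize β k c' = d at *
  have hε : 0 ≤ ε := (norm_nonneg _).trans hcs
  have hB : 0 ≤ B := (norm_nonneg _).trans hb'
  have e2 : star s * t' * b' = - (star (c * s - s) * t' * b') + star s * c * (t' * b' - b' * t')
      - star s * c * b' * (d * t' - t') - star s * c * (d * b' - b' * d) * t'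
      + star s * (c * d * b') * t' := by
    rw [star_sub, star_mul, hc.star_eq]
    noncomm_ring
  have hsc : ‖star s * c‖ ≤ 2 := by
    refine (norm_mul_le _ _).trans ?_
    rw [norm_star]
    nlinarith only [hc1, hs, norm_nonneg s]
  have n1 : ‖star (c * s - s) * t' * b'‖ ≤ ε * 2 * B := by
    refine (norm_mul_le _ _).trans (mul_le_mul ?_ hb' (norm_nonneg _) (by (clear * - hε; positivity)))
    refine (norm_mul_le _ _).trans ?_
    rw [norm_star]
    exact mul_le_mul hcs hkt (norm_nonneg _) hε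
  have n2 : ‖star s * c * (t' * b' - b' * t')‖ ≤ 2 * κ :=
    (norm_mul_le _ _).trans (mul_le_mul hsc hbt' (norm_nonneg _) (by norm_num))
  have n3 : ‖star s * c * b' * (d * t' - t')‖ ≤ 2 * B * ε := by
    refine (norm_mul_le _ _).trans (mul_le_mul ?_ hct' (norm_nonneg _) (by positivity))
    exact (norm_mul_le _ _).trans (mul_le_mul hsc hb' (norm_nonneg _) (by norm_num))
  have hδ : 0 ≤ δ := (norm_nonneg _).trans hbc
  have n4 : ‖star s * c * (d * b' - b' * d) * t'‖ ≤ 2 * δ * 2 := by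
    refine (norm_mul_le _ _).trans (mul_le_mul ?_ hkt (norm_nonneg _) (by positivity))
    exact (norm_mul_le _ _).trans (mul_le_mul hsc hbc' (norm_nonneg _) (by norm_num))
  have n5 : ‖star s * (c * d * b') * t'‖ ≤ 2 * δ * 2 := by
    refine (norm_mul_le _ _).trans (mul_le_mul ?_ hkt (norm_nonneg _) (by (clear * - hδ; positivity)))
    refine (norm_mul_le _ _).trans (mul_le_mul ?_ hgh (norm_nonneg _) (by norm_num))
    rw [norm_star]; exact hs
  rw [e2]
  have m1 := norm_add_le (- (star (c * s - s) * t' * b') + star s * c * (t' * b' - b' * t')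
      - star s * c * b' * (d * t' - t') - star s * c * (d * b' - b' * d) * t')
      (star s * (c * d * b') * t')
  have m2 := norm_sub_le (- (star (c * s - s) * t' * b') + star s * c * (t' * b' - b' * t')
      - star s * c * b' * (d * t' - t')) (star s * c * (d * b' - b' * d) * t')
  have m3 := norm_sub_le (- (star (c * s - s) * t' * b') + star s * c * (t' * b' - b' * t'))
      (star s * c * b' * (d * t' - t'))
  have m4 := norm_add_le (- (star (c * s - s) * t' * b')) (star s * c * (t' * b' - b' * t'))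
  rw [norm_neg] at m4
  linarith only [n1, n2, n3, n4, n5, m1, m2, m3, m4]

theorem diag_boundR (x e : M) (g : G) (b : M) (ε η : ℝ)
    (h : ‖(star x * x - e) * β g⁻¹ b‖ ≤ ε) (he : ‖(β g e - e) * b‖ ≤ η) :
    ‖(star (β g x) * β g x - e) * b‖ ≤ ε + η := by
  have e1 : (star (β g x) * β g x - e) * b =
      β g ((star x * x - e) * β g⁻¹ b) + (β g e - e) * b := by
    rw [map_mul, act_act_inv, map_sub, map_mul, map_star]
    noncomm_ring
  rw [e1]
  refine (norm_add_le _ _).trans ?_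
  rw [norm_act]
  exact add_le_add h he

theorem triv_boundR (x : M) (n g g' g'' : G) (hn : g * g' = g'' * n) (η κ : ℝ) (Fn : Finset M)
    (b : M)
    (hT : ∀ x : M, ‖x‖ ≤ 1 → (∀ a ∈ Fn, ‖x * a - a * x‖ ≤ κ) →
      ‖(β n x - x) * β g''⁻¹ b‖ ≤ η / 2)
    (hx : ‖x‖ ≤ 2) (hF : ∀ a ∈ Fn, ‖x * a - a * x‖ ≤ κ) :
    ‖(β g (β g' x) - β g'' x) * b‖ ≤ η := by
  have h4 : ‖(β n ((1 / 2 : ℝ) • x) - (1 / 2 : ℝ) • x) * β g''⁻¹ b‖ ≤ η / 2 := by
    refine hT _ ?_ fun b hb => ?_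
    · rw [norm_smul, Real.norm_of_nonneg (by norm_num)]
      linarith
    · rw [smul_mul_assoc, mul_smul_comm, ← smul_sub, norm_smul,
        Real.norm_of_nonneg (by norm_num)]
      have h5 := hF b hb
      have h7 := norm_nonneg (x * b - b * x)
      linarith only [h5, h7]
  rw [act_smul_real, ← smul_sub, smul_mul_assoc, norm_smul,
    Real.norm_of_nonneg (by norm_num)] at h4
  have e2 : (β g (β g' x) - β g'' x) * b = β g'' ((β n x - x) * β g''⁻¹ b) := by
    rw [map_mul, act_act_inv, map_sub]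
    congr 2
    rw [← act_mul_eq, ← act_mul_eq, hn]
  rw [e2, norm_act]
  linarith only [h4]

theorem fin_quadR (N : Subgroup G) (K : Finset G) (hK : K.Nonempty) (P : Finset (G ⧸ N))
    (hP : ∀ k ∈ K, (k : G ⧸ N) ∈ P) (x e b : M) (η : ℝ)
    (h1 : ∀ q ∈ P, ‖(star (β (Quotient.out q) x) * β (Quotient.out q) x - e) * b‖ ≤ η)
    (h2 : ∀ q ∈ P, ∀ q' ∈ P, q ≠ q' →
      ‖star (β (Quotient.out q) x) * β (Quotient.out q') x * b‖ ≤ η) :
    ‖(star (cosetSum β N K P x) * cosetSum β N K P x - e) * b‖ ≤ P.card * (P.card * η) := by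
  classical
  have hsum1 : ∑ q ∈ P, Real.sqrt (cosetDist N K q) * Real.sqrt (cosetDist N K q) = 1 := by
    rw [← cosetDist_sum N K hK P hP]
    exact Finset.sum_congr rfl fun q _ => Real.mul_self_sqrt (cosetDist_nonneg N K q)
  have h3 := norm_quad_le P (fun q => β (Quotient.out q) x) (fun q => β (Quotient.out q) x * b)
    (fun q => Real.sqrt (cosetDist N K q)) (fun q => Real.sqrt (cosetDist N K q))
    (fun q _ => sqrt_dist_abs_le N K q) (fun q _ => sqrt_dist_abs_le N K q) (e * b) η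
    (fun q hq => by rw [← mul_assoc, ← sub_mul]; exact h1 q hq)
    (fun q hq q' hq' hne => by rw [← mul_assoc]; exact h2 q hq q' hq' hne)
  rw [hsum1, one_smul] at h3
  have e1 : (star (cosetSum β N K P x) * cosetSum β N K P x - e) * b =
      star (∑ q ∈ P, Real.sqrt (cosetDist N K q) • β (Quotient.out q) x) *
        (∑ q ∈ P, Real.sqrt (cosetDist N K q) • (β (Quotient.out q) x * b)) - e * b := by
    unfold cosetSum
    rw [sub_mul, mul_assoc]
    congr 2
    rw [Finset.sum_mul]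
    exact Finset.sum_congr rfl fun q _ => smul_mul_assoc _ _ _
  rw [e1]
  exact h3

theorem fin_offR (N : Subgroup G) (K : Finset G) (P : Finset (G ⧸ N)) (x y b : M) (η : ℝ)
    (h : ∀ q ∈ P, ∀ q' ∈ P, ‖star (β (Quotient.out q) x) * β (Quotient.out q') y * b‖ ≤ η) :
    ‖star (cosetSum β N K P x) * cosetSum β N K P y * b‖ ≤ P.card * (P.card * η) := by
  classical
  have h6 := norm_quad_le P (fun q => β (Quotient.out q) x) (fun q => β (Quotient.out q) y * b)
    (fun q => Real.sqrt (cosetDist N K q)) (fun q => Real.sqrt (cosetDist N K q))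
    (fun q _ => sqrt_dist_abs_le N K q) (fun q _ => sqrt_dist_abs_le N K q) 0 η
    (fun q hq => by rw [sub_zero, ← mul_assoc]; exact h q hq q hq)
    (fun q hq q' hq' _ => by rw [← mul_assoc]; exact h q hq q' hq')
  rw [smul_zero, sub_zero] at h6
  have e1 : star (cosetSum β N K P x) * cosetSum β N K P y * b =
      star (∑ q ∈ P, Real.sqrt (cosetDist N K q) • β (Quotient.out q) x) *
        (∑ q ∈ P, Real.sqrt (cosetDist N K q) • (β (Quotient.out q) y * b)) := by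
    unfold cosetSum
    rw [mul_assoc]
    congr 1
    rw [Finset.sum_mul]
    exact Finset.sum_congr rfl fun q _ => smul_mul_assoc _ _ _
  rw [e1]
  exact h6

theorem norm_cosetSum_le (N : Subgroup G) (K : Finset G) (P : Finset (G ⧸ N)) (x : M)
    (hx : ‖x‖ ≤ 2) : ‖cosetSum β N K P x‖ ≤ 2 * P.card := by
  refine (norm_sum_le _ _).trans ?_
  calc ∑ q ∈ P, ‖Real.sqrt (cosetDist N K q) • β (Quotient.out q) x‖ ≤ ∑ _q ∈ P, (2 : ℝ) := by
        refine Finset.sum_le_sum fun q _ => ?_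
        rw [norm_smul, norm_act, Real.norm_eq_abs]
        have h := sqrt_dist_abs_le N K q
        have h2 := abs_nonneg (Real.sqrt (cosetDist N K q))
        nlinarith only [h, hx, h2]
    _ = 2 * P.card := by rw [Finset.sum_const, nsmul_eq_mul, mul_comm]

open Classical in
theorem cosetSum_fixR (N : Subgroup G) (K : Finset G) (hK : K.Nonempty) (P : Finset (G ⧸ N))
    (s e b : M) (B : ℝ) (hb : ‖b‖ ≤ B) (he : ‖e‖ ≤ 1) (g : G)
    (hP : ∀ k ∈ K, (k : G ⧸ N) ∈ P)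
    (hgP : ∀ k ∈ K, ((g * k : G) : G ⧸ N) ∈ P) (ε₁ η₁ η₂ : ℝ)
    (hg : ((K.filter (fun h => g * h ∉ K)).card : ℝ) ≤ ε₁ * (K.card : ℝ))
    (h1 : ∀ q ∈ P, ‖(star (β (Quotient.out q) s) * β (Quotient.out q) s - e) * b‖ ≤ η₁)
    (h2 : ∀ q ∈ P, ∀ q' ∈ P, q ≠ q' →
      ‖star (β (Quotient.out q) s) * β (Quotient.out q') s * b‖ ≤ η₁)
    (h3 : ∀ q ∈ P, ‖(β g (β (Quotient.out q) s) - β (Quotient.out (g • q)) s) * b‖ ≤ η₂) :
    ‖(β g (cosetSum β N K P s) - cosetSum β N K P s) * b‖ ≤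
      P.card * η₂ + Real.sqrt (B * (2 * ε₁ * B + P.card * (P.card * η₁))) := by
  set a : G ⧸ N → ℝ := fun q => Real.sqrt (cosetDist N K q) with ha
  set f : G ⧸ N → M := fun q => β (Quotient.out q) s with hf
  have hB0 : 0 ≤ B := (norm_nonneg _).trans hb
  have hS : cosetSum β N K P s = ∑ q ∈ P, a q • f q := rfl
  set P₀ : Finset (G ⧸ N) := K.image (fun k : G => (k : G ⧸ N)) with hP₀
  have ha0 : ∀ q, q ∉ P₀ → a q = 0 := by
    intro q hq
    simp only [ha]
    rw [cosetDist_eq_zero N K q, Real.sqrt_zero]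
    intro k hk hkq
    exact hq (Finset.mem_image.2 ⟨k, hk, hkq⟩)
  have hP₀P : P₀ ⊆ P := by
    intro q hq
    obtain ⟨k, hk, rfl⟩ := Finset.mem_image.1 hq
    exact hP k hk
  have hgP₀P : P₀.image (fun q => g • q) ⊆ P := by
    intro q hq
    obtain ⟨q', hq', rfl⟩ := Finset.mem_image.1 hq
    obtain ⟨k, hk, rfl⟩ := Finset.mem_image.1 hq'
    exact hgP k hk
  have hshift : ∑ q ∈ P, a q • f (g • q) = ∑ q ∈ P, a (g⁻¹ • q) • f q := by
    rw [← Finset.sum_subset hP₀P fun q _ hq => by rw [ha0 q hq, zero_smul],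
      ← Finset.sum_subset hgP₀P fun q _ hq => by
        rw [ha0 (g⁻¹ • q), zero_smul]
        intro h
        exact hq (Finset.mem_image.2 ⟨_, h, smul_inv_smul g q⟩),
      Finset.sum_image fun x _ y _ h => (MulAction.injective g) h]
    refine Finset.sum_congr rfl fun q _ => ?_
    rw [inv_smul_smul]
  have hact : β g (∑ q ∈ P, a q • f q) = ∑ q ∈ P, a q • β g (f q) := by
    rw [map_sum]
    exact Finset.sum_congr rfl fun q _ => act_smul_real g _ _
  have e0 : β g (cosetSum β N K P s) - cosetSum β N K P s =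
      (∑ q ∈ P, a q • (β g (f q) - f (g • q))) + ∑ q ∈ P, (a (g⁻¹ • q) - a q) • f q := by
    rw [hS, hact]
    simp only [smul_sub, sub_smul, Finset.sum_sub_distrib]
    rw [hshift]
    abel
  have e1 : (β g (cosetSum β N K P s) - cosetSum β N K P s) * b =
      (∑ q ∈ P, a q • ((β g (f q) - f (g • q)) * b)) +
        ∑ q ∈ P, (a (g⁻¹ • q) - a q) • (f q * b) := by
    rw [e0, add_mul, Finset.sum_mul, Finset.sum_mul]
    simp only [smul_mul_assoc]
  have n1 : ‖∑ q ∈ P, a q • ((β g (f q) - f (g • q)) * b)‖ ≤ P.card * η₂ := by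
    refine (norm_sum_le _ _).trans ?_
    calc ∑ q ∈ P, ‖a q • ((β g (f q) - f (g • q)) * b)‖ ≤ ∑ _q ∈ P, η₂ := by
          refine Finset.sum_le_sum fun q hq => ?_
          rw [norm_smul, Real.norm_eq_abs]
          calc |a q| * _ ≤ 1 * ‖(β g (f q) - f (g • q)) * b‖ :=
                mul_le_mul_of_nonneg_right (sqrt_dist_abs_le N K q) (norm_nonneg _)
            _ ≤ η₂ := by rw [one_mul]; exact h3 q hq
      _ = P.card * η₂ := by rw [Finset.sum_const, nsmul_eq_mul]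
  have n2 : ‖∑ q ∈ P, (a (g⁻¹ • q) - a q) • (f q * b)‖ ≤
      Real.sqrt (B * (2 * ε₁ * B + P.card * (P.card * η₁))) := by
    refine Real.le_sqrt_of_sq_le ?_
    rw [sq, ← CStarRing.norm_star_mul_self]
    have e2 : star (∑ q ∈ P, (a (g⁻¹ • q) - a q) • (f q * b)) *
        (∑ q ∈ P, (a (g⁻¹ • q) - a q) • (f q * b)) =
        star b * (star (∑ q ∈ P, (a (g⁻¹ • q) - a q) • f q) *
          ∑ q ∈ P, (a (g⁻¹ • q) - a q) • (f q * b)) := by
      rw [← mul_assoc, ← star_mul, Finset.sum_mul]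
      simp only [smul_mul_assoc]
    rw [e2]
    refine (norm_mul_le _ _).trans ?_
    rw [norm_star]
    refine mul_le_mul hb ?_ (norm_nonneg _) hB0
    have h4 := norm_quad_le P f (fun q => f q * b) (fun q => a (g⁻¹ • q) - a q)
      (fun q => a (g⁻¹ • q) - a q)
      (fun q _ => sqrt_dist_sub_abs_le N K _ _) (fun q _ => sqrt_dist_sub_abs_le N K _ _)
      (e * b) η₁ (fun q hq => by rw [← mul_assoc, ← sub_mul]; exact h1 q hq)
      (fun q hq q' hq' hne => by rw [← mul_assoc]; exact h2 q hq q' hq' hne)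
    have heb : ‖e * b‖ ≤ B := by
      refine (norm_mul_le _ _).trans ?_
      nlinarith only [hb, he, norm_nonneg b]
    have h5 : ‖(∑ q ∈ P, (a (g⁻¹ • q) - a q) * (a (g⁻¹ • q) - a q)) • (e * b)‖ ≤ 2 * ε₁ * B := by
      rw [norm_smul, Real.norm_of_nonneg (Finset.sum_nonneg fun q _ => mul_self_nonneg _)]
      have h6 : ∑ q ∈ P, (a (g⁻¹ • q) - a q) * (a (g⁻¹ • q) - a q) ≤
          ∑ q ∈ P, |cosetDist N K (g⁻¹ • q) - cosetDist N K q| := by
        refine Finset.sum_le_sum fun q _ => ?_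
        rw [← sq]
        exact sq_sqrt_sub_le (cosetDist_nonneg N K _) (cosetDist_nonneg N K _)
      have h7 := cosetDist_diff N K g ε₁ hg hK P
      have h8 : 0 ≤ ∑ q ∈ P, (a (g⁻¹ • q) - a q) * (a (g⁻¹ • q) - a q) :=
        Finset.sum_nonneg fun q _ => mul_self_nonneg _
      exact mul_le_mul (h6.trans h7) heb (norm_nonneg _) (h8.trans (h6.trans h7))
    have h9 := norm_add_le ((star (∑ q ∈ P, (a (g⁻¹ • q) - a q) • f q) *
      ∑ q ∈ P, (a (g⁻¹ • q) - a q) • (f q * b)) -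
        (∑ q ∈ P, (a (g⁻¹ • q) - a q) * (a (g⁻¹ • q) - a q)) • (e * b))
        ((∑ q ∈ P, (a (g⁻¹ • q) - a q) * (a (g⁻¹ • q) - a q)) • (e * b))
    rw [sub_add_cancel] at h9
    linarith only [h4, h5, h9]
  rw [e1]
  exact (norm_add_le _ _).trans (add_le_add n1 n2)

end Vale.Agent.P095K
end

section

/-! If an automorphism acts non-trivially on the relative central sequence algebra, then there is a
positive norm one element orthogonal to its image. -/

open Filter Topology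

namespace Vale.Agent.P095K

open Vale.Agent.P101 Vale.Agent.P101.SeqQuot Vale.Agent.P095 Vale.Agent.P095J Vale.Agent.P095N
open Vale.Agent.P133

universe u v w

variable {M : Type u} [CStarAlgebra M] {I : CIdeal M} {G : Type w} [Group G]
  {β : G →* (M ≃⋆ₐ[ℂ] M)} (hβ : InvI I β)

/-- The ideal has a dense sequence. -/
structure SepI (I : CIdeal M) : Prop where
  ex : ∃ x : ℕ → M, (∀ n, x n ∈ I) ∧ ∀ b ∈ I, ∀ ε : ℝ, 0 < ε → ∃ n, ‖b - x n‖ < ε

theorem tendsto_comm_denseI {x : ℕ → M} (hx : ∀ b ∈ I, ∀ ε : ℝ, 0 < ε → ∃ n, ‖b - x n‖ < ε)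
    {ι : Type v} {μ : Filter ι} (a : ι → M) (C : ℝ) (hC : ∀ n, ‖a n‖ ≤ C) (hC0 : 0 ≤ C)
    (h : ∀ m, Tendsto (fun n => ‖a n * x m - x m * a n‖) μ (𝓝 0)) {z : M} (hz : z ∈ I) :
    Tendsto (fun n => ‖a n * z - z * a n‖) μ (𝓝 0) := by
  rw [Metric.tendsto_nhds]
  intro ε hε
  obtain ⟨m, hm⟩ := hx z hz (ε / (2 * (2 * C + 1))) (by positivity)
  filter_upwards [(Metric.tendsto_nhds.mp (h m)) (ε / 2) (by positivity)] with n h1
  rw [dist_zero_right, norm_norm] at h1 ⊢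
  have e : a n * z - z * a n = (a n * x m - x m * a n) +
      (a n * (z - x m) - (z - x m) * a n) := by noncomm_ring
  have h2 : ‖a n * (z - x m) - (z - x m) * a n‖ ≤ 2 * C * (ε / (2 * (2 * C + 1))) := by
    refine (norm_sub_le _ _).trans ?_
    have h3 : ‖a n * (z - x m)‖ ≤ C * (ε / (2 * (2 * C + 1))) :=
      (norm_mul_le _ _).trans (mul_le_mul (hC n) hm.le (norm_nonneg _) hC0)
    have h4 : ‖(z - x m) * a n‖ ≤ (ε / (2 * (2 * C + 1))) * C :=
      (norm_mul_le _ _).trans (mul_le_mul hm.le (hC n) (norm_nonneg _) (by positivity))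
    linarith only [h3, h4]
  have h5 : 2 * C * (ε / (2 * (2 * C + 1))) < ε / 2 := by
    rw [← sub_pos]
    have : ε / 2 - 2 * C * (ε / (2 * (2 * C + 1))) = ε / (2 * (2 * C + 1)) := by
      field_simp; ring
    rw [this]; positivity
  rw [e]
  exact (norm_add_le _ _).trans_lt (by linarith only [h1, h2, h5])

theorem tendsto_mul_denseI {x : ℕ → M} (hx : ∀ b ∈ I, ∀ ε : ℝ, 0 < ε → ∃ n, ‖b - x n‖ < ε)
    {ι : Type v} {μ : Filter ι} (a : ι → M) (C : ℝ) (hC : ∀ n, ‖a n‖ ≤ C) (hC0 : 0 ≤ C)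
    (h : ∀ m, Tendsto (fun n => ‖a n * x m‖) μ (𝓝 0)) {z : M} (hz : z ∈ I) :
    Tendsto (fun n => ‖a n * z‖) μ (𝓝 0) := by
  rw [Metric.tendsto_nhds]
  intro ε hε
  obtain ⟨m, hm⟩ := hx z hz (ε / (2 * (C + 1))) (by (clear * - hε hC0; positivity))
  filter_upwards [(Metric.tendsto_nhds.mp (h m)) (ε / 2) (by positivity)] with n h1
  rw [dist_zero_right, norm_norm] at h1 ⊢
  have e : a n * z = a n * x m + a n * (z - x m) := by noncomm_ring
  have h2 : ‖a n * (z - x m)‖ ≤ C * (ε / (2 * (C + 1))) :=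
    (norm_mul_le _ _).trans (mul_le_mul (hC n) hm.le (norm_nonneg _) hC0)
  have h5 : C * (ε / (2 * (C + 1))) < ε / 2 := by
    rw [← sub_pos]
    have : ε / 2 - C * (ε / (2 * (C + 1))) = ε / (2 * (C + 1)) := by
      field_simp; ring
    rw [this]; positivity
  rw [e]
  exact (norm_add_le _ _).trans_lt (by linarith)

/-- Averages of copies in relative central sequence algebras. -/
theorem exists_avgR (hS : SimpleI I) (hI : ∃ b ∈ I, b ≠ 0) {ι : Type} (μ : Filter ι) [NeBot μ]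
    (g : G) (y : FR I μ) (hy : IsSelfAdjoint y) (hy1 : ‖y‖ ≤ 1)
    (hl : ‖y - FR.act β hβ μ g y‖ ∈ spectrum ℝ (y - FR.act β hβ μ g y))
    (hl0 : y - FR.act β hβ μ g y ≠ 0) (n : ℕ) (hn : 0 < n) :
    ∃ (ι' : Type) (μ' : Filter ι') (_ : NeBot μ') (b : FR I μ'), IsSelfAdjoint b ∧ ‖b‖ ≤ 1 ∧
      ‖b * FR.act β hβ μ' g b - FR.act β hβ μ' g b * b‖ ≤ 2 / n ∧
      ‖y - FR.act β hβ μ g y‖ / 2 ≤ ‖b - FR.act β hβ μ' g b‖ := by
  obtain ⟨ι', μ', hμ', L, hL⟩ := FR.exists_nlegs β hβ hS hI n μ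
  exact ⟨ι', μ', hμ', avg_copies n hn L hL.norm (FR.act β hβ μ g) (FR.act β hβ μ' g)
    (fun i x => hL.equi i g x) y hy hy1 hl hl0⟩

/-- Self-adjoint contractive representatives. -/
theorem exists_sa_rep {ι : Type v} {μ : Filter ι} (b : FR I μ) (hb : IsSelfAdjoint b)
    (hb1 : ‖b‖ ≤ 1) : ∃ t : relSeq I μ, FR.mk I μ t = b ∧ (∀ i, IsSelfAdjoint ((t : ι → M) i)) ∧
      ∀ i, ‖(t : ι → M) i‖ ≤ 1 := by
  obtain ⟨s, hs, hs1⟩ := FR.exists_lift_one b hb1
  refine ⟨(1 / 2 : ℂ) • (s + star s), ?_, fun i => ?_, fun i => ?_⟩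
  · rw [map_smul, map_add, map_star, hs, hb.star_eq, ← two_smul ℂ b, smul_smul]
    norm_num
  · show IsSelfAdjoint ((1 / 2 : ℂ) • ((s : ι → M) i + star ((s : ι → M) i)))
    refine IsSelfAdjoint.smul ?_ (IsSelfAdjoint.add_star_self _)
    rw [IsSelfAdjoint]
    simp only [one_div, star_inv₀, star_ofNat]
  · show ‖(1 / 2 : ℂ) • ((s : ι → M) i + star ((s : ι → M) i))‖ ≤ 1
    rw [norm_smul]
    have h1 := norm_add_le ((s : ι → M) i) (star ((s : ι → M) i))
    rw [norm_star] at h1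
    have h2 := hs1 i
    have h3 : ‖(1 / 2 : ℂ)‖ = 1 / 2 := by simp
    rw [h3]
    linarith only [h1, h2]

/-- Extraction of an element of `M`. -/
theorem extract_elemR (hS : SimpleI I) {ι : Type v} (μ : Filter ι) (g : G) (b : FR I μ)
    (hb : IsSelfAdjoint b) (hb1 : ‖b‖ ≤ 1) (r lam : ℝ) (hlam : 0 < lam) (hr : 0 < r)
    (h1 : ‖b * FR.act β hβ μ g b - FR.act β hβ μ g b * b‖ ≤ r)
    (h2 : lam ≤ ‖b - FR.act β hβ μ g b‖) {b₀ : M} (hb₀ : b₀ ∈ I) (hb₀1 : ‖b₀‖ = 1)
    (T : Finset M) (hT : ∀ x ∈ T, x ∈ I) (ε : ℝ) (hε : 0 < ε) :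
    ∃ a : M, IsSelfAdjoint a ∧ ‖a‖ ≤ 1 ∧
      (∀ x ∈ T, ‖(a * β g a - β g a * a) * x‖ ≤ 2 * r * (‖x‖ + 1)) ∧
      lam / 2 ≤ ‖(a - β g a) * b₀‖ ∧ ∀ x ∈ T, ‖a * x - x * a‖ ≤ ε := by
  obtain ⟨t, ht, htsa, ht1⟩ := exists_sa_rep b hb hb1
  have e2 : ∀ᶠ i in μ, ∀ x ∈ T, ‖((t * FR.actSeq β hβ μ g t - FR.actSeq β hβ μ g t * t :
      relSeq I μ) : ι → M) i * x‖ < 2 * r * (‖x‖ + 1) := by
    refine (Finset.eventually_all T).2 fun x hx => ?_
    refine FR.eventually_mul_lt _ (hT x hx) ?_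
    have e : FR.mk I μ (t * FR.actSeq β hβ μ g t - FR.actSeq β hβ μ g t * t) =
        b * FR.act β hβ μ g b - FR.act β hβ μ g b * b := by
      rw [map_sub, map_mul, map_mul, ← FR.act_mk, ht]
    rw [e]
    nlinarith only [hr, h1, norm_nonneg x]
  have e3 : ∃ᶠ i in μ, lam / 2 < ‖((t - FR.actSeq β hβ μ g t : relSeq I μ) : ι → M) i * b₀‖ := by
    refine FR.frequently_lt_mul hS _ hb₀ (by positivity) ?_
    have e : FR.mk I μ (t - FR.actSeq β hβ μ g t) = b - FR.act β hβ μ g b := by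
      rw [map_sub, ← FR.act_mk, ht]
    rw [e, hb₀1, mul_one]
    linarith only [hlam, h2]
  have e4 : ∀ᶠ i in μ, ∀ x ∈ T, ‖(t : ι → M) i * x - x * (t : ι → M) i‖ < ε := by
    refine (Finset.eventually_all T).2 fun x hx => ?_
    exact (relSeq_comm t (hT x hx)).eventually (gt_mem_nhds hε)
  obtain ⟨i, hi3, hi2, hi4⟩ := (e3.and_eventually (e2.and e4)).exists
  exact ⟨(t : ι → M) i, htsa i, ht1 i, fun x hx => (hi2 x hx).le, hi3.le,
    fun x hx => (hi4 x hx).le⟩

/-- A positive norm one element orthogonal to its image. -/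
theorem exists_sepR (hS : SimpleI I) (hI : SepI I) {b₀ : M} (hb₀ : b₀ ∈ I) (hb₀1 : ‖b₀‖ = 1)
    (ω : Filter ℕ) [NeBot ω] (hω : ω ≤ atTop) (g : G) (y : FR I ω)
    (hy : FR.act β hβ ω g y ≠ y) :
    ∃ c : FR I ω, (∃ d, c = star d * d) ∧ ‖c‖ = 1 ∧ c * FR.act β hβ ω g c = 0 := by
  classical
  obtain ⟨z, hz, hz1, hzs, hz0⟩ := exists_sa_moved (FR.act β hβ ω g) y hy
  set lam : ℝ := ‖z - FR.act β hβ ω g z‖ with hlam
  have hlam0 : 0 < lam := norm_pos_iff.2 hz0
  have hIne : ∃ b ∈ I, b ≠ 0 := ⟨b₀, hb₀, fun h => by rw [h, norm_zero] at hb₀1; norm_num at hb₀1⟩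
  obtain ⟨x, hxI, hx⟩ := hI.ex
  have hex : ∀ n : ℕ, ∃ a : M, IsSelfAdjoint a ∧ ‖a‖ ≤ 1 ∧
      (∀ m ≤ n, ‖(a * β g a - β g a * a) * x m‖ ≤ 4 * (‖x m‖ + 1) / ((n : ℝ) + 1)) ∧
      lam / 4 ≤ ‖(a - β g a) * b₀‖ ∧
      ∀ m ≤ n, ‖a * x m - x m * a‖ ≤ 1 / ((n : ℝ) + 1) := by
    intro n
    obtain ⟨ι', μ', hμ', b, hb, hb1, hb2, hb3⟩ :=
      exists_avgR hβ hS hIne ω g z hz hz1 hzs hz0 (n + 1) (Nat.succ_pos n)
    obtain ⟨a, h1, h2, h3, h4, h5⟩ := extract_elemR hβ hS μ' g b hb hb1 (2 / ((n + 1 : ℕ) : ℝ))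
      (lam / 2) (by (clear * - hβ hz0; positivity)) (by positivity) hb2 hb3 hb₀ hb₀1
      ((Finset.range (n + 1)).image x) (fun y hy => by
        obtain ⟨m, -, rfl⟩ := Finset.mem_image.1 hy
        exact hxI m) (1 / ((n : ℝ) + 1)) (by (clear * -; positivity))
    refine ⟨a, h1, h2, fun m hm => ?_, by (clear * - h4; linarith), fun m hm =>
      h5 _ (Finset.mem_image.2 ⟨m, Finset.mem_range.2 (by (clear * - hm; omega)), rfl⟩)⟩
    refine (h3 _ (Finset.mem_image.2 ⟨m, Finset.mem_range.2 (by (clear * - hm; omega)), rfl⟩)).trans (le_of_eq ?_)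
    push_cast
    ring
  choose a ha1 ha2 ha3 ha4 ha5 using hex
  have hamem : a ∈ relSeq I ω := by
    refine ⟨⟨1, ha2⟩, fun w hw => tendsto_comm_denseI hx a 1 ha2 zero_le_one (fun m => ?_) hw⟩
    exact (tendsto_of_le_div _ (fun n => norm_nonneg _) 1 m fun n hn => ha5 n m hn).mono_left hω
  let s : relSeq I ω := ⟨a, hamem⟩
  have hBsa : IsSelfAdjoint (FR.mk I ω s) := by
    show star (FR.mk I ω s) = FR.mk I ω s
    rw [← map_star]
    congr 1
    exact Subtype.ext (funext fun n => ha1 n)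
  have hcomm : Commute (FR.mk I ω s) (FR.act β hβ ω g (FR.mk I ω s)) := by
    show FR.mk I ω s * FR.act β hβ ω g (FR.mk I ω s) = FR.act β hβ ω g (FR.mk I ω s) * FR.mk I ω s
    rw [FR.act_mk, ← map_mul, ← map_mul, FR.mk_eq_iff]
    intro b hb
    show Tendsto (fun n => ‖(a n * β g (a n) - β g (a n) * a n) * b‖) ω (𝓝 0)
    refine tendsto_mul_denseI hx (fun n => a n * β g (a n) - β g (a n) * a n) 2 (fun n => ?_)
      (by norm_num) (fun m => ?_) hb
    · have h1 : ‖β g (a n)‖ ≤ 1 := by rw [P095J.norm_act]; exact ha2 n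
      have h2 : ‖a n * β g (a n)‖ ≤ 1 :=
        (norm_mul_le _ _).trans (mul_le_one₀ (ha2 n) (norm_nonneg _) h1)
      have h3 : ‖β g (a n) * a n‖ ≤ 1 :=
        (norm_mul_le _ _).trans (mul_le_one₀ h1 (norm_nonneg _) (ha2 n))
      exact (norm_sub_le _ _).trans (by linarith)
    · exact (tendsto_of_le_div _ (fun n => norm_nonneg _) (4 * (‖x m‖ + 1)) m
        fun n hn => ha3 n m hn).mono_left hω
  have hne : FR.mk I ω s ≠ FR.act β hβ ω g (FR.mk I ω s) := by
    intro heq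
    rw [FR.act_mk, FR.mk_eq_iff] at heq
    have h2 : Tendsto (fun n => ‖(a n - β g (a n)) * b₀‖) ω (𝓝 0) := heq b₀ hb₀
    have h3 : lam / 4 ≤ 0 := ge_of_tendsto h2 (Eventually.of_forall ha4)
    linarith
  exact exists_orth_of_commute (FR.act β hβ ω g) (FR.mk I ω s) hBsa hcomm hne

end Vale.Agent.P095K
end

section

/-! Pairs of relatively central elements with orthogonal translates. -/

open Filter Topology

namespace Vale.Agent.P095K

open Vale.Agent.P101 Vale.Agent.P101.SeqQuot Vale.Agent.P095 Vale.Agent.P095J Vale.Agent.P095N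
open Vale.Agent.P133

universe u v w

variable {M : Type u} [CStarAlgebra M] (I : CIdeal M)

/-- There are two almost orthogonal positive elements which are almost central and almost of norm
one at `b₀`. -/
def CentOrthoR [PartialOrder M] (b₀ : M) : Prop :=
  ∀ (F : Finset M) (δ : ℝ), (∀ x ∈ F, x ∈ I) → 0 < δ → ∃ y y' : M, AlmCentR b₀ F δ y ∧
    AlmCentR b₀ F δ y' ∧ ∀ a ∈ F, ‖y * y' * a‖ ≤ δ

variable {I} {G : Type w} [Group G] {β : G →* (M ≃⋆ₐ[ℂ] M)} (hβ : InvI I β)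

/-- Products of copies indexed by a finite type. -/
theorem exists_nprodR (hS : SimpleI I) (hI : ∃ b ∈ I, b ≠ 0) (κ : Type*) [Fintype κ] {ι : Type}
    (μ : Filter ι) [NeBot μ] (hμ : ∀ s, s ∈ μ ∨ sᶜ ∈ μ) :
    ∃ (ι' : Type) (μ' : Filter ι') (_ : NeBot μ') (_ : ∀ s, s ∈ μ' ∨ sᶜ ∈ μ')
      (P : (κ → FR I μ) →* FR I μ'), (∀ z, P (star z) = star (P z)) ∧
      (∀ g z, P (fun i => FR.act β hβ μ g (z i)) = FR.act β hβ μ' g (P z)) ∧
      ∀ z, ‖P z‖ = ∏ i, ‖z i‖ := by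
  classical
  obtain ⟨ι', μ', hμ', L, hL⟩ := FR.exists_nlegs β hβ hS hI (Fintype.card κ) μ
  let e := Fintype.equivFin κ
  let c : (κ → FR I μ) →* (Fin (Fintype.card κ) → FR I μ) :=
    { toFun := fun z i => z (e.symm i)
      map_one' := rfl
      map_mul' := fun _ _ => rfl }
  refine ⟨ι', μ', hμ', hL.ultra hμ, L.prodHom.comp c, fun z => ?_, fun g z => ?_, fun z => ?_⟩
  · exact (L.star_prodHom (c z)).symm
  · let a : (Fin (Fintype.card κ) → FR I μ) →* (Fin (Fintype.card κ) → FR I μ) :=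
      { toFun := fun z i => FR.act β hβ μ g (z i)
        map_one' := funext fun i => map_one _
        map_mul' := fun _ _ => funext fun i => map_mul _ _ _ }
    have h : L.prodHom.comp a = (FR.act β hβ μ' g : FR I μ' →* FR I μ').comp L.prodHom := by
      refine MonoidHom.pi_ext fun i x => ?_
      have e1 : a (Pi.mulSingle i x) = Pi.mulSingle i (FR.act β hβ μ g x) := by
        funext j
        show FR.act β hβ μ g ((Pi.mulSingle i x : Fin (Fintype.card κ) → FR I μ) j) = _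
        by_cases hj : j = i
        · subst hj; simp only [Pi.mulSingle_eq_same]
        · rw [Pi.mulSingle_eq_of_ne hj, Pi.mulSingle_eq_of_ne hj, map_one]
      show L.prodHom (a (Pi.mulSingle i x)) = FR.act β hβ μ' g (L.prodHom (Pi.mulSingle i x))
      rw [e1, L.prodHom_mulSingle, L.prodHom_mulSingle, hL.equi]
    exact congrArg (fun f => f (c z)) h
  · show ‖L.prodHom (c z)‖ = _
    rw [hL.norm]
    exact Equiv.prod_comp e.symm (fun i => ‖z i‖)

theorem exists_orth_exactR [PartialOrder M] [StarOrderedRing M] {b₀ : M} (hb₀ : b₀ ∈ I)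
    (hb₀1 : ‖b₀‖ = 1) (hA : CentOrthoR I b₀) (hI : SepI I) (ω : Filter ℕ) [NeBot ω]
    (hω : ω ≤ atTop) :
    ∃ z z' : FR I ω, (∃ d, z = star d * d) ∧ (∃ d, z' = star d * d) ∧ ‖z‖ = 1 ∧ ‖z'‖ = 1 ∧
      z * z' = 0 := by
  classical
  obtain ⟨x, hxI, hx⟩ := hI.ex
  choose z z' hz hz' hzz using fun n : ℕ =>
    hA ((Finset.range (n + 1)).image x) (1 / ((n : ℝ) + 1)) (fun y hy => by
      obtain ⟨m, -, rfl⟩ := Finset.mem_image.1 hy
      exact hxI m) (by (clear * -; positivity))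
  have hsa : ∀ n, IsSelfAdjoint (z n) := fun n => (hz n).1.isSelfAdjoint
  have hsa' : ∀ n, IsSelfAdjoint (z' n) := fun n => (hz' n).1.isSelfAdjoint
  have hmem : ∀ (t : ℕ → M), (∀ n, AlmCentR b₀ ((Finset.range (n + 1)).image x)
      (1 / ((n : ℝ) + 1)) (t n)) → t ∈ relSeq I ω := by
    intro t ht
    refine ⟨⟨1, fun n => (ht n).2.1⟩, fun w hw =>
      tendsto_comm_denseI hx t 1 (fun n => (ht n).2.1) zero_le_one (fun m => ?_) hw⟩
    exact (tendsto_of_le_div _ (fun n => norm_nonneg _) 1 m fun n hn =>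
      (ht n).2.2.2 _ (Finset.mem_image.2 ⟨m, Finset.mem_range.2 (by omega), rfl⟩)).mono_left hω
  let s : relSeq I ω := ⟨z, hmem z hz⟩
  let s' : relSeq I ω := ⟨z', hmem z' hz'⟩
  have hsS : star (FR.mk I ω s) = FR.mk I ω s := by
    rw [← map_star]
    exact congrArg _ (Subtype.ext (funext fun n => hsa n))
  have hsS' : star (FR.mk I ω s') = FR.mk I ω s' := by
    rw [← map_star]
    exact congrArg _ (Subtype.ext (funext fun n => hsa' n))
  have hn : ∀ t : relSeq I ω, (∀ n, AlmCentR b₀ ((Finset.range (n + 1)).image x)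
      (1 / ((n : ℝ) + 1)) ((t : ℕ → M) n)) → ‖FR.mk I ω t‖ = 1 := by
    intro t ht
    refine le_antisymm (FR.norm_mk_le t zero_le_one (Eventually.of_forall fun n => (ht n).2.1)) ?_
    by_contra hlt
    rw [not_le] at hlt
    obtain ⟨c, hc1, hc2⟩ := exists_between hlt
    have h1 := FR.eventually_mul_lt t hb₀ (c := c) (by rw [hb₀1, mul_one]; exact hc1)
    obtain ⟨N, hN⟩ := exists_nat_one_div_lt (show (0 : ℝ) < 1 - c by linarith only [hc2])
    obtain ⟨n, hn1, hn2⟩ := (h1.and (hω (eventually_ge_atTop N))).exists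
    have h3 := (ht n).2.2.1
    have h4 : 1 / ((n : ℝ) + 1) ≤ 1 / ((N : ℝ) + 1) :=
      one_div_le_one_div_of_le (by (clear * -; positivity)) (by
        have : (N : ℝ) ≤ n := by exact_mod_cast hn2
        linarith only [this])
    (clear * - hN hn1 h3 h4; linarith)
  have hmul : FR.mk I ω s * FR.mk I ω s' = 0 := by
    rw [← map_mul, FR.mk_eq_zero_iff]
    intro b hb
    show Tendsto (fun n => ‖z n * z' n * b‖) ω (𝓝 0)
    refine tendsto_mul_denseI hx (fun n => z n * z' n) 1 (fun n => ?_) zero_le_one (fun m => ?_) hb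
    · exact (norm_mul_le _ _).trans (mul_le_one₀ (hz n).2.1 (norm_nonneg _) (hz' n).2.1)
    · exact (tendsto_of_le_div _ (fun n => norm_nonneg _) 1 m fun n hn =>
        hzz n _ (Finset.mem_image.2 ⟨m, Finset.mem_range.2 (by omega), rfl⟩)).mono_left hω
  refine ⟨star (FR.mk I ω s) * FR.mk I ω s, star (FR.mk I ω s') * FR.mk I ω s', ⟨_, rfl⟩,
    ⟨_, rfl⟩, ?_, ?_, ?_⟩
  · rw [CStarRing.norm_star_mul_self, hn s hz, mul_one]
  · rw [CStarRing.norm_star_mul_self, hn s' hz', mul_one]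
  · rw [hsS, hsS']
    calc FR.mk I ω s * FR.mk I ω s * (FR.mk I ω s' * FR.mk I ω s') =
          FR.mk I ω s * (FR.mk I ω s * FR.mk I ω s') * FR.mk I ω s' := by simp only [mul_assoc]
      _ = 0 := by rw [hmul, mul_zero, zero_mul]

/-- Exact towers. -/
theorem tower_exactR [PartialOrder M] [StarOrderedRing M] (hS : SimpleI I) {b₀ : M}
    (hb₀ : b₀ ∈ I) (hb₀1 : ‖b₀‖ = 1) (hA : CentOrthoR I b₀) (hI : SepI I) (ω : Filter ℕ)
    [NeBot ω] (hω : ω ≤ atTop) (hu : ∀ s, s ∈ ω ∨ sᶜ ∈ ω) (E E' : Finset G)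
    (hE : ∀ g ∈ E, ∃ y : FR I ω, FR.act β hβ ω g y ≠ y) :
    ∃ (ι' : Type) (μ' : Filter ι') (_ : NeBot μ') (_ : ∀ s, s ∈ μ' ∨ sᶜ ∈ μ')
      (D₁ D₂ : FR I μ'), ‖star D₁ * D₁‖ = 1 ∧ ‖star D₂ * D₂‖ = 1 ∧
      (∀ g ∈ E, (star D₁ * D₁) * FR.act β hβ μ' g (star D₁ * D₁) = 0) ∧
      (∀ g ∈ E, (star D₂ * D₂) * FR.act β hβ μ' g (star D₂ * D₂) = 0) ∧
      ∀ g ∈ E', (star D₁ * D₁) * FR.act β hβ μ' g (star D₂ * D₂) = 0 := by
  classical
  have hIne : ∃ b ∈ I, b ≠ 0 := ⟨b₀, hb₀, fun h => by rw [h, norm_zero] at hb₀1; norm_num at hb₀1⟩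
  obtain ⟨z, z', ⟨d, hd⟩, ⟨d', hd'⟩, hz1, hz1', hzz⟩ := exists_orth_exactR hb₀ hb₀1 hA hI ω hω
  have hzz' : z' * z = 0 := by
    have h := congrArg star hzz
    rw [star_mul, star_zero, hd, hd', star_mul, star_mul, star_star, star_star] at h
    rw [hd, hd']
    exact h
  have hsep : ∀ g : {g // g ∈ E}, ∃ c : FR I ω, ‖star c * c‖ = 1 ∧
      (star c * c) * FR.act β hβ ω (g : G) (star c * c) = 0 := by
    intro g
    obtain ⟨y, hy⟩ := hE g g.2
    obtain ⟨c, ⟨b, hb⟩, hc1, hc2⟩ := exists_sepR hβ hS hI hb₀ hb₀1 ω hω g y hy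
    exact ⟨b, by rw [← hb]; exact hc1, by rw [← hb]; exact hc2⟩
  choose c hc1 hc2 using hsep
  obtain ⟨ι', μ', hμ', hu', P, hP1, hP2, hP3⟩ :=
    exists_nprodR (I := I) hβ hS hIne ({g // g ∈ E} ⊕ {g // g ∈ E'}) ω hu
  let u : ({g // g ∈ E} ⊕ {g // g ∈ E'}) → FR I ω :=
    Sum.elim c (fun h => FR.act β hβ ω (h : G) d')
  let v : ({g // g ∈ E} ⊕ {g // g ∈ E'}) → FR I ω := Sum.elim c (fun _ => d)
  have hsq : ∀ w, star (P w) * P w = P (fun i => star (w i) * w i) := fun w => by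
    rw [← hP1, ← map_mul]
    rfl
  have hzero : ∀ w w' : ({g // g ∈ E} ⊕ {g // g ∈ E'}) → FR I ω, ∀ i, w i * w' i = 0 →
      P w * P w' = 0 := by
    intro w w' i hi
    rw [← map_mul, ← norm_eq_zero, hP3]
    refine Finset.prod_eq_zero (Finset.mem_univ i) ?_
    rw [Pi.mul_apply, hi, norm_zero]
  refine ⟨ι', μ', hμ', hu', P u, P v, ?_, ?_, ?_, ?_, ?_⟩
  · rw [hsq, hP3]
    refine Finset.prod_eq_one fun i _ => ?_
    rcases i with g | h
    · exact hc1 g
    · show ‖star (FR.act β hβ ω (h : G) d') * FR.act β hβ ω (h : G) d'‖ = 1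
      rw [← map_star, ← map_mul, FR.norm_act, ← hd']
      exact hz1'
  · rw [hsq, hP3]
    refine Finset.prod_eq_one fun i _ => ?_
    rcases i with g | h
    · exact hc1 g
    · show ‖star d * d‖ = 1
      rw [← hd]
      exact hz1
  · intro g hg
    rw [hsq, ← hP2]
    exact hzero _ _ (Sum.inl ⟨g, hg⟩) (hc2 ⟨g, hg⟩)
  · intro g hg
    rw [hsq, ← hP2]
    exact hzero _ _ (Sum.inl ⟨g, hg⟩) (hc2 ⟨g, hg⟩)
  · intro g hg
    rw [hsq, hsq, ← hP2]
    refine hzero _ _ (Sum.inr ⟨g, hg⟩) ?_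
    show star (FR.act β hβ ω g d') * FR.act β hβ ω g d' * FR.act β hβ ω g (star d * d) = 0
    rw [← map_star, ← map_mul, ← map_mul, ← hd, ← hd', hzz', map_zero]

/-- Local towers. -/
theorem tower_pairR [PartialOrder M] [StarOrderedRing M] (hS : SimpleI I) {b₀ : M}
    (hb₀ : b₀ ∈ I) (hb₀1 : ‖b₀‖ = 1) (hA : CentOrthoR I b₀) (hI : SepI I) (ω : Filter ℕ)
    [NeBot ω] (hω : ω ≤ atTop) (hu : ∀ s, s ∈ ω ∨ sᶜ ∈ ω) (E E' : Finset G)
    (hE : ∀ g ∈ E, ∃ y : FR I ω, FR.act β hβ ω g y ≠ y) (Y : Finset M) (hY : ∀ y ∈ Y, y ∈ I)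
    (δ : ℝ) (hδ : 0 < δ) :
    ∃ c₁ c₂ : M, AlmCentR b₀ Y δ c₁ ∧ AlmCentR b₀ Y δ c₂ ∧
      (∀ g ∈ E, ∀ y ∈ Y, ‖c₁ * β g c₁ * y‖ ≤ δ) ∧ (∀ g ∈ E, ∀ y ∈ Y, ‖c₂ * β g c₂ * y‖ ≤ δ) ∧
      ∀ g ∈ E', ∀ y ∈ Y, ‖c₁ * β g c₂ * y‖ ≤ δ := by
  obtain ⟨ι', μ', hμ', hu', D₁, D₂, h1, h2, h3, h4, h5⟩ :=
    tower_exactR hβ hS hb₀ hb₀1 hA hI ω hω hu E E' hE
  have hn : ∀ D : FR I μ', ‖star D * D‖ = 1 → ‖D‖ ≤ 1 := by
    intro D hD
    rw [CStarRing.norm_star_mul_self] at hD
    nlinarith only [hD]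
  obtain ⟨d₁, rfl, hd₁⟩ := FR.exists_lift_one D₁ (hn D₁ h1)
  obtain ⟨d₂, rfl, hd₂⟩ := FR.exists_lift_one D₂ (hn D₂ h2)
  let C : relSeq I μ' → relSeq I μ' := fun d => star d * d
  have hC : ∀ d, FR.mk I μ' (C d) = star (FR.mk I μ' d) * FR.mk I μ' d := fun d => by
    rw [map_mul, map_star]
  rw [← hC] at h1 h2
  have hup : ∀ d, ‖FR.mk I μ' (C d)‖ = 1 → (∀ i, ‖(d : ι' → M) i‖ ≤ 1) →
      ∀ᶠ j in μ', 1 - δ < ‖((C d : relSeq I μ') : ι' → M) j * b₀‖ := by
    intro d hd hd1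
    rcases hu' {j | 1 - δ < ‖((C d : relSeq I μ') : ι' → M) j * b₀‖} with h | h
    · exact h
    · exfalso
      rcases le_or_gt 0 (1 - δ) with hle | hgt
      · have h6 := FR.frequently_lt_mul hS (C d) hb₀ (c := 1 - δ) hle
          (by rw [hd, hb₀1]; linarith only [hδ])
        obtain ⟨j, hj1, hj2⟩ := (h6.and_eventually h).exists
        exact hj2 hj1
      · have hne : (Set.univ : Set ι') ⊆ {j | 1 - δ < ‖((C d : relSeq I μ') : ι' → M) j * b₀‖} :=
          fun j _ => hgt.trans_le (norm_nonneg _)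
        obtain ⟨j, hj⟩ := (show ∀ᶠ j in μ', j ∈ ({j | 1 - δ < ‖((C d : relSeq I μ') :
          ι' → M) j * b₀‖}ᶜ : Set ι') from h).exists
        exact hj (hne (Set.mem_univ j))
  have e1 := hup d₁ h1 hd₁
  have e2 := hup d₂ h2 hd₂
  have hmulz : ∀ (a b : relSeq I μ'), FR.mk I μ' a * FR.mk I μ' b = 0 → ∀ y ∈ Y,
      ∀ᶠ j in μ', ‖(a : ι' → M) j * (b : ι' → M) j * y‖ < δ := by
    intro a b hab y hy
    refine FR.eventually_mul_lt (a * b) (hY y hy) ?_
    rw [map_mul, hab, norm_zero, zero_mul]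
    exact hδ
  have e3 : ∀ᶠ j in μ', ∀ g ∈ E, ∀ y ∈ Y, ‖(C d₁ : ι' → M) j * β g ((C d₁ : ι' → M) j) * y‖ < δ :=
    (Finset.eventually_all E).2 fun g hg => (Finset.eventually_all Y).2 fun y hy =>
      hmulz (C d₁) (FR.actSeq β hβ μ' g (C d₁)) (by
        rw [← FR.act_mk, hC]; exact h3 g hg) y hy
  have e4 : ∀ᶠ j in μ', ∀ g ∈ E, ∀ y ∈ Y, ‖(C d₂ : ι' → M) j * β g ((C d₂ : ι' → M) j) * y‖ < δ :=
    (Finset.eventually_all E).2 fun g hg => (Finset.eventually_all Y).2 fun y hy =>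
      hmulz (C d₂) (FR.actSeq β hβ μ' g (C d₂)) (by
        rw [← FR.act_mk, hC]; exact h4 g hg) y hy
  have e5 : ∀ᶠ j in μ', ∀ g ∈ E', ∀ y ∈ Y, ‖(C d₁ : ι' → M) j * β g ((C d₂ : ι' → M) j) * y‖ < δ :=
    (Finset.eventually_all E').2 fun g hg => (Finset.eventually_all Y).2 fun y hy =>
      hmulz (C d₁) (FR.actSeq β hβ μ' g (C d₂)) (by
        rw [← FR.act_mk, hC, hC]; exact h5 g hg) y hy
  have e6 : ∀ d, ∀ᶠ j in μ', ∀ y ∈ Y,
      ‖((C d : relSeq I μ') : ι' → M) j * y - y * ((C d : relSeq I μ') : ι' → M) j‖ < δ :=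
    fun d => (Finset.eventually_all Y).2 fun y hy =>
      (relSeq_comm (C d) (hY y hy)).eventually (gt_mem_nhds hδ)
  obtain ⟨j, ⟨⟨⟨⟨⟨⟨f1, f2⟩, f3⟩, f4⟩, f5⟩, f6⟩, f7⟩⟩ :=
    ((((((e1.and e2).and e3).and e4).and e5).and (e6 d₁)).and (e6 d₂)).exists
  have hAC : ∀ d : relSeq I μ', (∀ i, ‖(d : ι' → M) i‖ ≤ 1) →
      1 - δ < ‖((C d : relSeq I μ') : ι' → M) j * b₀‖ →
      (∀ y ∈ Y, ‖((C d : relSeq I μ') : ι' → M) j * y -
        y * ((C d : relSeq I μ') : ι' → M) j‖ < δ) →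
      AlmCentR b₀ Y δ (((C d : relSeq I μ') : ι' → M) j) := by
    intro d hd hj hy
    refine ⟨star_mul_self_nonneg ((d : ι' → M) j), ?_, hj.le, fun y hyY => (hy y hyY).le⟩
    show ‖star ((d : ι' → M) j) * (d : ι' → M) j‖ ≤ 1
    rw [CStarRing.norm_star_mul_self]
    exact mul_le_one₀ (hd j) (norm_nonneg _) (hd j)
  exact ⟨(C d₁ : ι' → M) j, (C d₂ : ι' → M) j, hAC d₁ hd₁ f1 f6, hAC d₂ hd₂ f2 f7,
    fun g hg y hy => (f3 g hg y hy).le, fun g hg y hy => (f4 g hg y hy).le,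
    fun g hg y hy => (f5 g hg y hy).le⟩

end Vale.Agent.P095K
end

section

/-! From relative property (SI) to equivariant relative property (SI), local form. -/

open Filter Topology

namespace Vale.Agent.P095K

open Vale.Agent.P101 Vale.Agent.P101.SeqQuot Vale.Agent.P095 Vale.Agent.P095J Vale.Agent.P095N
open Vale.Agent.P133

universe u v w

variable {M : Type u} [CStarAlgebra M] (I : CIdeal M) {G : Type w} [Group G]
  (β : G →* (M ≃⋆ₐ[ℂ] M))

/-- Local form of equivariant relative property (SI). -/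
def EqSIR [PartialOrder M] : Prop :=
  ∀ (X : Finset M) (S : Finset G) (ε : ℝ), (∀ x ∈ X, x ∈ I) → 0 < ε →
    ∃ (F2 U : Finset M) (S2 : Finset G) (η : ℝ), (∀ x ∈ F2, x ∈ I) ∧ (∀ u ∈ U, u ∈ I ∧ 0 ≤ u) ∧
      0 < η ∧
      ∀ e : M, 0 ≤ e → ‖e‖ ≤ 1 → (∀ b ∈ F2, ‖e * b - b * e‖ ≤ η) → (∀ u ∈ U, Small u e η) →
      (∀ g ∈ S2, ∀ b ∈ F2, ‖(β g e - e) * b‖ ≤ η) →
      ∃ s t : M, (‖s‖ ≤ 2 ∧ ∀ a ∈ X, ‖s * a - a * s‖ ≤ ε ∧ ∀ g ∈ S, ‖(β g s - s) * a‖ ≤ ε) ∧
        (‖t‖ ≤ 2 ∧ ∀ a ∈ X, ‖t * a - a * t‖ ≤ ε ∧ ∀ g ∈ S, ‖(β g t - t) * a‖ ≤ ε) ∧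
        ∀ a ∈ X, ‖(star s * s - e) * a‖ ≤ ε ∧ ‖(star t * t - e) * a‖ ≤ ε ∧ ‖star s * t * a‖ ≤ ε

variable {I β} (hβ : InvI I β)

/-- The elements of `G` acting trivially on the relative central sequence algebra. -/
def trivSubR (ω : Filter ℕ) : Subgroup G where
  carrier := {g | ∀ y : FR I ω, FR.act β hβ ω g y = y}
  mul_mem' := by
    intro g h hg hh y
    rw [FR.act_mul, hh, hg]
  one_mem' := fun y => FR.act_one β hβ ω y
  inv_mem' := by
    intro g hg y
    have e : FR.act β hβ ω g⁻¹ (FR.act β hβ ω g y) = y := by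
      rw [← FR.act_mul, inv_mul_cancel, FR.act_one]
    rw [hg] at e
    exact e

theorem trivAtR_of_mem (hI : SepI I) (ω : Filter ℕ) [NeBot ω] (hω : ω ≤ atTop) (g : G)
    (hg : g ∈ trivSubR hβ ω) (T : Finset M) (hT : ∀ b ∈ T, b ∈ I) (δ : ℝ) (hδ : 0 < δ) :
    ∃ (F : Finset M) (ε : ℝ), (∀ x ∈ F, x ∈ I) ∧ 0 < ε ∧ ∀ x : M, ‖x‖ ≤ 1 →
      (∀ a ∈ F, ‖x * a - a * x‖ ≤ ε) → ∀ b ∈ T, ‖(β g x - x) * b‖ ≤ δ := by
  classical
  by_contra hcon
  push Not at hcon
  obtain ⟨x, hxI, hx⟩ := hI.ex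
  choose a ha1 ha2 b hbT hab using fun n : ℕ =>
    hcon ((Finset.range (n + 1)).image x) (1 / ((n : ℝ) + 1)) (fun y hy => by
      obtain ⟨m, -, rfl⟩ := Finset.mem_image.1 hy
      exact hxI m) (by (clear * -; positivity))
  have hmem : a ∈ relSeq I ω := by
    refine ⟨⟨1, ha1⟩, fun w hw => tendsto_comm_denseI hx a 1 ha1 zero_le_one (fun m => ?_) hw⟩
    exact (tendsto_of_le_div _ (fun n => norm_nonneg _) 1 m fun n hn =>
      ha2 n _ (Finset.mem_image.2 ⟨m, Finset.mem_range.2 (by omega), rfl⟩)).mono_left hω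
  have h1 : FR.act β hβ ω g (FR.mk I ω ⟨a, hmem⟩) = FR.mk I ω ⟨a, hmem⟩ := hg _
  rw [FR.act_mk, FR.mk_eq_iff] at h1
  have h2 : ∀ᶠ n in ω, ∀ c ∈ T, ‖(β g (a n) - a n) * c‖ < δ :=
    (Finset.eventually_all T).2 fun c hc => (h1 c (hT c hc)).eventually (gt_mem_nhds hδ)
  obtain ⟨n, hn⟩ := h2.exists
  exact absurd (hn (b n) (hbT n)) (not_lt.2 (hab n).le)

theorem AlmCentR.mono [PartialOrder M] {b₀ : M} {F F' : Finset M} {δ δ' : ℝ} {y : M}
    (h : AlmCentR b₀ F δ y) (hF : F' ⊆ F) (hδ : δ ≤ δ') : AlmCentR b₀ F' δ' y :=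
  ⟨h.1, h.2.1, by linarith [h.2.2.1], fun a ha => (h.2.2.2 a (hF ha)).trans hδ⟩

open Classical in
/-- Construction of the averaged elements. -/
theorem core_avg (N : Subgroup G) (K : Finset G) (hK : K.Nonempty) (P : Finset (G ⧸ N))
    (S : Finset G) (hPK : ∀ k ∈ K, (k : G ⧸ N) ∈ P)
    (hPSK : ∀ g ∈ S, ∀ k ∈ K, ((g * k : G) : G ⧸ N) ∈ P) (ε₁ B η₁ η₂ κ' : ℝ)
    (hε₁ : 0 < ε₁) (hε₁1 : ε₁ ≤ 1) (hB : 1 ≤ B)
    (hMη₁ : (P.card : ℝ) * (P.card * η₁) = ε₁ ^ 2 / (8 * B))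
    (hMη₂ : (P.card : ℝ) * η₂ = ε₁ / 2) (hMκ : (P.card : ℝ) * κ' ≤ ε₁)
    (hKS : ∀ g ∈ S, ((K.filter (fun h => g * h ∉ K)).card : ℝ) ≤
      ε₁ ^ 2 / (16 * B ^ 2) * (K.card : ℝ))
    (e : M) (he1 : ‖e‖ ≤ 1) (x b : M) (hb : ‖b‖ ≤ B)
    (h1 : ∀ q ∈ P, ‖(star (β (Quotient.out q) x) * β (Quotient.out q) x - e) * b‖ ≤ η₁)
    (h2 : ∀ q ∈ P, ∀ q' ∈ P, q ≠ q' →
      ‖star (β (Quotient.out q) x) * β (Quotient.out q') x * b‖ ≤ η₁)
    (h3 : ∀ g ∈ S, ∀ q ∈ P,
      ‖(β g (β (Quotient.out q) x) - β (Quotient.out (g • q)) x) * b‖ ≤ η₂)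
    (h4 : ∀ q ∈ P, ‖x * β (Quotient.out q)⁻¹ b - β (Quotient.out q)⁻¹ b * x‖ ≤ κ') :
    ‖cosetSum β N K P x * b - b * cosetSum β N K P x‖ ≤ ε₁ ∧
    (∀ g ∈ S, ‖(β g (cosetSum β N K P x) - cosetSum β N K P x) * b‖ ≤ ε₁) ∧
    ‖(star (cosetSum β N K P x) * cosetSum β N K P x - e) * b‖ ≤ ε₁ := by
  have hB0 : 0 < B := lt_of_lt_of_le one_pos hB
  have hθ : ε₁ ^ 2 / (8 * B) ≤ ε₁ := by
    rw [div_le_iff₀ (by positivity)]
    nlinarith only [hε₁, hε₁1, hB]
  have f1 := fin_quadR N K hK P hPK x e b η₁ h1 h2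
  rw [hMη₁] at f1
  refine ⟨(cosetSum_comm N K P x b κ' h4).trans hMκ, fun g hg => ?_, f1.trans hθ⟩
  have h5 := cosetSum_fixR (β := β) N K hK P x e b B hb he1 g hPK (hPSK g hg)
    (ε₁ ^ 2 / (16 * B ^ 2)) η₁ η₂ (hKS g hg) h1 h2 (h3 g hg)
  rw [hMη₁, hMη₂] at h5
  have h6 : Real.sqrt (B * (2 * (ε₁ ^ 2 / (16 * B ^ 2)) * B + ε₁ ^ 2 / (8 * B))) = ε₁ / 2 := by
    rw [show B * (2 * (ε₁ ^ 2 / (16 * B ^ 2)) * B + ε₁ ^ 2 / (8 * B)) = (ε₁ / 2) ^ 2 by
      field_simp; ring]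
    exact Real.sqrt_sq (by positivity)
  rw [h6] at h5
  linarith only [h5]

theorem exists_unitR [PartialOrder M] [StarOrderedRing M] (T : Finset M) (hT : ∀ b ∈ T, b ∈ I)
    (ρ : ℝ) (hρ : 0 < ρ) : ∃ u : M, u ∈ I ∧ IsSelfAdjoint u ∧ ‖u‖ ≤ 1 ∧
      ∀ b ∈ T, ‖u * b - b‖ ≤ ρ ∧ ‖b * u - b‖ ≤ ρ := by
  obtain ⟨ν, hν, h⟩ := exists_approx_unit I (c := fun b : {b // b ∈ T} => (b : M))
    (fun b => hT b b.2) hρ
  refine ⟨ν, hν.mem, hν.nonneg.isSelfAdjoint,
    (CStarAlgebra.norm_le_one_iff_of_nonneg ν hν.nonneg).2 hν.le_one, fun b hb => ?_⟩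
  obtain ⟨h1, h2⟩ := h ⟨b, hb⟩
  constructor
  · rw [norm_sub_rev]
    have e : b - ν * b = (1 - ν) * b := by noncomm_ring
    rw [e]; exact h2.le
  · rw [norm_sub_rev]
    have e : b - b * ν = b * (1 - ν) := by noncomm_ring
    rw [e]; exact h1.le

theorem real_cross {ε₀ B η₁ : ℝ} (hB : 1 ≤ B) (h0 : 0 < ε₀) (h : 16 * B * ε₀ ≤ η₁) :
    4 * B * ε₀ + 2 * ε₀ + 8 * (η₁ / 32) ≤ η₁ := by
  nlinarith

theorem real_diag {ε₀ B η₁ : ℝ} (hB : 1 ≤ B) (h0 : 0 < ε₀) (h : 16 * B * ε₀ ≤ η₁) :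
    ε₀ + η₁ / 2 ≤ η₁ := by
  nlinarith

theorem real_rho {ε₁ m : ℝ} (hε : 0 < ε₁) (hm : 0 < m) :
    2 * ((2 * m) * (ε₁ / (4 * m + 1))) ≤ ε₁ ∧ ε₁ / (4 * m + 1) ≤ ε₁ := by
  constructor
  · have : 2 * ((2 * m) * (ε₁ / (4 * m + 1))) = ε₁ * (4 * m / (4 * m + 1)) := by
      field_simp; ring
    rw [this]
    have h2 : 4 * m / (4 * m + 1) ≤ 1 := by rw [div_le_one (by positivity)]; linarith only []
    nlinarith only [hε, h2]
  · rw [div_le_iff₀ (by positivity)]
    nlinarith only [hε, hm]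

theorem real_off {ε₁ B : ℝ} (hε : 0 < ε₁) (hε1 : ε₁ ≤ 1) (hB : 1 ≤ B) :
    ε₁ ^ 2 / (8 * B) ≤ ε₁ := by
  rw [div_le_iff₀ (by positivity)]
  nlinarith

/-- Cutting down. -/
theorem final_cut (X : Finset M) (S : Finset G) (ε ε₁ ρ R : ℝ) (hε : 16 * ε₁ ≤ ε)
    (hε₁ : 0 < ε₁) (hε₁1 : ε₁ ≤ 1) (hρ : ρ ≤ ε₁) (hRρ : 2 * (R * ρ) ≤ ε₁) (u e σ τ : M)
    (husa : IsSelfAdjoint u) (hu1 : ‖u‖ ≤ 1) (he1 : ‖e‖ ≤ 1)
    (huX : ∀ b ∈ X, ‖u * b - b‖ ≤ ρ ∧ ‖b * u - b‖ ≤ ρ)
    (huS : ∀ b ∈ X, ∀ g ∈ S, ‖u * β g⁻¹ b - β g⁻¹ b‖ ≤ ρ)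
    (heX : ∀ b ∈ X, ‖e * b - b * e‖ ≤ ε₁) (hσ : ‖σ‖ ≤ R) (hτ : ‖τ‖ ≤ R)
    (hσu : ‖(star σ * σ - e) * u‖ ≤ ε₁) (hτu : ‖(star τ * τ - e) * u‖ ≤ ε₁)
    (gs : ∀ b ∈ X, ‖σ * b - b * σ‖ ≤ ε₁ ∧ (∀ g ∈ S, ‖(β g σ - σ) * b‖ ≤ ε₁) ∧
      ‖(star σ * σ - e) * b‖ ≤ ε₁)
    (gt : ∀ b ∈ X, ‖τ * b - b * τ‖ ≤ ε₁ ∧ (∀ g ∈ S, ‖(β g τ - τ) * b‖ ≤ ε₁) ∧
      ‖(star τ * τ - e) * b‖ ≤ ε₁)
    (goff : ∀ b ∈ X, ‖star σ * τ * b‖ ≤ ε₁) :
    ∃ s t : M, (‖s‖ ≤ 2 ∧ ∀ a ∈ X, ‖s * a - a * s‖ ≤ ε ∧ ∀ g ∈ S, ‖(β g s - s) * a‖ ≤ ε) ∧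
      (‖t‖ ≤ 2 ∧ ∀ a ∈ X, ‖t * a - a * t‖ ≤ ε ∧ ∀ g ∈ S, ‖(β g t - t) * a‖ ≤ ε) ∧
      ∀ a ∈ X, ‖(star s * s - e) * a‖ ≤ ε ∧ ‖(star t * t - e) * a‖ ≤ ε ∧
        ‖star s * t * a‖ ≤ ε := by
  have hnus : ‖σ * u‖ ≤ 2 := cut_norm _ u e ε₁ husa hu1 he1 hε₁1 hσu
  have hnut : ‖τ * u‖ ≤ 2 := cut_norm _ u e ε₁ husa hu1 he1 hε₁1 hτu
  refine ⟨σ * u, τ * u, ⟨hnus, fun a ha => ⟨?_, fun g hg => ?_⟩⟩,
    ⟨hnut, fun a ha => ⟨?_, fun g hg => ?_⟩⟩, fun a ha => ⟨?_, ?_, ?_⟩⟩
  · have := cut_comm _ u a R ε₁ ρ hu1 hσ (huX a ha).1 (huX a ha).2 (gs a ha).1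
    linarith
  · have := cut_fix (β := β) _ u a g R ε₁ ρ hσ (huX a ha).1 (huS a ha g hg)
      ((gs a ha).2.1 g hg)
    linarith only [hε, hε₁, hRρ, this]
  · have := cut_comm _ u a R ε₁ ρ hu1 hτ (huX a ha).1 (huX a ha).2 (gt a ha).1
    linarith only [hε, hε₁, hRρ, this]
  · have := cut_fix (β := β) _ u a g R ε₁ ρ hτ (huX a ha).1 (huS a ha g hg)
      ((gt a ha).2.1 g hg)
    linarith
  · have := cut_sq _ _ u e a R ε₁ ρ ε₁ husa hu1 hnus hσ he1 (huX a ha).1
      (gs a ha).2.2 (heX a ha)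
    linarith
  · have := cut_sq _ _ u e a R ε₁ ρ ε₁ husa hu1 hnut hτ he1 (huX a ha).1
      (gt a ha).2.2 (heX a ha)
    linarith
  · have := cut_sq _ _ u 0 a R ε₁ ρ 0 husa hu1 hnus hτ (by simp) (huX a ha).1
      (by rw [sub_zero]; exact goff a ha) (by simp)
    rw [sub_zero] at this
    linarith only [hε, hε₁, hρ, hRρ, this]

open Classical in
/-- From relative (SI) to equivariant relative (SI). -/
theorem eq_siR [PartialOrder M] [StarOrderedRing M] (hS : SimpleI I) (hI : SepI I)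
    (hβ : InvI I β) {b₀ : M} (hb₀ : b₀ ∈ I) (hb₀1 : ‖b₀‖ = 1) (hO : CentOrthoR I b₀)
    (hSI : SIR I b₀) (hG : IsAmenable G) : EqSIR I β := by
  intro X S ε hX hε
  set ε' : ℝ := min ε 1 with hε'
  have hε'0 : 0 < ε' := lt_min hε one_pos
  have hε'1 : ε' ≤ 1 := min_le_right _ _
  have hε'ε : ε' ≤ ε := min_le_left _ _
  set ε₁ : ℝ := ε' / 16 with hε₁
  have hε₁0 : 0 < ε₁ := by positivity
  have hε₁1 : ε₁ ≤ 1 := by rw [hε₁]; linarith only [hε'1]
  set B : ℝ := 1 + ∑ b ∈ X, ‖b‖ with hB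
  have hB1 : 1 ≤ B := by
    have : 0 ≤ ∑ b ∈ X, ‖b‖ := Finset.sum_nonneg fun b _ => norm_nonneg b
    linarith
  have hB0 : 0 < B := by linarith
  have hXB : ∀ b ∈ X, ‖b‖ ≤ B := by
    intro b hb
    have := Finset.single_le_sum (f := fun b : M => ‖b‖) (fun b _ => norm_nonneg b) hb
    have h2 : ‖b‖ ≤ ∑ b ∈ X, ‖b‖ := this
    linarith
  obtain ⟨K, hK, hKS⟩ := hG S (ε₁ ^ 2 / (16 * B ^ 2)) (by (clear * - hε; positivity))
  let ω : Filter ℕ := (hyperfilter ℕ : Filter ℕ)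
  have hωle : ω ≤ atTop := Nat.hyperfilter_le_atTop
  have hu : ∀ s, s ∈ ω ∨ sᶜ ∈ ω := fun s => (hyperfilter ℕ).mem_or_compl_mem s
  let N : Subgroup G := trivSubR hβ ω
  let P : Finset (G ⧸ N) := K.image (fun k : G => (k : G ⧸ N)) ∪
    S.biUnion fun g => K.image fun k : G => ((g * k : G) : G ⧸ N)
  have hPne : P.Nonempty := by
    obtain ⟨k, hk⟩ := hK
    exact ⟨_, Finset.mem_union_left _ (Finset.mem_image_of_mem _ hk)⟩
  have hPK : ∀ k ∈ K, ((k : G) : G ⧸ N) ∈ P := fun k hk =>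
    Finset.mem_union_left _ (Finset.mem_image_of_mem _ hk)
  have hPSK : ∀ g ∈ S, ∀ k ∈ K, ((g * k : G) : G ⧸ N) ∈ P := fun g hg k hk =>
    Finset.mem_union_right _ (Finset.mem_biUnion.2 ⟨g, hg, Finset.mem_image.2 ⟨k, hk, rfl⟩⟩)
  set m : ℝ := (P.card : ℝ) with hm
  have hm0 : 0 < m := by rw [hm]; exact_mod_cast hPne.card_pos
  set η₁ : ℝ := ε₁ ^ 2 / (8 * B * m ^ 2) with hη₁
  have hη₁0 : 0 < η₁ := by (clear * - hε hβ hPne; positivity)
  have hMη₁ : m * (m * η₁) = ε₁ ^ 2 / (8 * B) := by rw [hη₁]; field_simp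
  set η₂ : ℝ := ε₁ / (2 * m) with hη₂
  have hη₂0 : 0 < η₂ := by (clear * - hε hβ hPne; positivity)
  have hMη₂ : m * η₂ = ε₁ / 2 := by rw [hη₂]; (clear * - hm0 hε₁0; field_simp)
  let o : G ⧸ N → G := Quotient.out
  have ho : ∀ q : G ⧸ N, ((o q : G) : G ⧸ N) = q := fun q => QuotientGroup.out_eq' q
  -- the cutting element
  obtain ⟨u, huI, husa, hu1, huX⟩ := exists_unitR (I := I)
    (X ∪ (S ×ˢ X).image fun p => β p.1⁻¹ p.2) (by
      intro b hb
      rcases Finset.mem_union.1 hb with hb | hb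
      · exact hX b hb
      · obtain ⟨⟨g, b⟩, hgb, rfl⟩ := Finset.mem_image.1 hb
        exact hβ _ _ (hX _ (Finset.mem_product.1 hgb).2)) (ε₁ / (4 * m + 1)) (by (clear * - hε hβ hPne; positivity))
  set ρ : ℝ := ε₁ / (4 * m + 1) with hρ
  have hρ0 : 0 < ρ := by (clear * - hε hβ hPne; positivity)
  have hRρ : 2 * ((2 * m) * ρ) ≤ ε₁ := (real_rho hε₁0 hm0).1
  have hρε : ρ ≤ ε₁ := (real_rho hε₁0 hm0).2
  let X₁ : Finset M := insert u X
  have hX₁I : ∀ b ∈ X₁, b ∈ I := fun b hb => by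
    rcases Finset.mem_insert.1 hb with rfl | hb
    · exact huI
    · exact hX b hb
  have hX₁B : ∀ b ∈ X₁, ‖b‖ ≤ B := fun b hb => by
    rcases Finset.mem_insert.1 hb with rfl | hb
    · exact hu1.trans hB1
    · exact hXB b hb
  let E : Finset G := ((P ×ˢ P).filter (fun p => p.1 ≠ p.2)).image fun p => (o p.1)⁻¹ * o p.2
  let E' : Finset G := (P ×ˢ P).image fun p => (o p.1)⁻¹ * o p.2
  have hE : ∀ g ∈ E, ∃ y : FR I ω, FR.act β hβ ω g y ≠ y := by
    intro g hg
    obtain ⟨⟨q, q'⟩, hqq, rfl⟩ := Finset.mem_image.1 hg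
    rw [Finset.mem_filter] at hqq
    by_contra hcon
    push Not at hcon
    have hmem : (o q)⁻¹ * o q' ∈ N := hcon
    have := QuotientGroup.eq.2 hmem
    rw [ho, ho] at this
    exact hqq.2 this
  let NN : Finset G := (S ×ˢ P).image fun p => (o (p.1 • p.2))⁻¹ * (p.1 * o p.2)
  let TT : Finset M := ((S ×ˢ P) ×ˢ X₁).image fun p => β (o (p.1.1 • p.1.2))⁻¹ p.2
  have hTTI : ∀ b ∈ TT, b ∈ I := fun b hb => by
    obtain ⟨⟨⟨g, q⟩, b⟩, hgb, rfl⟩ := Finset.mem_image.1 hb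
    exact hβ _ _ (hX₁I _ (Finset.mem_product.1 hgb).2)
  have hTr : ∀ n : G, ∃ (Fn : Finset M) (εn : ℝ), (∀ x ∈ Fn, x ∈ I) ∧ 0 < εn ∧
      (n ∈ NN → ∀ x : M, ‖x‖ ≤ 1 → (∀ a ∈ Fn, ‖x * a - a * x‖ ≤ εn) →
        ∀ b ∈ TT, ‖(β n x - x) * b‖ ≤ η₂ / 2) := by
    intro n
    by_cases hn : n ∈ NN
    · have hnN : n ∈ trivSubR hβ ω := by
        obtain ⟨⟨g, q⟩, -, rfl⟩ := Finset.mem_image.1 hn
        refine QuotientGroup.eq.1 ?_
        rw [ho]
        show g • q = ((g * o q : G) : G ⧸ N)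
        conv_lhs => rw [← ho q]
        rfl
      obtain ⟨Fn, εn, h0, h1, h2⟩ := trivAtR_of_mem hβ hI ω hωle n hnN TT hTTI (η₂ / 2)
        (by (clear * - hε hβ hPne; positivity))
      exact ⟨Fn, εn, h0, h1, fun _ => h2⟩
    · exact ⟨∅, 1, fun x hx => absurd hx (Finset.notMem_empty x), one_pos, fun h => absurd h hn⟩
  choose Fn εn hFnI hεn hTriv using hTr
  obtain ⟨κ, hκ0, hκ⟩ := exists_pos_le_finset NN εn fun n _ => hεn n
  let Xs : Finset M := ((X₁ ×ˢ P).image fun p => β (o p.2)⁻¹ p.1) ∪ NN.biUnion Fn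
  have hXsI : ∀ b ∈ Xs, b ∈ I := fun b hb => by
    rcases Finset.mem_union.1 hb with hb | hb
    · obtain ⟨⟨b, q⟩, hgb, rfl⟩ := Finset.mem_image.1 hb
      exact hβ _ _ (hX₁I _ (Finset.mem_product.1 hgb).1)
    · obtain ⟨n, -, hbn⟩ := Finset.mem_biUnion.1 hb
      exact hFnI n b hbn
  have hXs : ∀ b ∈ X₁, ∀ q ∈ P, β (o q)⁻¹ b ∈ Xs := fun b hb q hq =>
    Finset.mem_union_left _ (Finset.mem_image.2 ⟨(b, q), Finset.mem_product.2 ⟨hb, hq⟩, rfl⟩)
  set ε₀ : ℝ := min κ (min (ε₁ / m) (η₁ / (16 * B))) with hε₀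
  have hε₀0 : 0 < ε₀ := lt_min hκ0 (lt_min (by (clear * - hε hβ hPne; positivity)) (by (clear * - hε hβ hPne; positivity)))
  have hε₀κ : ε₀ ≤ κ := min_le_left _ _
  have hε₀m : m * ε₀ ≤ ε₁ := by
    have h1 : ε₀ ≤ ε₁ / m := (min_le_right _ _).trans (min_le_left _ _)
    rw [le_div_iff₀ hm0] at h1
    linarith only [h1]
  have hε₀B : 16 * B * ε₀ ≤ η₁ := by
    have h1 : ε₀ ≤ η₁ / (16 * B) := (min_le_right _ _).trans (min_le_right _ _)
    rw [le_div_iff₀ (by (clear * -; positivity))] at h1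
    linarith only [h1]
  obtain ⟨Fs, δs, hFsI, hδs, hs⟩ := hSI Xs ε₀ hXsI hε₀0
  obtain ⟨c₁, c₂, hc₁, hc₂, hE₁, hE₂, hE₁₂⟩ :=
    tower_pairR hβ hS hb₀ hb₀1 hO hI ω hωle hu E E' hE (Xs ∪ Fs) (fun y hy => by
      rcases Finset.mem_union.1 hy with hy | hy
      · exact hXsI y hy
      · exact hFsI y hy) (min δs (η₁ / 32)) (lt_min hδs (by (clear * - hε hβ hPne; positivity)))
  have hδη : min δs (η₁ / 32) ≤ η₁ / 32 := min_le_right _ _
  obtain ⟨F21, U1, δ21, hF21, hU1, hδ21, hs₁⟩ :=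
    hs c₁ (AlmCentR.mono hc₁ Finset.subset_union_right (min_le_left _ _))
  obtain ⟨F22, U2, δ22, hF22, hU2, hδ22, hs₂⟩ :=
    hs c₂ (AlmCentR.mono hc₂ Finset.subset_union_right (min_le_left _ _))
  set η : ℝ := min (min δ21 δ22) (min (η₁ / 2) ε₁) with hη
  have hη0 : 0 < η := lt_min (lt_min hδ21 hδ22) (lt_min (by (clear * - hε hβ hPne; positivity)) hε₁0)
  have hηη₁ : η ≤ η₁ / 2 := (min_le_right _ _).trans (min_le_left _ _)
  have hηε₁ : η ≤ ε₁ := (min_le_right _ _).trans (min_le_right _ _)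
  refine ⟨(F21 ∪ F22) ∪ X₁, U1 ∪ U2, P.image o, η, ?_, ?_, hη0, ?_⟩
  · intro x hx
    rcases Finset.mem_union.1 hx with hx | hx
    · rcases Finset.mem_union.1 hx with hx | hx
      · exact hF21 x hx
      · exact hF22 x hx
    · exact hX₁I x hx
  · intro x hx
    rcases Finset.mem_union.1 hx with hx | hx
    · exact hU1 x hx
    · exact hU2 x hx
  intro e he0 he1 heF heU heS
  obtain ⟨s, hsI, hs2, hsc, hsX⟩ := hs₁ e he0 he1
    (fun b hb => (heF b (Finset.mem_union_left _ (Finset.mem_union_left _ hb))).trans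
      ((min_le_left _ _).trans (min_le_left _ _)))
    (fun v hv τ hτ => (heU v (Finset.mem_union_left _ hv) τ hτ).trans
      ((min_le_left _ _).trans (min_le_left _ _)))
  obtain ⟨t, htI, ht2, htc, htX⟩ := hs₂ e he0 he1
    (fun b hb => (heF b (Finset.mem_union_left _ (Finset.mem_union_right _ hb))).trans
      ((min_le_left _ _).trans (min_le_right _ _)))
    (fun v hv τ hτ => (heU v (Finset.mem_union_right _ hv) τ hτ).trans
      ((min_le_left _ _).trans (min_le_right _ _)))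
  have heq : ∀ q ∈ P, ∀ b ∈ X₁, ‖(β (o q) e - e) * b‖ ≤ η₁ / 2 := fun q hq b hb =>
    (heS _ (Finset.mem_image_of_mem _ hq) b (Finset.mem_union_right _ hb)).trans hηη₁
  -- cross terms
  have cross : ∀ (c c' x y : M), AlmCentR b₀ (Xs ∪ Fs) (min δs (η₁ / 32)) c →
      AlmCentR b₀ (Xs ∪ Fs) (min δs (η₁ / 32)) c' → ‖x‖ ≤ 2 → ‖y‖ ≤ 2 → ‖c * x - x‖ ≤ ε₀ →
      ‖c' * y - y‖ ≤ ε₀ → (∀ a ∈ Xs, ‖y * a - a * y‖ ≤ ε₀) → ∀ q ∈ P, ∀ q' ∈ P,
      (∀ a ∈ Xs ∪ Fs, ‖c * β ((o q)⁻¹ * o q') c' * a‖ ≤ min δs (η₁ / 32)) → ∀ b ∈ X₁,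
      ‖star (β (o q) x) * β (o q') y * b‖ ≤ η₁ := by
    intro c c' x y hc hc' hx hy hcx hcy hyX q hq q' hq' hcc b hb
    have hb1 := hXs b hb q hq
    have hb2 := hXs b hb q' hq'
    have h3 := off_diagR (β := β) x y c c' hx hy hc.1.isSelfAdjoint hc.2.1 ε₀ ε₀ (η₁ / 32) B
      hcx hcy (o q) (o q') b (hX₁B b hb) (hyX _ hb2)
      ((hc'.2.2.2 _ (Finset.mem_union_left _ hb2)).trans hδη)
      ((hcc _ (Finset.mem_union_left _ hb1)).trans hδη)
    exact h3.trans (real_cross hB1 hε₀0 hε₀B)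
  -- generic facts
  have gen : ∀ (c x : M), AlmCentR b₀ (Xs ∪ Fs) (min δs (η₁ / 32)) c → ‖x‖ ≤ 2 →
      ‖c * x - x‖ ≤ ε₀ → (∀ a ∈ Xs, ‖x * a - a * x‖ ≤ ε₀ ∧ ‖(star x * x - e) * a‖ ≤ ε₀) →
      (∀ g ∈ E, ∀ y ∈ Xs ∪ Fs, ‖c * β g c * y‖ ≤ min δs (η₁ / 32)) → ∀ b ∈ X₁,
      ‖cosetSum β N K P x * b - b * cosetSum β N K P x‖ ≤ ε₁ ∧
      (∀ g ∈ S, ‖(β g (cosetSum β N K P x) - cosetSum β N K P x) * b‖ ≤ ε₁) ∧
      ‖(star (cosetSum β N K P x) * cosetSum β N K P x - e) * b‖ ≤ ε₁ := by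
    intro c x hc hx hcx hxX hcE b hb
    refine core_avg (β := β) N K hK P S hPK hPSK ε₁ B η₁ η₂ ε₀ hε₁0 hε₁1 hB1 hMη₁ hMη₂ hε₀m hKS
      e he1 x b (hX₁B b hb) (fun q hq => ?_) (fun q hq q' hq' hne => ?_) (fun g hg q hq => ?_)
      (fun q hq => (hxX _ (hXs b hb q hq)).1)
    · have h3 := diag_boundR (β := β) x e (o q) b ε₀ (η₁ / 2) (hxX _ (hXs b hb q hq)).2
        (heq q hq b hb)
      exact h3.trans (real_diag hB1 hε₀0 hε₀B)
    · have hmem : (o q)⁻¹ * o q' ∈ E := Finset.mem_image.2 ⟨(q, q'), Finset.mem_filter.2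
        ⟨Finset.mem_product.2 ⟨hq, hq'⟩, hne⟩, rfl⟩
      exact cross c c x x hc hc hx hx hcx hcx (fun a ha => (hxX a ha).1) q hq q' hq'
        (hcE _ hmem) b hb
    · set n : G := (o (g • q))⁻¹ * (g * o q) with hn
      have hnNN : n ∈ NN := Finset.mem_image.2 ⟨(g, q), Finset.mem_product.2 ⟨hg, hq⟩, rfl⟩
      have hbT : β (o (g • q))⁻¹ b ∈ TT := Finset.mem_image.2 ⟨((g, q), b),
        Finset.mem_product.2 ⟨Finset.mem_product.2 ⟨hg, hq⟩, hb⟩, rfl⟩
      refine triv_boundR x n g (o q) (o (g • q)) (by rw [hn, mul_inv_cancel_left]) η₂ (εn n)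
        (Fn n) b (fun y hy hya => hTriv n hnNN y hy hya _ hbT) hx fun a ha => ?_
      have haX : a ∈ Xs := Finset.mem_union_right _ (Finset.mem_biUnion.2 ⟨n, hnNN, ha⟩)
      exact (hxX a haX).1.trans (hε₀κ.trans (hκ n hnNN))
  have gs := gen c₁ s hc₁ hs2 hsc (fun a ha => (hsX a ha).2) hE₁
  have gt := gen c₂ t hc₂ ht2 htc (fun a ha => (htX a ha).2) hE₂
  have goff : ∀ b ∈ X₁, ‖star (cosetSum β N K P s) * cosetSum β N K P t * b‖ ≤ ε₁ := by
    intro b hb
    have h6 := fin_offR (β := β) N K P s t b η₁ fun q hq q' hq' =>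
      cross c₁ c₂ s t hc₁ hc₂ hs2 ht2 hsc htc (fun a ha => (htX a ha).2.1) q hq q' hq'
        (hE₁₂ _ (Finset.mem_image.2 ⟨(q, q'), Finset.mem_product.2 ⟨hq, hq'⟩, rfl⟩)) b hb
    rw [← hm, hMη₁] at h6
    exact h6.trans (real_off hε₁0 hε₁1 hB1)
  have huX₁ : u ∈ X₁ := Finset.mem_insert_self _ _
  have hXX₁ : ∀ b ∈ X, b ∈ X₁ := fun b hb => Finset.mem_insert_of_mem hb
  have huS' : ∀ b ∈ X, ∀ g ∈ S, ‖u * β g⁻¹ b - β g⁻¹ b‖ ≤ ρ := fun b hb g hg =>
    (huX _ (Finset.mem_union_right _ (Finset.mem_image.2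
      ⟨(g, b), Finset.mem_product.2 ⟨hg, hb⟩, rfl⟩))).1
  exact final_cut X S ε ε₁ ρ (2 * m) (by rw [hε₁]; linarith only [hε'ε]) hε₁0 hε₁1 hρε hRρ u e
    (cosetSum β N K P s) (cosetSum β N K P t) husa hu1 he1
    (fun b hb => huX b (Finset.mem_union_left _ hb)) huS'
    (fun b hb => (heF b (Finset.mem_union_right _ (hXX₁ b hb))).trans hηε₁)
    (norm_cosetSum_le N K P s hs2) (norm_cosetSum_le N K P t ht2) (gs u huX₁).2.2
    (gt u huX₁).2.2 (fun b hb => gs b (hXX₁ b hb)) (fun b hb => gt b (hXX₁ b hb))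
    (fun b hb => goff b (hXX₁ b hb))

end Vale.Agent.P095K
end

section

/-! Relative equivariant (SI) and lifting give the local form of the absence of characters. -/

open Filter Topology

namespace Vale.Agent.P095K

open Vale.Agent.P095 Vale.Agent.P095J Vale.Agent.P095N Vale.Agent.P133

universe u v w

variable {M : Type u} [CStarAlgebra M] (I : CIdeal M) {G : Type w} [Group G]
  (β : G →* (M ≃⋆ₐ[ℂ] M))

/-- Relatively central, relatively fixed elements with small defect. -/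
def LiftR [PartialOrder M] : Prop :=
  ∀ (F U : Finset M) (S : Finset G) (ε : ℝ), (∀ x ∈ F, x ∈ I) → (∀ u ∈ U, u ∈ I ∧ 0 ≤ u) → 0 < ε →
    ∃ w : M, (‖w‖ ≤ 1 ∧ ∀ a ∈ F, ‖w * a - a * w‖ ≤ ε ∧ ∀ g ∈ S, ‖(β g w - w) * a‖ ≤ ε) ∧
      ∀ u ∈ U, Small u (defectN w) ε

/-- Two contractions which almost commute with `b` and almost agree at `b`. -/
structure NC (b : M) (κ : ℝ) (x y : M) : Prop where
  nx : ‖x‖ ≤ 1
  ny : ‖y‖ ≤ 1
  cx : ‖x * b - b * x‖ ≤ κ
  cy : ‖y * b - b * y‖ ≤ κ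
  d : ‖(x - y) * b‖ ≤ κ

theorem NC.mul {b : M} {κ κ' : ℝ} {x y x' y' : M} (h : NC b κ x y) (h' : NC b κ' x' y') :
    NC b (κ + 3 * κ') (x * x') (y * y') := by
  have hκ : 0 ≤ κ := (norm_nonneg _).trans h.cx
  have hκ' : 0 ≤ κ' := (norm_nonneg _).trans h'.cx
  have comm : ∀ z z' : M, ‖z‖ ≤ 1 → ‖z'‖ ≤ 1 → ‖z * b - b * z‖ ≤ κ → ‖z' * b - b * z'‖ ≤ κ' →
      ‖z * z' * b - b * (z * z')‖ ≤ κ + 3 * κ' := by
    intro z z' hz hz' h1 h2
    have e : z * z' * b - b * (z * z') = z * (z' * b - b * z') + (z * b - b * z) * z' := by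
      noncomm_ring
    rw [e]
    have n1 : ‖z * (z' * b - b * z')‖ ≤ 1 * κ' :=
      (norm_mul_le _ _).trans (mul_le_mul hz h2 (norm_nonneg _) zero_le_one)
    have n2 : ‖(z * b - b * z) * z'‖ ≤ κ * 1 :=
      (norm_mul_le _ _).trans (mul_le_mul h1 hz' (norm_nonneg _) hκ)
    exact (norm_add_le _ _).trans (by linarith only [hκ', n1, n2])
  refine ⟨(norm_mul_le _ _).trans (mul_le_one₀ h.nx (norm_nonneg _) h'.nx),
    (norm_mul_le _ _).trans (mul_le_one₀ h.ny (norm_nonneg _) h'.ny),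
    comm _ _ h.nx h'.nx h.cx h'.cx, comm _ _ h.ny h'.ny h.cy h'.cy, ?_⟩
  have e : (x * x' - y * y') * b = x * ((x' - y') * b) + (x - y) * b * y' +
      (x - y) * (y' * b - b * y') := by noncomm_ring
  have n1 : ‖x * ((x' - y') * b)‖ ≤ 1 * κ' :=
    (norm_mul_le _ _).trans (mul_le_mul h.nx h'.d (norm_nonneg _) zero_le_one)
  have n2 : ‖(x - y) * b * y'‖ ≤ κ * 1 :=
    (norm_mul_le _ _).trans (mul_le_mul h.d h'.ny (norm_nonneg _) hκ)
  have n3 : ‖(x - y) * (y' * b - b * y')‖ ≤ 2 * κ' := by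
    refine (norm_mul_le _ _).trans (mul_le_mul ?_ h'.cy (norm_nonneg _) (by norm_num))
    exact (norm_sub_le _ _).trans (by linarith only [h.nx, h.ny])
  rw [e]
  have m1 := norm_add_le (x * ((x' - y') * b) + (x - y) * b * y') ((x - y) * (y' * b - b * y'))
  have m2 := norm_add_le (x * ((x' - y') * b)) ((x - y) * b * y')
  linarith only [n1, n2, n3, m1, m2]

theorem NC.star {b : M} {κ : ℝ} {x y : M} (h : NC (star b) κ x y) :
    NC b (3 * κ) (star x) (star y) := by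
  have hκ : 0 ≤ κ := (norm_nonneg _).trans h.cx
  have comm : ∀ z : M, ‖z * Star.star b - Star.star b * z‖ ≤ κ →
      ‖Star.star z * b - b * Star.star z‖ ≤ κ := by
    intro z hz
    have e : Star.star z * b - b * Star.star z = -Star.star (z * Star.star b - Star.star b * z) := by
      simp only [star_sub, star_mul, star_star]; abel
    rw [e, norm_neg, norm_star]
    exact hz
  refine ⟨by rw [norm_star]; exact h.nx, by rw [norm_star]; exact h.ny,
    (comm x h.cx).trans (by linarith), (comm y h.cy).trans (by linarith only [hκ]), ?_⟩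
  have e : (Star.star x - Star.star y) * b = Star.star ((x - y) * Star.star b -
      ((x * Star.star b - Star.star b * x) - (y * Star.star b - Star.star b * y))) := by
    simp only [sub_mul, star_sub, star_mul, star_star]; noncomm_ring
  rw [e, norm_star]
  have m1 := norm_sub_le ((x - y) * Star.star b)
    ((x * Star.star b - Star.star b * x) - (y * Star.star b - Star.star b * y))
  have m2 := norm_sub_le (x * Star.star b - Star.star b * x) (y * Star.star b - Star.star b * y)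
  have h1 := h.d
  have h2 := h.cx
  have h3 := h.cy
  linarith only [m1, m2, h1, h2, h3]

section order

variable [PartialOrder M] [StarOrderedRing M]

theorem norm_one_sub_le_one (w : M) (hw : ‖w‖ ≤ 1) : ‖1 - star w * w - w * star w‖ ≤ 1 := by
  have h1 : star w * w ≤ 1 := by
    rw [← CStarAlgebra.norm_le_one_iff_of_nonneg _ (star_mul_self_nonneg w),
      CStarRing.norm_star_mul_self]
    exact mul_le_one₀ hw (norm_nonneg _) hw
  have h2 : w * star w ≤ 1 := by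
    rw [← CStarAlgebra.norm_le_one_iff_of_nonneg _ (mul_star_self_nonneg w),
      CStarRing.norm_self_mul_star]
    exact mul_le_one₀ hw (norm_nonneg _) hw
  have h3 := star_mul_self_nonneg w
  have h4 := mul_star_self_nonneg w
  have hsa : IsSelfAdjoint (1 - star w * w - w * star w) := by
    rw [IsSelfAdjoint]
    simp only [star_sub, star_one, star_mul, star_star]
  refine norm_le_of_between zero_le_one hsa ?_ ?_
  · rw [map_one]
    calc 1 - star w * w - w * star w ≤ 1 - 0 - 0 := sub_le_sub (sub_le_sub_left h3 1) h4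
      _ = 1 := by simp
  · rw [map_one]
    calc -(1 - star w * w - w * star w) = star w * w + w * star w - 1 := by abel
      _ ≤ 1 + 1 - 1 := sub_le_sub_right (add_le_add h1 h2) 1
      _ = 1 := by simp

theorem defectN_nonneg (w : M) : 0 ≤ defectN w := by
  have hsa : star (1 - star w * w - w * star w) = 1 - star w * w - w * star w := by
    simp only [star_sub, star_mul, star_star, star_one]
  have h1 : 0 ≤ star (w * w) * (w * w) +
      (1 - star w * w - w * star w) * (1 - star w * w - w * star w) := by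
    refine add_nonneg (star_mul_self_nonneg _) ?_
    have h2 := star_mul_self_nonneg (1 - star w * w - w * star w)
    rwa [hsa] at h2
  have e : defectN w = (1 / 2 : ℝ) • (star (w * w) * (w * w) +
      (1 - star w * w - w * star w) * (1 - star w * w - w * star w)) := by
    unfold defectN
    rw [← Complex.coe_smul]
    norm_num
  rw [e]
  exact smul_nonneg (by norm_num) h1

/-- The defect of almost commuting and almost agreeing elements. -/
theorem NC.defect {b : M} {κ : ℝ} {x y : M} (h : NC b κ x y) (h' : NC (Star.star b) κ x y) :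
    NC b (44 * κ) (defectN x) (defectN y) := by
  have hκ : 0 ≤ κ := (norm_nonneg _).trans h.cx
  have hs := h'.star
  have h1 := (hs.mul hs).mul (h.mul h)
  have h2 := hs.mul h
  have h3 := h.mul hs
  have h4 : NC b (16 * κ) (1 - Star.star x * x - x * Star.star x)
      (1 - Star.star y * y - y * Star.star y) := by
    refine ⟨norm_one_sub_le_one x h.nx, norm_one_sub_le_one y h.ny, ?_, ?_, ?_⟩
    · have e : (1 - Star.star x * x - x * Star.star x) * b -
          b * (1 - Star.star x * x - x * Star.star x) =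
          -((Star.star x * x * b - b * (Star.star x * x)) +
            (x * Star.star x * b - b * (x * Star.star x))) := by noncomm_ring
      rw [e, norm_neg]
      refine (norm_add_le _ _).trans ?_
      have := h2.cx
      have := h3.cx
      (clear hκ h1 e; linarith)
    · have e : (1 - Star.star y * y - y * Star.star y) * b -
          b * (1 - Star.star y * y - y * Star.star y) =
          -((Star.star y * y * b - b * (Star.star y * y)) +
            (y * Star.star y * b - b * (y * Star.star y))) := by noncomm_ring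
      rw [e, norm_neg]
      refine (norm_add_le _ _).trans ?_
      have := h2.cy
      have := h3.cy
      (clear hκ h1 e; linarith)
    · have e : (1 - Star.star x * x - x * Star.star x - (1 - Star.star y * y - y * Star.star y)) * b
          = -((Star.star x * x - Star.star y * y) * b + (x * Star.star x - y * Star.star y) * b) := by
        noncomm_ring
      rw [e, norm_neg]
      refine (norm_add_le _ _).trans ?_
      have := h2.d
      have := h3.d
      (clear hκ h1 e; linarith)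
  have h5 := h4.mul h4
  have e0 : ∀ z : M, Star.star (z * z) * (z * z) = Star.star z * Star.star z * (z * z) := fun z => by
    rw [star_mul]
  have hn : ‖(1 / 2 : ℂ)‖ = 1 / 2 := by simp only [one_div, norm_inv, Complex.norm_ofNat]
  have hdef : ∀ z : M, defectN z = (1 / 2 : ℂ) • (Star.star z * Star.star z * (z * z) +
      (1 - Star.star z * z - z * Star.star z) * (1 - Star.star z * z - z * Star.star z)) :=
    fun z => by rw [defectN, e0]
  refine ⟨?_, ?_, ?_, ?_, ?_⟩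
  · rw [hdef, norm_smul, hn]
    have := norm_add_le (Star.star x * Star.star x * (x * x))
      ((1 - Star.star x * x - x * Star.star x) * (1 - Star.star x * x - x * Star.star x))
    have := h1.nx
    have := h5.nx
    (clear hκ e0 hn hdef; linarith)
  · rw [hdef, norm_smul, hn]
    have := norm_add_le (Star.star y * Star.star y * (y * y))
      ((1 - Star.star y * y - y * Star.star y) * (1 - Star.star y * y - y * Star.star y))
    have := h1.ny
    have := h5.ny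
    linarith
  · rw [hdef, smul_mul_assoc, mul_smul_comm, ← smul_sub, norm_smul, hn, add_mul, mul_add,
      add_sub_add_comm]
    have := norm_add_le (Star.star x * Star.star x * (x * x) * b -
      b * (Star.star x * Star.star x * (x * x)))
      ((1 - Star.star x * x - x * Star.star x) * (1 - Star.star x * x - x * Star.star x) * b -
        b * ((1 - Star.star x * x - x * Star.star x) * (1 - Star.star x * x - x * Star.star x)))
    have := h1.cx
    have := h5.cx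
    (clear hκ e0 hn hdef; linarith)
  · rw [hdef, smul_mul_assoc, mul_smul_comm, ← smul_sub, norm_smul, hn, add_mul, mul_add,
      add_sub_add_comm]
    have := norm_add_le (Star.star y * Star.star y * (y * y) * b -
      b * (Star.star y * Star.star y * (y * y)))
      ((1 - Star.star y * y - y * Star.star y) * (1 - Star.star y * y - y * Star.star y) * b -
        b * ((1 - Star.star y * y - y * Star.star y) * (1 - Star.star y * y - y * Star.star y)))
    have := h1.cy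
    have := h5.cy
    (clear hκ e0 hn hdef; linarith)
  · rw [hdef, hdef, ← smul_sub, smul_mul_assoc, norm_smul, hn, add_sub_add_comm, add_mul]
    have := norm_add_le ((Star.star x * Star.star x * (x * x) -
      Star.star y * Star.star y * (y * y)) * b)
      (((1 - Star.star x * x - x * Star.star x) * (1 - Star.star x * x - x * Star.star x) -
        (1 - Star.star y * y - y * Star.star y) * (1 - Star.star y * y - y * Star.star y)) * b)
    have := h1.d
    have := h5.d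
    (clear hκ e0 hn hdef; linarith)

end order

theorem map_defectN (g : G) (w : M) : β g (defectN w) = defectN (β g w) := by
  unfold defectN
  simp only [map_smul, map_add, map_mul, map_star, map_sub, map_one]

open Classical in
/-- Assembly. -/
theorem localNoCharR_of_eqSIR [PartialOrder M] [StarOrderedRing M] (hβ : InvI I β)
    (hE : EqSIR I β) (hL : LiftR I β) : LocalNoCharR I β := by
  intro F S ε hF hε
  obtain ⟨F2, U, S2, η, hF2, hU, hη, hst⟩ := hE F S ε hF hε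
  set δ : ℝ := min ε (η / 44) with hδ
  have hδ0 : 0 < δ := lt_min hε (by positivity)
  let F3 : Finset M := F2 ∪ F2.image star
  have hF3 : ∀ x ∈ F3, x ∈ I := by
    intro x hx
    rcases Finset.mem_union.1 hx with hx | hx
    · exact hF2 x hx
    · obtain ⟨y, hy, rfl⟩ := Finset.mem_image.1 hx
      exact I.star_mem' y (hF2 y hy)
  let F4 : Finset M := (F ∪ F3) ∪ (S2 ×ˢ F3).image fun p => β p.1⁻¹ p.2
  have hF4 : ∀ x ∈ F4, x ∈ I := by
    intro x hx
    rcases Finset.mem_union.1 hx with hx | hx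
    · rcases Finset.mem_union.1 hx with hx | hx
      · exact hF x hx
      · exact hF3 x hx
    · obtain ⟨⟨g, b⟩, hgb, rfl⟩ := Finset.mem_image.1 hx
      exact hβ _ _ (hF3 _ (Finset.mem_product.1 hgb).2)
  obtain ⟨w, ⟨hw1, hw⟩, hwU⟩ := hL F4 U (S ∪ S2) (min δ η) hF4 hU (lt_min hδ0 hη)
  have hFF4 : ∀ x ∈ F, x ∈ F4 := fun x hx => Finset.mem_union_left _ (Finset.mem_union_left _ hx)
  have hF34 : ∀ x ∈ F3, x ∈ F4 := fun x hx => Finset.mem_union_left _ (Finset.mem_union_right _ hx)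
  have hstar3 : ∀ b ∈ F2, star b ∈ F3 := fun b hb =>
    Finset.mem_union_right _ (Finset.mem_image_of_mem _ hb)
  have h23 : ∀ b ∈ F2, b ∈ F3 := fun b hb => Finset.mem_union_left _ hb
  have hδ' : min δ η ≤ δ := min_le_left _ _
  have hnc : ∀ g ∈ S2, ∀ b ∈ F3, NC b δ (β g w) w := by
    intro g hg b hb
    refine ⟨by rw [P095J.norm_act]; exact hw1, hw1, ?_, ((hw b (hF34 b hb)).1).trans hδ',
      ((hw b (hF34 b hb)).2 g (Finset.mem_union_right _ hg)).trans hδ'⟩
    have e : β g w * b - b * β g w = β g (w * β g⁻¹ b - β g⁻¹ b * w) := by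
      rw [map_sub, map_mul, map_mul, act_act_inv]
    rw [e, P095J.norm_act]
    exact ((hw _ (Finset.mem_union_right _ (Finset.mem_image.2
      ⟨(g, b), Finset.mem_product.2 ⟨hg, hb⟩, rfl⟩))).1).trans hδ'
  have hnc1 : ∀ b ∈ F3, NC b δ w w := by
    intro b hb
    refine ⟨hw1, hw1, ((hw b (hF34 b hb)).1).trans hδ', ((hw b (hF34 b hb)).1).trans hδ', ?_⟩
    rw [sub_self, zero_mul, norm_zero]
    exact hδ0.le
  have h44 : 44 * δ ≤ η := by
    have h1 : δ ≤ η / 44 := min_le_right _ _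
    linarith only [h1]
  have hstar2 : ∀ b ∈ F2, ∀ x y : M, (∀ c ∈ F3, NC c δ x y) →
      NC b (44 * δ) (defectN x) (defectN y) := fun b hb x y h =>
    (h b (h23 b hb)).defect (h (star b) (hstar3 b hb))
  have hee := fun b hb => hstar2 b hb w w hnc1
  have hen : ‖defectN w‖ ≤ 1 := by
    have h0 : NC (0 : M) 0 w w := ⟨hw1, hw1, by simp, by simp, by simp⟩
    have h0' : NC (star (0 : M)) 0 w w := by rw [star_zero]; exact h0
    exact (h0.defect h0').nx
  obtain ⟨s, t, hs, ht, h⟩ := hst (defectN w) (defectN_nonneg w) hen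
    (fun b hb => (hee b hb).cx.trans h44)
    (fun u hu τ hτ => (hwU u hu τ hτ).trans (min_le_right _ _))
    (fun g hg b hb => by
      rw [map_defectN]
      exact (hstar2 b hb (β g w) w fun c hc => hnc g hg c hc).d.trans h44)
  exact ⟨w, s, t, ⟨hw1, fun a ha => ⟨(hw a (hFF4 a ha)).1.trans (hδ'.trans (min_le_left _ _)),
    fun g hg => ((hw a (hFF4 a ha)).2 g (Finset.mem_union_left _ hg)).trans
      (hδ'.trans (min_le_left _ _))⟩⟩, hs, ht, h⟩

end Vale.Agent.P095K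
end

section

/-! If the relative central sequence algebra has no characters then it contains (over a larger
index set) gluing data. -/

set_option linter.unusedSectionVars false

open Filter Topology

namespace Vale.Agent.P095N

open Vale.Agent.P101 Vale.Agent.P133

universe u v

namespace FR

variable {M : Type u} [CStarAlgebra M] (I : CIdeal M)

theorem exists_legs_fin (k : ℕ) (ι : Type) (μ : Filter ι) [NeBot μ] :
    ∃ (ι' : Type) (μ' : Filter ι') (_ : NeBot μ'), Nonempty (Legs (Fin k) (FR I μ) (FR I μ')) := by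
  induction k with
  | zero => exact ⟨ι, μ, inferInstance, ⟨⟨fun i => i.elim0, fun i => i.elim0⟩⟩⟩
  | succ k ih =>
    obtain ⟨ι', μ', hμ', ⟨L⟩⟩ := ih
    refine ⟨ι' × ι, μ'.curry μ, curry_neBot μ μ', ⟨⟨fun i => Fin.cases
      (pull Prod.snd (tendsto_snd_curry μ μ'))
      (fun i => (pull Prod.fst (tendsto_fst_curry μ μ')).comp (L.σ i)) i, ?_⟩⟩⟩
    intro i j
    refine Fin.cases ?_ (fun i => ?_) i
    · refine Fin.cases (fun h => (h rfl).elim) (fun j _ x y => ?_) j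
      exact (pull_commute μ μ' (L.σ j y) x).symm
    · refine Fin.cases (fun _ x y => ?_) (fun j h x y => ?_) j
      · exact pull_commute μ μ' (L.σ i x) y
      · have h' : i ≠ j := fun e => h (congrArg Fin.succ e)
        exact (L.comm i j h' x y).map (pull (I := I) Prod.fst (tendsto_fst_curry μ μ'))

theorem exists_legs (κ : Type) [Fintype κ] (ι : Type) (μ : Filter ι) [NeBot μ] :
    ∃ (ι' : Type) (μ' : Filter ι') (_ : NeBot μ'), Nonempty (Legs κ (FR I μ) (FR I μ')) := by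
  obtain ⟨ι', μ', hμ', ⟨L⟩⟩ := exists_legs_fin I (Fintype.card κ) ι μ
  exact ⟨ι', μ', hμ', ⟨L.reindex (Fintype.equivFin κ) (Fintype.equivFin κ).injective⟩⟩

theorem exists_nilpotent (ι : Type) (μ : Filter ι) [NeBot μ]
    (h : IsEmpty (FR I μ →⋆ₐ[ℂ] ℂ)) :
    ∃ (ι' : Type) (μ' : Filter ι') (_ : NeBot μ') (X : FR I μ'), X * X = 0 ∧ Full {X} := by
  -- step 1
  obtain ⟨n, l, x, r, hx, hsum⟩ := (step1 h).exists_sum
  choose a b ha hab using hx
  have hfull : Full {y : FR I μ | ∃ j b, y = a j * b - b * a j} :=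
    Full.of_sum Finset.univ l x r (fun i _ => ⟨i, b i, hab i⟩) hsum
  -- step 2
  obtain ⟨ι₂, μ₂, _, ⟨L₂⟩⟩ := exists_legs I (Fin (n + 1)) ι μ
  obtain ⟨q, hq, hqf⟩ := step2 n a ha hfull L₂
  -- step 3
  obtain ⟨D⟩ := step3 q hq hqf
  -- step 4
  obtain ⟨ι₄, μ₄, _, ⟨L₄⟩⟩ := exists_legs I (Fin (3 * D.M + 2)) ι₂ μ₂
  obtain ⟨ξ, hξ, hξf⟩ := step4 D L₄
  -- nilpotents
  obtain ⟨n', l', x', r', hx', hsum'⟩ := D.full.exists_sum
  have hnil : ∀ i, x' i * x' i = 0 := by
    intro i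
    obtain ⟨s, t, b, hst, hi⟩ := hx' i
    have h0 : D.f t * D.f s = 0 := D.orth t s (by rw [abs_sub_comm]; omega)
    rw [hi, show D.f s * b * D.f t * (D.f s * b * D.f t)
      = D.f s * b * (D.f t * D.f s) * b * D.f t by noncomm_ring, h0]
    simp
  let σ : FR I μ₂ →⋆ₐ[ℂ] FR I μ₄ := L₄.σ ⟨0, by omega⟩
  have hfull' : Full (Set.range fun i => σ (x' i)) := by
    refine Full.of_sum Finset.univ (fun i => σ (l' i)) (fun i => σ (x' i)) (fun i => σ (r' i))
      (fun i _ => ⟨i, rfl⟩) ?_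
    rw [← map_one σ, ← hsum', map_sum]
    simp only [map_mul]
  have hnil' : ∀ i, σ (x' i) * σ (x' i) = 0 := fun i => by rw [← map_mul, hnil, map_zero]
  -- step 5
  obtain ⟨ι₅, μ₅, h₅, ⟨L₅⟩⟩ := exists_legs I (Fin (n' + 1)) ι₄ μ₄
  obtain ⟨X, hX, hXf⟩ := step5 n' (fun i => σ (x' i)) hnil' hfull' ξ hξ hξf L₅
  exact ⟨ι₅, μ₅, h₅, X, hX, hXf⟩

theorem exists_glueData (ι : Type) (μ : Filter ι) [NeBot μ]
    (h : IsEmpty (FR I μ →⋆ₐ[ℂ] ℂ)) (l : ℕ) (hl : 0 < l) :
    ∃ (ι' : Type) (μ' : Filter ι') (_ : NeBot μ'),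
      Nonempty (GlueData (Fin l → Bool) Unit (FR I μ')) := by
  obtain ⟨ι₅, μ₅, _, X, hX, hXf⟩ := exists_nilpotent I ι μ h
  obtain ⟨ι₆, μ₆, _, ⟨L₆⟩⟩ := exists_legs I (Fin l) ι₅ μ₅
  obtain ⟨D⟩ := step6G X hX hXf l L₆
  obtain ⟨ι₇, μ₇, h₇, ⟨L₇⟩⟩ := exists_legs I (Fin (D.N ^ D.N) ⊕ Fin D.N) ι₆ μ₆
  let _ : PartialOrder (FR I μ₇) := CStarAlgebra.spectralOrder (FR I μ₇)
  have _ : StarOrderedRing (FR I μ₇) := CStarAlgebra.spectralOrderedRing (FR I μ₇)
  obtain ⟨D'⟩ := step7G l hl D L₇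
  exact ⟨ι₇, μ₇, h₇, step8G l D'⟩

end FR

end Vale.Agent.P095N
end

section

/-! Reindexing: for separable `I`, countable systems of relations which hold in relative central
sequence algebras over large index sets hold in the one over `ℕ`, relatively to given elements. -/

set_option linter.unusedSectionVars false

open Filter Topology

namespace Vale.Agent.P095N

open Vale.Agent.P101 Vale.Agent.P133 Vale.Agent.P095.NCG

universe u v w

variable {M : Type u} [CStarAlgebra M]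

/-- `I` is separable. -/
def SepI (I : CIdeal M) : Prop :=
  ∃ d : ℕ → M, (∀ n, d n ∈ I) ∧ ∀ b ∈ I, ∀ ε : ℝ, 0 < ε → ∃ n, ‖b - d n‖ < ε

theorem tendsto_comm_of_sep {ι : Type v} {μ : Filter ι} {x : ι → M} {C : ℝ}
    (hC : ∀ i, ‖x i‖ ≤ C) {d : ℕ → M} {b : M} (hb : ∀ ε : ℝ, 0 < ε → ∃ n, ‖b - d n‖ < ε)
    (h : ∀ m, Tendsto (fun i => ‖x i * d m - d m * x i‖) μ (𝓝 0)) :
    Tendsto (fun i => ‖x i * b - b * x i‖) μ (𝓝 0) := by
  rcases isEmpty_or_nonempty ι with hι | ⟨⟨i0⟩⟩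
  · have : μ = ⊥ := Filter.filter_eq_bot_of_isEmpty μ
    rw [this]; exact tendsto_bot
  have hC0 : 0 ≤ C := (norm_nonneg _).trans (hC i0)
  rw [Metric.tendsto_nhds]
  intro ε hε
  obtain ⟨m, hm⟩ := hb (ε / (2 * (2 * C + 1))) (by (clear * - hε hC0; positivity))
  have h1 := (Metric.tendsto_nhds.1 (h m)) (ε / 2) (half_pos hε)
  filter_upwards [h1] with i hi
  rw [dist_zero_right, norm_norm] at hi ⊢
  have e : x i * b - b * x i = (x i * d m - d m * x i) + (x i * (b - d m) - (b - d m) * x i) := by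
    noncomm_ring
  have h2 : ‖x i * (b - d m) - (b - d m) * x i‖ ≤ C * ‖b - d m‖ + ‖b - d m‖ * C := by
    refine (norm_sub_le _ _).trans (add_le_add ((norm_mul_le _ _).trans ?_)
      ((norm_mul_le _ _).trans ?_))
    · exact mul_le_mul_of_nonneg_right (hC i) (norm_nonneg _)
    · exact mul_le_mul_of_nonneg_left (hC i) (norm_nonneg _)
  have h3 : C * ‖b - d m‖ + ‖b - d m‖ * C ≤ ε / 2 := by
    have h4 : (2 * C) * ‖b - d m‖ ≤ (2 * C + 1) * (ε / (2 * (2 * C + 1))) :=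
      mul_le_mul (by linarith only []) hm.le (norm_nonneg _) (by linarith only [hC0])
    have h5 : (2 * C + 1) * (ε / (2 * (2 * C + 1))) = ε / 2 := by (clear * - hC0 hε; field_simp)
    linarith only [h4, h5]
  rw [e]
  exact (norm_add_le _ _).trans_lt (by linarith only [hi, h2, h3])

theorem tendsto_null_of_sep {ι : Type v} {μ : Filter ι} {x : ι → M} {C : ℝ}
    (hC : ∀ i, ‖x i‖ ≤ C) {d : ℕ → M} {b : M} (hb : ∀ ε : ℝ, 0 < ε → ∃ n, ‖b - d n‖ < ε)
    (h : ∀ m, Tendsto (fun i => ‖x i * d m‖) μ (𝓝 0)) :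
    Tendsto (fun i => ‖x i * b‖) μ (𝓝 0) := by
  rcases isEmpty_or_nonempty ι with hι | ⟨⟨i0⟩⟩
  · have : μ = ⊥ := Filter.filter_eq_bot_of_isEmpty μ
    rw [this]; exact tendsto_bot
  have hC0 : 0 ≤ C := (norm_nonneg _).trans (hC i0)
  rw [Metric.tendsto_nhds]
  intro ε hε
  obtain ⟨m, hm⟩ := hb (ε / (2 * (C + 1))) (by positivity)
  have h1 := (Metric.tendsto_nhds.1 (h m)) (ε / 2) (half_pos hε)
  filter_upwards [h1] with i hi
  rw [dist_zero_right, norm_norm] at hi ⊢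
  have e : x i * b = x i * d m + x i * (b - d m) := by noncomm_ring
  have h2 : ‖x i * (b - d m)‖ ≤ C * ‖b - d m‖ :=
    (norm_mul_le _ _).trans (mul_le_mul_of_nonneg_right (hC i) (norm_nonneg _))
  have h3 : C * ‖b - d m‖ ≤ ε / 2 := by
    have h4 : C * ‖b - d m‖ ≤ (C + 1) * (ε / (2 * (C + 1))) :=
      mul_le_mul (by linarith only []) hm.le (norm_nonneg _) (by linarith only [hC0])
    have h5 : (C + 1) * (ε / (2 * (C + 1))) = ε / 2 := by (clear * - hC0 hε; field_simp)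
    linarith only [h4, h5]
  rw [e]
  exact (norm_add_le _ _).trans_lt (by linarith only [hi, h2, h3])

/-- The diagonal argument. -/
theorem exists_diag {ι' : Type v} (μ' : Filter ι') [NeBot μ'] (f : ℕ → ℕ × ι' → ℝ)
    (hf0 : ∀ j p, 0 ≤ f j p)
    (hf : ∀ j, Tendsto (f j) ((atTop : Filter ℕ).curry μ') (𝓝 0)) :
    ∃ t : ℕ → ι', ∀ j, Tendsto (fun n => f j (n, t n)) atTop (𝓝 0) := by
  classical
  have hne : Nonempty ι' := Filter.nonempty_of_neBot μ'
  let P : ℕ → ℕ → Prop := fun n p => ∀ j ≤ p, ∀ᶠ t in μ', f j (n, t) < 1 / ((p : ℝ) + 1)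
  have hP : ∀ p, ∀ᶠ n in atTop, P n p := by
    intro p
    have h1 : ∀ j ∈ Finset.range (p + 1), ∀ᶠ n in (atTop : Filter ℕ), ∀ᶠ t in μ',
        f j (n, t) < 1 / ((p : ℝ) + 1) := by
      intro j _
      have h2 : ∀ᶠ q in (atTop : Filter ℕ).curry μ', f j q < 1 / ((p : ℝ) + 1) :=
        (hf j).eventually (gt_mem_nhds (by positivity))
      rwa [eventually_curry_iff] at h2
    filter_upwards [(Finset.eventually_all _).2 h1] with n hn j hj
    exact hn j (Finset.mem_range.2 (by omega))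
  let p : ℕ → ℕ := fun n => Nat.findGreatest (P n) n
  have hp : Tendsto p atTop atTop := by
    rw [tendsto_atTop]
    intro m
    filter_upwards [hP m, eventually_ge_atTop m] with n h1 h2
    exact Nat.le_findGreatest h2 h1
  have hPp : ∀ᶠ n in atTop, P n (p n) := by
    filter_upwards [hP 0] with n h1
    exact Nat.findGreatest_spec (Nat.zero_le n) h1
  have hex : ∀ n, ∃ t : ι', P n (p n) → ∀ j ≤ p n, f j (n, t) < 1 / ((p n : ℝ) + 1) := by
    intro n
    by_cases h : P n (p n)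
    · have h1 : ∀ᶠ t in μ', ∀ j ∈ Finset.range (p n + 1), f j (n, t) < 1 / ((p n : ℝ) + 1) :=
        (Finset.eventually_all _).2 fun j hj => h j (by
          have := Finset.mem_range.1 hj
          omega)
      obtain ⟨t, ht⟩ := h1.exists
      exact ⟨t, fun _ j hj => ht j (Finset.mem_range.2 (by omega))⟩
    · exact ⟨Classical.arbitrary ι', fun h' => absurd h' h⟩
  choose t ht using hex
  refine ⟨t, fun j => ?_⟩
  have hlim : Tendsto (fun n : ℕ => 1 / ((p n : ℝ) + 1)) atTop (𝓝 0) :=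
    tendsto_one_div_add_atTop_nhds_zero_nat.comp hp
  refine squeeze_zero' (Eventually.of_forall fun n => hf0 _ _) ?_ hlim
  filter_upwards [hPp, hp.eventually_ge_atTop j] with n h1 h2
  exact (ht n h1 j h2).le

variable {I : CIdeal M}

/-- Reindexing. -/
theorem exists_reindex (hsep : SepI I) {ι' : Type v} (μ' : Filter ι') [NeBot μ'] {κ : Type w}
    [Countable κ] [Nonempty κ] (X : κ → relSeq I ((atTop : Filter ℕ).curry μ')) :
    ∃ t : ℕ → ι', ∀ k, ∃ h : (fun n => (X k : ℕ × ι' → M) (n, t n)) ∈ relSeq I (atTop : Filter ℕ),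
      FR.mk I _ (X k) = 0 → FR.mk I atTop ⟨_, h⟩ = 0 := by
  classical
  obtain ⟨d, hd, hdd⟩ := hsep
  obtain ⟨e, he⟩ := exists_surjective_nat κ
  let f : ℕ → ℕ × ι' → ℝ := fun j p =>
    if (Nat.unpair j).1 % 2 = 0 then
      ‖(X (e ((Nat.unpair j).1 / 2)) : ℕ × ι' → M) p * d (Nat.unpair j).2 -
        d (Nat.unpair j).2 * (X (e ((Nat.unpair j).1 / 2)) : ℕ × ι' → M) p‖
    else if FR.mk I _ (X (e ((Nat.unpair j).1 / 2))) = 0 then
      ‖(X (e ((Nat.unpair j).1 / 2)) : ℕ × ι' → M) p * d (Nat.unpair j).2‖ else 0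
  have hf0 : ∀ j p, 0 ≤ f j p := by
    intro j p
    simp only [f]
    split_ifs <;> positivity
  have hf : ∀ j, Tendsto (f j) ((atTop : Filter ℕ).curry μ') (𝓝 0) := by
    intro j
    by_cases h1 : (Nat.unpair j).1 % 2 = 0
    · have e1 : f j = fun p => ‖(X (e ((Nat.unpair j).1 / 2)) : ℕ × ι' → M) p * d (Nat.unpair j).2 -
        d (Nat.unpair j).2 * (X (e ((Nat.unpair j).1 / 2)) : ℕ × ι' → M) p‖ := by
        funext p; simp only [f, if_pos h1]
      rw [e1]
      exact relSeq_comm _ (hd _)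
    · by_cases h2 : FR.mk I _ (X (e ((Nat.unpair j).1 / 2))) = 0
      · have e1 : f j = fun p => ‖(X (e ((Nat.unpair j).1 / 2)) : ℕ × ι' → M) p *
            d (Nat.unpair j).2‖ := by
          funext p; simp only [f, if_neg h1, if_pos h2]
        rw [e1]
        exact (FR.mk_eq_zero_iff _).1 h2 _ (hd _)
      · have e1 : f j = fun _ => 0 := by
          funext p; simp only [if_neg h1, if_neg h2, f]
        rw [e1]
        exact tendsto_const_nhds
  obtain ⟨t, ht⟩ := exists_diag μ' f hf0 hf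
  refine ⟨t, fun k => ?_⟩
  obtain ⟨k', rfl⟩ := he k
  obtain ⟨C, hC⟩ := relSeq_bdd (X (e k'))
  have h1 : ∀ m, Tendsto (fun n => ‖(X (e k') : ℕ × ι' → M) (n, t n) * d m -
      d m * (X (e k') : ℕ × ι' → M) (n, t n)‖) atTop (𝓝 0) := by
    intro m
    refine (ht (Nat.pair (2 * k') m)).congr fun n => ?_
    simp only [f, Nat.unpair_pair]
    rw [if_pos (by (clear * -; omega)), Nat.mul_div_cancel_left _ (by norm_num)]
  have hmem : (fun n => (X (e k') : ℕ × ι' → M) (n, t n)) ∈ relSeq I (atTop : Filter ℕ) :=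
    ⟨⟨C, fun n => hC _⟩, fun b hb => tendsto_comm_of_sep (fun n => hC _) (hdd b hb) h1⟩
  refine ⟨hmem, fun h0 => ?_⟩
  rw [FR.mk_eq_zero_iff]
  intro b hb
  refine tendsto_null_of_sep (C := C) (fun n => hC _) (hdd b hb) fun m => ?_
  refine (ht (Nat.pair (2 * k' + 1) m)).congr fun n => ?_
  have e2 : (2 * k' + 1) / 2 = k' := by omega
  simp only [Nat.unpair_pair, e2, f]
  rw [if_neg (by omega), if_pos h0]

/-- Gluing data in the relative central sequence algebra over `ℕ` commuting with finitely many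
elements. -/
theorem commGlue (hsep : SepI I) {ι : Type} {μ : Filter ι} [NeBot μ]
    (h : IsEmpty (FR I μ →⋆ₐ[ℂ] ℂ)) : CommGlue (FR I (atTop : Filter ℕ)) := by
  classical
  intro F l
  obtain ⟨ι', μ', hμ', ⟨D⟩⟩ := FR.exists_glueData I ι μ h (l + 1) (Nat.succ_pos l)
  let A' : Filter (ℕ × ι') := (atTop : Filter ℕ).curry μ'
  let p1 : FR I (atTop : Filter ℕ) →⋆ₐ[ℂ] FR I A' :=
    FR.pull Prod.fst (tendsto_fst_curry μ' (atTop : Filter ℕ))
  let p2 : FR I μ' →⋆ₐ[ℂ] FR I A' := FR.pull Prod.snd (tendsto_snd_curry μ' (atTop : Filter ℕ))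
  let D' : GlueData (Fin (l + 1) → Bool) Unit (FR I A') := gmap D p2
  have hD' : ∀ (y : FR I (atTop : Filter ℕ)) k, p1 y * D'.g k = D'.g k * p1 y :=
    fun y k => (FR.pull_commute μ' (atTop : Filter ℕ) y (D.g k)).eq
  -- representatives
  choose G hG using fun k => FR.mk_surjective (D'.g k)
  obtain ⟨E, hE⟩ := FR.mk_surjective D'.e
  obtain ⟨Z, hZ⟩ := FR.mk_surjective D'.z
  obtain ⟨S, hS⟩ := FR.mk_surjective (D'.s ())
  choose Y hY using fun y : {y // y ∈ F} => FR.mk_surjective (y : FR I (atTop : Filter ℕ))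
  let Y' : {y // y ∈ F} → relSeq I A' := fun y =>
    FR.pullSeq I Prod.fst (tendsto_fst_curry μ' (atTop : Filter ℕ)) (Y y)
  have hY' : ∀ y, FR.mk I A' (Y' y) = p1 (y : FR I (atTop : Filter ℕ)) := fun y => by
    rw [← hY y]; exact (FR.pull_mk _ _ _).symm
  let K := Fin (l + 1) → Bool
  let κ := K ⊕ (Unit ⊕ (Unit ⊕ (Unit ⊕ ((K × K) ⊕ (Unit ⊕ (K ⊕ (Unit ⊕ (Unit ⊕
    ({y // y ∈ F} × K)))))))))
  let X : κ → relSeq I A' := fun
    | Sum.inl k => G k
    | Sum.inr (Sum.inl _) => E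
    | Sum.inr (Sum.inr (Sum.inl _)) => Z
    | Sum.inr (Sum.inr (Sum.inr (Sum.inl _))) => S
    | Sum.inr (Sum.inr (Sum.inr (Sum.inr (Sum.inl (k, m))))) =>
        star (G k) * G m - if k = m then E else 0
    | Sum.inr (Sum.inr (Sum.inr (Sum.inr (Sum.inr (Sum.inl _))))) =>
        ∑ k, G k * star (G k) - (1 - Z)
    | Sum.inr (Sum.inr (Sum.inr (Sum.inr (Sum.inr (Sum.inr (Sum.inl k)))))) => G k * Z - Z * G k
    | Sum.inr (Sum.inr (Sum.inr (Sum.inr (Sum.inr (Sum.inr (Sum.inr (Sum.inl _))))))) =>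
        star S * S - Z
    | Sum.inr (Sum.inr (Sum.inr (Sum.inr (Sum.inr (Sum.inr (Sum.inr (Sum.inr (Sum.inl _)))))))) =>
        E * S - S
    | Sum.inr (Sum.inr (Sum.inr (Sum.inr (Sum.inr (Sum.inr (Sum.inr (Sum.inr
        (Sum.inr (y, k))))))))) => Y' y * G k - G k * Y' y
  have hKne : Nonempty κ := ⟨Sum.inl fun _ => true⟩
  obtain ⟨t, ht⟩ := exists_reindex hsep μ' X
  choose hmem hnull using ht
  let R : κ → relSeq I (atTop : Filter ℕ) := fun j => ⟨_, hmem j⟩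
  have key : ∀ (j : κ) (x : relSeq I (atTop : Filter ℕ)), FR.mk I A' (X j) = 0 →
      (∀ n, (x : ℕ → M) n = (X j : ℕ × ι' → M) (n, t n)) → FR.mk I atTop x = 0 := by
    intro j x h0 hx
    have : x = ⟨_, hmem j⟩ := Subtype.ext (funext hx)
    rw [this]
    exact hnull j h0
  let g : K → relSeq I (atTop : Filter ℕ) := fun k => R (Sum.inl k)
  let e' : relSeq I (atTop : Filter ℕ) := R (Sum.inr (Sum.inl ()))
  let z' : relSeq I (atTop : Filter ℕ) := R (Sum.inr (Sum.inr (Sum.inl ())))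
  let s' : relSeq I (atTop : Filter ℕ) := R (Sum.inr (Sum.inr (Sum.inr (Sum.inl ()))))
  let mkA := FR.mk I (atTop : Filter ℕ)
  refine ⟨{ g := fun k => mkA (g k)
            e := mkA e'
            z := mkA z'
            s := fun _ => mkA s'
            gg := ?_
            sum_eq := ?_
            gz := ?_
            ss := ?_
            es := ?_ }, ?_⟩
  · intro k m
    have h1 := key (Sum.inr (Sum.inr (Sum.inr (Sum.inr (Sum.inl (k, m))))))
      (star (g k) * g m - if k = m then e' else 0) (by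
        show FR.mk I A' (star (G k) * G m - if k = m then E else 0) = 0
        rw [map_sub, map_mul, map_star, hG, hG, D'.gg]
        split_ifs with hkm
        · rw [hE, sub_self]
        · rw [map_zero, sub_zero]) (fun n => by
        show (star (g k) * g m - if k = m then e' else 0 : relSeq I (atTop : Filter ℕ)).1 n =
          (star (G k) * G m - if k = m then E else 0 : relSeq I A').1 (n, t n)
        split_ifs <;> rfl)
    rw [map_sub, map_mul, map_star, sub_eq_zero] at h1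
    rw [h1]
    split_ifs
    · rfl
    · exact map_zero _
  · have h1 := key (Sum.inr (Sum.inr (Sum.inr (Sum.inr (Sum.inr (Sum.inl ()))))))
      (∑ k, g k * star (g k) - (1 - z')) (by
        show FR.mk I A' (∑ k, G k * star (G k) - (1 - Z)) = 0
        rw [map_sub, map_sum, map_sub, map_one, hZ, ← D'.sum_eq]
        simp only [map_mul, map_star, hG, sub_self]) (fun n => by
        show (∑ k, g k * star (g k) - (1 - z') : relSeq I (atTop : Filter ℕ)).1 n =
          (∑ k, G k * star (G k) - (1 - Z) : relSeq I A').1 (n, t n)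
        have e1 : (∑ k, g k * star (g k) - (1 - z') : relSeq I (atTop : Filter ℕ)).1 =
          ∑ k, (g k).1 * star (g k).1 - (1 - z'.1) := by
          simp only [AddSubgroupClass.coe_sub, AddSubmonoidClass.coe_finsetSum, MulMemClass.coe_mul, StarMemClass.coe_star, OneMemClass.coe_one]
        have e2 : (∑ k, G k * star (G k) - (1 - Z) : relSeq I A').1 =
          ∑ k, (G k).1 * star (G k).1 - (1 - Z.1) := by
          simp only [AddSubgroupClass.coe_sub, AddSubmonoidClass.coe_finsetSum, MulMemClass.coe_mul, StarMemClass.coe_star, OneMemClass.coe_one]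
        rw [e1, e2]
        simp only [Pi.sub_apply, Finset.sum_apply, Pi.mul_apply, Pi.star_apply, Pi.one_apply]
        rfl)
    rw [map_sub, map_sum, map_sub, map_one, sub_eq_zero] at h1
    simp only [map_mul, map_star] at h1
    exact h1
  · intro k
    have h1 := key (Sum.inr (Sum.inr (Sum.inr (Sum.inr (Sum.inr (Sum.inr (Sum.inl k)))))))
      (g k * z' - z' * g k) (by
        show FR.mk I A' (G k * Z - Z * G k) = 0
        rw [map_sub, map_mul, map_mul, hG, hZ, (D'.gz k).eq, sub_self]) (fun n => rfl)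
    rw [map_sub, map_mul, map_mul, sub_eq_zero] at h1
    exact h1
  · intro a b
    have h1 := key (Sum.inr (Sum.inr (Sum.inr (Sum.inr (Sum.inr (Sum.inr (Sum.inr
      (Sum.inl ()))))))))
      (star s' * s' - z') (by
        show FR.mk I A' (star S * S - Z) = 0
        rw [map_sub, map_mul, map_star, hS, hZ, D'.ss, if_pos rfl, sub_self]) (fun n => rfl)
    rw [map_sub, map_mul, map_star, sub_eq_zero] at h1
    rw [if_pos (Subsingleton.elim a b)]
    exact h1
  · intro a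
    have h1 := key (Sum.inr (Sum.inr (Sum.inr (Sum.inr (Sum.inr (Sum.inr (Sum.inr
      (Sum.inr (Sum.inl ())))))))))
      (e' * s' - s') (by
        show FR.mk I A' (E * S - S) = 0
        rw [map_sub, map_mul, hS, hE, D'.es, sub_self]) (fun n => rfl)
    rw [map_sub, map_mul, sub_eq_zero] at h1
    exact h1
  · intro y hy k
    have h1 := key (Sum.inr (Sum.inr (Sum.inr (Sum.inr (Sum.inr (Sum.inr (Sum.inr
      (Sum.inr (Sum.inr (⟨y, hy⟩, k))))))))))
      (Y ⟨y, hy⟩ * g k - g k * Y ⟨y, hy⟩) (by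
        show FR.mk I A' (Y' ⟨y, hy⟩ * G k - G k * Y' ⟨y, hy⟩) = 0
        rw [map_sub, map_mul, map_mul, hG, hY', hD', sub_self]) (fun n => rfl)
    rw [map_sub, map_mul, map_mul, sub_eq_zero, hY] at h1
    exact h1

end Vale.Agent.P095N
end

section

/-! Almost unperforation of the Cuntz comparison of elements of `A` if the central sequence algebra
of `A` has no characters. -/

open Filter Topology

namespace Vale.Agent.P095C

open Vale.Agent

universe u

variable {A : Type u} [CStarAlgebra A] [PartialOrder A] [StarOrderedRing A]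

/-- The unit of an algebra with gluing data is almost a sum of conjugates of the corner. -/
theorem unit_approx {F : Type u} [CStarAlgebra F] {α : Type} [Fintype α] [DecidableEq α]
    (D : P101.GlueData α Unit F) {δ : ℝ} (hδ : 0 < δ) :
    ∃ v : Option α → F, ‖∑ i, v i * D.e * star (v i) - 1‖ ≤ Fintype.card α * δ := by
  let _ : PartialOrder F := CStarAlgebra.spectralOrder F
  have _ : StarOrderedRing F := CStarAlgebra.spectralOrderedRing F
  have key : ∀ k, ∃ x : F, ‖x * D.e * star x - D.g k * star (D.g k)‖ ≤ δ := by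
    intro k
    obtain ⟨x, hx⟩ := P135.cuntz_star_mul (star (D.g k)) δ hδ
    refine ⟨x 0 0, ?_⟩
    have h1 := hx 0 0
    have h2 := D.gg k k
    rw [if_pos rfl] at h2
    simpa only [Fin.isValue, ge_iff_le, Finset.univ_unique, Fin.default_eq_zero, star_star, h2,     Finset.sum_singleton, ↓reduceIte] using h1
  choose x hx using key
  refine ⟨fun i => Option.elim i (star (D.s ())) x, ?_⟩
  have hz : star (D.s ()) * D.e * star (star (D.s ())) = D.z := by
    have h3 := D.ss () ()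
    rw [if_pos rfl] at h3
    rw [star_star, mul_assoc, D.es, h3]
  have e : ∑ i, (fun i => Option.elim i (star (D.s ())) x) i * D.e *
      star ((fun i => Option.elim i (star (D.s ())) x) i) - 1 =
      ∑ k, (x k * D.e * star (x k) - D.g k * star (D.g k)) := by
    rw [Fintype.sum_option, Finset.sum_sub_distrib, D.sum_eq]
    simp only [Option.elim]
    rw [hz]
    abel
  rw [e]
  refine (norm_sum_le_of_le _ fun k _ => hx k).trans ?_
  simp only [Finset.sum_const, Finset.card_univ, nsmul_eq_mul, Std.le_refl]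

section Abstract

variable {A' : Type*} [CStarAlgebra A'] {F : Type*} [CStarAlgebra F] {Q : Type*} [CStarAlgebra Q]
  (J : F →⋆ₐ[ℂ] Q) (C : A' →⋆ₐ[ℂ] Q) (comm : ∀ x c, J x * C c = C c * J x)

end Abstract

end Vale.Agent.P095C
end

section

/-! Relative orthogonal central elements. -/

set_option linter.unusedSectionVars false

open Filter Topology
open scoped CStarAlgebra ComplexOrder

namespace Vale.Agent.P095N

open Vale.Agent.P101 Vale.Agent.P133

universe u v w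

variable {M : Type u} [CStarAlgebra M]

/-- Finitely many pairwise almost orthogonal almost central positive contractions of norm almost
one at `b₀`. -/
def CentOrthR [PartialOrder M] (I : CIdeal M) (b₀ : M) : Prop :=
  ∀ (N : ℕ) (F : Finset M) (ε : ℝ), (∀ x ∈ F, x ∈ I) → 0 < ε → ∃ t : Fin N → M,
    (∀ k, AlmCentR b₀ F ε (t k)) ∧ ∀ k l, k ≠ l → ∀ a ∈ F, ‖t k * t l * a‖ ≤ ε

variable {I : CIdeal M}

theorem nontrivial_FR (hS : SimpleI I) (hI : ∃ b ∈ I, b ≠ 0) {ι : Type v} (μ : Filter ι)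
    [NeBot μ] : Nontrivial (FR I μ) := by
  refine ⟨⟨1, 0, fun h => ?_⟩⟩
  have h1 := FR.norm_one_FR hS hI μ
  rw [h, norm_zero] at h1
  exact zero_ne_one h1

theorem eventually_mul_of_zero {ι : Type v} {μ : Filter ι} (x : relSeq I μ)
    (hx : FR.mk I μ x = 0) {b : M} (hb : b ∈ I) {δ : ℝ} (hδ : 0 < δ) :
    ∀ᶠ i in μ, ‖(x : ι → M) i * b‖ < δ := by
  have h1 := (FR.mk_eq_zero_iff x).1 hx b hb
  exact h1.eventually (gt_mem_nhds hδ)

theorem eventually_comm_lt {ι : Type v} {μ : Filter ι} (x : relSeq I μ) {b : M} (hb : b ∈ I)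
    {δ : ℝ} (hδ : 0 < δ) : ∀ᶠ i in μ, ‖(x : ι → M) i * b - b * (x : ι → M) i‖ < δ :=
  (relSeq_comm x hb).eventually (gt_mem_nhds hδ)

theorem centOrthR_of_noChar [PartialOrder M] [StarOrderedRing M] (hS : SimpleI I) (hsep : SepI I)
    (b₀ : M) (hb₀ : b₀ ∈ I) (hb0 : 0 ≤ b₀) (hb1 : ‖b₀‖ = 1) {ι : Type} {μ : Filter ι} [NeBot μ]
    (h : IsEmpty (FR I μ →⋆ₐ[ℂ] ℂ)) : CentOrthR I b₀ := by
  classical
  intro N F ε hF hε
  have hb0' : b₀ ≠ 0 := by
    rintro rfl
    rw [norm_zero] at hb1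
    exact zero_ne_one hb1
  have hbsa : star b₀ = b₀ := hb0.isSelfAdjoint.star_eq
  obtain ⟨l, hl⟩ : ∃ l : ℕ, N ≤ 2 ^ (l + 1) := by
    refine ⟨N, ?_⟩
    exact (Nat.lt_two_pow_self (n := N)).le.trans (Nat.pow_le_pow_right (by norm_num) (by omega))
  obtain ⟨D, -⟩ := commGlue hsep h ∅ l
  set ω : Filter ℕ := atTop with hω
  have hnt : Nontrivial (FR I ω) := nontrivial_FR hS ⟨b₀, hb₀, hb0'⟩ ω
  have hcard : Fintype.card (Fin N) ≤ Fintype.card (Fin (l + 1) → Bool) := by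
    simp only [Fintype.card_fin, Fintype.card_pi, Fintype.card_bool, Finset.prod_const, Finset.card_univ, hl]
  obtain ⟨emb⟩ : Nonempty (Fin N ↪ (Fin (l + 1) → Bool)) :=
    Function.Embedding.nonempty_of_card_le hcard
  have he : ∀ k, star (D.g k) * D.g k = D.e := fun k => by rw [D.gg]; simp
  have hnorm : ‖D.e‖ = 1 := P095.Orth.norm_e_eq_one D (fun _ => true)
  have hgn : ∀ k, ‖D.g k‖ = 1 := by
    intro k
    have h1 : ‖D.g k‖ * ‖D.g k‖ = 1 := by rw [← CStarRing.norm_star_mul_self, he, hnorm]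
    nlinarith only [h1, norm_nonneg (D.g k)]
  -- lifts
  obtain ⟨E, hE⟩ := FR.mk_surjective D.e
  choose Y hY hY1 using fun k => FR.exists_lift_one (D.g k) (hgn k).le
  set δ : ℝ := min 1 (ε / 8) with hδ
  have hδ0 : 0 < δ := lt_min one_pos (by positivity)
  have hδε : 8 * δ ≤ ε := by
    have := min_le_right 1 (ε / 8)
    rw [hδ]; linarith only [this]
  -- eventual facts
  have hev2 : ∀ k, ∀ᶠ i in ω, ‖(star ((Y k : ℕ → M) i) * (Y k : ℕ → M) i - (E : ℕ → M) i) *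
      b₀‖ < δ := by
    intro k
    refine eventually_mul_of_zero (star (Y k) * Y k - E) ?_ hb₀ hδ0
    rw [map_sub, map_mul, map_star, hY, hE, he, sub_self]
  have hev3 : ∀ k m, k ≠ m → ∀ a ∈ F, ∀ᶠ i in ω,
      ‖star ((Y k : ℕ → M) i) * (Y m : ℕ → M) i * a‖ < δ := by
    intro k m hkm a ha
    refine eventually_mul_of_zero (star (Y k) * Y m) ?_ (hF a ha) hδ0
    rw [map_mul, map_star, hY, hY, D.gg, if_neg hkm]
  have hfr : ∃ᶠ i in ω, 1 - δ < ‖(E : ℕ → M) i * b₀‖ := by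
    have h1 : (1 - δ : ℝ) < ‖FR.mk I ω E‖ * ‖b₀‖ := by
      rw [hE, hnorm, hb1]; linarith only [hδ0]
    exact FR.frequently_lt_mul hS E hb₀ (sub_nonneg.2 (min_le_left _ _)) h1
  have hall : ∀ᶠ i in ω,
      (∀ k, ‖(star ((Y k : ℕ → M) i) * (Y k : ℕ → M) i - (E : ℕ → M) i) * b₀‖ < δ) ∧
      (∀ k m, k ≠ m → ∀ a ∈ F, ‖star ((Y k : ℕ → M) i) * (Y m : ℕ → M) i * a‖ < δ) ∧
      (∀ k, ∀ a ∈ insert b₀ F, ‖(Y k : ℕ → M) i * a - a * (Y k : ℕ → M) i‖ < δ) ∧
      (∀ k, ∀ a ∈ F, ‖star ((Y k : ℕ → M) i) * a - a * star ((Y k : ℕ → M) i)‖ < δ) := by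
    refine (eventually_all.mpr hev2).and (Eventually.and ?_ (Eventually.and ?_ ?_))
    · refine eventually_all.mpr fun k => eventually_all.mpr fun m => ?_
      by_cases hkm : k = m
      · exact Eventually.of_forall fun i hh => absurd hkm hh
      · exact ((Finset.eventually_all F).mpr fun a ha => hev3 k m hkm a ha).mono fun i hi _ => hi
    · refine eventually_all.mpr fun k => (Finset.eventually_all _).mpr fun a ha =>
        eventually_comm_lt (Y k) ?_ hδ0
      rcases Finset.mem_insert.1 ha with rfl | ha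
      · exact hb₀
      · exact hF a ha
    · exact eventually_all.mpr fun k => (Finset.eventually_all F).mpr fun a ha =>
        eventually_comm_lt (star (Y k)) (hF a ha) hδ0
  obtain ⟨i, hi0, hi2, hi3, hi4, hi5⟩ := (hfr.and_eventually hall).exists
  -- the elements
  let y : (Fin (l + 1) → Bool) → M := fun k => (Y k : ℕ → M) i
  have hy1 : ∀ k, ‖y k‖ ≤ 1 := fun k => hY1 k i
  have hy1s : ∀ k, ‖star (y k)‖ ≤ 1 := fun k => by rw [norm_star]; exact hy1 k
  have hlow : ∀ k, 1 - 3 * δ ≤ ‖star (y k) * b₀‖ := by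
    intro k
    have h1 : ‖star (y k) * b₀ * y k‖ ≤ ‖star (y k) * b₀‖ :=
      (norm_mul_le _ _).trans (mul_le_of_le_one_right (norm_nonneg _) (hy1 k))
    have e1 : (E : ℕ → M) i * b₀ = star (y k) * b₀ * y k + star (y k) * (y k * b₀ - b₀ * y k) -
        (star (y k) * y k - (E : ℕ → M) i) * b₀ := by noncomm_ring
    have h2 : ‖star (y k) * (y k * b₀ - b₀ * y k)‖ ≤ 1 * δ :=
      (norm_mul_le _ _).trans (mul_le_mul (hy1s k)
        (hi4 k b₀ (Finset.mem_insert_self _ _)).le (norm_nonneg _) zero_le_one)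
    have h3 := (hi2 k).le
    have h4 := norm_sub_le (star (y k) * b₀ * y k + star (y k) * (y k * b₀ - b₀ * y k))
      ((star (y k) * y k - (E : ℕ → M) i) * b₀)
    have h5 := norm_add_le (star (y k) * b₀ * y k) (star (y k) * (y k * b₀ - b₀ * y k))
    rw [← e1] at h4
    linarith only [hi0, h1, h2, h3, h4, h5]
  refine ⟨fun k => y (emb k) * star (y (emb k)), fun k => ⟨mul_star_self_nonneg _, ?_, ?_, ?_⟩,
    fun k m hkm a ha => ?_⟩
  · show ‖y (emb k) * star (y (emb k))‖ ≤ 1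
    rw [CStarRing.norm_self_mul_star]
    exact mul_le_one₀ (hy1 _) (norm_nonneg _) (hy1 _)
  · show 1 - ε ≤ ‖y (emb k) * star (y (emb k)) * b₀‖
    have h1 : ‖star (y (emb k)) * b₀‖ * ‖star (y (emb k)) * b₀‖ ≤
        ‖y (emb k) * star (y (emb k)) * b₀‖ := by
      rw [← CStarRing.norm_star_mul_self]
      have e1 : star (star (y (emb k)) * b₀) * (star (y (emb k)) * b₀) =
          b₀ * (y (emb k) * star (y (emb k)) * b₀) := by
        rw [star_mul, star_star, hbsa]; noncomm_ring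
      rw [e1]
      refine (norm_mul_le _ _).trans ?_
      rw [hb1, one_mul]
    have h2 := hlow (emb k)
    rcases le_total (1 - 3 * δ) 0 with h3 | h3
    · have := norm_nonneg (y (emb k) * star (y (emb k)) * b₀)
      linarith only [hδε, h3, this]
    · have h4 : (1 - 3 * δ) * (1 - 3 * δ) ≤ ‖star (y (emb k)) * b₀‖ * ‖star (y (emb k)) * b₀‖ :=
        mul_self_le_mul_self h3 h2
      nlinarith only [hδε, h1, h4, hδ0]
  · intro a ha
    show ‖y (emb k) * star (y (emb k)) * a - a * (y (emb k) * star (y (emb k)))‖ ≤ ε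
    have e1 : y (emb k) * star (y (emb k)) * a - a * (y (emb k) * star (y (emb k))) =
        y (emb k) * (star (y (emb k)) * a - a * star (y (emb k))) +
          (y (emb k) * a - a * y (emb k)) * star (y (emb k)) := by noncomm_ring
    rw [e1]
    have h2 : ‖y (emb k) * (star (y (emb k)) * a - a * star (y (emb k)))‖ ≤ 1 * δ :=
      (norm_mul_le _ _).trans (mul_le_mul (hy1 _) (hi5 _ a ha).le (norm_nonneg _) zero_le_one)
    have h3 : ‖(y (emb k) * a - a * y (emb k)) * star (y (emb k))‖ ≤ δ * 1 :=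
      (norm_mul_le _ _).trans (mul_le_mul (hi4 _ a (Finset.mem_insert_of_mem ha)).le (hy1s _)
        (norm_nonneg _) hδ0.le)
    linarith only [hδ0, hδε, h2, h3, norm_add_le (y (emb k) * (star (y (emb k)) * a - a * star (y (emb k))))       ((y (emb k) * a - a * y (emb k)) * star (y (emb k)))]
  · have hkm' : emb k ≠ emb m := fun h => hkm (emb.injective h)
    show ‖y (emb k) * star (y (emb k)) * (y (emb m) * star (y (emb m))) * a‖ ≤ ε
    have e1 : y (emb k) * star (y (emb k)) * (y (emb m) * star (y (emb m))) * a =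
        y (emb k) * (star (y (emb k)) * y (emb m) * a) * star (y (emb m)) +
        y (emb k) * star (y (emb k)) * y (emb m) *
          (star (y (emb m)) * a - a * star (y (emb m))) := by
      noncomm_ring
    rw [e1]
    have h2 : ‖y (emb k) * (star (y (emb k)) * y (emb m) * a) * star (y (emb m))‖ ≤ 1 * δ * 1 := by
      refine (norm_mul_le _ _).trans (mul_le_mul ((norm_mul_le _ _).trans ?_) (hy1s _)
        (norm_nonneg _) (by positivity))
      exact mul_le_mul (hy1 _) (hi3 _ _ hkm' a ha).le (norm_nonneg _) zero_le_one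
    have h3 : ‖y (emb k) * star (y (emb k)) * y (emb m) *
          (star (y (emb m)) * a - a * star (y (emb m)))‖ ≤ 1 * δ := by
      refine (norm_mul_le _ _).trans (mul_le_mul ?_ (hi5 _ a ha).le (norm_nonneg _) zero_le_one)
      refine (norm_mul_le _ _).trans (mul_le_one₀ ((norm_mul_le _ _).trans
        (mul_le_one₀ (hy1 _) (norm_nonneg _) (hy1s _))) (norm_nonneg _) (hy1 _))
    linarith only [hδ0, hδε, h2, h3, norm_add_le (y (emb k) * (star (y (emb k)) * y (emb m) * a) * star (y (emb m)))       (y (emb k) * star (y (emb k)) * y (emb m) *           (star (y (emb m)) * a - a * star (y (emb m))))]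

end Vale.Agent.P095N
end

section

/-! The local form of the gluing data used for comparison. -/

set_option linter.unusedSectionVars false

open Filter Topology

namespace Vale.Agent.P095N

open Vale.Agent.P101 Vale.Agent.P133

universe u v

variable {M : Type u} [CStarAlgebra M] (I : CIdeal M)

theorem upLocal_of_data {ι : Type v} {μ : Filter ι} [NeBot μ] (l : ℕ) {α : Type} [Fintype α]
    [DecidableEq α] (D : GlueData α Unit (FR I μ)) (hα : Fintype.card α = 2 ^ l) (δ₁ : ℝ)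
    (hδ₁ : 0 < δ₁) : ∃ V : ℝ, ∀ (F : Finset M) (δ₂ : ℝ), (∀ x ∈ F, x ∈ I) → 0 < δ₂ →
    ∃ (e : M) (g : Fin (2 ^ l) → M) (v : Option (Fin (2 ^ l)) → M),
      ‖e‖ ≤ V ∧ (∀ k, ‖g k‖ ≤ V) ∧ (∀ i, ‖v i‖ ≤ V) ∧
      (∀ x ∈ F, ‖e * x - x * e‖ ≤ δ₂ ∧ (∀ k, ‖g k * x - x * g k‖ ≤ δ₂) ∧
        ∀ i, ‖v i * x - x * v i‖ ≤ δ₂) ∧
      (∀ x ∈ F, ∀ k k', ‖(star (g k) * g k' - if k = k' then e else 0) * x‖ ≤ δ₂) ∧
      ∀ x ∈ F, ‖((∑ i, v i * e * star (v i)) - 1) * x‖ ≤ δ₁ * ‖x‖ + δ₂ := by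
  classical
  obtain ⟨v, hv⟩ := P095C.unit_approx D (δ := δ₁ / 2 ^ l) (by (clear * - hδ₁; positivity))
  have hv1 : ‖∑ i, v i * D.e * star (v i) - 1‖ ≤ δ₁ := by
    refine hv.trans (le_of_eq ?_)
    rw [hα]
    push_cast
    (clear * - hδ₁; field_simp)
  let φ : Fin (2 ^ l) ≃ α := (Fintype.equivFinOfCardEq hα).symm
  obtain ⟨E, hE⟩ := FR.mk_surjective D.e
  choose Gs hG using fun k => FR.mk_surjective (D.g k)
  choose Vs hV using fun k => FR.mk_surjective (v k)
  obtain ⟨C1, hC1⟩ := E.2.1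
  choose C2 hC2 using fun k => (Gs k).2.1
  choose C3 hC3 using fun k => (Vs k).2.1
  have hsum2 : ∀ k, C2 k ≤ ∑ k, |C2 k| := fun k =>
    (le_abs_self _).trans (Finset.single_le_sum (f := fun k => |C2 k|) (fun _ _ => abs_nonneg _)
      (Finset.mem_univ k))
  have hsum3 : ∀ k, C3 k ≤ ∑ k, |C3 k| := fun k =>
    (le_abs_self _).trans (Finset.single_le_sum (f := fun k => |C3 k|) (fun _ _ => abs_nonneg _)
      (Finset.mem_univ k))
  have h20 : 0 ≤ ∑ k, |C2 k| := Finset.sum_nonneg fun _ _ => abs_nonneg _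
  have h30 : 0 ≤ ∑ k, |C3 k| := Finset.sum_nonneg fun _ _ => abs_nonneg _
  refine ⟨|C1| + ∑ k, |C2 k| + ∑ k, |C3 k|, fun F δ₂ hF hδ₂ => ?_⟩
  have small : ∀ f : ι → ℝ, Tendsto f μ (𝓝 0) → ∀ᶠ i in μ, f i ≤ δ₂ := fun f hf =>
    hf.eventually (eventually_le_nhds hδ₂)
  have c1 : ∀ᶠ i in μ, ∀ x ∈ F, ‖(E : ι → M) i * x - x * (E : ι → M) i‖ ≤ δ₂ :=
    (Filter.eventually_all_finset F).2 fun x hx => small _ (relSeq_comm E (hF x hx))
  have c2 : ∀ᶠ i in μ, ∀ x ∈ F, ∀ k, ‖(Gs k : ι → M) i * x - x * (Gs k : ι → M) i‖ ≤ δ₂ :=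
    (Filter.eventually_all_finset F).2 fun x hx => Filter.eventually_all.2 fun k =>
      small _ (relSeq_comm (Gs k) (hF x hx))
  have c3 : ∀ᶠ i in μ, ∀ x ∈ F, ∀ k, ‖(Vs k : ι → M) i * x - x * (Vs k : ι → M) i‖ ≤ δ₂ :=
    (Filter.eventually_all_finset F).2 fun x hx => Filter.eventually_all.2 fun k =>
      small _ (relSeq_comm (Vs k) (hF x hx))
  have c4 : ∀ᶠ i in μ, ∀ x ∈ F, ∀ k k', ‖(star ((Gs k : ι → M) i) * (Gs k' : ι → M) i -
      if k = k' then (E : ι → M) i else 0) * x‖ ≤ δ₂ := by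
    refine (Filter.eventually_all_finset F).2 fun x hx => Filter.eventually_all.2 fun k =>
      Filter.eventually_all.2 fun k' => ?_
    by_cases hk : k = k'
    · subst hk
      have h1 : FR.mk I μ (star (Gs k) * Gs k) = FR.mk I μ E := by
        rw [map_mul, map_star, hG, hE, D.gg, if_pos rfl]
      have h2 := small _ ((FR.mk_eq_iff _ _).1 h1 x (hF x hx))
      refine h2.mono fun i hi => ?_
      rw [if_pos rfl]
      exact hi
    · have h1 : FR.mk I μ (star (Gs k) * Gs k') = 0 := by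
        rw [map_mul, map_star, hG, hG, D.gg, if_neg hk]
      have h2 := small _ ((FR.mk_eq_zero_iff _).1 h1 x (hF x hx))
      refine h2.mono fun i hi => ?_
      rw [if_neg hk, sub_zero]
      exact hi
  have c5 : ∀ᶠ i in μ, ∀ x ∈ F, ‖((∑ k, (Vs k : ι → M) i * (E : ι → M) i *
      star ((Vs k : ι → M) i)) - 1) * x‖ ≤ δ₁ * ‖x‖ + δ₂ := by
    refine (Filter.eventually_all_finset F).2 fun x hx => ?_
    have h1 : FR.mk I μ ((∑ k, Vs k * E * star (Vs k)) - 1) =
        ∑ i, v i * D.e * star (v i) - 1 := by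
      rw [map_sub, map_sum, map_one]
      simp only [map_mul, hV, hE, map_star]
    have h2 : ‖FR.mk I μ ((∑ k, Vs k * E * star (Vs k)) - 1)‖ * ‖x‖ < δ₁ * ‖x‖ + δ₂ := by
      rw [h1]
      have := mul_le_mul_of_nonneg_right hv1 (norm_nonneg x)
      linarith only [hδ₂, this]
    refine (FR.eventually_mul_lt _ (hF x hx) h2).mono fun i hi => ?_
    have e : ((((∑ k, Vs k * E * star (Vs k)) - 1 : relSeq I μ)) : ι → M) i =
        (∑ k, (Vs k : ι → M) i * (E : ι → M) i * star ((Vs k : ι → M) i)) - 1 := by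
      have : ((((∑ k, Vs k * E * star (Vs k)) - 1 : relSeq I μ)) : ι → M) =
          (∑ k, (Vs k : ι → M) * (E : ι → M) * star (Vs k : ι → M)) - 1 := by
        simp only [Fintype.sum_option, AddSubgroupClass.coe_sub, AddMemClass.coe_add, MulMemClass.coe_mul, StarMemClass.coe_star, AddSubmonoidClass.coe_finsetSum, OneMemClass.coe_one]
      rw [this, Pi.sub_apply, Finset.sum_apply]
      rfl
    rw [← e]
    exact hi.le
  obtain ⟨i, h1, h2, h3, h4, h5⟩ := (c1.and (c2.and (c3.and (c4.and c5)))).exists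
  let φ' : Option (Fin (2 ^ l)) ≃ Option α := φ.optionCongr
  refine ⟨(E : ι → M) i, fun k => (Gs (φ k) : ι → M) i, fun k => (Vs (φ' k) : ι → M) i, ?_, ?_,
    ?_, fun x hx => ⟨h1 x hx, fun k => h2 x hx _, fun k => h3 x hx _⟩, fun x hx k k' => ?_,
    fun x hx => ?_⟩
  · have := hC1 i
    have := le_abs_self C1
    (clear l D hα δ₁ hδ₁ v hv hv1 φ hE Gs hG Vs hV hC2 hC3 hsum2 hsum3 F δ₂ hF hδ₂ small c1 c2 c3 c4 c5 h1 h2 h3 h4 h5 φ'; linarith)
  · intro k
    have h6 := hC2 (φ k) i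
    have h7 := hsum2 (φ k)
    have := abs_nonneg C1
    show ‖(Gs (φ k) : ι → M) i‖ ≤ _
    linarith only [h30, h6, h7, this]
  · intro k
    have h6 := hC3 (φ' k) i
    have h7 := hsum3 (φ' k)
    have := abs_nonneg C1
    show ‖(Vs (φ' k) : ι → M) i‖ ≤ _
    linarith only [h20, h6, h7, this]
  · have := h4 x hx (φ k) (φ k')
    simpa only [φ.injective.eq_iff] using this
  · have e : ∑ k, (Vs (φ' k) : ι → M) i * (E : ι → M) i * star ((Vs (φ' k) : ι → M) i) =
        ∑ k, (Vs k : ι → M) i * (E : ι → M) i * star ((Vs k : ι → M) i) :=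
      Equiv.sum_comp φ' (fun k => (Vs k : ι → M) i * (E : ι → M) i * star ((Vs k : ι → M) i))
    show ‖((∑ k, (Vs (φ' k) : ι → M) i * (E : ι → M) i * star ((Vs (φ' k) : ι → M) i)) - 1) * x‖ ≤ _
    rw [e]
    exact h5 x hx

theorem upLocal_of_isEmpty {ι : Type} {μ : Filter ι} [NeBot μ] (h : IsEmpty (FR I μ →⋆ₐ[ℂ] ℂ)) :
    P095C.UPLocal I := by
  intro l δ₁ hδ₁
  rcases Nat.eq_zero_or_pos l with rfl | hl
  · refine ⟨1 + ‖(1 : M)‖, fun F δ₂ hF hδ₂ => ⟨1, fun _ => 1, fun i => Option.elim i 0 (fun _ => 1),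
      by linarith only [], fun _ => by linarith only [], ?_, ?_, ?_, ?_⟩⟩
    · rintro (_ | i)
      · show ‖(0 : M)‖ ≤ _
        rw [norm_zero]; positivity
      · show ‖(1 : M)‖ ≤ _
        linarith only []
    · intro x hx
      refine ⟨by simpa only [one_mul, mul_one, sub_self, norm_zero] using hδ₂.le, fun _ => by simpa only [one_mul, mul_one, sub_self, norm_zero] using hδ₂.le, ?_⟩
      rintro (_ | i)
      · simpa only [Nat.pow_zero, Option.elim_none, zero_mul, mul_zero, sub_self, norm_zero] using hδ₂.le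
      · simpa only [Nat.pow_zero, Option.elim_some, one_mul, mul_one, sub_self, norm_zero] using hδ₂.le
    · intro x hx k k'
      have : k = k' := by
        have h1 := k.2
        have h2 := k'.2
        exact Fin.ext (by omega)
      rw [if_pos this]
      simpa only [star_one, mul_one, sub_self, zero_mul, norm_zero, ge_iff_le] using hδ₂.le
    · intro x hx
      have e : ∑ i : Option (Fin (2 ^ 0)), (Option.elim i (0 : M) (fun _ => 1)) * 1 *
          star (Option.elim i (0 : M) (fun _ => 1)) = 1 := by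
        rw [Fintype.sum_option]
        simp only [Nat.pow_zero, Option.elim_none, mul_one, star_zero, mul_zero, Finset.univ_unique, Fin.default_eq_zero, Fin.isValue, Option.elim_some, star_one, Finset.sum_const, Finset.card_singleton, one_smul, zero_add]
      show ‖((∑ i : Option (Fin (2 ^ 0)), (Option.elim i (0 : M) (fun _ => 1)) * 1 *
          star (Option.elim i (0 : M) (fun _ => 1))) - 1) * x‖ ≤ _
      rw [e, sub_self, zero_mul, norm_zero]
      positivity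
  · obtain ⟨ι', μ', _, ⟨D⟩⟩ := FR.exists_glueData I ι μ h l hl
    exact upLocal_of_data I l D (by rw [Fintype.card_pi_const, Fintype.card_bool]) δ₁ hδ₁

end Vale.Agent.P095N
end

section

/-! Comparison of the definitions for unital and for general C*-algebras. -/

open scoped MultiplierAlgebra TensorProduct

namespace Vale.Agent.P095R.UConv

universe u w

open Vale.Agent.P101 Vale.Agent.P095

theorem isSimpleAlg_of_isSimpleRing (A : Type u) [CStarAlgebra A] [IsSimpleRing A] :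
    IsSimpleAlg A where
  nonzero := ⟨1, one_ne_zero⟩
  ideal J _ hJ := by
    let K : TwoSidedIdeal A := TwoSidedIdeal.mk' (J : Set A) J.zero_mem (fun hx hy => J.add_mem hx hy)
      (fun hx => J.neg_mem hx) (fun {x y} hy => (hJ y hy x).1) (fun {x y} hx => (hJ x hx y).2)
    have hK : ∀ x, x ∈ K ↔ x ∈ J := fun x => TwoSidedIdeal.mem_mk' _ _ _ _ _ _ x
    rcases eq_bot_or_eq_top K with h | h
    · left
      rw [Submodule.eq_bot_iff]
      intro x hx
      have h1 := (hK x).2 hx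
      rw [h] at h1
      exact (TwoSidedIdeal.mem_bot A).1 h1
    · right
      rw [Submodule.eq_top_iff']
      intro x
      refine (hK x).1 ?_
      rw [h]
      trivial

theorem isNuclearAlg_of_isNuclear {A : Type u} [CStarAlgebra A] (h : P083.IsNuclear A) :
    IsNuclearAlg A := by
  intro F ε hε
  obtain ⟨k, φ, ψ, h1, h2, -, -, h3⟩ := h F ε hε
  exact ⟨k, φ, ψ, h1, h2, h3⟩

section tensor

variable {A Z B : Type u} [CStarAlgebra A] [CStarAlgebra Z] [CStarAlgebra B]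

/-- the bilinear map `(a, z) ↦ i a * j z` -/
noncomputable def bil (i : A →⋆ₐ[ℂ] B) (j : Z →⋆ₐ[ℂ] B) : A →ₗ[ℂ] Z →ₗ[ℂ] B :=
  LinearMap.mk₂ ℂ (fun a z => i a * j z) (fun a a' z => by rw [map_add, add_mul])
    (fun c a z => by rw [map_smul, smul_mul_assoc]) (fun a z z' => by rw [map_add, mul_add])
    (fun c a z => by rw [map_smul, mul_smul_comm])

theorem bil_apply (i : A →⋆ₐ[ℂ] B) (j : Z →⋆ₐ[ℂ] B) (a : A) (z : Z) :
    bil i j a z = i a * j z := rfl

theorem lift_bil {i : A →⋆ₐ[ℂ] B} {j : Z →⋆ₐ[ℂ] B} (h : ∀ a z, Commute (i a) (j z))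
    (t : A ⊗[ℂ] Z) : TensorProduct.lift (bil i j) t =
      Algebra.TensorProduct.lift (i : A →ₐ[ℂ] B) (j : Z →ₐ[ℂ] B) h t := by
  induction t using TensorProduct.induction_on with
  | zero => rw [map_zero, map_zero]
  | tmul a z => rw [TensorProduct.lift.tmul, Algebra.TensorProduct.lift_tmul]; rfl
  | add x y hx hy => rw [map_add, map_add, hx, hy]

theorem isTensorCompletionN_bil {i : A →⋆ₐ[ℂ] B} {j : Z →⋆ₐ[ℂ] B}
    (h : IsTensorCompletion i j) : IsTensorCompletionN (bil i j) where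
  map_mul a a' z z' := by
    rw [bil_apply, bil_apply, bil_apply, map_mul, map_mul]
    have := (h.comm a' z).eq
    calc i a * i a' * (j z * j z') = i a * (i a' * j z) * j z' := by simp only [mul_assoc]
      _ = i a * (j z * i a') * j z' := by rw [this]
      _ = _ := by simp only [mul_assoc]
  map_star a z := by
    rw [bil_apply, bil_apply, map_star, map_star, star_mul]
    exact (by rw [← map_star, ← map_star]; exact (h.comm (star a) (star z)).eq)
  injective := by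
    have e : (TensorProduct.lift (bil i j) : A ⊗[ℂ] Z → B) =
        Algebra.TensorProduct.lift (i : A →ₐ[ℂ] B) (j : Z →ₐ[ℂ] B) h.comm :=
      funext (lift_bil h.comm)
    rw [e]
    exact h.injective
  dense := by
    have e : (TensorProduct.lift (bil i j) : A ⊗[ℂ] Z → B) =
        Algebra.TensorProduct.lift (i : A →ₐ[ℂ] B) (j : Z →ₐ[ℂ] B) h.comm :=
      funext (lift_bil h.comm)
    rw [e]
    exact h.dense

end tensor

section mult

variable {B : Type u} [CStarAlgebra B]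

theorem mult_fst_mul (x : 𝓜(ℂ, B)) (b c : B) : x.fst (b * c) = x.fst b * c := by
  have h : ∀ d : B, d * x.fst (b * c) = d * (x.fst b * c) := by
    intro d
    rw [← x.central d (b * c), ← mul_assoc, x.central d b, mul_assoc]
  have := h 1
  rwa [one_mul, one_mul] at this

theorem mult_eq_coe (x : 𝓜(ℂ, B)) : x = ((x.fst 1 : B) : 𝓜(ℂ, B)) := by
  refine mult_ext (fun b => ?_) (fun b => ?_)
  · show x.fst b = x.fst 1 * b
    rw [← mult_fst_mul, one_mul]
  · show x.snd b = b * x.fst 1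
    rw [← x.central b 1, mul_one]

theorem coe_inj {b c : B} (h : (b : 𝓜(ℂ, B)) = (c : 𝓜(ℂ, B))) : b = c := by
  have h1 := congrArg (fun x : 𝓜(ℂ, B) => x.fst 1) h
  have h2 : b * 1 = c * 1 := h1
  rwa [mul_one, mul_one] at h2

theorem coe_mul' (b c : B) : ((b * c : B) : 𝓜(ℂ, B)) = (b : 𝓜(ℂ, B)) * (c : 𝓜(ℂ, B)) := by
  refine mult_ext (fun d => ?_) (fun d => ?_)
  · show b * c * d = b * (c * d)
    rw [mul_assoc]
  · show d * (b * c) = d * b * c
    rw [mul_assoc]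

theorem coe_star' (b : B) : ((star b : B) : 𝓜(ℂ, B)) = star (b : 𝓜(ℂ, B)) := by
  refine mult_ext (fun d => ?_) (fun d => ?_)
  · show star b * d = star (star d * b)
    rw [star_mul, star_star]
  · show d * star b = star (b * star d)
    rw [star_mul, star_star]

theorem coe_one' : ((1 : B) : 𝓜(ℂ, B)) = 1 := by
  refine mult_ext (fun d => ?_) (fun d => ?_)
  · show 1 * d = d
    rw [one_mul]
  · show d * 1 = d
    rw [mul_one]

end mult

theorem cocycleConjugate_of_N {A B : Type u} [CStarAlgebra A] [CStarAlgebra B] {G : Type w}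
    [Group G] {α : G →* (A ≃⋆ₐ[ℂ] A)} {β : G →* (B ≃⋆ₐ[ℂ] B)} (h : CocycleConjugateN α β) :
    CocycleConjugate α β := by
  obtain ⟨Φ, u, hu, hc, hΦ⟩ := h.conj
  refine ⟨Φ, fun g => (u g).fst 1, fun g => ?_, fun g h => ?_, fun g a => ?_⟩
  · have h1 := hu g
    rw [mult_eq_coe (u g), Unitary.mem_iff, ← coe_star', ← coe_mul', ← coe_mul', ← coe_one'] at h1
    rw [Unitary.mem_iff]
    exact ⟨coe_inj h1.1, coe_inj h1.2⟩
  · refine coe_inj ?_
    have h1 := hc g h
    rw [mult_eq_coe (u (g * h)), mult_eq_coe (u g), mult_eq_coe (u h), multAut_coe,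
      ← coe_mul'] at h1
    exact h1
  · refine coe_inj ?_
    have h1 := hΦ g a
    rw [mult_eq_coe (u g), ← coe_star', ← coe_mul', ← coe_mul'] at h1
    exact h1

end Vale.Agent.P095R.UConv
end
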