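import Vale.Agent.P095.MathlibUsed
import Vale.Agent.P095.Bdl.B5
import Vale.Agent.P095.Bdl.B14
import Vale.Agent.P095.Bdl.B7
import Vale.Agent.P095.Bdl.B11
import Vale.Agent.P095.Bdl.B10
import Vale.Agent.P095.Bdl.B9
import Vale.Agent.P095.Bdl.B1
import Vale.Agent.P095J.StmtAbs
import Vale.Agent.P095.Bdl.B4
import Vale.Agent.P095.EqStmt
import Vale.Agent.P095.Bdl.B8
import Vale.Agent.P095.Bdl.B6

set_option linter.all false

namespace AFast58214ex16a
@[reducible] noncomputable def a0.{u1, u2, u3} {x1 : Type u1} {x2 : Type u2} [x3 : CStarAlgebra x2] {x4 : Type u3} [x5 : Group x4] {x6 : x4 →* x2 ≃⋆ₐ[ℂ] x2} {x7 : Filter x1} : Semiring ↥(Vale.Agent.P095.ZS.fixSeq x6 x7) := inferInstance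
@[reducible] noncomputable def a1.{u1, u2, u3} {x1 : Type u1} {x2 : Type u2} [x3 : CStarAlgebra x2] {x4 : Type u3} [x5 : Group x4] {x6 : x4 →* x2 ≃⋆ₐ[ℂ] x2} {x7 : Filter x1} : Ring ↥(Vale.Agent.P095.ZS.fixSeq x6 x7) := inferInstance
theorem a2.{u1, u2} {x1 : Type u1} {x2 : Type u2} [x3 : CStarAlgebra x2] : SubringClass (StarSubalgebra ℂ (x1 → x2)) (x1 → x2) := inferInstance
@[reducible] noncomputable def a3.{u1, u2, u3} {x1 : Type u1} {x2 : Type u2} [x3 : CStarAlgebra x2] {x4 : Type u3} [x5 : Group x4] {x6 : x4 →* x2 ≃⋆ₐ[ℂ] x2} {x7 : Filter x1} : Mul ↥(Vale.Agent.P095.ZS.fixSeq x6 x7) := inferInstance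
@[reducible] noncomputable def a4.{u1, u2, u3} {x1 : Type u1} {x2 : Type u2} [x3 : CStarAlgebra x2] {x4 : Type u3} [x5 : Group x4] {x6 : x4 →* x2 ≃⋆ₐ[ℂ] x2} {x7 : Filter x1} : Add ↥(Vale.Agent.P095.ZS.fixSeq x6 x7) := inferInstance
@[reducible] noncomputable def a5.{u1, u2, u3} {x1 : Type u1} {x2 : Type u2} [x3 : CStarAlgebra x2] {x4 : Type u3} [x5 : Group x4] {x6 : x4 →* x2 ≃⋆ₐ[ℂ] x2} {x7 : Filter x1} : NonAssocSemiring ↥(Vale.Agent.P095.ZS.fixSeq x6 x7) := inferInstance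
@[reducible] noncomputable def a6.{u1, u2} {x1 : Type} {x2 : Type u1} [x3 : CStarAlgebra x2] {x4 : Type u2} [x5 : Group x4] {x6 : x4 →* x2 ≃⋆ₐ[ℂ] x2} {x7 : Filter x1} : Semiring ↥(Vale.Agent.P095.ZS.fixSeq x6 x7) := inferInstance
@[reducible] noncomputable def a7.{u1, u2} {x1 : Type u1} {x2 : Type u2} [x3 : CStarAlgebra x2] : SetLike (StarSubalgebra ℂ (x1 → x2)) (x1 → x2) := inferInstance
@[reducible] noncomputable def a8.{u1, u2} {x1 : Type} {x2 : Type u1} [x3 : CStarAlgebra x2] {x4 : Type u2} [x5 : Group x4] {x6 : x4 →* x2 ≃⋆ₐ[ℂ] x2} {x7 : Filter x1} : Ring ↥(Vale.Agent.P095.ZS.fixSeq x6 x7) := inferInstance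
@[reducible] noncomputable def a9.{u1, u2, u3} {x1 : Type u1} {x2 : Type u2} [x3 : CStarAlgebra x2] {x4 : Type u3} [x5 : Group x4] {x6 : x4 →* x2 ≃⋆ₐ[ℂ] x2} {x7 : Filter x1} : Distrib ↥(Vale.Agent.P095.ZS.fixSeq x6 x7) := inferInstance
@[reducible] noncomputable def a10.{u1, u2, u3} {x1 : Type u1} {x2 : Type u2} [x3 : CStarAlgebra x2] {x4 : Type u3} [x5 : Group x4] {x6 : x4 →* x2 ≃⋆ₐ[ℂ] x2} {x7 : Filter x1} : NonUnitalNonAssocSemiring ↥(Vale.Agent.P095.ZS.fixSeq x6 x7) := inferInstance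
@[reducible] def a11.{u1} {x1 : Type u1} [x2 : CStarAlgebra x1] : MulOne (x1 ≃⋆ₐ[ℂ] x1) := inferInstance
@[reducible] def a12.{u1} {x1 : Type u1} [x2 : CStarAlgebra x1] : MulOneClass (x1 ≃⋆ₐ[ℂ] x1) := inferInstance
@[reducible] noncomputable def a13.{u1, u2, u3} {x1 : Type u1} [x2 : CStarAlgebra x1] {x3 : Type u2} [x4 : Group x3] {x5 : x3 →* x1 ≃⋆ₐ[ℂ] x1} {x6 : Type u3} {x7 : Filter x6} : AddCommMonoid (Vale.Agent.P095.ZS.Fa x5 x7) := inferInstance
@[reducible] def a14.{u1} {x1 : Type u1} [x2 : CStarAlgebra x1] : Monoid (x1 ≃⋆ₐ[ℂ] x1) := inferInstance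
theorem a15.{u1} {x1 : Type} {x2 : Type u1} [x3 : CStarAlgebra x2] : SubringClass (StarSubalgebra ℂ (x1 → x2)) (x1 → x2) := inferInstance
@[reducible] noncomputable def a16.{u1, u2, u3} {x1 : Type u1} {x2 : Type u2} [x3 : CStarAlgebra x2] {x4 : Type u3} [x5 : Group x4] {x6 : x4 →* x2 ≃⋆ₐ[ℂ] x2} {x7 : Filter x1} : Algebra ℂ ↥(Vale.Agent.P095.ZS.fixSeq x6 x7) := inferInstance
@[reducible] noncomputable def a17.{u1, u2} {x1 : Type u1} [x2 : CStarAlgebra x1] {x3 : Type u2} [x4 : Group x3] {x5 : x3 →* x1 ≃⋆ₐ[ℂ] x1} {x6 : Type} {x7 : Filter x6} : AddCommMonoid (Vale.Agent.P095.ZS.Fa x5 x7) := inferInstance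
@[reducible] noncomputable def a18.{u1, u2} {x1 : Type} {x2 : Type u1} [x3 : CStarAlgebra x2] {x4 : Type u2} [x5 : Group x4] {x6 : x4 →* x2 ≃⋆ₐ[ℂ] x2} {x7 : Filter x1} : NonUnitalNonAssocSemiring ↥(Vale.Agent.P095.ZS.fixSeq x6 x7) := inferInstance
theorem a19.{u1, u2} {x1 : Type u1} {x2 : Type u2} [x3 : CStarAlgebra x2] : StarModule ℂ (x1 → x2) := inferInstance
@[reducible] noncomputable def a20.{u1, u2} {x1 : Type} {x2 : Type u1} [x3 : CStarAlgebra x2] {x4 : Type u2} [x5 : Group x4] {x6 : x4 →* x2 ≃⋆ₐ[ℂ] x2} {x7 : Filter x1} : NonAssocSemiring ↥(Vale.Agent.P095.ZS.fixSeq x6 x7) := inferInstance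
@[reducible] noncomputable def a21.{u1} {x1 : Type u1} {x2 : Type u1} [x3 : CStarAlgebra x1] [x4 : NonUnitalCStarAlgebra x2] : Module ℂ (x1 →ₗ[ℂ] x2) := inferInstance
@[reducible] noncomputable def a22.{u1, u2, u3} {x1 : Type u1} {x2 : Type u2} [x3 : CStarAlgebra x2] {x4 : Type u3} [x5 : Group x4] {x6 : x4 →* x2 ≃⋆ₐ[ℂ] x2} {x7 : Filter x1} : Star ↥(Vale.Agent.P095.ZS.fixSeq x6 x7) := inferInstance
@[reducible] noncomputable def a23.{u1} {x1 : Type} {x2 : Type u1} [x3 : CStarAlgebra x2] : SetLike (StarSubalgebra ℂ (x1 → x2)) (x1 → x2) := inferInstance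
@[reducible] noncomputable def a24.{u1} {x1 : Type u1} {x2 : Type u1} [x3 : CStarAlgebra x1] [x4 : CStarAlgebra x2] : NonAssocSemiring (TensorProduct ℂ x1 x2) := inferInstance
@[reducible] def a25.{u1, u2} {x1 : Type u1} {x2 : Type u2} {x3 : x1} [x4 : CStarAlgebra x2] : StarMul ((fun a => x2) x3) := inferInstance
theorem a26 {x1 : ℕ} {x2 : ℕ} : StarModule ℂ C(↑unitInterval, Matrix (Fin x1 × Fin x2) (Fin x1 × Fin x2) ℂ) := inferInstance
theorem a27 : CovariantClass ℝ ℝ (Function.swap fun x1 x2 => x1 + x2) fun x1 x2 => x1 ≤ x2 := inferInstance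
theorem a28 {x1 : ℕ} {x2 : ℕ} : SubringClass (StarSubalgebra ℂ C(↑unitInterval, Matrix (Fin x1 × Fin x2) (Fin x1 × Fin x2) ℂ)) C(↑unitInterval, Matrix (Fin x1 × Fin x2) (Fin x1 × Fin x2) ℂ) := inferInstance
theorem a29 : IsTopologicalSemiring ℂ := inferInstance
@[reducible] noncomputable def a30.{u1, u2} {x1 : Type u1} [x2 : CStarAlgebra x1] {x3 : Type u2} [x4 : Group x3] {x5 : @MonoidHom x3 (@StarAlgEquiv Complex x1 x1 (@Distrib.toAdd x1 (@instDistribOfSemiring x1 (@Ring.toSemiring x1 (@NormedRing.toRing x1 (@CStarAlgebra.toNormedRing x1 x2))))) (@Distrib.toAdd x1 (@instDistribOfSemiring x1 (@Ring.toSemiring x1 (@NormedRing.toRing x1 (@CStarAlgebra.toNormedRing x1 x2))))) (@Distrib.toMul x1 (@instDistribOfSemiring x1 (@Ring.toSemiring x1 (@NormedRing.toRing x1 (@CStarAlgebra.toNormedRing x1 x2))))) (@Distrib.toMul x1 (@instDistribOfSemiring x1 (@Ring.toSemiring x1 (@NormedRing.toRing x1 (@CStarAlgebra.toNormedRing x1 x2))))) (@Algebra.toSMul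 Complex x1 (@Semifield.toCommSemiring Complex (@Field.toSemifield Complex (@NormedField.toField Complex Complex.instNormedField))) (@Ring.toSemiring x1 (@SeminormedRing.toRing x1 (@NormedRing.toSeminormedRing x1 (@CStarAlgebra.toNormedRing x1 x2)))) (@NormedAlgebra.toAlgebra Complex x1 Complex.instNormedField (@NormedRing.toSeminormedRing x1 (@CStarAlgebra.toNormedRing x1 x2)) (@CStarAlgebra.toNormedAlgebra x1 x2))) (@Algebra.toSMul Complex x1 (@Semifield.toCommSemiring Complex (@Field.toSemifield Complex (@NormedField.toField Complex Complex.instNormedField))) (@Ring.toSemiring x1 (@SeminormedRing.toRing x1 (@NormedRing.toSeminormedRing x1 (@CStarAlgebra.toNormedRing x1 x2)))) (@NormedAlgebra.toAlgebra Complex x1 Complex.instNormedField (@NormedRing.toSeminormedRing x1 (@CStarAlgebra.toNormedRing x1 x2)) (@CStarAlgebra.toNormedAlgebra x1 x2))) (@InvolutiveStar.toStar x1 (@StarAddMonoid.toInvolutiveStar x1 (@AddCommMonoid.toAddMonoid x1 (@NonUnitalNonAssocSemiring.toAddCommMonoid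 x1 (@NonUnitalNonAssocRing.toNonUnitalNonAssocSemiring x1 (@NonAssocRing.toNonUnitalNonAssocRing x1 (@Ring.toNonAssocRing x1 (@NormedRing.toRing x1 (@CStarAlgebra.toNormedRing x1 x2))))))) (@StarRing.toStarAddMonoid x1 (@NonUnitalNonAssocRing.toNonUnitalNonAssocSemiring x1 (@NonAssocRing.toNonUnitalNonAssocRing x1 (@Ring.toNonAssocRing x1 (@NormedRing.toRing x1 (@CStarAlgebra.toNormedRing x1 x2))))) (@CStarAlgebra.toStarRing x1 x2)))) (@InvolutiveStar.toStar x1 (@StarAddMonoid.toInvolutiveStar x1 (@AddCommMonoid.toAddMonoid x1 (@NonUnitalNonAssocSemiring.toAddCommMonoid x1 (@NonUnitalNonAssocRing.toNonUnitalNonAssocSemiring x1 (@NonAssocRing.toNonUnitalNonAssocRing x1 (@Ring.toNonAssocRing x1 (@NormedRing.toRing x1 (@CStarAlgebra.toNormedRing x1 x2))))))) (@StarRing.toStarAddMonoid x1 (@NonUnitalNonAssocRing.toNonUnitalNonAssocSemiring x1 (@NonAssocRing.toNonUnitalNonAssocRing x1 (@Ring.toNonAssocRing x1 (@NormedRing.toRing x1 (@CStarAlgebra.toNormedRing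 x1 x2))))) (@CStarAlgebra.toStarRing x1 x2))))) (@MulOneClass.toMulOne x3 (@Monoid.toMulOneClass x3 (@DivInvMonoid.toMonoid x3 (@Group.toDivInvMonoid x3 x4)))) (@MulOneClass.toMulOne (@StarAlgEquiv Complex x1 x1 (@Distrib.toAdd x1 (@instDistribOfSemiring x1 (@Ring.toSemiring x1 (@NormedRing.toRing x1 (@CStarAlgebra.toNormedRing x1 x2))))) (@Distrib.toAdd x1 (@instDistribOfSemiring x1 (@Ring.toSemiring x1 (@NormedRing.toRing x1 (@CStarAlgebra.toNormedRing x1 x2))))) (@Distrib.toMul x1 (@instDistribOfSemiring x1 (@Ring.toSemiring x1 (@NormedRing.toRing x1 (@CStarAlgebra.toNormedRing x1 x2))))) (@Distrib.toMul x1 (@instDistribOfSemiring x1 (@Ring.toSemiring x1 (@NormedRing.toRing x1 (@CStarAlgebra.toNormedRing x1 x2))))) (@Algebra.toSMul Complex x1 (@Semifield.toCommSemiring Complex (@Field.toSemifield Complex (@NormedField.toField Complex Complex.instNormedField))) (@Ring.toSemiring x1 (@SeminormedRing.toRing x1 (@NormedRing.toSeminormedRing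 x1 (@CStarAlgebra.toNormedRing x1 x2)))) (@NormedAlgebra.toAlgebra Complex x1 Complex.instNormedField (@NormedRing.toSeminormedRing x1 (@CStarAlgebra.toNormedRing x1 x2)) (@CStarAlgebra.toNormedAlgebra x1 x2))) (@Algebra.toSMul Complex x1 (@Semifield.toCommSemiring Complex (@Field.toSemifield Complex (@NormedField.toField Complex Complex.instNormedField))) (@Ring.toSemiring x1 (@SeminormedRing.toRing x1 (@NormedRing.toSeminormedRing x1 (@CStarAlgebra.toNormedRing x1 x2)))) (@NormedAlgebra.toAlgebra Complex x1 Complex.instNormedField (@NormedRing.toSeminormedRing x1 (@CStarAlgebra.toNormedRing x1 x2)) (@CStarAlgebra.toNormedAlgebra x1 x2))) (@InvolutiveStar.toStar x1 (@StarAddMonoid.toInvolutiveStar x1 (@AddCommMonoid.toAddMonoid x1 (@NonUnitalNonAssocSemiring.toAddCommMonoid x1 (@NonUnitalNonAssocRing.toNonUnitalNonAssocSemiring x1 (@NonAssocRing.toNonUnitalNonAssocRing x1 (@Ring.toNonAssocRing x1 (@NormedRing.toRing x1 (@CStarAlgebra.toNormedRing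 x1 x2))))))) (@StarRing.toStarAddMonoid x1 (@NonUnitalNonAssocRing.toNonUnitalNonAssocSemiring x1 (@NonAssocRing.toNonUnitalNonAssocRing x1 (@Ring.toNonAssocRing x1 (@NormedRing.toRing x1 (@CStarAlgebra.toNormedRing x1 x2))))) (@CStarAlgebra.toStarRing x1 x2)))) (@InvolutiveStar.toStar x1 (@StarAddMonoid.toInvolutiveStar x1 (@AddCommMonoid.toAddMonoid x1 (@NonUnitalNonAssocSemiring.toAddCommMonoid x1 (@NonUnitalNonAssocRing.toNonUnitalNonAssocSemiring x1 (@NonAssocRing.toNonUnitalNonAssocRing x1 (@Ring.toNonAssocRing x1 (@NormedRing.toRing x1 (@CStarAlgebra.toNormedRing x1 x2))))))) (@StarRing.toStarAddMonoid x1 (@NonUnitalNonAssocRing.toNonUnitalNonAssocSemiring x1 (@NonAssocRing.toNonUnitalNonAssocRing x1 (@Ring.toNonAssocRing x1 (@NormedRing.toRing x1 (@CStarAlgebra.toNormedRing x1 x2))))) (@CStarAlgebra.toStarRing x1 x2))))) (@Monoid.toMulOneClass (@StarAlgEquiv Complex x1 x1 (@Distrib.toAdd x1 (@instDistribOfSemiring x1 (@Ring.toSemiring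 x1 (@NormedRing.toRing x1 (@CStarAlgebra.toNormedRing x1 x2))))) (@Distrib.toAdd x1 (@instDistribOfSemiring x1 (@Ring.toSemiring x1 (@NormedRing.toRing x1 (@CStarAlgebra.toNormedRing x1 x2))))) (@Distrib.toMul x1 (@instDistribOfSemiring x1 (@Ring.toSemiring x1 (@NormedRing.toRing x1 (@CStarAlgebra.toNormedRing x1 x2))))) (@Distrib.toMul x1 (@instDistribOfSemiring x1 (@Ring.toSemiring x1 (@NormedRing.toRing x1 (@CStarAlgebra.toNormedRing x1 x2))))) (@Algebra.toSMul Complex x1 (@Semifield.toCommSemiring Complex (@Field.toSemifield Complex (@NormedField.toField Complex Complex.instNormedField))) (@Ring.toSemiring x1 (@SeminormedRing.toRing x1 (@NormedRing.toSeminormedRing x1 (@CStarAlgebra.toNormedRing x1 x2)))) (@NormedAlgebra.toAlgebra Complex x1 Complex.instNormedField (@NormedRing.toSeminormedRing x1 (@CStarAlgebra.toNormedRing x1 x2)) (@CStarAlgebra.toNormedAlgebra x1 x2))) (@Algebra.toSMul Complex x1 (@Semifield.toCommSemiring Complex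 (@Field.toSemifield Complex (@NormedField.toField Complex Complex.instNormedField))) (@Ring.toSemiring x1 (@SeminormedRing.toRing x1 (@NormedRing.toSeminormedRing x1 (@CStarAlgebra.toNormedRing x1 x2)))) (@NormedAlgebra.toAlgebra Complex x1 Complex.instNormedField (@NormedRing.toSeminormedRing x1 (@CStarAlgebra.toNormedRing x1 x2)) (@CStarAlgebra.toNormedAlgebra x1 x2))) (@InvolutiveStar.toStar x1 (@StarAddMonoid.toInvolutiveStar x1 (@AddCommMonoid.toAddMonoid x1 (@NonUnitalNonAssocSemiring.toAddCommMonoid x1 (@NonUnitalNonAssocRing.toNonUnitalNonAssocSemiring x1 (@NonAssocRing.toNonUnitalNonAssocRing x1 (@Ring.toNonAssocRing x1 (@NormedRing.toRing x1 (@CStarAlgebra.toNormedRing x1 x2))))))) (@StarRing.toStarAddMonoid x1 (@NonUnitalNonAssocRing.toNonUnitalNonAssocSemiring x1 (@NonAssocRing.toNonUnitalNonAssocRing x1 (@Ring.toNonAssocRing x1 (@NormedRing.toRing x1 (@CStarAlgebra.toNormedRing x1 x2))))) (@CStarAlgebra.toStarRing x1 x2)))) (@InvolutiveStar.toStar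 x1 (@StarAddMonoid.toInvolutiveStar x1 (@AddCommMonoid.toAddMonoid x1 (@NonUnitalNonAssocSemiring.toAddCommMonoid x1 (@NonUnitalNonAssocRing.toNonUnitalNonAssocSemiring x1 (@NonAssocRing.toNonUnitalNonAssocRing x1 (@Ring.toNonAssocRing x1 (@NormedRing.toRing x1 (@CStarAlgebra.toNormedRing x1 x2))))))) (@StarRing.toStarAddMonoid x1 (@NonUnitalNonAssocRing.toNonUnitalNonAssocSemiring x1 (@NonAssocRing.toNonUnitalNonAssocRing x1 (@Ring.toNonAssocRing x1 (@NormedRing.toRing x1 (@CStarAlgebra.toNormedRing x1 x2))))) (@CStarAlgebra.toStarRing x1 x2))))) (@DivInvMonoid.toMonoid (@StarAlgEquiv Complex x1 x1 (@Distrib.toAdd x1 (@instDistribOfSemiring x1 (@Ring.toSemiring x1 (@NormedRing.toRing x1 (@CStarAlgebra.toNormedRing x1 x2))))) (@Distrib.toAdd x1 (@instDistribOfSemiring x1 (@Ring.toSemiring x1 (@NormedRing.toRing x1 (@CStarAlgebra.toNormedRing x1 x2))))) (@Distrib.toMul x1 (@instDistribOfSemiring x1 (@Ring.toSemiring x1 (@NormedRing.toRing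 x1 (@CStarAlgebra.toNormedRing x1 x2))))) (@Distrib.toMul x1 (@instDistribOfSemiring x1 (@Ring.toSemiring x1 (@NormedRing.toRing x1 (@CStarAlgebra.toNormedRing x1 x2))))) (@Algebra.toSMul Complex x1 (@Semifield.toCommSemiring Complex (@Field.toSemifield Complex (@NormedField.toField Complex Complex.instNormedField))) (@Ring.toSemiring x1 (@SeminormedRing.toRing x1 (@NormedRing.toSeminormedRing x1 (@CStarAlgebra.toNormedRing x1 x2)))) (@NormedAlgebra.toAlgebra Complex x1 Complex.instNormedField (@NormedRing.toSeminormedRing x1 (@CStarAlgebra.toNormedRing x1 x2)) (@CStarAlgebra.toNormedAlgebra x1 x2))) (@Algebra.toSMul Complex x1 (@Semifield.toCommSemiring Complex (@Field.toSemifield Complex (@NormedField.toField Complex Complex.instNormedField))) (@Ring.toSemiring x1 (@SeminormedRing.toRing x1 (@NormedRing.toSeminormedRing x1 (@CStarAlgebra.toNormedRing x1 x2)))) (@NormedAlgebra.toAlgebra Complex x1 Complex.instNormedField (@NormedRing.toSeminormedRing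 x1 (@CStarAlgebra.toNormedRing x1 x2)) (@CStarAlgebra.toNormedAlgebra x1 x2))) (@InvolutiveStar.toStar x1 (@StarAddMonoid.toInvolutiveStar x1 (@AddCommMonoid.toAddMonoid x1 (@NonUnitalNonAssocSemiring.toAddCommMonoid x1 (@NonUnitalNonAssocRing.toNonUnitalNonAssocSemiring x1 (@NonAssocRing.toNonUnitalNonAssocRing x1 (@Ring.toNonAssocRing x1 (@NormedRing.toRing x1 (@CStarAlgebra.toNormedRing x1 x2))))))) (@StarRing.toStarAddMonoid x1 (@NonUnitalNonAssocRing.toNonUnitalNonAssocSemiring x1 (@NonAssocRing.toNonUnitalNonAssocRing x1 (@Ring.toNonAssocRing x1 (@NormedRing.toRing x1 (@CStarAlgebra.toNormedRing x1 x2))))) (@CStarAlgebra.toStarRing x1 x2)))) (@InvolutiveStar.toStar x1 (@StarAddMonoid.toInvolutiveStar x1 (@AddCommMonoid.toAddMonoid x1 (@NonUnitalNonAssocSemiring.toAddCommMonoid x1 (@NonUnitalNonAssocRing.toNonUnitalNonAssocSemiring x1 (@NonAssocRing.toNonUnitalNonAssocRing x1 (@Ring.toNonAssocRing x1 (@NormedRing.toRing x1 (@CStarAlgebra.toNormedRing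 x1 x2))))))) (@StarRing.toStarAddMonoid x1 (@NonUnitalNonAssocRing.toNonUnitalNonAssocSemiring x1 (@NonAssocRing.toNonUnitalNonAssocRing x1 (@Ring.toNonAssocRing x1 (@NormedRing.toRing x1 (@CStarAlgebra.toNormedRing x1 x2))))) (@CStarAlgebra.toStarRing x1 x2))))) (@Group.toDivInvMonoid (@StarAlgEquiv Complex x1 x1 (@Distrib.toAdd x1 (@instDistribOfSemiring x1 (@Ring.toSemiring x1 (@NormedRing.toRing x1 (@CStarAlgebra.toNormedRing x1 x2))))) (@Distrib.toAdd x1 (@instDistribOfSemiring x1 (@Ring.toSemiring x1 (@NormedRing.toRing x1 (@CStarAlgebra.toNormedRing x1 x2))))) (@Distrib.toMul x1 (@instDistribOfSemiring x1 (@Ring.toSemiring x1 (@NormedRing.toRing x1 (@CStarAlgebra.toNormedRing x1 x2))))) (@Distrib.toMul x1 (@instDistribOfSemiring x1 (@Ring.toSemiring x1 (@NormedRing.toRing x1 (@CStarAlgebra.toNormedRing x1 x2))))) (@Algebra.toSMul Complex x1 (@Semifield.toCommSemiring Complex (@Field.toSemifield Complex (@NormedField.toField Complex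 Complex.instNormedField))) (@Ring.toSemiring x1 (@SeminormedRing.toRing x1 (@NormedRing.toSeminormedRing x1 (@CStarAlgebra.toNormedRing x1 x2)))) (@NormedAlgebra.toAlgebra Complex x1 Complex.instNormedField (@NormedRing.toSeminormedRing x1 (@CStarAlgebra.toNormedRing x1 x2)) (@CStarAlgebra.toNormedAlgebra x1 x2))) (@Algebra.toSMul Complex x1 (@Semifield.toCommSemiring Complex (@Field.toSemifield Complex (@NormedField.toField Complex Complex.instNormedField))) (@Ring.toSemiring x1 (@SeminormedRing.toRing x1 (@NormedRing.toSeminormedRing x1 (@CStarAlgebra.toNormedRing x1 x2)))) (@NormedAlgebra.toAlgebra Complex x1 Complex.instNormedField (@NormedRing.toSeminormedRing x1 (@CStarAlgebra.toNormedRing x1 x2)) (@CStarAlgebra.toNormedAlgebra x1 x2))) (@InvolutiveStar.toStar x1 (@StarAddMonoid.toInvolutiveStar x1 (@AddCommMonoid.toAddMonoid x1 (@NonUnitalNonAssocSemiring.toAddCommMonoid x1 (@NonUnitalNonAssocRing.toNonUnitalNonAssocSemiring x1 (@NonAssocRing.toNonUnitalNonAssocRing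 x1 (@Ring.toNonAssocRing x1 (@NormedRing.toRing x1 (@CStarAlgebra.toNormedRing x1 x2))))))) (@StarRing.toStarAddMonoid x1 (@NonUnitalNonAssocRing.toNonUnitalNonAssocSemiring x1 (@NonAssocRing.toNonUnitalNonAssocRing x1 (@Ring.toNonAssocRing x1 (@NormedRing.toRing x1 (@CStarAlgebra.toNormedRing x1 x2))))) (@CStarAlgebra.toStarRing x1 x2)))) (@InvolutiveStar.toStar x1 (@StarAddMonoid.toInvolutiveStar x1 (@AddCommMonoid.toAddMonoid x1 (@NonUnitalNonAssocSemiring.toAddCommMonoid x1 (@NonUnitalNonAssocRing.toNonUnitalNonAssocSemiring x1 (@NonAssocRing.toNonUnitalNonAssocRing x1 (@Ring.toNonAssocRing x1 (@NormedRing.toRing x1 (@CStarAlgebra.toNormedRing x1 x2))))))) (@StarRing.toStarAddMonoid x1 (@NonUnitalNonAssocRing.toNonUnitalNonAssocSemiring x1 (@NonAssocRing.toNonUnitalNonAssocRing x1 (@Ring.toNonAssocRing x1 (@NormedRing.toRing x1 (@CStarAlgebra.toNormedRing x1 x2))))) (@CStarAlgebra.toStarRing x1 x2))))) (@StarAlgEquiv.aut Complex x1 (@Distrib.toMul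 x1 (@instDistribOfSemiring x1 (@Ring.toSemiring x1 (@NormedRing.toRing x1 (@CStarAlgebra.toNormedRing x1 x2))))) (@Distrib.toAdd x1 (@instDistribOfSemiring x1 (@Ring.toSemiring x1 (@NormedRing.toRing x1 (@CStarAlgebra.toNormedRing x1 x2))))) (@InvolutiveStar.toStar x1 (@StarAddMonoid.toInvolutiveStar x1 (@AddCommMonoid.toAddMonoid x1 (@NonUnitalNonAssocSemiring.toAddCommMonoid x1 (@NonUnitalNonAssocRing.toNonUnitalNonAssocSemiring x1 (@NonAssocRing.toNonUnitalNonAssocRing x1 (@Ring.toNonAssocRing x1 (@NormedRing.toRing x1 (@CStarAlgebra.toNormedRing x1 x2))))))) (@StarRing.toStarAddMonoid x1 (@NonUnitalNonAssocRing.toNonUnitalNonAssocSemiring x1 (@NonAssocRing.toNonUnitalNonAssocRing x1 (@Ring.toNonAssocRing x1 (@NormedRing.toRing x1 (@CStarAlgebra.toNormedRing x1 x2))))) (@CStarAlgebra.toStarRing x1 x2)))) (@Algebra.toSMul Complex x1 (@Semifield.toCommSemiring Complex (@Field.toSemifield Complex (@NormedField.toField Complex Complex.instNormedField)))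 (@Ring.toSemiring x1 (@SeminormedRing.toRing x1 (@NormedRing.toSeminormedRing x1 (@CStarAlgebra.toNormedRing x1 x2)))) (@NormedAlgebra.toAlgebra Complex x1 Complex.instNormedField (@NormedRing.toSeminormedRing x1 (@CStarAlgebra.toNormedRing x1 x2)) (@CStarAlgebra.toNormedAlgebra x1 x2))))))))} : Semiring ↥(@Vale.Agent.P095.ZS.fixSeq x1 x2 x3 x4 x5 Nat (@Filter.atTop Nat Nat.instPreorder)) := inferInstance
theorem a31.{u1, u2} {x1 : Type u1} {x2 : Type u2} [x3 : CStarAlgebra x2] : StarMemClass (StarSubalgebra ℂ (x1 → x2)) (x1 → x2) := inferInstance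
@[reducible] noncomputable def a32.{u1, u2, u3} {x1 : Type u1} {x2 : Type u2} [x3 : CStarAlgebra x2] {x4 : Type u3} [x5 : Group x4] {x6 : x4 →* x2 ≃⋆ₐ[ℂ] x2} {x7 : Filter x1} : One ↥(Vale.Agent.P095.ZS.fixSeq x6 x7) := inferInstance
@[reducible] noncomputable def a33.{u1, u2, u3} {x1 : Type u1} {x2 : Type u2} [x3 : CStarAlgebra x2] {x4 : Type u3} [x5 : Group x4] {x6 : x4 →* x2 ≃⋆ₐ[ℂ] x2} {x7 : Filter x1} : Zero ↥(Vale.Agent.P095.ZS.fixSeq x6 x7) := inferInstance
theorem a34.{u1} {x1 : Type u1} [x2 : CStarAlgebra x1] : NonUnitalAlgHomClass (x1 ≃⋆ₐ[ℂ] x1) ℂ x1 x1 := inferInstance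
theorem a35.{u1} {x1 : Type} {x2 : Type u1} [x3 : CStarAlgebra x2] : StarModule ℂ (x1 → x2) := inferInstance
@[reducible] noncomputable def a36.{u1} {x1 : Type u1} [x2 : NonUnitalCStarAlgebra x1] : Star (DoubleCentralizer ℂ x1) := inferInstance
theorem a37.{u1, u2} {x1 : Type u1} {x2 : Type u2} [x3 : CStarAlgebra x2] : SubsemiringClass (StarSubalgebra ℂ (x1 → x2)) (x1 → x2) := inferInstance
@[reducible] noncomputable def a38.{u1, u2} {x1 : Type u1} [x2 : CStarAlgebra x1] {x3 : Type u2} [x4 : Group x3] {x5 : x3 →* x1 ≃⋆ₐ[ℂ] x1} {x6 : Type} {x7 : Filter x6} : StarRing (Vale.Agent.P095.ZS.Fa x5 x7) := inferInstance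
theorem a39 {x1 : ℕ → ℕ} {x2 : ℕ} {x3 : ℕ → ℕ} : StarModule ℂ C(↑unitInterval, Matrix (Fin (x1 x2) × Fin (x3 x2)) (Fin (x1 x2) × Fin (x3 x2)) ℂ) := inferInstance
theorem a40.{u1} {x1 : Type u1} [x2 : CStarAlgebra x1] : AlgHomClass (x1 ≃⋆ₐ[ℂ] x1) ℂ x1 x1 := inferInstance
@[reducible] def a41.{u1, u2} {x1 : Type u1} {x2 : Type u2} {x3 : x1} [x4 : CStarAlgebra x2] : InvolutiveStar ((fun a => x2) x3) := inferInstance
@[reducible] noncomputable def a42.{u1, u2, u3} {x1 : Type u1} {x2 : Type u2} [x3 : CStarAlgebra x2] {x4 : Type u3} [x5 : Group x4] {x6 : x4 →* x2 ≃⋆ₐ[ℂ] x2} {x7 : Filter x1} : MulOne ↥(Vale.Agent.P095.ZS.fixSeq x6 x7) := inferInstance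
@[reducible] noncomputable def a43.{u1, u2, u3} {x1 : Type u1} {x2 : Type u2} [x3 : CStarAlgebra x2] {x4 : Type u3} [x5 : Group x4] {x6 : x4 →* x2 ≃⋆ₐ[ℂ] x2} {x7 : Filter x1} : MulOneClass ↥(Vale.Agent.P095.ZS.fixSeq x6 x7) := inferInstance
theorem a44 : IsTopologicalRing ℂ := inferInstance
@[reducible] noncomputable def a45 {x1 : ℕ} {x2 : ℕ} : Ring C(↑unitInterval, Matrix (Fin x1 × Fin x2) (Fin x1 × Fin x2) ℂ) := inferInstance
@[reducible] noncomputable def a46.{u1, u2} {x1 : Type} {x2 : Type u1} [x3 : CStarAlgebra x2] {x4 : Type u2} [x5 : Group x4] {x6 : x4 →* x2 ≃⋆ₐ[ℂ] x2} {x7 : Filter x1} : Algebra ℂ ↥(Vale.Agent.P095.ZS.fixSeq x6 x7) := inferInstance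
theorem a47 : CharZero ℝ := inferInstance
@[reducible] noncomputable def a48.{u1, u2, u3} {x1 : Type u1} {x2 : Type u2} [x3 : CStarAlgebra x2] {x4 : Type u3} [x5 : Group x4] {x6 : x4 →* x2 ≃⋆ₐ[ℂ] x2} {x7 : Filter x1} : AddCommMonoidWithOne ↥(Vale.Agent.P095.ZS.fixSeq x6 x7) := inferInstance
@[reducible] noncomputable def a49.{u1, u2, u3} {x1 : Type u1} {x2 : Type u2} [x3 : CStarAlgebra x2] {x4 : Type u3} [x5 : Group x4] {x6 : x4 →* x2 ≃⋆ₐ[ℂ] x2} {x7 : Filter x1} : MulZeroOneClass ↥(Vale.Agent.P095.ZS.fixSeq x6 x7) := inferInstance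
@[reducible] noncomputable def a50.{u1, u2, u3} {x1 : ℕ → Type u1} {x2 : ℕ} {x3 : Type u2} [x4 : CStarAlgebra x3] {x5 : Type u3} [x6 : Group x5] {x7 : x5 →* x3 ≃⋆ₐ[ℂ] x3} {x8 : (n : ℕ) → Filter (x1 n)} : Semiring ↥(Vale.Agent.P095.ZS.fixSeq x7 (x8 x2)) := inferInstance
theorem a51 {x1 : ℕ → ℕ} {x2 : ℕ} {x3 : ℕ → ℕ} : SubringClass (StarSubalgebra ℂ C(↑unitInterval, Matrix (Fin (x1 x2) × Fin (x3 x2)) (Fin (x1 x2) × Fin (x3 x2)) ℂ)) C(↑unitInterval, Matrix (Fin (x1 x2) × Fin (x3 x2)) (Fin (x1 x2) × Fin (x3 x2)) ℂ) := inferInstance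
theorem a52.{u1} {x1 : Type u1} [x2 : CStarAlgebra x1] : AlgEquivClass (x1 ≃⋆ₐ[ℂ] x1) ℂ x1 x1 := inferInstance
@[reducible] noncomputable def a53.{u1, u2} {x1 : Type u1} [x2 : CStarAlgebra x1] {x3 : Type u2} [x4 : Group x3] {x5 : @MonoidHom x3 (@StarAlgEquiv Complex x1 x1 (@Distrib.toAdd x1 (@instDistribOfSemiring x1 (@Ring.toSemiring x1 (@NormedRing.toRing x1 (@CStarAlgebra.toNormedRing x1 x2))))) (@Distrib.toAdd x1 (@instDistribOfSemiring x1 (@Ring.toSemiring x1 (@NormedRing.toRing x1 (@CStarAlgebra.toNormedRing x1 x2))))) (@Distrib.toMul x1 (@instDistribOfSemiring x1 (@Ring.toSemiring x1 (@NormedRing.toRing x1 (@CStarAlgebra.toNormedRing x1 x2))))) (@Distrib.toMul x1 (@instDistribOfSemiring x1 (@Ring.toSemiring x1 (@NormedRing.toRing x1 (@CStarAlgebra.toNormedRing x1 x2))))) (@Algebra.toSMul Complex x1 (@Semifield.toCommSemiring Complex (@Field.toSemifield Complex (@NormedField.toField Complex Complex.instNormedField))) (@Ring.toSemiring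 x1 (@SeminormedRing.toRing x1 (@NormedRing.toSeminormedRing x1 (@CStarAlgebra.toNormedRing x1 x2)))) (@NormedAlgebra.toAlgebra Complex x1 Complex.instNormedField (@NormedRing.toSeminormedRing x1 (@CStarAlgebra.toNormedRing x1 x2)) (@CStarAlgebra.toNormedAlgebra x1 x2))) (@Algebra.toSMul Complex x1 (@Semifield.toCommSemiring Complex (@Field.toSemifield Complex (@NormedField.toField Complex Complex.instNormedField))) (@Ring.toSemiring x1 (@SeminormedRing.toRing x1 (@NormedRing.toSeminormedRing x1 (@CStarAlgebra.toNormedRing x1 x2)))) (@NormedAlgebra.toAlgebra Complex x1 Complex.instNormedField (@NormedRing.toSeminormedRing x1 (@CStarAlgebra.toNormedRing x1 x2)) (@CStarAlgebra.toNormedAlgebra x1 x2))) (@InvolutiveStar.toStar x1 (@StarAddMonoid.toInvolutiveStar x1 (@AddCommMonoid.toAddMonoid x1 (@NonUnitalNonAssocSemiring.toAddCommMonoid x1 (@NonUnitalNonAssocRing.toNonUnitalNonAssocSemiring x1 (@NonAssocRing.toNonUnitalNonAssocRing x1 (@Ring.toNonAssocRing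 x1 (@NormedRing.toRing x1 (@CStarAlgebra.toNormedRing x1 x2))))))) (@StarRing.toStarAddMonoid x1 (@NonUnitalNonAssocRing.toNonUnitalNonAssocSemiring x1 (@NonAssocRing.toNonUnitalNonAssocRing x1 (@Ring.toNonAssocRing x1 (@NormedRing.toRing x1 (@CStarAlgebra.toNormedRing x1 x2))))) (@CStarAlgebra.toStarRing x1 x2)))) (@InvolutiveStar.toStar x1 (@StarAddMonoid.toInvolutiveStar x1 (@AddCommMonoid.toAddMonoid x1 (@NonUnitalNonAssocSemiring.toAddCommMonoid x1 (@NonUnitalNonAssocRing.toNonUnitalNonAssocSemiring x1 (@NonAssocRing.toNonUnitalNonAssocRing x1 (@Ring.toNonAssocRing x1 (@NormedRing.toRing x1 (@CStarAlgebra.toNormedRing x1 x2))))))) (@StarRing.toStarAddMonoid x1 (@NonUnitalNonAssocRing.toNonUnitalNonAssocSemiring x1 (@NonAssocRing.toNonUnitalNonAssocRing x1 (@Ring.toNonAssocRing x1 (@NormedRing.toRing x1 (@CStarAlgebra.toNormedRing x1 x2))))) (@CStarAlgebra.toStarRing x1 x2))))) (@MulOneClass.toMulOne x3 (@Monoid.toMulOneClass x3 (@DivInvMonoid.toMonoid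 x3 (@Group.toDivInvMonoid x3 x4)))) (@MulOneClass.toMulOne (@StarAlgEquiv Complex x1 x1 (@Distrib.toAdd x1 (@instDistribOfSemiring x1 (@Ring.toSemiring x1 (@NormedRing.toRing x1 (@CStarAlgebra.toNormedRing x1 x2))))) (@Distrib.toAdd x1 (@instDistribOfSemiring x1 (@Ring.toSemiring x1 (@NormedRing.toRing x1 (@CStarAlgebra.toNormedRing x1 x2))))) (@Distrib.toMul x1 (@instDistribOfSemiring x1 (@Ring.toSemiring x1 (@NormedRing.toRing x1 (@CStarAlgebra.toNormedRing x1 x2))))) (@Distrib.toMul x1 (@instDistribOfSemiring x1 (@Ring.toSemiring x1 (@NormedRing.toRing x1 (@CStarAlgebra.toNormedRing x1 x2))))) (@Algebra.toSMul Complex x1 (@Semifield.toCommSemiring Complex (@Field.toSemifield Complex (@NormedField.toField Complex Complex.instNormedField))) (@Ring.toSemiring x1 (@SeminormedRing.toRing x1 (@NormedRing.toSeminormedRing x1 (@CStarAlgebra.toNormedRing x1 x2)))) (@NormedAlgebra.toAlgebra Complex x1 Complex.instNormedField (@NormedRing.toSeminormedRing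 x1 (@CStarAlgebra.toNormedRing x1 x2)) (@CStarAlgebra.toNormedAlgebra x1 x2))) (@Algebra.toSMul Complex x1 (@Semifield.toCommSemiring Complex (@Field.toSemifield Complex (@NormedField.toField Complex Complex.instNormedField))) (@Ring.toSemiring x1 (@SeminormedRing.toRing x1 (@NormedRing.toSeminormedRing x1 (@CStarAlgebra.toNormedRing x1 x2)))) (@NormedAlgebra.toAlgebra Complex x1 Complex.instNormedField (@NormedRing.toSeminormedRing x1 (@CStarAlgebra.toNormedRing x1 x2)) (@CStarAlgebra.toNormedAlgebra x1 x2))) (@InvolutiveStar.toStar x1 (@StarAddMonoid.toInvolutiveStar x1 (@AddCommMonoid.toAddMonoid x1 (@NonUnitalNonAssocSemiring.toAddCommMonoid x1 (@NonUnitalNonAssocRing.toNonUnitalNonAssocSemiring x1 (@NonAssocRing.toNonUnitalNonAssocRing x1 (@Ring.toNonAssocRing x1 (@NormedRing.toRing x1 (@CStarAlgebra.toNormedRing x1 x2))))))) (@StarRing.toStarAddMonoid x1 (@NonUnitalNonAssocRing.toNonUnitalNonAssocSemiring x1 (@NonAssocRing.toNonUnitalNonAssocRing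 x1 (@Ring.toNonAssocRing x1 (@NormedRing.toRing x1 (@CStarAlgebra.toNormedRing x1 x2))))) (@CStarAlgebra.toStarRing x1 x2)))) (@InvolutiveStar.toStar x1 (@StarAddMonoid.toInvolutiveStar x1 (@AddCommMonoid.toAddMonoid x1 (@NonUnitalNonAssocSemiring.toAddCommMonoid x1 (@NonUnitalNonAssocRing.toNonUnitalNonAssocSemiring x1 (@NonAssocRing.toNonUnitalNonAssocRing x1 (@Ring.toNonAssocRing x1 (@NormedRing.toRing x1 (@CStarAlgebra.toNormedRing x1 x2))))))) (@StarRing.toStarAddMonoid x1 (@NonUnitalNonAssocRing.toNonUnitalNonAssocSemiring x1 (@NonAssocRing.toNonUnitalNonAssocRing x1 (@Ring.toNonAssocRing x1 (@NormedRing.toRing x1 (@CStarAlgebra.toNormedRing x1 x2))))) (@CStarAlgebra.toStarRing x1 x2))))) (@Monoid.toMulOneClass (@StarAlgEquiv Complex x1 x1 (@Distrib.toAdd x1 (@instDistribOfSemiring x1 (@Ring.toSemiring x1 (@NormedRing.toRing x1 (@CStarAlgebra.toNormedRing x1 x2))))) (@Distrib.toAdd x1 (@instDistribOfSemiring x1 (@Ring.toSemiring x1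 (@NormedRing.toRing x1 (@CStarAlgebra.toNormedRing x1 x2))))) (@Distrib.toMul x1 (@instDistribOfSemiring x1 (@Ring.toSemiring x1 (@NormedRing.toRing x1 (@CStarAlgebra.toNormedRing x1 x2))))) (@Distrib.toMul x1 (@instDistribOfSemiring x1 (@Ring.toSemiring x1 (@NormedRing.toRing x1 (@CStarAlgebra.toNormedRing x1 x2))))) (@Algebra.toSMul Complex x1 (@Semifield.toCommSemiring Complex (@Field.toSemifield Complex (@NormedField.toField Complex Complex.instNormedField))) (@Ring.toSemiring x1 (@SeminormedRing.toRing x1 (@NormedRing.toSeminormedRing x1 (@CStarAlgebra.toNormedRing x1 x2)))) (@NormedAlgebra.toAlgebra Complex x1 Complex.instNormedField (@NormedRing.toSeminormedRing x1 (@CStarAlgebra.toNormedRing x1 x2)) (@CStarAlgebra.toNormedAlgebra x1 x2))) (@Algebra.toSMul Complex x1 (@Semifield.toCommSemiring Complex (@Field.toSemifield Complex (@NormedField.toField Complex Complex.instNormedField))) (@Ring.toSemiring x1 (@SeminormedRing.toRing x1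 (@NormedRing.toSeminormedRing x1 (@CStarAlgebra.toNormedRing x1 x2)))) (@NormedAlgebra.toAlgebra Complex x1 Complex.instNormedField (@NormedRing.toSeminormedRing x1 (@CStarAlgebra.toNormedRing x1 x2)) (@CStarAlgebra.toNormedAlgebra x1 x2))) (@InvolutiveStar.toStar x1 (@StarAddMonoid.toInvolutiveStar x1 (@AddCommMonoid.toAddMonoid x1 (@NonUnitalNonAssocSemiring.toAddCommMonoid x1 (@NonUnitalNonAssocRing.toNonUnitalNonAssocSemiring x1 (@NonAssocRing.toNonUnitalNonAssocRing x1 (@Ring.toNonAssocRing x1 (@NormedRing.toRing x1 (@CStarAlgebra.toNormedRing x1 x2))))))) (@StarRing.toStarAddMonoid x1 (@NonUnitalNonAssocRing.toNonUnitalNonAssocSemiring x1 (@NonAssocRing.toNonUnitalNonAssocRing x1 (@Ring.toNonAssocRing x1 (@NormedRing.toRing x1 (@CStarAlgebra.toNormedRing x1 x2))))) (@CStarAlgebra.toStarRing x1 x2)))) (@InvolutiveStar.toStar x1 (@StarAddMonoid.toInvolutiveStar x1 (@AddCommMonoid.toAddMonoid x1 (@NonUnitalNonAssocSemiring.toAddCommMonoid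 x1 (@NonUnitalNonAssocRing.toNonUnitalNonAssocSemiring x1 (@NonAssocRing.toNonUnitalNonAssocRing x1 (@Ring.toNonAssocRing x1 (@NormedRing.toRing x1 (@CStarAlgebra.toNormedRing x1 x2))))))) (@StarRing.toStarAddMonoid x1 (@NonUnitalNonAssocRing.toNonUnitalNonAssocSemiring x1 (@NonAssocRing.toNonUnitalNonAssocRing x1 (@Ring.toNonAssocRing x1 (@NormedRing.toRing x1 (@CStarAlgebra.toNormedRing x1 x2))))) (@CStarAlgebra.toStarRing x1 x2))))) (@DivInvMonoid.toMonoid (@StarAlgEquiv Complex x1 x1 (@Distrib.toAdd x1 (@instDistribOfSemiring x1 (@Ring.toSemiring x1 (@NormedRing.toRing x1 (@CStarAlgebra.toNormedRing x1 x2))))) (@Distrib.toAdd x1 (@instDistribOfSemiring x1 (@Ring.toSemiring x1 (@NormedRing.toRing x1 (@CStarAlgebra.toNormedRing x1 x2))))) (@Distrib.toMul x1 (@instDistribOfSemiring x1 (@Ring.toSemiring x1 (@NormedRing.toRing x1 (@CStarAlgebra.toNormedRing x1 x2))))) (@Distrib.toMul x1 (@instDistribOfSemiring x1 (@Ring.toSemiring x1 (@NormedRing.toRing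 x1 (@CStarAlgebra.toNormedRing x1 x2))))) (@Algebra.toSMul Complex x1 (@Semifield.toCommSemiring Complex (@Field.toSemifield Complex (@NormedField.toField Complex Complex.instNormedField))) (@Ring.toSemiring x1 (@SeminormedRing.toRing x1 (@NormedRing.toSeminormedRing x1 (@CStarAlgebra.toNormedRing x1 x2)))) (@NormedAlgebra.toAlgebra Complex x1 Complex.instNormedField (@NormedRing.toSeminormedRing x1 (@CStarAlgebra.toNormedRing x1 x2)) (@CStarAlgebra.toNormedAlgebra x1 x2))) (@Algebra.toSMul Complex x1 (@Semifield.toCommSemiring Complex (@Field.toSemifield Complex (@NormedField.toField Complex Complex.instNormedField))) (@Ring.toSemiring x1 (@SeminormedRing.toRing x1 (@NormedRing.toSeminormedRing x1 (@CStarAlgebra.toNormedRing x1 x2)))) (@NormedAlgebra.toAlgebra Complex x1 Complex.instNormedField (@NormedRing.toSeminormedRing x1 (@CStarAlgebra.toNormedRing x1 x2)) (@CStarAlgebra.toNormedAlgebra x1 x2))) (@InvolutiveStar.toStar x1 (@StarAddMonoid.toInvolutiveStar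 x1 (@AddCommMonoid.toAddMonoid x1 (@NonUnitalNonAssocSemiring.toAddCommMonoid x1 (@NonUnitalNonAssocRing.toNonUnitalNonAssocSemiring x1 (@NonAssocRing.toNonUnitalNonAssocRing x1 (@Ring.toNonAssocRing x1 (@NormedRing.toRing x1 (@CStarAlgebra.toNormedRing x1 x2))))))) (@StarRing.toStarAddMonoid x1 (@NonUnitalNonAssocRing.toNonUnitalNonAssocSemiring x1 (@NonAssocRing.toNonUnitalNonAssocRing x1 (@Ring.toNonAssocRing x1 (@NormedRing.toRing x1 (@CStarAlgebra.toNormedRing x1 x2))))) (@CStarAlgebra.toStarRing x1 x2)))) (@InvolutiveStar.toStar x1 (@StarAddMonoid.toInvolutiveStar x1 (@AddCommMonoid.toAddMonoid x1 (@NonUnitalNonAssocSemiring.toAddCommMonoid x1 (@NonUnitalNonAssocRing.toNonUnitalNonAssocSemiring x1 (@NonAssocRing.toNonUnitalNonAssocRing x1 (@Ring.toNonAssocRing x1 (@NormedRing.toRing x1 (@CStarAlgebra.toNormedRing x1 x2))))))) (@StarRing.toStarAddMonoid x1 (@NonUnitalNonAssocRing.toNonUnitalNonAssocSemiring x1 (@NonAssocRing.toNonUnitalNonAssocRing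 x1 (@Ring.toNonAssocRing x1 (@NormedRing.toRing x1 (@CStarAlgebra.toNormedRing x1 x2))))) (@CStarAlgebra.toStarRing x1 x2))))) (@Group.toDivInvMonoid (@StarAlgEquiv Complex x1 x1 (@Distrib.toAdd x1 (@instDistribOfSemiring x1 (@Ring.toSemiring x1 (@NormedRing.toRing x1 (@CStarAlgebra.toNormedRing x1 x2))))) (@Distrib.toAdd x1 (@instDistribOfSemiring x1 (@Ring.toSemiring x1 (@NormedRing.toRing x1 (@CStarAlgebra.toNormedRing x1 x2))))) (@Distrib.toMul x1 (@instDistribOfSemiring x1 (@Ring.toSemiring x1 (@NormedRing.toRing x1 (@CStarAlgebra.toNormedRing x1 x2))))) (@Distrib.toMul x1 (@instDistribOfSemiring x1 (@Ring.toSemiring x1 (@NormedRing.toRing x1 (@CStarAlgebra.toNormedRing x1 x2))))) (@Algebra.toSMul Complex x1 (@Semifield.toCommSemiring Complex (@Field.toSemifield Complex (@NormedField.toField Complex Complex.instNormedField))) (@Ring.toSemiring x1 (@SeminormedRing.toRing x1 (@NormedRing.toSeminormedRing x1 (@CStarAlgebra.toNormedRing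 x1 x2)))) (@NormedAlgebra.toAlgebra Complex x1 Complex.instNormedField (@NormedRing.toSeminormedRing x1 (@CStarAlgebra.toNormedRing x1 x2)) (@CStarAlgebra.toNormedAlgebra x1 x2))) (@Algebra.toSMul Complex x1 (@Semifield.toCommSemiring Complex (@Field.toSemifield Complex (@NormedField.toField Complex Complex.instNormedField))) (@Ring.toSemiring x1 (@SeminormedRing.toRing x1 (@NormedRing.toSeminormedRing x1 (@CStarAlgebra.toNormedRing x1 x2)))) (@NormedAlgebra.toAlgebra Complex x1 Complex.instNormedField (@NormedRing.toSeminormedRing x1 (@CStarAlgebra.toNormedRing x1 x2)) (@CStarAlgebra.toNormedAlgebra x1 x2))) (@InvolutiveStar.toStar x1 (@StarAddMonoid.toInvolutiveStar x1 (@AddCommMonoid.toAddMonoid x1 (@NonUnitalNonAssocSemiring.toAddCommMonoid x1 (@NonUnitalNonAssocRing.toNonUnitalNonAssocSemiring x1 (@NonAssocRing.toNonUnitalNonAssocRing x1 (@Ring.toNonAssocRing x1 (@NormedRing.toRing x1 (@CStarAlgebra.toNormedRing x1 x2))))))) (@StarRing.toStarAddMonoid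 x1 (@NonUnitalNonAssocRing.toNonUnitalNonAssocSemiring x1 (@NonAssocRing.toNonUnitalNonAssocRing x1 (@Ring.toNonAssocRing x1 (@NormedRing.toRing x1 (@CStarAlgebra.toNormedRing x1 x2))))) (@CStarAlgebra.toStarRing x1 x2)))) (@InvolutiveStar.toStar x1 (@StarAddMonoid.toInvolutiveStar x1 (@AddCommMonoid.toAddMonoid x1 (@NonUnitalNonAssocSemiring.toAddCommMonoid x1 (@NonUnitalNonAssocRing.toNonUnitalNonAssocSemiring x1 (@NonAssocRing.toNonUnitalNonAssocRing x1 (@Ring.toNonAssocRing x1 (@NormedRing.toRing x1 (@CStarAlgebra.toNormedRing x1 x2))))))) (@StarRing.toStarAddMonoid x1 (@NonUnitalNonAssocRing.toNonUnitalNonAssocSemiring x1 (@NonAssocRing.toNonUnitalNonAssocRing x1 (@Ring.toNonAssocRing x1 (@NormedRing.toRing x1 (@CStarAlgebra.toNormedRing x1 x2))))) (@CStarAlgebra.toStarRing x1 x2))))) (@StarAlgEquiv.aut Complex x1 (@Distrib.toMul x1 (@instDistribOfSemiring x1 (@Ring.toSemiring x1 (@NormedRing.toRing x1 (@CStarAlgebra.toNormedRing x1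 x2))))) (@Distrib.toAdd x1 (@instDistribOfSemiring x1 (@Ring.toSemiring x1 (@NormedRing.toRing x1 (@CStarAlgebra.toNormedRing x1 x2))))) (@InvolutiveStar.toStar x1 (@StarAddMonoid.toInvolutiveStar x1 (@AddCommMonoid.toAddMonoid x1 (@NonUnitalNonAssocSemiring.toAddCommMonoid x1 (@NonUnitalNonAssocRing.toNonUnitalNonAssocSemiring x1 (@NonAssocRing.toNonUnitalNonAssocRing x1 (@Ring.toNonAssocRing x1 (@NormedRing.toRing x1 (@CStarAlgebra.toNormedRing x1 x2))))))) (@StarRing.toStarAddMonoid x1 (@NonUnitalNonAssocRing.toNonUnitalNonAssocSemiring x1 (@NonAssocRing.toNonUnitalNonAssocRing x1 (@Ring.toNonAssocRing x1 (@NormedRing.toRing x1 (@CStarAlgebra.toNormedRing x1 x2))))) (@CStarAlgebra.toStarRing x1 x2)))) (@Algebra.toSMul Complex x1 (@Semifield.toCommSemiring Complex (@Field.toSemifield Complex (@NormedField.toField Complex Complex.instNormedField))) (@Ring.toSemiring x1 (@SeminormedRing.toRing x1 (@NormedRing.toSeminormedRing x1 (@CStarAlgebra.toNormedRing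 x1 x2)))) (@NormedAlgebra.toAlgebra Complex x1 Complex.instNormedField (@NormedRing.toSeminormedRing x1 (@CStarAlgebra.toNormedRing x1 x2)) (@CStarAlgebra.toNormedAlgebra x1 x2))))))))} : NonAssocSemiring ↥(@Vale.Agent.P095.ZS.fixSeq x1 x2 x3 x4 x5 Nat (@Filter.atTop Nat Nat.instPreorder)) := inferInstance
@[reducible] noncomputable def a54.{u1, u2, u3} {x1 : Type u1} {x2 : Type u2} [x3 : CStarAlgebra x2] {x4 : Type u3} [x5 : Group x4] {x6 : x4 →* x2 ≃⋆ₐ[ℂ] x2} {x7 : Filter x1} : AddZero ↥(Vale.Agent.P095.ZS.fixSeq x6 x7) := inferInstance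
@[reducible] noncomputable def a55.{u1, u2, u3} {x1 : Type u1} {x2 : Type u2} [x3 : CStarAlgebra x2] {x4 : Type u3} [x5 : Group x4] {x6 : x4 →* x2 ≃⋆ₐ[ℂ] x2} {x7 : Filter x1} : AddMonoid ↥(Vale.Agent.P095.ZS.fixSeq x6 x7) := inferInstance
@[reducible] noncomputable def a56.{u1, u2, u3} {x1 : Type u1} {x2 : Type u2} [x3 : CStarAlgebra x2] {x4 : Type u3} [x5 : Group x4] {x6 : x4 →* x2 ≃⋆ₐ[ℂ] x2} {x7 : Filter x1} : AddZeroClass ↥(Vale.Agent.P095.ZS.fixSeq x6 x7) := inferInstance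
@[reducible] noncomputable def a57.{u1, u2, u3} {x1 : Type u1} {x2 : Type u2} [x3 : CStarAlgebra x2] {x4 : Type u3} [x5 : Group x4] {x6 : x4 →* x2 ≃⋆ₐ[ℂ] x2} {x7 : Filter x1} : AddMonoidWithOne ↥(Vale.Agent.P095.ZS.fixSeq x6 x7) := inferInstance
@[reducible] noncomputable def a58.{u1, u2, u3} {x1 : ℕ → Type u1} {x2 : ℕ} {x3 : Type u2} [x4 : CStarAlgebra x3] {x5 : Type u3} [x6 : Group x5] {x7 : x5 →* x3 ≃⋆ₐ[ℂ] x3} {x8 : (n : ℕ) → Filter (x1 n)} : Ring ↥(Vale.Agent.P095.ZS.fixSeq x7 (x8 x2)) := inferInstance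
@[reducible] noncomputable def a59.{u1, u2} {x1 : Type u1} [x2 : CStarAlgebra x1] {x3 : Type u2} [x4 : Group x3] {x5 : @MonoidHom x3 (@StarAlgEquiv Complex x1 x1 (@Distrib.toAdd x1 (@instDistribOfSemiring x1 (@Ring.toSemiring x1 (@NormedRing.toRing x1 (@CStarAlgebra.toNormedRing x1 x2))))) (@Distrib.toAdd x1 (@instDistribOfSemiring x1 (@Ring.toSemiring x1 (@NormedRing.toRing x1 (@CStarAlgebra.toNormedRing x1 x2))))) (@Distrib.toMul x1 (@instDistribOfSemiring x1 (@Ring.toSemiring x1 (@NormedRing.toRing x1 (@CStarAlgebra.toNormedRing x1 x2))))) (@Distrib.toMul x1 (@instDistribOfSemiring x1 (@Ring.toSemiring x1 (@NormedRing.toRing x1 (@CStarAlgebra.toNormedRing x1 x2))))) (@Algebra.toSMul Complex x1 (@Semifield.toCommSemiring Complex (@Field.toSemifield Complex (@NormedField.toField Complex Complex.instNormedField))) (@Ring.toSemiring x1 (@SeminormedRing.toRing x1 (@NormedRing.toSeminormedRing x1 (@CStarAlgebra.toNormedRing x1 x2)))) (@NormedAlgebra.toAlgebra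 Complex x1 Complex.instNormedField (@NormedRing.toSeminormedRing x1 (@CStarAlgebra.toNormedRing x1 x2)) (@CStarAlgebra.toNormedAlgebra x1 x2))) (@Algebra.toSMul Complex x1 (@Semifield.toCommSemiring Complex (@Field.toSemifield Complex (@NormedField.toField Complex Complex.instNormedField))) (@Ring.toSemiring x1 (@SeminormedRing.toRing x1 (@NormedRing.toSeminormedRing x1 (@CStarAlgebra.toNormedRing x1 x2)))) (@NormedAlgebra.toAlgebra Complex x1 Complex.instNormedField (@NormedRing.toSeminormedRing x1 (@CStarAlgebra.toNormedRing x1 x2)) (@CStarAlgebra.toNormedAlgebra x1 x2))) (@InvolutiveStar.toStar x1 (@StarAddMonoid.toInvolutiveStar x1 (@AddCommMonoid.toAddMonoid x1 (@NonUnitalNonAssocSemiring.toAddCommMonoid x1 (@NonUnitalNonAssocRing.toNonUnitalNonAssocSemiring x1 (@NonAssocRing.toNonUnitalNonAssocRing x1 (@Ring.toNonAssocRing x1 (@NormedRing.toRing x1 (@CStarAlgebra.toNormedRing x1 x2))))))) (@StarRing.toStarAddMonoid x1 (@NonUnitalNonAssocRing.toNonUnitalNonAssocSemiring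 x1 (@NonAssocRing.toNonUnitalNonAssocRing x1 (@Ring.toNonAssocRing x1 (@NormedRing.toRing x1 (@CStarAlgebra.toNormedRing x1 x2))))) (@CStarAlgebra.toStarRing x1 x2)))) (@InvolutiveStar.toStar x1 (@StarAddMonoid.toInvolutiveStar x1 (@AddCommMonoid.toAddMonoid x1 (@NonUnitalNonAssocSemiring.toAddCommMonoid x1 (@NonUnitalNonAssocRing.toNonUnitalNonAssocSemiring x1 (@NonAssocRing.toNonUnitalNonAssocRing x1 (@Ring.toNonAssocRing x1 (@NormedRing.toRing x1 (@CStarAlgebra.toNormedRing x1 x2))))))) (@StarRing.toStarAddMonoid x1 (@NonUnitalNonAssocRing.toNonUnitalNonAssocSemiring x1 (@NonAssocRing.toNonUnitalNonAssocRing x1 (@Ring.toNonAssocRing x1 (@NormedRing.toRing x1 (@CStarAlgebra.toNormedRing x1 x2))))) (@CStarAlgebra.toStarRing x1 x2))))) (@MulOneClass.toMulOne x3 (@Monoid.toMulOneClass x3 (@DivInvMonoid.toMonoid x3 (@Group.toDivInvMonoid x3 x4)))) (@MulOneClass.toMulOne (@StarAlgEquiv Complex x1 x1 (@Distrib.toAdd x1 (@instDistribOfSemiring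 x1 (@Ring.toSemiring x1 (@NormedRing.toRing x1 (@CStarAlgebra.toNormedRing x1 x2))))) (@Distrib.toAdd x1 (@instDistribOfSemiring x1 (@Ring.toSemiring x1 (@NormedRing.toRing x1 (@CStarAlgebra.toNormedRing x1 x2))))) (@Distrib.toMul x1 (@instDistribOfSemiring x1 (@Ring.toSemiring x1 (@NormedRing.toRing x1 (@CStarAlgebra.toNormedRing x1 x2))))) (@Distrib.toMul x1 (@instDistribOfSemiring x1 (@Ring.toSemiring x1 (@NormedRing.toRing x1 (@CStarAlgebra.toNormedRing x1 x2))))) (@Algebra.toSMul Complex x1 (@Semifield.toCommSemiring Complex (@Field.toSemifield Complex (@NormedField.toField Complex Complex.instNormedField))) (@Ring.toSemiring x1 (@SeminormedRing.toRing x1 (@NormedRing.toSeminormedRing x1 (@CStarAlgebra.toNormedRing x1 x2)))) (@NormedAlgebra.toAlgebra Complex x1 Complex.instNormedField (@NormedRing.toSeminormedRing x1 (@CStarAlgebra.toNormedRing x1 x2)) (@CStarAlgebra.toNormedAlgebra x1 x2))) (@Algebra.toSMul Complex x1 (@Semifield.toCommSemiring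 Complex (@Field.toSemifield Complex (@NormedField.toField Complex Complex.instNormedField))) (@Ring.toSemiring x1 (@SeminormedRing.toRing x1 (@NormedRing.toSeminormedRing x1 (@CStarAlgebra.toNormedRing x1 x2)))) (@NormedAlgebra.toAlgebra Complex x1 Complex.instNormedField (@NormedRing.toSeminormedRing x1 (@CStarAlgebra.toNormedRing x1 x2)) (@CStarAlgebra.toNormedAlgebra x1 x2))) (@InvolutiveStar.toStar x1 (@StarAddMonoid.toInvolutiveStar x1 (@AddCommMonoid.toAddMonoid x1 (@NonUnitalNonAssocSemiring.toAddCommMonoid x1 (@NonUnitalNonAssocRing.toNonUnitalNonAssocSemiring x1 (@NonAssocRing.toNonUnitalNonAssocRing x1 (@Ring.toNonAssocRing x1 (@NormedRing.toRing x1 (@CStarAlgebra.toNormedRing x1 x2))))))) (@StarRing.toStarAddMonoid x1 (@NonUnitalNonAssocRing.toNonUnitalNonAssocSemiring x1 (@NonAssocRing.toNonUnitalNonAssocRing x1 (@Ring.toNonAssocRing x1 (@NormedRing.toRing x1 (@CStarAlgebra.toNormedRing x1 x2))))) (@CStarAlgebra.toStarRing x1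 x2)))) (@InvolutiveStar.toStar x1 (@StarAddMonoid.toInvolutiveStar x1 (@AddCommMonoid.toAddMonoid x1 (@NonUnitalNonAssocSemiring.toAddCommMonoid x1 (@NonUnitalNonAssocRing.toNonUnitalNonAssocSemiring x1 (@NonAssocRing.toNonUnitalNonAssocRing x1 (@Ring.toNonAssocRing x1 (@NormedRing.toRing x1 (@CStarAlgebra.toNormedRing x1 x2))))))) (@StarRing.toStarAddMonoid x1 (@NonUnitalNonAssocRing.toNonUnitalNonAssocSemiring x1 (@NonAssocRing.toNonUnitalNonAssocRing x1 (@Ring.toNonAssocRing x1 (@NormedRing.toRing x1 (@CStarAlgebra.toNormedRing x1 x2))))) (@CStarAlgebra.toStarRing x1 x2))))) (@Monoid.toMulOneClass (@StarAlgEquiv Complex x1 x1 (@Distrib.toAdd x1 (@instDistribOfSemiring x1 (@Ring.toSemiring x1 (@NormedRing.toRing x1 (@CStarAlgebra.toNormedRing x1 x2))))) (@Distrib.toAdd x1 (@instDistribOfSemiring x1 (@Ring.toSemiring x1 (@NormedRing.toRing x1 (@CStarAlgebra.toNormedRing x1 x2))))) (@Distrib.toMul x1 (@instDistribOfSemiring x1 (@Ring.toSemiring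 x1 (@NormedRing.toRing x1 (@CStarAlgebra.toNormedRing x1 x2))))) (@Distrib.toMul x1 (@instDistribOfSemiring x1 (@Ring.toSemiring x1 (@NormedRing.toRing x1 (@CStarAlgebra.toNormedRing x1 x2))))) (@Algebra.toSMul Complex x1 (@Semifield.toCommSemiring Complex (@Field.toSemifield Complex (@NormedField.toField Complex Complex.instNormedField))) (@Ring.toSemiring x1 (@SeminormedRing.toRing x1 (@NormedRing.toSeminormedRing x1 (@CStarAlgebra.toNormedRing x1 x2)))) (@NormedAlgebra.toAlgebra Complex x1 Complex.instNormedField (@NormedRing.toSeminormedRing x1 (@CStarAlgebra.toNormedRing x1 x2)) (@CStarAlgebra.toNormedAlgebra x1 x2))) (@Algebra.toSMul Complex x1 (@Semifield.toCommSemiring Complex (@Field.toSemifield Complex (@NormedField.toField Complex Complex.instNormedField))) (@Ring.toSemiring x1 (@SeminormedRing.toRing x1 (@NormedRing.toSeminormedRing x1 (@CStarAlgebra.toNormedRing x1 x2)))) (@NormedAlgebra.toAlgebra Complex x1 Complex.instNormedField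 (@NormedRing.toSeminormedRing x1 (@CStarAlgebra.toNormedRing x1 x2)) (@CStarAlgebra.toNormedAlgebra x1 x2))) (@InvolutiveStar.toStar x1 (@StarAddMonoid.toInvolutiveStar x1 (@AddCommMonoid.toAddMonoid x1 (@NonUnitalNonAssocSemiring.toAddCommMonoid x1 (@NonUnitalNonAssocRing.toNonUnitalNonAssocSemiring x1 (@NonAssocRing.toNonUnitalNonAssocRing x1 (@Ring.toNonAssocRing x1 (@NormedRing.toRing x1 (@CStarAlgebra.toNormedRing x1 x2))))))) (@StarRing.toStarAddMonoid x1 (@NonUnitalNonAssocRing.toNonUnitalNonAssocSemiring x1 (@NonAssocRing.toNonUnitalNonAssocRing x1 (@Ring.toNonAssocRing x1 (@NormedRing.toRing x1 (@CStarAlgebra.toNormedRing x1 x2))))) (@CStarAlgebra.toStarRing x1 x2)))) (@InvolutiveStar.toStar x1 (@StarAddMonoid.toInvolutiveStar x1 (@AddCommMonoid.toAddMonoid x1 (@NonUnitalNonAssocSemiring.toAddCommMonoid x1 (@NonUnitalNonAssocRing.toNonUnitalNonAssocSemiring x1 (@NonAssocRing.toNonUnitalNonAssocRing x1 (@Ring.toNonAssocRing x1 (@NormedRing.toRing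 x1 (@CStarAlgebra.toNormedRing x1 x2))))))) (@StarRing.toStarAddMonoid x1 (@NonUnitalNonAssocRing.toNonUnitalNonAssocSemiring x1 (@NonAssocRing.toNonUnitalNonAssocRing x1 (@Ring.toNonAssocRing x1 (@NormedRing.toRing x1 (@CStarAlgebra.toNormedRing x1 x2))))) (@CStarAlgebra.toStarRing x1 x2))))) (@DivInvMonoid.toMonoid (@StarAlgEquiv Complex x1 x1 (@Distrib.toAdd x1 (@instDistribOfSemiring x1 (@Ring.toSemiring x1 (@NormedRing.toRing x1 (@CStarAlgebra.toNormedRing x1 x2))))) (@Distrib.toAdd x1 (@instDistribOfSemiring x1 (@Ring.toSemiring x1 (@NormedRing.toRing x1 (@CStarAlgebra.toNormedRing x1 x2))))) (@Distrib.toMul x1 (@instDistribOfSemiring x1 (@Ring.toSemiring x1 (@NormedRing.toRing x1 (@CStarAlgebra.toNormedRing x1 x2))))) (@Distrib.toMul x1 (@instDistribOfSemiring x1 (@Ring.toSemiring x1 (@NormedRing.toRing x1 (@CStarAlgebra.toNormedRing x1 x2))))) (@Algebra.toSMul Complex x1 (@Semifield.toCommSemiring Complex (@Field.toSemifield Complex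 (@NormedField.toField Complex Complex.instNormedField))) (@Ring.toSemiring x1 (@SeminormedRing.toRing x1 (@NormedRing.toSeminormedRing x1 (@CStarAlgebra.toNormedRing x1 x2)))) (@NormedAlgebra.toAlgebra Complex x1 Complex.instNormedField (@NormedRing.toSeminormedRing x1 (@CStarAlgebra.toNormedRing x1 x2)) (@CStarAlgebra.toNormedAlgebra x1 x2))) (@Algebra.toSMul Complex x1 (@Semifield.toCommSemiring Complex (@Field.toSemifield Complex (@NormedField.toField Complex Complex.instNormedField))) (@Ring.toSemiring x1 (@SeminormedRing.toRing x1 (@NormedRing.toSeminormedRing x1 (@CStarAlgebra.toNormedRing x1 x2)))) (@NormedAlgebra.toAlgebra Complex x1 Complex.instNormedField (@NormedRing.toSeminormedRing x1 (@CStarAlgebra.toNormedRing x1 x2)) (@CStarAlgebra.toNormedAlgebra x1 x2))) (@InvolutiveStar.toStar x1 (@StarAddMonoid.toInvolutiveStar x1 (@AddCommMonoid.toAddMonoid x1 (@NonUnitalNonAssocSemiring.toAddCommMonoid x1 (@NonUnitalNonAssocRing.toNonUnitalNonAssocSemiring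 x1 (@NonAssocRing.toNonUnitalNonAssocRing x1 (@Ring.toNonAssocRing x1 (@NormedRing.toRing x1 (@CStarAlgebra.toNormedRing x1 x2))))))) (@StarRing.toStarAddMonoid x1 (@NonUnitalNonAssocRing.toNonUnitalNonAssocSemiring x1 (@NonAssocRing.toNonUnitalNonAssocRing x1 (@Ring.toNonAssocRing x1 (@NormedRing.toRing x1 (@CStarAlgebra.toNormedRing x1 x2))))) (@CStarAlgebra.toStarRing x1 x2)))) (@InvolutiveStar.toStar x1 (@StarAddMonoid.toInvolutiveStar x1 (@AddCommMonoid.toAddMonoid x1 (@NonUnitalNonAssocSemiring.toAddCommMonoid x1 (@NonUnitalNonAssocRing.toNonUnitalNonAssocSemiring x1 (@NonAssocRing.toNonUnitalNonAssocRing x1 (@Ring.toNonAssocRing x1 (@NormedRing.toRing x1 (@CStarAlgebra.toNormedRing x1 x2))))))) (@StarRing.toStarAddMonoid x1 (@NonUnitalNonAssocRing.toNonUnitalNonAssocSemiring x1 (@NonAssocRing.toNonUnitalNonAssocRing x1 (@Ring.toNonAssocRing x1 (@NormedRing.toRing x1 (@CStarAlgebra.toNormedRing x1 x2))))) (@CStarAlgebra.toStarRing x1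 x2))))) (@Group.toDivInvMonoid (@StarAlgEquiv Complex x1 x1 (@Distrib.toAdd x1 (@instDistribOfSemiring x1 (@Ring.toSemiring x1 (@NormedRing.toRing x1 (@CStarAlgebra.toNormedRing x1 x2))))) (@Distrib.toAdd x1 (@instDistribOfSemiring x1 (@Ring.toSemiring x1 (@NormedRing.toRing x1 (@CStarAlgebra.toNormedRing x1 x2))))) (@Distrib.toMul x1 (@instDistribOfSemiring x1 (@Ring.toSemiring x1 (@NormedRing.toRing x1 (@CStarAlgebra.toNormedRing x1 x2))))) (@Distrib.toMul x1 (@instDistribOfSemiring x1 (@Ring.toSemiring x1 (@NormedRing.toRing x1 (@CStarAlgebra.toNormedRing x1 x2))))) (@Algebra.toSMul Complex x1 (@Semifield.toCommSemiring Complex (@Field.toSemifield Complex (@NormedField.toField Complex Complex.instNormedField))) (@Ring.toSemiring x1 (@SeminormedRing.toRing x1 (@NormedRing.toSeminormedRing x1 (@CStarAlgebra.toNormedRing x1 x2)))) (@NormedAlgebra.toAlgebra Complex x1 Complex.instNormedField (@NormedRing.toSeminormedRing x1 (@CStarAlgebra.toNormedRing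 x1 x2)) (@CStarAlgebra.toNormedAlgebra x1 x2))) (@Algebra.toSMul Complex x1 (@Semifield.toCommSemiring Complex (@Field.toSemifield Complex (@NormedField.toField Complex Complex.instNormedField))) (@Ring.toSemiring x1 (@SeminormedRing.toRing x1 (@NormedRing.toSeminormedRing x1 (@CStarAlgebra.toNormedRing x1 x2)))) (@NormedAlgebra.toAlgebra Complex x1 Complex.instNormedField (@NormedRing.toSeminormedRing x1 (@CStarAlgebra.toNormedRing x1 x2)) (@CStarAlgebra.toNormedAlgebra x1 x2))) (@InvolutiveStar.toStar x1 (@StarAddMonoid.toInvolutiveStar x1 (@AddCommMonoid.toAddMonoid x1 (@NonUnitalNonAssocSemiring.toAddCommMonoid x1 (@NonUnitalNonAssocRing.toNonUnitalNonAssocSemiring x1 (@NonAssocRing.toNonUnitalNonAssocRing x1 (@Ring.toNonAssocRing x1 (@NormedRing.toRing x1 (@CStarAlgebra.toNormedRing x1 x2))))))) (@StarRing.toStarAddMonoid x1 (@NonUnitalNonAssocRing.toNonUnitalNonAssocSemiring x1 (@NonAssocRing.toNonUnitalNonAssocRing x1 (@Ring.toNonAssocRing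 x1 (@NormedRing.toRing x1 (@CStarAlgebra.toNormedRing x1 x2))))) (@CStarAlgebra.toStarRing x1 x2)))) (@InvolutiveStar.toStar x1 (@StarAddMonoid.toInvolutiveStar x1 (@AddCommMonoid.toAddMonoid x1 (@NonUnitalNonAssocSemiring.toAddCommMonoid x1 (@NonUnitalNonAssocRing.toNonUnitalNonAssocSemiring x1 (@NonAssocRing.toNonUnitalNonAssocRing x1 (@Ring.toNonAssocRing x1 (@NormedRing.toRing x1 (@CStarAlgebra.toNormedRing x1 x2))))))) (@StarRing.toStarAddMonoid x1 (@NonUnitalNonAssocRing.toNonUnitalNonAssocSemiring x1 (@NonAssocRing.toNonUnitalNonAssocRing x1 (@Ring.toNonAssocRing x1 (@NormedRing.toRing x1 (@CStarAlgebra.toNormedRing x1 x2))))) (@CStarAlgebra.toStarRing x1 x2))))) (@StarAlgEquiv.aut Complex x1 (@Distrib.toMul x1 (@instDistribOfSemiring x1 (@Ring.toSemiring x1 (@NormedRing.toRing x1 (@CStarAlgebra.toNormedRing x1 x2))))) (@Distrib.toAdd x1 (@instDistribOfSemiring x1 (@Ring.toSemiring x1 (@NormedRing.toRing x1 (@CStarAlgebra.toNormedRing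 x1 x2))))) (@InvolutiveStar.toStar x1 (@StarAddMonoid.toInvolutiveStar x1 (@AddCommMonoid.toAddMonoid x1 (@NonUnitalNonAssocSemiring.toAddCommMonoid x1 (@NonUnitalNonAssocRing.toNonUnitalNonAssocSemiring x1 (@NonAssocRing.toNonUnitalNonAssocRing x1 (@Ring.toNonAssocRing x1 (@NormedRing.toRing x1 (@CStarAlgebra.toNormedRing x1 x2))))))) (@StarRing.toStarAddMonoid x1 (@NonUnitalNonAssocRing.toNonUnitalNonAssocSemiring x1 (@NonAssocRing.toNonUnitalNonAssocRing x1 (@Ring.toNonAssocRing x1 (@NormedRing.toRing x1 (@CStarAlgebra.toNormedRing x1 x2))))) (@CStarAlgebra.toStarRing x1 x2)))) (@Algebra.toSMul Complex x1 (@Semifield.toCommSemiring Complex (@Field.toSemifield Complex (@NormedField.toField Complex Complex.instNormedField))) (@Ring.toSemiring x1 (@SeminormedRing.toRing x1 (@NormedRing.toSeminormedRing x1 (@CStarAlgebra.toNormedRing x1 x2)))) (@NormedAlgebra.toAlgebra Complex x1 Complex.instNormedField (@NormedRing.toSeminormedRing x1 (@CStarAlgebra.toNormedRing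 x1 x2)) (@CStarAlgebra.toNormedAlgebra x1 x2))))))))} : Ring ↥(@Vale.Agent.P095.ZS.fixSeq x1 x2 x3 x4 x5 Nat (@Filter.atTop Nat Nat.instPreorder)) := inferInstance
@[reducible] def a60.{u1} {x1 : Type} {x2 : Type u1} {x3 : x1} [x4 : CStarAlgebra x2] : StarMul ((fun a => x2) x3) := inferInstance
theorem a61.{u1} {x1 : Type} {x2 : Type u1} [x3 : CStarAlgebra x2] : SubsemiringClass (StarSubalgebra ℂ (x1 → x2)) (x1 → x2) := inferInstance
@[reducible] noncomputable def a62 {x1 : ℕ} {x2 : ℕ} : Semiring C(↑unitInterval, Matrix (Fin x1 × Fin x2) (Fin x1 × Fin x2) ℂ) := inferInstance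
theorem a63.{u1} {x1 : Type u1} {x2 : Type u1} [x3 : CStarAlgebra x1] [x4 : CStarAlgebra x2] {x5 : Type u1} [x6 : CStarAlgebra x5] : ZeroHomClass (TensorProduct ℂ x1 x2 →ₐ[ℂ] x5) (TensorProduct ℂ x1 x2) x5 := inferInstance
theorem a64.{u1} {x1 : Type u1} {x2 : Type u1} [x3 : CStarAlgebra x1] [x4 : CStarAlgebra x2] {x5 : Type u1} [x6 : CStarAlgebra x5] : MonoidWithZeroHomClass (TensorProduct ℂ x1 x2 →ₐ[ℂ] x5) (TensorProduct ℂ x1 x2) x5 := inferInstance
end AFast58214ex16a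
attribute [local instance] AFast58214ex16a.a0 AFast58214ex16a.a1 AFast58214ex16a.a2
  AFast58214ex16a.a3 AFast58214ex16a.a4 AFast58214ex16a.a5 AFast58214ex16a.a6 AFast58214ex16a.a7
  AFast58214ex16a.a8 AFast58214ex16a.a9 AFast58214ex16a.a10 AFast58214ex16a.a11
  AFast58214ex16a.a12 AFast58214ex16a.a13 AFast58214ex16a.a14 AFast58214ex16a.a15
  AFast58214ex16a.a16 AFast58214ex16a.a17 AFast58214ex16a.a18 AFast58214ex16a.a19
  AFast58214ex16a.a20 AFast58214ex16a.a21 AFast58214ex16a.a22 AFast58214ex16a.a23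
  AFast58214ex16a.a24 AFast58214ex16a.a25 AFast58214ex16a.a26 AFast58214ex16a.a27
  AFast58214ex16a.a28 AFast58214ex16a.a29 AFast58214ex16a.a30 AFast58214ex16a.a31
  AFast58214ex16a.a32 AFast58214ex16a.a33 AFast58214ex16a.a34 AFast58214ex16a.a35
  AFast58214ex16a.a36 AFast58214ex16a.a37 AFast58214ex16a.a38 AFast58214ex16a.a39
  AFast58214ex16a.a40 AFast58214ex16a.a41 AFast58214ex16a.a42 AFast58214ex16a.a43
  AFast58214ex16a.a44 AFast58214ex16a.a45 AFast58214ex16a.a46 AFast58214ex16a.a47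
  AFast58214ex16a.a48 AFast58214ex16a.a49 AFast58214ex16a.a50 AFast58214ex16a.a51
  AFast58214ex16a.a52 AFast58214ex16a.a53 AFast58214ex16a.a54 AFast58214ex16a.a55
  AFast58214ex16a.a56 AFast58214ex16a.a57 AFast58214ex16a.a58 AFast58214ex16a.a59
  AFast58214ex16a.a60 AFast58214ex16a.a61 AFast58214ex16a.a62 AFast58214ex16a.a63
  AFast58214ex16a.a64
namespace AFast58214ex16b
@[reducible] noncomputable def a0.{u1, u2, u3} {x1 : Type u1} [x2 : CStarAlgebra x1] {x3 : Type u2} [x4 : Group x3] {x5 : x3 →* x1 ≃⋆ₐ[ℂ] x1} {x6 : Type u3} {x7 : Filter x6} : StarAddMonoid (Vale.Agent.P095.ZS.Fa x5 x7) := inferInstance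
@[reducible] noncomputable def a1.{u1, u2} {x1 : Type u1} [x2 : CStarAlgebra x1] {x3 : Type u2} [x4 : Group x3] {x5 : x3 →* x1 ≃⋆ₐ[ℂ] x1} {x6 : Type} {x7 : Filter x6} : StarAddMonoid (Vale.Agent.P095.ZS.Fa x5 x7) := inferInstance
@[reducible] noncomputable def a2.{u1, u2, u3} {x1 : Type u1} [x2 : CStarAlgebra x1] {x3 : Type u2} [x4 : Group x3] {x5 : x3 →* x1 ≃⋆ₐ[ℂ] x1} {x6 : Type u3} {x7 : Filter x6} : Star (Vale.Agent.P095.ZS.Fa x5 x7) := inferInstance
@[reducible] noncomputable def a3.{u1, u2, u3} {x1 : Type u1} [x2 : CStarAlgebra x1] {x3 : Type u2} [x4 : Group x3] {x5 : x3 →* x1 ≃⋆ₐ[ℂ] x1} {x6 : Type u3} {x7 : Filter x6} : InvolutiveStar (Vale.Agent.P095.ZS.Fa x5 x7) := inferInstance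
@[reducible] noncomputable def a4.{u1, u2} {x1 : Type u1} [x2 : CStarAlgebra x1] {x3 : Type u2} [x4 : Group x3] {x5 : x3 →* x1 ≃⋆ₐ[ℂ] x1} {x6 : Type} {x7 : Filter x6} : Star (Vale.Agent.P095.ZS.Fa x5 x7) := inferInstance
@[reducible] noncomputable def a5.{u1, u2} {x1 : Type u1} [x2 : CStarAlgebra x1] {x3 : Type u2} [x4 : Group x3] {x5 : x3 →* x1 ≃⋆ₐ[ℂ] x1} {x6 : Type} {x7 : Filter x6} : InvolutiveStar (Vale.Agent.P095.ZS.Fa x5 x7) := inferInstance
theorem a6.{u1} {x1 : Type u1} [x2 : CStarAlgebra x1] : NonUnitalStarRingHomClass (x1 ≃⋆ₐ[ℂ] x1) x1 x1 := inferInstance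
theorem a7.{u1} {x1 : Type u1} [x2 : CStarAlgebra x1] : StarHomClass (x1 ≃⋆ₐ[ℂ] x1) x1 x1 := inferInstance
@[reducible] noncomputable def a8 {x1 : ℕ} {x2 : ℕ} : Semiring ↥(Vale.Agent.P101.dimDrop x1 x2) := inferInstance
@[reducible] noncomputable def a9.{u1} {x1 : Type u1} [x2 : NonUnitalCStarAlgebra x1] : Module ℂ (DoubleCentralizer ℂ x1) := inferInstance
@[reducible] noncomputable def a10 {x1 : ℕ} {x2 : ℕ} : Ring ↥(Vale.Agent.P101.dimDrop x1 x2) := inferInstance
@[reducible] noncomputable def a11.{u1} {x1 : Type u1} [x2 : NonUnitalCStarAlgebra x1] : DistribMulAction ℂ (DoubleCentralizer ℂ x1) := inferInstance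
theorem a12.{u1} {x1 : Type u1} {x2 : Type u1} [x3 : CStarAlgebra x1] [x4 : CStarAlgebra x2] {x5 : Type u1} [x6 : CStarAlgebra x5] : AddHomClass (TensorProduct ℂ x1 x2 →ₐ[ℂ] x5) (TensorProduct ℂ x1 x2) x5 := inferInstance
@[reducible] noncomputable def a13 {x1 : ℕ → ℕ} {x2 : ℕ} {x3 : ℕ → ℕ} : Add ↥(Vale.Agent.P101.dimDrop (x1 x2) (x3 x2)) := inferInstance
@[reducible] noncomputable def a14 {x1 : ℕ → ℕ} {x2 : ℕ} {x3 : ℕ → ℕ} : Mul ↥(Vale.Agent.P101.dimDrop (x1 x2) (x3 x2)) := inferInstance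
@[reducible] noncomputable def a15 {x1 : ℕ → ℕ} {x2 : ℕ} {x3 : ℕ → ℕ} : Distrib ↥(Vale.Agent.P101.dimDrop (x1 x2) (x3 x2)) := inferInstance
@[reducible] noncomputable def a16 {x1 : ℕ → ℕ} {x2 : ℕ} {x3 : ℕ → ℕ} : Semiring ↥(Vale.Agent.P101.dimDrop (x1 x2) (x3 x2)) := inferInstance
theorem a17.{u1} {x1 : Type u1} {x2 : Type u1} [x3 : CStarAlgebra x1] [x4 : CStarAlgebra x2] {x5 : Type u1} [x6 : CStarAlgebra x5] : LinearMapClass (TensorProduct ℂ x1 x2 →ₐ[ℂ] x5) ℂ (TensorProduct ℂ x1 x2) x5 := inferInstance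
@[reducible] noncomputable def a18.{u1, u2, u3} {x1 : Type u1} [x2 : CStarAlgebra x1] {x3 : Type u2} [x4 : Group x3] {x5 : x3 →* x1 ≃⋆ₐ[ℂ] x1} {x6 : ℕ → Type u3} {x7 : ℕ} {x8 : (n : ℕ) → Filter (x6 n)} : StarAddMonoid (Vale.Agent.P095.ZS.Fa x5 (x8 x7)) := inferInstance
@[reducible] noncomputable def a19.{u1, u2} {x1 : Type u1} [x2 : CStarAlgebra x1] {x3 : Type u2} [x4 : Group x3] {x5 : x3 →* x1 ≃⋆ₐ[ℂ] x1} {x6 : Type} {x7 : Type} {x8 : Filter x6} {x9 : Filter x7} : StarAddMonoid (Vale.Agent.P095.ZS.Fa x5 (x8.curry x9)) := inferInstance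
@[reducible] noncomputable def a20.{u1, u2} {x1 : Type u1} [x2 : CStarAlgebra x1] {x3 : Type u2} [x4 : Group x3] {x5 : @MonoidHom x3 (@StarAlgEquiv Complex x1 x1 (@Distrib.toAdd x1 (@instDistribOfSemiring x1 (@Ring.toSemiring x1 (@NormedRing.toRing x1 (@CStarAlgebra.toNormedRing x1 x2))))) (@Distrib.toAdd x1 (@instDistribOfSemiring x1 (@Ring.toSemiring x1 (@NormedRing.toRing x1 (@CStarAlgebra.toNormedRing x1 x2))))) (@Distrib.toMul x1 (@instDistribOfSemiring x1 (@Ring.toSemiring x1 (@NormedRing.toRing x1 (@CStarAlgebra.toNormedRing x1 x2))))) (@Distrib.toMul x1 (@instDistribOfSemiring x1 (@Ring.toSemiring x1 (@NormedRing.toRing x1 (@CStarAlgebra.toNormedRing x1 x2))))) (@Algebra.toSMul Complex x1 (@Semifield.toCommSemiring Complex (@Field.toSemifield Complex (@NormedField.toField Complex Complex.instNormedField))) (@Ring.toSemiring x1 (@SeminormedRing.toRing x1 (@NormedRing.toSeminormedRing x1 (@CStarAlgebra.toNormedRing x1 x2)))) (@NormedAlgebra.toAlgebra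 Complex x1 Complex.instNormedField (@NormedRing.toSeminormedRing x1 (@CStarAlgebra.toNormedRing x1 x2)) (@CStarAlgebra.toNormedAlgebra x1 x2))) (@Algebra.toSMul Complex x1 (@Semifield.toCommSemiring Complex (@Field.toSemifield Complex (@NormedField.toField Complex Complex.instNormedField))) (@Ring.toSemiring x1 (@SeminormedRing.toRing x1 (@NormedRing.toSeminormedRing x1 (@CStarAlgebra.toNormedRing x1 x2)))) (@NormedAlgebra.toAlgebra Complex x1 Complex.instNormedField (@NormedRing.toSeminormedRing x1 (@CStarAlgebra.toNormedRing x1 x2)) (@CStarAlgebra.toNormedAlgebra x1 x2))) (@InvolutiveStar.toStar x1 (@StarAddMonoid.toInvolutiveStar x1 (@AddCommMonoid.toAddMonoid x1 (@NonUnitalNonAssocSemiring.toAddCommMonoid x1 (@NonUnitalNonAssocRing.toNonUnitalNonAssocSemiring x1 (@NonAssocRing.toNonUnitalNonAssocRing x1 (@Ring.toNonAssocRing x1 (@NormedRing.toRing x1 (@CStarAlgebra.toNormedRing x1 x2))))))) (@StarRing.toStarAddMonoid x1 (@NonUnitalNonAssocRing.toNonUnitalNonAssocSemiring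 x1 (@NonAssocRing.toNonUnitalNonAssocRing x1 (@Ring.toNonAssocRing x1 (@NormedRing.toRing x1 (@CStarAlgebra.toNormedRing x1 x2))))) (@CStarAlgebra.toStarRing x1 x2)))) (@InvolutiveStar.toStar x1 (@StarAddMonoid.toInvolutiveStar x1 (@AddCommMonoid.toAddMonoid x1 (@NonUnitalNonAssocSemiring.toAddCommMonoid x1 (@NonUnitalNonAssocRing.toNonUnitalNonAssocSemiring x1 (@NonAssocRing.toNonUnitalNonAssocRing x1 (@Ring.toNonAssocRing x1 (@NormedRing.toRing x1 (@CStarAlgebra.toNormedRing x1 x2))))))) (@StarRing.toStarAddMonoid x1 (@NonUnitalNonAssocRing.toNonUnitalNonAssocSemiring x1 (@NonAssocRing.toNonUnitalNonAssocRing x1 (@Ring.toNonAssocRing x1 (@NormedRing.toRing x1 (@CStarAlgebra.toNormedRing x1 x2))))) (@CStarAlgebra.toStarRing x1 x2))))) (@MulOneClass.toMulOne x3 (@Monoid.toMulOneClass x3 (@DivInvMonoid.toMonoid x3 (@Group.toDivInvMonoid x3 x4)))) (@MulOneClass.toMulOne (@StarAlgEquiv Complex x1 x1 (@Distrib.toAdd x1 (@instDistribOfSemiring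 x1 (@Ring.toSemiring x1 (@NormedRing.toRing x1 (@CStarAlgebra.toNormedRing x1 x2))))) (@Distrib.toAdd x1 (@instDistribOfSemiring x1 (@Ring.toSemiring x1 (@NormedRing.toRing x1 (@CStarAlgebra.toNormedRing x1 x2))))) (@Distrib.toMul x1 (@instDistribOfSemiring x1 (@Ring.toSemiring x1 (@NormedRing.toRing x1 (@CStarAlgebra.toNormedRing x1 x2))))) (@Distrib.toMul x1 (@instDistribOfSemiring x1 (@Ring.toSemiring x1 (@NormedRing.toRing x1 (@CStarAlgebra.toNormedRing x1 x2))))) (@Algebra.toSMul Complex x1 (@Semifield.toCommSemiring Complex (@Field.toSemifield Complex (@NormedField.toField Complex Complex.instNormedField))) (@Ring.toSemiring x1 (@SeminormedRing.toRing x1 (@NormedRing.toSeminormedRing x1 (@CStarAlgebra.toNormedRing x1 x2)))) (@NormedAlgebra.toAlgebra Complex x1 Complex.instNormedField (@NormedRing.toSeminormedRing x1 (@CStarAlgebra.toNormedRing x1 x2)) (@CStarAlgebra.toNormedAlgebra x1 x2))) (@Algebra.toSMul Complex x1 (@Semifield.toCommSemiring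 Complex (@Field.toSemifield Complex (@NormedField.toField Complex Complex.instNormedField))) (@Ring.toSemiring x1 (@SeminormedRing.toRing x1 (@NormedRing.toSeminormedRing x1 (@CStarAlgebra.toNormedRing x1 x2)))) (@NormedAlgebra.toAlgebra Complex x1 Complex.instNormedField (@NormedRing.toSeminormedRing x1 (@CStarAlgebra.toNormedRing x1 x2)) (@CStarAlgebra.toNormedAlgebra x1 x2))) (@InvolutiveStar.toStar x1 (@StarAddMonoid.toInvolutiveStar x1 (@AddCommMonoid.toAddMonoid x1 (@NonUnitalNonAssocSemiring.toAddCommMonoid x1 (@NonUnitalNonAssocRing.toNonUnitalNonAssocSemiring x1 (@NonAssocRing.toNonUnitalNonAssocRing x1 (@Ring.toNonAssocRing x1 (@NormedRing.toRing x1 (@CStarAlgebra.toNormedRing x1 x2))))))) (@StarRing.toStarAddMonoid x1 (@NonUnitalNonAssocRing.toNonUnitalNonAssocSemiring x1 (@NonAssocRing.toNonUnitalNonAssocRing x1 (@Ring.toNonAssocRing x1 (@NormedRing.toRing x1 (@CStarAlgebra.toNormedRing x1 x2))))) (@CStarAlgebra.toStarRing x1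 x2)))) (@InvolutiveStar.toStar x1 (@StarAddMonoid.toInvolutiveStar x1 (@AddCommMonoid.toAddMonoid x1 (@NonUnitalNonAssocSemiring.toAddCommMonoid x1 (@NonUnitalNonAssocRing.toNonUnitalNonAssocSemiring x1 (@NonAssocRing.toNonUnitalNonAssocRing x1 (@Ring.toNonAssocRing x1 (@NormedRing.toRing x1 (@CStarAlgebra.toNormedRing x1 x2))))))) (@StarRing.toStarAddMonoid x1 (@NonUnitalNonAssocRing.toNonUnitalNonAssocSemiring x1 (@NonAssocRing.toNonUnitalNonAssocRing x1 (@Ring.toNonAssocRing x1 (@NormedRing.toRing x1 (@CStarAlgebra.toNormedRing x1 x2))))) (@CStarAlgebra.toStarRing x1 x2))))) (@Monoid.toMulOneClass (@StarAlgEquiv Complex x1 x1 (@Distrib.toAdd x1 (@instDistribOfSemiring x1 (@Ring.toSemiring x1 (@NormedRing.toRing x1 (@CStarAlgebra.toNormedRing x1 x2))))) (@Distrib.toAdd x1 (@instDistribOfSemiring x1 (@Ring.toSemiring x1 (@NormedRing.toRing x1 (@CStarAlgebra.toNormedRing x1 x2))))) (@Distrib.toMul x1 (@instDistribOfSemiring x1 (@Ring.toSemiring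 x1 (@NormedRing.toRing x1 (@CStarAlgebra.toNormedRing x1 x2))))) (@Distrib.toMul x1 (@instDistribOfSemiring x1 (@Ring.toSemiring x1 (@NormedRing.toRing x1 (@CStarAlgebra.toNormedRing x1 x2))))) (@Algebra.toSMul Complex x1 (@Semifield.toCommSemiring Complex (@Field.toSemifield Complex (@NormedField.toField Complex Complex.instNormedField))) (@Ring.toSemiring x1 (@SeminormedRing.toRing x1 (@NormedRing.toSeminormedRing x1 (@CStarAlgebra.toNormedRing x1 x2)))) (@NormedAlgebra.toAlgebra Complex x1 Complex.instNormedField (@NormedRing.toSeminormedRing x1 (@CStarAlgebra.toNormedRing x1 x2)) (@CStarAlgebra.toNormedAlgebra x1 x2))) (@Algebra.toSMul Complex x1 (@Semifield.toCommSemiring Complex (@Field.toSemifield Complex (@NormedField.toField Complex Complex.instNormedField))) (@Ring.toSemiring x1 (@SeminormedRing.toRing x1 (@NormedRing.toSeminormedRing x1 (@CStarAlgebra.toNormedRing x1 x2)))) (@NormedAlgebra.toAlgebra Complex x1 Complex.instNormedField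 (@NormedRing.toSeminormedRing x1 (@CStarAlgebra.toNormedRing x1 x2)) (@CStarAlgebra.toNormedAlgebra x1 x2))) (@InvolutiveStar.toStar x1 (@StarAddMonoid.toInvolutiveStar x1 (@AddCommMonoid.toAddMonoid x1 (@NonUnitalNonAssocSemiring.toAddCommMonoid x1 (@NonUnitalNonAssocRing.toNonUnitalNonAssocSemiring x1 (@NonAssocRing.toNonUnitalNonAssocRing x1 (@Ring.toNonAssocRing x1 (@NormedRing.toRing x1 (@CStarAlgebra.toNormedRing x1 x2))))))) (@StarRing.toStarAddMonoid x1 (@NonUnitalNonAssocRing.toNonUnitalNonAssocSemiring x1 (@NonAssocRing.toNonUnitalNonAssocRing x1 (@Ring.toNonAssocRing x1 (@NormedRing.toRing x1 (@CStarAlgebra.toNormedRing x1 x2))))) (@CStarAlgebra.toStarRing x1 x2)))) (@InvolutiveStar.toStar x1 (@StarAddMonoid.toInvolutiveStar x1 (@AddCommMonoid.toAddMonoid x1 (@NonUnitalNonAssocSemiring.toAddCommMonoid x1 (@NonUnitalNonAssocRing.toNonUnitalNonAssocSemiring x1 (@NonAssocRing.toNonUnitalNonAssocRing x1 (@Ring.toNonAssocRing x1 (@NormedRing.toRing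 x1 (@CStarAlgebra.toNormedRing x1 x2))))))) (@StarRing.toStarAddMonoid x1 (@NonUnitalNonAssocRing.toNonUnitalNonAssocSemiring x1 (@NonAssocRing.toNonUnitalNonAssocRing x1 (@Ring.toNonAssocRing x1 (@NormedRing.toRing x1 (@CStarAlgebra.toNormedRing x1 x2))))) (@CStarAlgebra.toStarRing x1 x2))))) (@DivInvMonoid.toMonoid (@StarAlgEquiv Complex x1 x1 (@Distrib.toAdd x1 (@instDistribOfSemiring x1 (@Ring.toSemiring x1 (@NormedRing.toRing x1 (@CStarAlgebra.toNormedRing x1 x2))))) (@Distrib.toAdd x1 (@instDistribOfSemiring x1 (@Ring.toSemiring x1 (@NormedRing.toRing x1 (@CStarAlgebra.toNormedRing x1 x2))))) (@Distrib.toMul x1 (@instDistribOfSemiring x1 (@Ring.toSemiring x1 (@NormedRing.toRing x1 (@CStarAlgebra.toNormedRing x1 x2))))) (@Distrib.toMul x1 (@instDistribOfSemiring x1 (@Ring.toSemiring x1 (@NormedRing.toRing x1 (@CStarAlgebra.toNormedRing x1 x2))))) (@Algebra.toSMul Complex x1 (@Semifield.toCommSemiring Complex (@Field.toSemifield Complex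 (@NormedField.toField Complex Complex.instNormedField))) (@Ring.toSemiring x1 (@SeminormedRing.toRing x1 (@NormedRing.toSeminormedRing x1 (@CStarAlgebra.toNormedRing x1 x2)))) (@NormedAlgebra.toAlgebra Complex x1 Complex.instNormedField (@NormedRing.toSeminormedRing x1 (@CStarAlgebra.toNormedRing x1 x2)) (@CStarAlgebra.toNormedAlgebra x1 x2))) (@Algebra.toSMul Complex x1 (@Semifield.toCommSemiring Complex (@Field.toSemifield Complex (@NormedField.toField Complex Complex.instNormedField))) (@Ring.toSemiring x1 (@SeminormedRing.toRing x1 (@NormedRing.toSeminormedRing x1 (@CStarAlgebra.toNormedRing x1 x2)))) (@NormedAlgebra.toAlgebra Complex x1 Complex.instNormedField (@NormedRing.toSeminormedRing x1 (@CStarAlgebra.toNormedRing x1 x2)) (@CStarAlgebra.toNormedAlgebra x1 x2))) (@InvolutiveStar.toStar x1 (@StarAddMonoid.toInvolutiveStar x1 (@AddCommMonoid.toAddMonoid x1 (@NonUnitalNonAssocSemiring.toAddCommMonoid x1 (@NonUnitalNonAssocRing.toNonUnitalNonAssocSemiring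 x1 (@NonAssocRing.toNonUnitalNonAssocRing x1 (@Ring.toNonAssocRing x1 (@NormedRing.toRing x1 (@CStarAlgebra.toNormedRing x1 x2))))))) (@StarRing.toStarAddMonoid x1 (@NonUnitalNonAssocRing.toNonUnitalNonAssocSemiring x1 (@NonAssocRing.toNonUnitalNonAssocRing x1 (@Ring.toNonAssocRing x1 (@NormedRing.toRing x1 (@CStarAlgebra.toNormedRing x1 x2))))) (@CStarAlgebra.toStarRing x1 x2)))) (@InvolutiveStar.toStar x1 (@StarAddMonoid.toInvolutiveStar x1 (@AddCommMonoid.toAddMonoid x1 (@NonUnitalNonAssocSemiring.toAddCommMonoid x1 (@NonUnitalNonAssocRing.toNonUnitalNonAssocSemiring x1 (@NonAssocRing.toNonUnitalNonAssocRing x1 (@Ring.toNonAssocRing x1 (@NormedRing.toRing x1 (@CStarAlgebra.toNormedRing x1 x2))))))) (@StarRing.toStarAddMonoid x1 (@NonUnitalNonAssocRing.toNonUnitalNonAssocSemiring x1 (@NonAssocRing.toNonUnitalNonAssocRing x1 (@Ring.toNonAssocRing x1 (@NormedRing.toRing x1 (@CStarAlgebra.toNormedRing x1 x2))))) (@CStarAlgebra.toStarRing x1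 x2))))) (@Group.toDivInvMonoid (@StarAlgEquiv Complex x1 x1 (@Distrib.toAdd x1 (@instDistribOfSemiring x1 (@Ring.toSemiring x1 (@NormedRing.toRing x1 (@CStarAlgebra.toNormedRing x1 x2))))) (@Distrib.toAdd x1 (@instDistribOfSemiring x1 (@Ring.toSemiring x1 (@NormedRing.toRing x1 (@CStarAlgebra.toNormedRing x1 x2))))) (@Distrib.toMul x1 (@instDistribOfSemiring x1 (@Ring.toSemiring x1 (@NormedRing.toRing x1 (@CStarAlgebra.toNormedRing x1 x2))))) (@Distrib.toMul x1 (@instDistribOfSemiring x1 (@Ring.toSemiring x1 (@NormedRing.toRing x1 (@CStarAlgebra.toNormedRing x1 x2))))) (@Algebra.toSMul Complex x1 (@Semifield.toCommSemiring Complex (@Field.toSemifield Complex (@NormedField.toField Complex Complex.instNormedField))) (@Ring.toSemiring x1 (@SeminormedRing.toRing x1 (@NormedRing.toSeminormedRing x1 (@CStarAlgebra.toNormedRing x1 x2)))) (@NormedAlgebra.toAlgebra Complex x1 Complex.instNormedField (@NormedRing.toSeminormedRing x1 (@CStarAlgebra.toNormedRing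 x1 x2)) (@CStarAlgebra.toNormedAlgebra x1 x2))) (@Algebra.toSMul Complex x1 (@Semifield.toCommSemiring Complex (@Field.toSemifield Complex (@NormedField.toField Complex Complex.instNormedField))) (@Ring.toSemiring x1 (@SeminormedRing.toRing x1 (@NormedRing.toSeminormedRing x1 (@CStarAlgebra.toNormedRing x1 x2)))) (@NormedAlgebra.toAlgebra Complex x1 Complex.instNormedField (@NormedRing.toSeminormedRing x1 (@CStarAlgebra.toNormedRing x1 x2)) (@CStarAlgebra.toNormedAlgebra x1 x2))) (@InvolutiveStar.toStar x1 (@StarAddMonoid.toInvolutiveStar x1 (@AddCommMonoid.toAddMonoid x1 (@NonUnitalNonAssocSemiring.toAddCommMonoid x1 (@NonUnitalNonAssocRing.toNonUnitalNonAssocSemiring x1 (@NonAssocRing.toNonUnitalNonAssocRing x1 (@Ring.toNonAssocRing x1 (@NormedRing.toRing x1 (@CStarAlgebra.toNormedRing x1 x2))))))) (@StarRing.toStarAddMonoid x1 (@NonUnitalNonAssocRing.toNonUnitalNonAssocSemiring x1 (@NonAssocRing.toNonUnitalNonAssocRing x1 (@Ring.toNonAssocRing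 x1 (@NormedRing.toRing x1 (@CStarAlgebra.toNormedRing x1 x2))))) (@CStarAlgebra.toStarRing x1 x2)))) (@InvolutiveStar.toStar x1 (@StarAddMonoid.toInvolutiveStar x1 (@AddCommMonoid.toAddMonoid x1 (@NonUnitalNonAssocSemiring.toAddCommMonoid x1 (@NonUnitalNonAssocRing.toNonUnitalNonAssocSemiring x1 (@NonAssocRing.toNonUnitalNonAssocRing x1 (@Ring.toNonAssocRing x1 (@NormedRing.toRing x1 (@CStarAlgebra.toNormedRing x1 x2))))))) (@StarRing.toStarAddMonoid x1 (@NonUnitalNonAssocRing.toNonUnitalNonAssocSemiring x1 (@NonAssocRing.toNonUnitalNonAssocRing x1 (@Ring.toNonAssocRing x1 (@NormedRing.toRing x1 (@CStarAlgebra.toNormedRing x1 x2))))) (@CStarAlgebra.toStarRing x1 x2))))) (@StarAlgEquiv.aut Complex x1 (@Distrib.toMul x1 (@instDistribOfSemiring x1 (@Ring.toSemiring x1 (@NormedRing.toRing x1 (@CStarAlgebra.toNormedRing x1 x2))))) (@Distrib.toAdd x1 (@instDistribOfSemiring x1 (@Ring.toSemiring x1 (@NormedRing.toRing x1 (@CStarAlgebra.toNormedRing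 x1 x2))))) (@InvolutiveStar.toStar x1 (@StarAddMonoid.toInvolutiveStar x1 (@AddCommMonoid.toAddMonoid x1 (@NonUnitalNonAssocSemiring.toAddCommMonoid x1 (@NonUnitalNonAssocRing.toNonUnitalNonAssocSemiring x1 (@NonAssocRing.toNonUnitalNonAssocRing x1 (@Ring.toNonAssocRing x1 (@NormedRing.toRing x1 (@CStarAlgebra.toNormedRing x1 x2))))))) (@StarRing.toStarAddMonoid x1 (@NonUnitalNonAssocRing.toNonUnitalNonAssocSemiring x1 (@NonAssocRing.toNonUnitalNonAssocRing x1 (@Ring.toNonAssocRing x1 (@NormedRing.toRing x1 (@CStarAlgebra.toNormedRing x1 x2))))) (@CStarAlgebra.toStarRing x1 x2)))) (@Algebra.toSMul Complex x1 (@Semifield.toCommSemiring Complex (@Field.toSemifield Complex (@NormedField.toField Complex Complex.instNormedField))) (@Ring.toSemiring x1 (@SeminormedRing.toRing x1 (@NormedRing.toSeminormedRing x1 (@CStarAlgebra.toNormedRing x1 x2)))) (@NormedAlgebra.toAlgebra Complex x1 Complex.instNormedField (@NormedRing.toSeminormedRing x1 (@CStarAlgebra.toNormedRing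 x1 x2)) (@CStarAlgebra.toNormedAlgebra x1 x2))))))))} : Star (@Vale.Agent.P095.ZS.Fa x1 x2 x3 x4 x5 Nat (@Filter.atTop Nat Nat.instPreorder)) := inferInstance
@[reducible] noncomputable def a21 {x1 : ℕ → ℕ} {x2 : ℕ} {x3 : ℕ → ℕ} : Ring ↥(Vale.Agent.P101.dimDrop (x1 x2) (x3 x2)) := inferInstance
@[reducible] noncomputable def a22.{u1, u2} {x1 : Type u1} [x2 : CStarAlgebra x1] {x3 : Type u2} [x4 : Group x3] {x5 : @MonoidHom x3 (@StarAlgEquiv Complex x1 x1 (@Distrib.toAdd x1 (@instDistribOfSemiring x1 (@Ring.toSemiring x1 (@NormedRing.toRing x1 (@CStarAlgebra.toNormedRing x1 x2))))) (@Distrib.toAdd x1 (@instDistribOfSemiring x1 (@Ring.toSemiring x1 (@NormedRing.toRing x1 (@CStarAlgebra.toNormedRing x1 x2))))) (@Distrib.toMul x1 (@instDistribOfSemiring x1 (@Ring.toSemiring x1 (@NormedRing.toRing x1 (@CStarAlgebra.toNormedRing x1 x2))))) (@Distrib.toMul x1 (@instDistribOfSemiring x1 (@Ring.toSemiring x1 (@NormedRing.toRing x1 (@CStarAlgebra.toNormedRing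 x1 x2))))) (@Algebra.toSMul Complex x1 (@Semifield.toCommSemiring Complex (@Field.toSemifield Complex (@NormedField.toField Complex Complex.instNormedField))) (@Ring.toSemiring x1 (@SeminormedRing.toRing x1 (@NormedRing.toSeminormedRing x1 (@CStarAlgebra.toNormedRing x1 x2)))) (@NormedAlgebra.toAlgebra Complex x1 Complex.instNormedField (@NormedRing.toSeminormedRing x1 (@CStarAlgebra.toNormedRing x1 x2)) (@CStarAlgebra.toNormedAlgebra x1 x2))) (@Algebra.toSMul Complex x1 (@Semifield.toCommSemiring Complex (@Field.toSemifield Complex (@NormedField.toField Complex Complex.instNormedField))) (@Ring.toSemiring x1 (@SeminormedRing.toRing x1 (@NormedRing.toSeminormedRing x1 (@CStarAlgebra.toNormedRing x1 x2)))) (@NormedAlgebra.toAlgebra Complex x1 Complex.instNormedField (@NormedRing.toSeminormedRing x1 (@CStarAlgebra.toNormedRing x1 x2)) (@CStarAlgebra.toNormedAlgebra x1 x2))) (@InvolutiveStar.toStar x1 (@StarAddMonoid.toInvolutiveStar x1 (@AddCommMonoid.toAddMonoid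 x1 (@NonUnitalNonAssocSemiring.toAddCommMonoid x1 (@NonUnitalNonAssocRing.toNonUnitalNonAssocSemiring x1 (@NonAssocRing.toNonUnitalNonAssocRing x1 (@Ring.toNonAssocRing x1 (@NormedRing.toRing x1 (@CStarAlgebra.toNormedRing x1 x2))))))) (@StarRing.toStarAddMonoid x1 (@NonUnitalNonAssocRing.toNonUnitalNonAssocSemiring x1 (@NonAssocRing.toNonUnitalNonAssocRing x1 (@Ring.toNonAssocRing x1 (@NormedRing.toRing x1 (@CStarAlgebra.toNormedRing x1 x2))))) (@CStarAlgebra.toStarRing x1 x2)))) (@InvolutiveStar.toStar x1 (@StarAddMonoid.toInvolutiveStar x1 (@AddCommMonoid.toAddMonoid x1 (@NonUnitalNonAssocSemiring.toAddCommMonoid x1 (@NonUnitalNonAssocRing.toNonUnitalNonAssocSemiring x1 (@NonAssocRing.toNonUnitalNonAssocRing x1 (@Ring.toNonAssocRing x1 (@NormedRing.toRing x1 (@CStarAlgebra.toNormedRing x1 x2))))))) (@StarRing.toStarAddMonoid x1 (@NonUnitalNonAssocRing.toNonUnitalNonAssocSemiring x1 (@NonAssocRing.toNonUnitalNonAssocRing x1 (@Ring.toNonAssocRing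 x1 (@NormedRing.toRing x1 (@CStarAlgebra.toNormedRing x1 x2))))) (@CStarAlgebra.toStarRing x1 x2))))) (@MulOneClass.toMulOne x3 (@Monoid.toMulOneClass x3 (@DivInvMonoid.toMonoid x3 (@Group.toDivInvMonoid x3 x4)))) (@MulOneClass.toMulOne (@StarAlgEquiv Complex x1 x1 (@Distrib.toAdd x1 (@instDistribOfSemiring x1 (@Ring.toSemiring x1 (@NormedRing.toRing x1 (@CStarAlgebra.toNormedRing x1 x2))))) (@Distrib.toAdd x1 (@instDistribOfSemiring x1 (@Ring.toSemiring x1 (@NormedRing.toRing x1 (@CStarAlgebra.toNormedRing x1 x2))))) (@Distrib.toMul x1 (@instDistribOfSemiring x1 (@Ring.toSemiring x1 (@NormedRing.toRing x1 (@CStarAlgebra.toNormedRing x1 x2))))) (@Distrib.toMul x1 (@instDistribOfSemiring x1 (@Ring.toSemiring x1 (@NormedRing.toRing x1 (@CStarAlgebra.toNormedRing x1 x2))))) (@Algebra.toSMul Complex x1 (@Semifield.toCommSemiring Complex (@Field.toSemifield Complex (@NormedField.toField Complex Complex.instNormedField))) (@Ring.toSemiring x1 (@SeminormedRing.toRing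 x1 (@NormedRing.toSeminormedRing x1 (@CStarAlgebra.toNormedRing x1 x2)))) (@NormedAlgebra.toAlgebra Complex x1 Complex.instNormedField (@NormedRing.toSeminormedRing x1 (@CStarAlgebra.toNormedRing x1 x2)) (@CStarAlgebra.toNormedAlgebra x1 x2))) (@Algebra.toSMul Complex x1 (@Semifield.toCommSemiring Complex (@Field.toSemifield Complex (@NormedField.toField Complex Complex.instNormedField))) (@Ring.toSemiring x1 (@SeminormedRing.toRing x1 (@NormedRing.toSeminormedRing x1 (@CStarAlgebra.toNormedRing x1 x2)))) (@NormedAlgebra.toAlgebra Complex x1 Complex.instNormedField (@NormedRing.toSeminormedRing x1 (@CStarAlgebra.toNormedRing x1 x2)) (@CStarAlgebra.toNormedAlgebra x1 x2))) (@InvolutiveStar.toStar x1 (@StarAddMonoid.toInvolutiveStar x1 (@AddCommMonoid.toAddMonoid x1 (@NonUnitalNonAssocSemiring.toAddCommMonoid x1 (@NonUnitalNonAssocRing.toNonUnitalNonAssocSemiring x1 (@NonAssocRing.toNonUnitalNonAssocRing x1 (@Ring.toNonAssocRing x1 (@NormedRing.toRing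 x1 (@CStarAlgebra.toNormedRing x1 x2))))))) (@StarRing.toStarAddMonoid x1 (@NonUnitalNonAssocRing.toNonUnitalNonAssocSemiring x1 (@NonAssocRing.toNonUnitalNonAssocRing x1 (@Ring.toNonAssocRing x1 (@NormedRing.toRing x1 (@CStarAlgebra.toNormedRing x1 x2))))) (@CStarAlgebra.toStarRing x1 x2)))) (@InvolutiveStar.toStar x1 (@StarAddMonoid.toInvolutiveStar x1 (@AddCommMonoid.toAddMonoid x1 (@NonUnitalNonAssocSemiring.toAddCommMonoid x1 (@NonUnitalNonAssocRing.toNonUnitalNonAssocSemiring x1 (@NonAssocRing.toNonUnitalNonAssocRing x1 (@Ring.toNonAssocRing x1 (@NormedRing.toRing x1 (@CStarAlgebra.toNormedRing x1 x2))))))) (@StarRing.toStarAddMonoid x1 (@NonUnitalNonAssocRing.toNonUnitalNonAssocSemiring x1 (@NonAssocRing.toNonUnitalNonAssocRing x1 (@Ring.toNonAssocRing x1 (@NormedRing.toRing x1 (@CStarAlgebra.toNormedRing x1 x2))))) (@CStarAlgebra.toStarRing x1 x2))))) (@Monoid.toMulOneClass (@StarAlgEquiv Complex x1 x1 (@Distrib.toAdd x1 (@instDistribOfSemiring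 x1 (@Ring.toSemiring x1 (@NormedRing.toRing x1 (@CStarAlgebra.toNormedRing x1 x2))))) (@Distrib.toAdd x1 (@instDistribOfSemiring x1 (@Ring.toSemiring x1 (@NormedRing.toRing x1 (@CStarAlgebra.toNormedRing x1 x2))))) (@Distrib.toMul x1 (@instDistribOfSemiring x1 (@Ring.toSemiring x1 (@NormedRing.toRing x1 (@CStarAlgebra.toNormedRing x1 x2))))) (@Distrib.toMul x1 (@instDistribOfSemiring x1 (@Ring.toSemiring x1 (@NormedRing.toRing x1 (@CStarAlgebra.toNormedRing x1 x2))))) (@Algebra.toSMul Complex x1 (@Semifield.toCommSemiring Complex (@Field.toSemifield Complex (@NormedField.toField Complex Complex.instNormedField))) (@Ring.toSemiring x1 (@SeminormedRing.toRing x1 (@NormedRing.toSeminormedRing x1 (@CStarAlgebra.toNormedRing x1 x2)))) (@NormedAlgebra.toAlgebra Complex x1 Complex.instNormedField (@NormedRing.toSeminormedRing x1 (@CStarAlgebra.toNormedRing x1 x2)) (@CStarAlgebra.toNormedAlgebra x1 x2))) (@Algebra.toSMul Complex x1 (@Semifield.toCommSemiring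 Complex (@Field.toSemifield Complex (@NormedField.toField Complex Complex.instNormedField))) (@Ring.toSemiring x1 (@SeminormedRing.toRing x1 (@NormedRing.toSeminormedRing x1 (@CStarAlgebra.toNormedRing x1 x2)))) (@NormedAlgebra.toAlgebra Complex x1 Complex.instNormedField (@NormedRing.toSeminormedRing x1 (@CStarAlgebra.toNormedRing x1 x2)) (@CStarAlgebra.toNormedAlgebra x1 x2))) (@InvolutiveStar.toStar x1 (@StarAddMonoid.toInvolutiveStar x1 (@AddCommMonoid.toAddMonoid x1 (@NonUnitalNonAssocSemiring.toAddCommMonoid x1 (@NonUnitalNonAssocRing.toNonUnitalNonAssocSemiring x1 (@NonAssocRing.toNonUnitalNonAssocRing x1 (@Ring.toNonAssocRing x1 (@NormedRing.toRing x1 (@CStarAlgebra.toNormedRing x1 x2))))))) (@StarRing.toStarAddMonoid x1 (@NonUnitalNonAssocRing.toNonUnitalNonAssocSemiring x1 (@NonAssocRing.toNonUnitalNonAssocRing x1 (@Ring.toNonAssocRing x1 (@NormedRing.toRing x1 (@CStarAlgebra.toNormedRing x1 x2))))) (@CStarAlgebra.toStarRing x1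 x2)))) (@InvolutiveStar.toStar x1 (@StarAddMonoid.toInvolutiveStar x1 (@AddCommMonoid.toAddMonoid x1 (@NonUnitalNonAssocSemiring.toAddCommMonoid x1 (@NonUnitalNonAssocRing.toNonUnitalNonAssocSemiring x1 (@NonAssocRing.toNonUnitalNonAssocRing x1 (@Ring.toNonAssocRing x1 (@NormedRing.toRing x1 (@CStarAlgebra.toNormedRing x1 x2))))))) (@StarRing.toStarAddMonoid x1 (@NonUnitalNonAssocRing.toNonUnitalNonAssocSemiring x1 (@NonAssocRing.toNonUnitalNonAssocRing x1 (@Ring.toNonAssocRing x1 (@NormedRing.toRing x1 (@CStarAlgebra.toNormedRing x1 x2))))) (@CStarAlgebra.toStarRing x1 x2))))) (@DivInvMonoid.toMonoid (@StarAlgEquiv Complex x1 x1 (@Distrib.toAdd x1 (@instDistribOfSemiring x1 (@Ring.toSemiring x1 (@NormedRing.toRing x1 (@CStarAlgebra.toNormedRing x1 x2))))) (@Distrib.toAdd x1 (@instDistribOfSemiring x1 (@Ring.toSemiring x1 (@NormedRing.toRing x1 (@CStarAlgebra.toNormedRing x1 x2))))) (@Distrib.toMul x1 (@instDistribOfSemiring x1 (@Ring.toSemiring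 x1 (@NormedRing.toRing x1 (@CStarAlgebra.toNormedRing x1 x2))))) (@Distrib.toMul x1 (@instDistribOfSemiring x1 (@Ring.toSemiring x1 (@NormedRing.toRing x1 (@CStarAlgebra.toNormedRing x1 x2))))) (@Algebra.toSMul Complex x1 (@Semifield.toCommSemiring Complex (@Field.toSemifield Complex (@NormedField.toField Complex Complex.instNormedField))) (@Ring.toSemiring x1 (@SeminormedRing.toRing x1 (@NormedRing.toSeminormedRing x1 (@CStarAlgebra.toNormedRing x1 x2)))) (@NormedAlgebra.toAlgebra Complex x1 Complex.instNormedField (@NormedRing.toSeminormedRing x1 (@CStarAlgebra.toNormedRing x1 x2)) (@CStarAlgebra.toNormedAlgebra x1 x2))) (@Algebra.toSMul Complex x1 (@Semifield.toCommSemiring Complex (@Field.toSemifield Complex (@NormedField.toField Complex Complex.instNormedField))) (@Ring.toSemiring x1 (@SeminormedRing.toRing x1 (@NormedRing.toSeminormedRing x1 (@CStarAlgebra.toNormedRing x1 x2)))) (@NormedAlgebra.toAlgebra Complex x1 Complex.instNormedField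 (@NormedRing.toSeminormedRing x1 (@CStarAlgebra.toNormedRing x1 x2)) (@CStarAlgebra.toNormedAlgebra x1 x2))) (@InvolutiveStar.toStar x1 (@StarAddMonoid.toInvolutiveStar x1 (@AddCommMonoid.toAddMonoid x1 (@NonUnitalNonAssocSemiring.toAddCommMonoid x1 (@NonUnitalNonAssocRing.toNonUnitalNonAssocSemiring x1 (@NonAssocRing.toNonUnitalNonAssocRing x1 (@Ring.toNonAssocRing x1 (@NormedRing.toRing x1 (@CStarAlgebra.toNormedRing x1 x2))))))) (@StarRing.toStarAddMonoid x1 (@NonUnitalNonAssocRing.toNonUnitalNonAssocSemiring x1 (@NonAssocRing.toNonUnitalNonAssocRing x1 (@Ring.toNonAssocRing x1 (@NormedRing.toRing x1 (@CStarAlgebra.toNormedRing x1 x2))))) (@CStarAlgebra.toStarRing x1 x2)))) (@InvolutiveStar.toStar x1 (@StarAddMonoid.toInvolutiveStar x1 (@AddCommMonoid.toAddMonoid x1 (@NonUnitalNonAssocSemiring.toAddCommMonoid x1 (@NonUnitalNonAssocRing.toNonUnitalNonAssocSemiring x1 (@NonAssocRing.toNonUnitalNonAssocRing x1 (@Ring.toNonAssocRing x1 (@NormedRing.toRing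 x1 (@CStarAlgebra.toNormedRing x1 x2))))))) (@StarRing.toStarAddMonoid x1 (@NonUnitalNonAssocRing.toNonUnitalNonAssocSemiring x1 (@NonAssocRing.toNonUnitalNonAssocRing x1 (@Ring.toNonAssocRing x1 (@NormedRing.toRing x1 (@CStarAlgebra.toNormedRing x1 x2))))) (@CStarAlgebra.toStarRing x1 x2))))) (@Group.toDivInvMonoid (@StarAlgEquiv Complex x1 x1 (@Distrib.toAdd x1 (@instDistribOfSemiring x1 (@Ring.toSemiring x1 (@NormedRing.toRing x1 (@CStarAlgebra.toNormedRing x1 x2))))) (@Distrib.toAdd x1 (@instDistribOfSemiring x1 (@Ring.toSemiring x1 (@NormedRing.toRing x1 (@CStarAlgebra.toNormedRing x1 x2))))) (@Distrib.toMul x1 (@instDistribOfSemiring x1 (@Ring.toSemiring x1 (@NormedRing.toRing x1 (@CStarAlgebra.toNormedRing x1 x2))))) (@Distrib.toMul x1 (@instDistribOfSemiring x1 (@Ring.toSemiring x1 (@NormedRing.toRing x1 (@CStarAlgebra.toNormedRing x1 x2))))) (@Algebra.toSMul Complex x1 (@Semifield.toCommSemiring Complex (@Field.toSemifield Complex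 (@NormedField.toField Complex Complex.instNormedField))) (@Ring.toSemiring x1 (@SeminormedRing.toRing x1 (@NormedRing.toSeminormedRing x1 (@CStarAlgebra.toNormedRing x1 x2)))) (@NormedAlgebra.toAlgebra Complex x1 Complex.instNormedField (@NormedRing.toSeminormedRing x1 (@CStarAlgebra.toNormedRing x1 x2)) (@CStarAlgebra.toNormedAlgebra x1 x2))) (@Algebra.toSMul Complex x1 (@Semifield.toCommSemiring Complex (@Field.toSemifield Complex (@NormedField.toField Complex Complex.instNormedField))) (@Ring.toSemiring x1 (@SeminormedRing.toRing x1 (@NormedRing.toSeminormedRing x1 (@CStarAlgebra.toNormedRing x1 x2)))) (@NormedAlgebra.toAlgebra Complex x1 Complex.instNormedField (@NormedRing.toSeminormedRing x1 (@CStarAlgebra.toNormedRing x1 x2)) (@CStarAlgebra.toNormedAlgebra x1 x2))) (@InvolutiveStar.toStar x1 (@StarAddMonoid.toInvolutiveStar x1 (@AddCommMonoid.toAddMonoid x1 (@NonUnitalNonAssocSemiring.toAddCommMonoid x1 (@NonUnitalNonAssocRing.toNonUnitalNonAssocSemiring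 x1 (@NonAssocRing.toNonUnitalNonAssocRing x1 (@Ring.toNonAssocRing x1 (@NormedRing.toRing x1 (@CStarAlgebra.toNormedRing x1 x2))))))) (@StarRing.toStarAddMonoid x1 (@NonUnitalNonAssocRing.toNonUnitalNonAssocSemiring x1 (@NonAssocRing.toNonUnitalNonAssocRing x1 (@Ring.toNonAssocRing x1 (@NormedRing.toRing x1 (@CStarAlgebra.toNormedRing x1 x2))))) (@CStarAlgebra.toStarRing x1 x2)))) (@InvolutiveStar.toStar x1 (@StarAddMonoid.toInvolutiveStar x1 (@AddCommMonoid.toAddMonoid x1 (@NonUnitalNonAssocSemiring.toAddCommMonoid x1 (@NonUnitalNonAssocRing.toNonUnitalNonAssocSemiring x1 (@NonAssocRing.toNonUnitalNonAssocRing x1 (@Ring.toNonAssocRing x1 (@NormedRing.toRing x1 (@CStarAlgebra.toNormedRing x1 x2))))))) (@StarRing.toStarAddMonoid x1 (@NonUnitalNonAssocRing.toNonUnitalNonAssocSemiring x1 (@NonAssocRing.toNonUnitalNonAssocRing x1 (@Ring.toNonAssocRing x1 (@NormedRing.toRing x1 (@CStarAlgebra.toNormedRing x1 x2))))) (@CStarAlgebra.toStarRing x1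 x2))))) (@StarAlgEquiv.aut Complex x1 (@Distrib.toMul x1 (@instDistribOfSemiring x1 (@Ring.toSemiring x1 (@NormedRing.toRing x1 (@CStarAlgebra.toNormedRing x1 x2))))) (@Distrib.toAdd x1 (@instDistribOfSemiring x1 (@Ring.toSemiring x1 (@NormedRing.toRing x1 (@CStarAlgebra.toNormedRing x1 x2))))) (@InvolutiveStar.toStar x1 (@StarAddMonoid.toInvolutiveStar x1 (@AddCommMonoid.toAddMonoid x1 (@NonUnitalNonAssocSemiring.toAddCommMonoid x1 (@NonUnitalNonAssocRing.toNonUnitalNonAssocSemiring x1 (@NonAssocRing.toNonUnitalNonAssocRing x1 (@Ring.toNonAssocRing x1 (@NormedRing.toRing x1 (@CStarAlgebra.toNormedRing x1 x2))))))) (@StarRing.toStarAddMonoid x1 (@NonUnitalNonAssocRing.toNonUnitalNonAssocSemiring x1 (@NonAssocRing.toNonUnitalNonAssocRing x1 (@Ring.toNonAssocRing x1 (@NormedRing.toRing x1 (@CStarAlgebra.toNormedRing x1 x2))))) (@CStarAlgebra.toStarRing x1 x2)))) (@Algebra.toSMul Complex x1 (@Semifield.toCommSemiring Complex (@Field.toSemifield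 Complex (@NormedField.toField Complex Complex.instNormedField))) (@Ring.toSemiring x1 (@SeminormedRing.toRing x1 (@NormedRing.toSeminormedRing x1 (@CStarAlgebra.toNormedRing x1 x2)))) (@NormedAlgebra.toAlgebra Complex x1 Complex.instNormedField (@NormedRing.toSeminormedRing x1 (@CStarAlgebra.toNormedRing x1 x2)) (@CStarAlgebra.toNormedAlgebra x1 x2))))))))} : InvolutiveStar (@Vale.Agent.P095.ZS.Fa x1 x2 x3 x4 x5 Nat (@Filter.atTop Nat Nat.instPreorder)) := inferInstance
@[reducible] noncomputable def a23.{u1, u2} {x1 : Type u1} [x2 : CStarAlgebra x1] {x3 : Type u2} [x4 : Group x3] {x5 : @MonoidHom x3 (@StarAlgEquiv Complex x1 x1 (@Distrib.toAdd x1 (@instDistribOfSemiring x1 (@Ring.toSemiring x1 (@NormedRing.toRing x1 (@CStarAlgebra.toNormedRing x1 x2))))) (@Distrib.toAdd x1 (@instDistribOfSemiring x1 (@Ring.toSemiring x1 (@NormedRing.toRing x1 (@CStarAlgebra.toNormedRing x1 x2))))) (@Distrib.toMul x1 (@instDistribOfSemiring x1 (@Ring.toSemiring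 x1 (@NormedRing.toRing x1 (@CStarAlgebra.toNormedRing x1 x2))))) (@Distrib.toMul x1 (@instDistribOfSemiring x1 (@Ring.toSemiring x1 (@NormedRing.toRing x1 (@CStarAlgebra.toNormedRing x1 x2))))) (@Algebra.toSMul Complex x1 (@Semifield.toCommSemiring Complex (@Field.toSemifield Complex (@NormedField.toField Complex Complex.instNormedField))) (@Ring.toSemiring x1 (@SeminormedRing.toRing x1 (@NormedRing.toSeminormedRing x1 (@CStarAlgebra.toNormedRing x1 x2)))) (@NormedAlgebra.toAlgebra Complex x1 Complex.instNormedField (@NormedRing.toSeminormedRing x1 (@CStarAlgebra.toNormedRing x1 x2)) (@CStarAlgebra.toNormedAlgebra x1 x2))) (@Algebra.toSMul Complex x1 (@Semifield.toCommSemiring Complex (@Field.toSemifield Complex (@NormedField.toField Complex Complex.instNormedField))) (@Ring.toSemiring x1 (@SeminormedRing.toRing x1 (@NormedRing.toSeminormedRing x1 (@CStarAlgebra.toNormedRing x1 x2)))) (@NormedAlgebra.toAlgebra Complex x1 Complex.instNormedField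 (@NormedRing.toSeminormedRing x1 (@CStarAlgebra.toNormedRing x1 x2)) (@CStarAlgebra.toNormedAlgebra x1 x2))) (@InvolutiveStar.toStar x1 (@StarAddMonoid.toInvolutiveStar x1 (@AddCommMonoid.toAddMonoid x1 (@NonUnitalNonAssocSemiring.toAddCommMonoid x1 (@NonUnitalNonAssocRing.toNonUnitalNonAssocSemiring x1 (@NonAssocRing.toNonUnitalNonAssocRing x1 (@Ring.toNonAssocRing x1 (@NormedRing.toRing x1 (@CStarAlgebra.toNormedRing x1 x2))))))) (@StarRing.toStarAddMonoid x1 (@NonUnitalNonAssocRing.toNonUnitalNonAssocSemiring x1 (@NonAssocRing.toNonUnitalNonAssocRing x1 (@Ring.toNonAssocRing x1 (@NormedRing.toRing x1 (@CStarAlgebra.toNormedRing x1 x2))))) (@CStarAlgebra.toStarRing x1 x2)))) (@InvolutiveStar.toStar x1 (@StarAddMonoid.toInvolutiveStar x1 (@AddCommMonoid.toAddMonoid x1 (@NonUnitalNonAssocSemiring.toAddCommMonoid x1 (@NonUnitalNonAssocRing.toNonUnitalNonAssocSemiring x1 (@NonAssocRing.toNonUnitalNonAssocRing x1 (@Ring.toNonAssocRing x1 (@NormedRing.toRing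 x1 (@CStarAlgebra.toNormedRing x1 x2))))))) (@StarRing.toStarAddMonoid x1 (@NonUnitalNonAssocRing.toNonUnitalNonAssocSemiring x1 (@NonAssocRing.toNonUnitalNonAssocRing x1 (@Ring.toNonAssocRing x1 (@NormedRing.toRing x1 (@CStarAlgebra.toNormedRing x1 x2))))) (@CStarAlgebra.toStarRing x1 x2))))) (@MulOneClass.toMulOne x3 (@Monoid.toMulOneClass x3 (@DivInvMonoid.toMonoid x3 (@Group.toDivInvMonoid x3 x4)))) (@MulOneClass.toMulOne (@StarAlgEquiv Complex x1 x1 (@Distrib.toAdd x1 (@instDistribOfSemiring x1 (@Ring.toSemiring x1 (@NormedRing.toRing x1 (@CStarAlgebra.toNormedRing x1 x2))))) (@Distrib.toAdd x1 (@instDistribOfSemiring x1 (@Ring.toSemiring x1 (@NormedRing.toRing x1 (@CStarAlgebra.toNormedRing x1 x2))))) (@Distrib.toMul x1 (@instDistribOfSemiring x1 (@Ring.toSemiring x1 (@NormedRing.toRing x1 (@CStarAlgebra.toNormedRing x1 x2))))) (@Distrib.toMul x1 (@instDistribOfSemiring x1 (@Ring.toSemiring x1 (@NormedRing.toRing x1 (@CStarAlgebra.toNormedRing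 x1 x2))))) (@Algebra.toSMul Complex x1 (@Semifield.toCommSemiring Complex (@Field.toSemifield Complex (@NormedField.toField Complex Complex.instNormedField))) (@Ring.toSemiring x1 (@SeminormedRing.toRing x1 (@NormedRing.toSeminormedRing x1 (@CStarAlgebra.toNormedRing x1 x2)))) (@NormedAlgebra.toAlgebra Complex x1 Complex.instNormedField (@NormedRing.toSeminormedRing x1 (@CStarAlgebra.toNormedRing x1 x2)) (@CStarAlgebra.toNormedAlgebra x1 x2))) (@Algebra.toSMul Complex x1 (@Semifield.toCommSemiring Complex (@Field.toSemifield Complex (@NormedField.toField Complex Complex.instNormedField))) (@Ring.toSemiring x1 (@SeminormedRing.toRing x1 (@NormedRing.toSeminormedRing x1 (@CStarAlgebra.toNormedRing x1 x2)))) (@NormedAlgebra.toAlgebra Complex x1 Complex.instNormedField (@NormedRing.toSeminormedRing x1 (@CStarAlgebra.toNormedRing x1 x2)) (@CStarAlgebra.toNormedAlgebra x1 x2))) (@InvolutiveStar.toStar x1 (@StarAddMonoid.toInvolutiveStar x1 (@AddCommMonoid.toAddMonoid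 x1 (@NonUnitalNonAssocSemiring.toAddCommMonoid x1 (@NonUnitalNonAssocRing.toNonUnitalNonAssocSemiring x1 (@NonAssocRing.toNonUnitalNonAssocRing x1 (@Ring.toNonAssocRing x1 (@NormedRing.toRing x1 (@CStarAlgebra.toNormedRing x1 x2))))))) (@StarRing.toStarAddMonoid x1 (@NonUnitalNonAssocRing.toNonUnitalNonAssocSemiring x1 (@NonAssocRing.toNonUnitalNonAssocRing x1 (@Ring.toNonAssocRing x1 (@NormedRing.toRing x1 (@CStarAlgebra.toNormedRing x1 x2))))) (@CStarAlgebra.toStarRing x1 x2)))) (@InvolutiveStar.toStar x1 (@StarAddMonoid.toInvolutiveStar x1 (@AddCommMonoid.toAddMonoid x1 (@NonUnitalNonAssocSemiring.toAddCommMonoid x1 (@NonUnitalNonAssocRing.toNonUnitalNonAssocSemiring x1 (@NonAssocRing.toNonUnitalNonAssocRing x1 (@Ring.toNonAssocRing x1 (@NormedRing.toRing x1 (@CStarAlgebra.toNormedRing x1 x2))))))) (@StarRing.toStarAddMonoid x1 (@NonUnitalNonAssocRing.toNonUnitalNonAssocSemiring x1 (@NonAssocRing.toNonUnitalNonAssocRing x1 (@Ring.toNonAssocRing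 x1 (@NormedRing.toRing x1 (@CStarAlgebra.toNormedRing x1 x2))))) (@CStarAlgebra.toStarRing x1 x2))))) (@Monoid.toMulOneClass (@StarAlgEquiv Complex x1 x1 (@Distrib.toAdd x1 (@instDistribOfSemiring x1 (@Ring.toSemiring x1 (@NormedRing.toRing x1 (@CStarAlgebra.toNormedRing x1 x2))))) (@Distrib.toAdd x1 (@instDistribOfSemiring x1 (@Ring.toSemiring x1 (@NormedRing.toRing x1 (@CStarAlgebra.toNormedRing x1 x2))))) (@Distrib.toMul x1 (@instDistribOfSemiring x1 (@Ring.toSemiring x1 (@NormedRing.toRing x1 (@CStarAlgebra.toNormedRing x1 x2))))) (@Distrib.toMul x1 (@instDistribOfSemiring x1 (@Ring.toSemiring x1 (@NormedRing.toRing x1 (@CStarAlgebra.toNormedRing x1 x2))))) (@Algebra.toSMul Complex x1 (@Semifield.toCommSemiring Complex (@Field.toSemifield Complex (@NormedField.toField Complex Complex.instNormedField))) (@Ring.toSemiring x1 (@SeminormedRing.toRing x1 (@NormedRing.toSeminormedRing x1 (@CStarAlgebra.toNormedRing x1 x2)))) (@NormedAlgebra.toAlgebra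 Complex x1 Complex.instNormedField (@NormedRing.toSeminormedRing x1 (@CStarAlgebra.toNormedRing x1 x2)) (@CStarAlgebra.toNormedAlgebra x1 x2))) (@Algebra.toSMul Complex x1 (@Semifield.toCommSemiring Complex (@Field.toSemifield Complex (@NormedField.toField Complex Complex.instNormedField))) (@Ring.toSemiring x1 (@SeminormedRing.toRing x1 (@NormedRing.toSeminormedRing x1 (@CStarAlgebra.toNormedRing x1 x2)))) (@NormedAlgebra.toAlgebra Complex x1 Complex.instNormedField (@NormedRing.toSeminormedRing x1 (@CStarAlgebra.toNormedRing x1 x2)) (@CStarAlgebra.toNormedAlgebra x1 x2))) (@InvolutiveStar.toStar x1 (@StarAddMonoid.toInvolutiveStar x1 (@AddCommMonoid.toAddMonoid x1 (@NonUnitalNonAssocSemiring.toAddCommMonoid x1 (@NonUnitalNonAssocRing.toNonUnitalNonAssocSemiring x1 (@NonAssocRing.toNonUnitalNonAssocRing x1 (@Ring.toNonAssocRing x1 (@NormedRing.toRing x1 (@CStarAlgebra.toNormedRing x1 x2))))))) (@StarRing.toStarAddMonoid x1 (@NonUnitalNonAssocRing.toNonUnitalNonAssocSemiring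 x1 (@NonAssocRing.toNonUnitalNonAssocRing x1 (@Ring.toNonAssocRing x1 (@NormedRing.toRing x1 (@CStarAlgebra.toNormedRing x1 x2))))) (@CStarAlgebra.toStarRing x1 x2)))) (@InvolutiveStar.toStar x1 (@StarAddMonoid.toInvolutiveStar x1 (@AddCommMonoid.toAddMonoid x1 (@NonUnitalNonAssocSemiring.toAddCommMonoid x1 (@NonUnitalNonAssocRing.toNonUnitalNonAssocSemiring x1 (@NonAssocRing.toNonUnitalNonAssocRing x1 (@Ring.toNonAssocRing x1 (@NormedRing.toRing x1 (@CStarAlgebra.toNormedRing x1 x2))))))) (@StarRing.toStarAddMonoid x1 (@NonUnitalNonAssocRing.toNonUnitalNonAssocSemiring x1 (@NonAssocRing.toNonUnitalNonAssocRing x1 (@Ring.toNonAssocRing x1 (@NormedRing.toRing x1 (@CStarAlgebra.toNormedRing x1 x2))))) (@CStarAlgebra.toStarRing x1 x2))))) (@DivInvMonoid.toMonoid (@StarAlgEquiv Complex x1 x1 (@Distrib.toAdd x1 (@instDistribOfSemiring x1 (@Ring.toSemiring x1 (@NormedRing.toRing x1 (@CStarAlgebra.toNormedRing x1 x2))))) (@Distrib.toAdd x1 (@instDistribOfSemiring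 x1 (@Ring.toSemiring x1 (@NormedRing.toRing x1 (@CStarAlgebra.toNormedRing x1 x2))))) (@Distrib.toMul x1 (@instDistribOfSemiring x1 (@Ring.toSemiring x1 (@NormedRing.toRing x1 (@CStarAlgebra.toNormedRing x1 x2))))) (@Distrib.toMul x1 (@instDistribOfSemiring x1 (@Ring.toSemiring x1 (@NormedRing.toRing x1 (@CStarAlgebra.toNormedRing x1 x2))))) (@Algebra.toSMul Complex x1 (@Semifield.toCommSemiring Complex (@Field.toSemifield Complex (@NormedField.toField Complex Complex.instNormedField))) (@Ring.toSemiring x1 (@SeminormedRing.toRing x1 (@NormedRing.toSeminormedRing x1 (@CStarAlgebra.toNormedRing x1 x2)))) (@NormedAlgebra.toAlgebra Complex x1 Complex.instNormedField (@NormedRing.toSeminormedRing x1 (@CStarAlgebra.toNormedRing x1 x2)) (@CStarAlgebra.toNormedAlgebra x1 x2))) (@Algebra.toSMul Complex x1 (@Semifield.toCommSemiring Complex (@Field.toSemifield Complex (@NormedField.toField Complex Complex.instNormedField))) (@Ring.toSemiring x1 (@SeminormedRing.toRing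 x1 (@NormedRing.toSeminormedRing x1 (@CStarAlgebra.toNormedRing x1 x2)))) (@NormedAlgebra.toAlgebra Complex x1 Complex.instNormedField (@NormedRing.toSeminormedRing x1 (@CStarAlgebra.toNormedRing x1 x2)) (@CStarAlgebra.toNormedAlgebra x1 x2))) (@InvolutiveStar.toStar x1 (@StarAddMonoid.toInvolutiveStar x1 (@AddCommMonoid.toAddMonoid x1 (@NonUnitalNonAssocSemiring.toAddCommMonoid x1 (@NonUnitalNonAssocRing.toNonUnitalNonAssocSemiring x1 (@NonAssocRing.toNonUnitalNonAssocRing x1 (@Ring.toNonAssocRing x1 (@NormedRing.toRing x1 (@CStarAlgebra.toNormedRing x1 x2))))))) (@StarRing.toStarAddMonoid x1 (@NonUnitalNonAssocRing.toNonUnitalNonAssocSemiring x1 (@NonAssocRing.toNonUnitalNonAssocRing x1 (@Ring.toNonAssocRing x1 (@NormedRing.toRing x1 (@CStarAlgebra.toNormedRing x1 x2))))) (@CStarAlgebra.toStarRing x1 x2)))) (@InvolutiveStar.toStar x1 (@StarAddMonoid.toInvolutiveStar x1 (@AddCommMonoid.toAddMonoid x1 (@NonUnitalNonAssocSemiring.toAddCommMonoid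 x1 (@NonUnitalNonAssocRing.toNonUnitalNonAssocSemiring x1 (@NonAssocRing.toNonUnitalNonAssocRing x1 (@Ring.toNonAssocRing x1 (@NormedRing.toRing x1 (@CStarAlgebra.toNormedRing x1 x2))))))) (@StarRing.toStarAddMonoid x1 (@NonUnitalNonAssocRing.toNonUnitalNonAssocSemiring x1 (@NonAssocRing.toNonUnitalNonAssocRing x1 (@Ring.toNonAssocRing x1 (@NormedRing.toRing x1 (@CStarAlgebra.toNormedRing x1 x2))))) (@CStarAlgebra.toStarRing x1 x2))))) (@Group.toDivInvMonoid (@StarAlgEquiv Complex x1 x1 (@Distrib.toAdd x1 (@instDistribOfSemiring x1 (@Ring.toSemiring x1 (@NormedRing.toRing x1 (@CStarAlgebra.toNormedRing x1 x2))))) (@Distrib.toAdd x1 (@instDistribOfSemiring x1 (@Ring.toSemiring x1 (@NormedRing.toRing x1 (@CStarAlgebra.toNormedRing x1 x2))))) (@Distrib.toMul x1 (@instDistribOfSemiring x1 (@Ring.toSemiring x1 (@NormedRing.toRing x1 (@CStarAlgebra.toNormedRing x1 x2))))) (@Distrib.toMul x1 (@instDistribOfSemiring x1 (@Ring.toSemiring x1 (@NormedRing.toRing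 x1 (@CStarAlgebra.toNormedRing x1 x2))))) (@Algebra.toSMul Complex x1 (@Semifield.toCommSemiring Complex (@Field.toSemifield Complex (@NormedField.toField Complex Complex.instNormedField))) (@Ring.toSemiring x1 (@SeminormedRing.toRing x1 (@NormedRing.toSeminormedRing x1 (@CStarAlgebra.toNormedRing x1 x2)))) (@NormedAlgebra.toAlgebra Complex x1 Complex.instNormedField (@NormedRing.toSeminormedRing x1 (@CStarAlgebra.toNormedRing x1 x2)) (@CStarAlgebra.toNormedAlgebra x1 x2))) (@Algebra.toSMul Complex x1 (@Semifield.toCommSemiring Complex (@Field.toSemifield Complex (@NormedField.toField Complex Complex.instNormedField))) (@Ring.toSemiring x1 (@SeminormedRing.toRing x1 (@NormedRing.toSeminormedRing x1 (@CStarAlgebra.toNormedRing x1 x2)))) (@NormedAlgebra.toAlgebra Complex x1 Complex.instNormedField (@NormedRing.toSeminormedRing x1 (@CStarAlgebra.toNormedRing x1 x2)) (@CStarAlgebra.toNormedAlgebra x1 x2))) (@InvolutiveStar.toStar x1 (@StarAddMonoid.toInvolutiveStar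 x1 (@AddCommMonoid.toAddMonoid x1 (@NonUnitalNonAssocSemiring.toAddCommMonoid x1 (@NonUnitalNonAssocRing.toNonUnitalNonAssocSemiring x1 (@NonAssocRing.toNonUnitalNonAssocRing x1 (@Ring.toNonAssocRing x1 (@NormedRing.toRing x1 (@CStarAlgebra.toNormedRing x1 x2))))))) (@StarRing.toStarAddMonoid x1 (@NonUnitalNonAssocRing.toNonUnitalNonAssocSemiring x1 (@NonAssocRing.toNonUnitalNonAssocRing x1 (@Ring.toNonAssocRing x1 (@NormedRing.toRing x1 (@CStarAlgebra.toNormedRing x1 x2))))) (@CStarAlgebra.toStarRing x1 x2)))) (@InvolutiveStar.toStar x1 (@StarAddMonoid.toInvolutiveStar x1 (@AddCommMonoid.toAddMonoid x1 (@NonUnitalNonAssocSemiring.toAddCommMonoid x1 (@NonUnitalNonAssocRing.toNonUnitalNonAssocSemiring x1 (@NonAssocRing.toNonUnitalNonAssocRing x1 (@Ring.toNonAssocRing x1 (@NormedRing.toRing x1 (@CStarAlgebra.toNormedRing x1 x2))))))) (@StarRing.toStarAddMonoid x1 (@NonUnitalNonAssocRing.toNonUnitalNonAssocSemiring x1 (@NonAssocRing.toNonUnitalNonAssocRing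 x1 (@Ring.toNonAssocRing x1 (@NormedRing.toRing x1 (@CStarAlgebra.toNormedRing x1 x2))))) (@CStarAlgebra.toStarRing x1 x2))))) (@StarAlgEquiv.aut Complex x1 (@Distrib.toMul x1 (@instDistribOfSemiring x1 (@Ring.toSemiring x1 (@NormedRing.toRing x1 (@CStarAlgebra.toNormedRing x1 x2))))) (@Distrib.toAdd x1 (@instDistribOfSemiring x1 (@Ring.toSemiring x1 (@NormedRing.toRing x1 (@CStarAlgebra.toNormedRing x1 x2))))) (@InvolutiveStar.toStar x1 (@StarAddMonoid.toInvolutiveStar x1 (@AddCommMonoid.toAddMonoid x1 (@NonUnitalNonAssocSemiring.toAddCommMonoid x1 (@NonUnitalNonAssocRing.toNonUnitalNonAssocSemiring x1 (@NonAssocRing.toNonUnitalNonAssocRing x1 (@Ring.toNonAssocRing x1 (@NormedRing.toRing x1 (@CStarAlgebra.toNormedRing x1 x2))))))) (@StarRing.toStarAddMonoid x1 (@NonUnitalNonAssocRing.toNonUnitalNonAssocSemiring x1 (@NonAssocRing.toNonUnitalNonAssocRing x1 (@Ring.toNonAssocRing x1 (@NormedRing.toRing x1 (@CStarAlgebra.toNormedRing x1 x2)))))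 (@CStarAlgebra.toStarRing x1 x2)))) (@Algebra.toSMul Complex x1 (@Semifield.toCommSemiring Complex (@Field.toSemifield Complex (@NormedField.toField Complex Complex.instNormedField))) (@Ring.toSemiring x1 (@SeminormedRing.toRing x1 (@NormedRing.toSeminormedRing x1 (@CStarAlgebra.toNormedRing x1 x2)))) (@NormedAlgebra.toAlgebra Complex x1 Complex.instNormedField (@NormedRing.toSeminormedRing x1 (@CStarAlgebra.toNormedRing x1 x2)) (@CStarAlgebra.toNormedAlgebra x1 x2))))))))} : @StarAddMonoid (@Vale.Agent.P095.ZS.Fa x1 x2 x3 x4 x5 Nat (@Filter.atTop Nat Nat.instPreorder)) (@AddCommMonoid.toAddMonoid (@Vale.Agent.P095.ZS.Fa x1 x2 x3 x4 x5 Nat (@Filter.atTop Nat Nat.instPreorder)) (@NonUnitalNonAssocSemiring.toAddCommMonoid (@Vale.Agent.P095.ZS.Fa x1 x2 x3 x4 x5 Nat (@Filter.atTop Nat Nat.instPreorder)) (@RingCon.instNonUnitalNonAssocSemiringQuotient (↥(@Vale.Agent.P095.ZS.fixSeq x1 x2 x3 x4 x5 Nat (@Filter.atTop Nat Nat.instPreorder))) (@NonAssocSemiring.toNonUnitalNonAssocSemiring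 (↥(@Vale.Agent.P095.ZS.fixSeq x1 x2 x3 x4 x5 Nat (@Filter.atTop Nat Nat.instPreorder))) (@Semiring.toNonAssocSemiring (↥(@Vale.Agent.P095.ZS.fixSeq x1 x2 x3 x4 x5 Nat (@Filter.atTop Nat Nat.instPreorder))) (@SubsemiringClass.toSemiring (@StarSubalgebra Complex (Nat → x1) Complex.instCommSemiring Complex.instStarRing (@Pi.semiring Nat (fun a => x1) fun i => @Ring.toSemiring x1 (@NormedRing.toRing x1 (@CStarAlgebra.toNormedRing x1 x2))) (@Pi.starRing' Nat (fun a => x1) (fun i => @NonUnitalCStarAlgebra.toNonUnitalNormedRing x1 (@CStarAlgebra.toNonUnitalCStarAlgebra x1 x2)) fun i => @CStarAlgebra.toStarRing x1 x2) (@Function.algebra Complex Nat x1 Complex.instCommSemiring (@Ring.toSemiring x1 (@NormedRing.toRing x1 (@CStarAlgebra.toNormedRing x1 x2))) (@NormedAlgebra.toAlgebra Complex x1 Complex.instNormedField (@NormedRing.toSeminormedRing x1 (@CStarAlgebra.toNormedRing x1 x2)) (@CStarAlgebra.toNormedAlgebra x1 x2))) ⋯) (@Vale.Agent.P095.ZS.fixSeq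 x1 x2 x3 x4 x5 Nat (@Filter.atTop Nat Nat.instPreorder)) (Nat → x1) (@Pi.semiring Nat (fun a => x1) fun i => @Ring.toSemiring x1 (@NormedRing.toRing x1 (@CStarAlgebra.toNormedRing x1 x2))) (@StarSubalgebra.setLike Complex (Nat → x1) Complex.instCommSemiring Complex.instStarRing (@Pi.semiring Nat (fun a => x1) fun i => @Ring.toSemiring x1 (@NormedRing.toRing x1 (@CStarAlgebra.toNormedRing x1 x2))) (@Pi.starRing' Nat (fun a => x1) (fun i => @NonUnitalCStarAlgebra.toNonUnitalNormedRing x1 (@CStarAlgebra.toNonUnitalCStarAlgebra x1 x2)) fun i => @CStarAlgebra.toStarRing x1 x2) (@Function.algebra Complex Nat x1 Complex.instCommSemiring (@Ring.toSemiring x1 (@NormedRing.toRing x1 (@CStarAlgebra.toNormedRing x1 x2))) (@NormedAlgebra.toAlgebra Complex x1 Complex.instNormedField (@NormedRing.toSeminormedRing x1 (@CStarAlgebra.toNormedRing x1 x2)) (@CStarAlgebra.toNormedAlgebra x1 x2))) ⋯) ⋯))) (@Vale.Agent.P101.SeqQuot.nullConG x1 x2 Nat (@Filter.atTop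 Nat Nat.instPreorder) (@Vale.Agent.P095.ZS.fixSeq x1 x2 x3 x4 x5 Nat (@Filter.atTop Nat Nat.instPreorder)) ⋯)))) := inferInstance
@[reducible] noncomputable def a24.{u1} {x1 : Type u1} [x2 : CStarAlgebra x1] {x3 : ℕ → StarSubalgebra ℂ x1} {x4 : ℕ} : Module ℂ ↥(x3 x4) := inferInstance
theorem a25.{u1} {x1 : Type u1} {x2 : Type u1} [x3 : NonUnitalCStarAlgebra x1] [x4 : CStarAlgebra x2] {x5 : Type u1} [x6 : NonUnitalCStarAlgebra x5] : ZeroHomClass (TensorProduct ℂ x1 x2 →ₗ[ℂ] x5) (TensorProduct ℂ x1 x2) x5 := inferInstance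
theorem a26 : ContinuousSMul ℚ≥0 ℝ := inferInstance
@[reducible] noncomputable def a27 {x1 : ℕ → ℕ} {x2 : ℕ → ℕ} : Mul ↥(Vale.Agent.P101.dimDrop (x1 0) (x2 0)) := inferInstance
@[reducible] noncomputable def a28 {x1 : ℕ → ℕ} {x2 : ℕ → ℕ} : Add ↥(Vale.Agent.P101.dimDrop (x1 0) (x2 0)) := inferInstance
@[reducible] noncomputable def a29 {x1 : ℕ → ℕ} {x2 : ℕ → ℕ} : Distrib ↥(Vale.Agent.P101.dimDrop (x1 0) (x2 0)) := inferInstance
@[reducible] noncomputable def a30 {x1 : ℕ → ℕ} {x2 : ℕ → ℕ} : Semiring ↥(Vale.Agent.P101.dimDrop (x1 0) (x2 0)) := inferInstance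
theorem a31.{u1} {x1 : Type u1} {x2 : Type u1} [x3 : NonUnitalCStarAlgebra x1] [x4 : CStarAlgebra x2] {x5 : Type u1} [x6 : NonUnitalCStarAlgebra x5] : AddMonoidHomClass (TensorProduct ℂ x1 x2 →ₗ[ℂ] x5) (TensorProduct ℂ x1 x2) x5 := inferInstance
@[reducible] noncomputable def a32 {x1 : ℕ → ℕ} {x2 : ℕ → ℕ} : Ring ↥(Vale.Agent.P101.dimDrop (x1 0) (x2 0)) := inferInstance
theorem a33.{u1} {x1 : Type u1} {x2 : Type u1} [x3 : NonUnitalCStarAlgebra x1] [x4 : CStarAlgebra x2] {x5 : Type u1} [x6 : NonUnitalCStarAlgebra x5] : DistribMulActionSemiHomClass (TensorProduct ℂ x1 x2 →ₗ[ℂ] x5) (⇑(RingHom.id ℂ)) (TensorProduct ℂ x1 x2) x5 := inferInstance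
@[reducible] noncomputable def a34.{u1, u2} {x1 : Type} {x2 : Type u1} [x3 : CStarAlgebra x2] {x4 : Type u2} [x5 : Group x4] {x6 : x4 →* x2 ≃⋆ₐ[ℂ] x2} {x7 : Filter x1} : NonUnitalSemiring ↥(Vale.Agent.P095.ZS.fixSeq x6 x7) := inferInstance
end AFast58214ex16b
attribute [local instance] AFast58214ex16b.a0 AFast58214ex16b.a1 AFast58214ex16b.a2
  AFast58214ex16b.a3 AFast58214ex16b.a4 AFast58214ex16b.a5 AFast58214ex16b.a6 AFast58214ex16b.a7
  AFast58214ex16b.a8 AFast58214ex16b.a9 AFast58214ex16b.a10 AFast58214ex16b.a11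
  AFast58214ex16b.a12 AFast58214ex16b.a13 AFast58214ex16b.a14 AFast58214ex16b.a15
  AFast58214ex16b.a16 AFast58214ex16b.a17 AFast58214ex16b.a18 AFast58214ex16b.a19
  AFast58214ex16b.a20 AFast58214ex16b.a21 AFast58214ex16b.a22 AFast58214ex16b.a23
  AFast58214ex16b.a24 AFast58214ex16b.a25 AFast58214ex16b.a26 AFast58214ex16b.a27
  AFast58214ex16b.a28 AFast58214ex16b.a29 AFast58214ex16b.a30 AFast58214ex16b.a31
  AFast58214ex16b.a32 AFast58214ex16b.a33 AFast58214ex16b.a34
section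

/-! The gluing theorem. -/

open scoped BigOperators Kronecker

namespace Vale.Agent.P101

universe u

/-- reindexing of matrices as a star-homomorphism -/
def reindexStar {m n : Type} [Fintype m] [DecidableEq m] [Fintype n] [DecidableEq n] (e : m ≃ n) :
    Matrix m m ℂ →⋆ₐ[ℂ] Matrix n n ℂ where
  toAlgHom := (Matrix.reindexAlgEquiv ℂ ℂ e).toAlgHom
  map_star' := by
    intro M
    simp [Matrix.star_eq_conjTranspose, Matrix.conjTranspose_submatrix]

theorem continuous_reindexStar {m n : Type} [Fintype m] [DecidableEq m] [Fintype n]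
    [DecidableEq n] (e : m ≃ n) : Continuous (reindexStar e) := by
  show Continuous fun M : Matrix m m ℂ => M.submatrix e.symm e.symm
  exact Continuous.matrix_submatrix continuous_id _ _

theorem glueAlg_reindex (α β β' : Type) [Fintype α] [DecidableEq α] [Fintype β] [DecidableEq β]
    [Fintype β'] [DecidableEq β'] (e : β ≃ β') :
    Nonempty (glueAlg α β →⋆ₐ[ℂ] glueAlg α β') := by
  let e' : (α × β) ≃ (α × β') := Equiv.prodCongr (Equiv.refl _) e
  let φ₂ : C(unitInterval, Matrix (α × β) (α × β) ℂ) →⋆ₐ[ℂ]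
      C(unitInterval, Matrix (α × β') (α × β') ℂ) :=
    ContinuousMap.compStarAlgHom unitInterval (reindexStar e') (continuous_reindexStar e')
  let φ : glueAlg α β →⋆ₐ[ℂ] C(unitInterval, Matrix (α × β') (α × β') ℂ) :=
    φ₂.comp (glueAlg α β).subtype
  have hφ : ∀ (f : glueAlg α β) (t : unitInterval),
      φ f t = Matrix.submatrix ((f : C(unitInterval, Matrix (α × β) (α × β) ℂ)) t)
        e'.symm e'.symm := fun f t => rfl
  refine ⟨StarAlgHom.codRestrict φ (glueAlg α β') ?_⟩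
  rintro ⟨f, ⟨x, hx⟩, ⟨y, hy⟩⟩
  refine ⟨⟨x, fun t ht => ?_⟩, ⟨y.submatrix e.symm e.symm, fun t ht => ?_⟩⟩
  · rw [hφ]
    show (f t).submatrix e'.symm e'.symm = _
    rw [hx t ht]
    ext ⟨i, j⟩ ⟨k, l⟩
    simp [e', Matrix.kroneckerMap_apply, Matrix.one_apply]
  · rw [hφ]
    show (f t).submatrix e'.symm e'.symm = _
    rw [hy t ht]
    ext ⟨i, j⟩ ⟨k, l⟩
    simp [e', Matrix.kroneckerMap_apply]

theorem glue {G : Type u} [CStarAlgebra G] {α : Type} [Fintype α] [DecidableEq α] [Nonempty α]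
    (D : GlueData α Unit G) : Nonempty (glueAlg α (Option (α × Unit)) →⋆ₐ[ℂ] G) := by
  obtain ⟨C⟩ := glueA D
  obtain ⟨Φ⟩ := glueB C
  obtain ⟨Ψ⟩ := glueC α
  obtain ⟨Θ⟩ := glueAlg_reindex α (Option (α × Unit)) (Option α)
    (Equiv.optionCongr (Equiv.prodUnique α Unit))
  exact ⟨(Φ.comp Ψ).comp Θ⟩

end Vale.Agent.P101
end

section

/-! Unital homs from all prime dimension drop algebras to the central sequence algebras. -/

open Filter Topology

namespace Vale.Agent.P101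

universe u

theorem dimDrop_hom_of_glueData {G : Type u} [CStarAlgebra G] (p q : ℕ) (hp : 0 < p) (hq : 0 < q)
    (hpq : Nat.Coprime p q) (D : GlueData (Fin (2 * (p * q)) → Bool) Unit G) :
    Nonempty (dimDrop p q →⋆ₐ[ℂ] G) := by
  have hc : Fintype.card (Fin (2 * (p * q)) → Bool) = 2 ^ (2 * (p * q)) := by
    simp only [Fintype.card_pi, Fintype.card_bool, Finset.prod_const, Finset.card_univ, Fintype.card_fin]
  have h1 : 2 * (p * q) ≤ Fintype.card (Fin (2 * (p * q)) → Bool) := by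
    rw [hc]; exact Nat.lt_two_pow_self.le
  obtain ⟨Φ⟩ := glue D
  obtain ⟨Ψ⟩ := step9H p q hp hq hpq (Fin (2 * (p * q)) → Bool)
    (Option ((Fin (2 * (p * q)) → Bool) × Unit)) h1 (by
      rw [Fintype.card_option, Fintype.card_prod]
      simp only [Fintype.card_unit, mul_one]
      omega)
  exact ⟨Φ.comp Ψ⟩

end Vale.Agent.P101
end

section

/-! The literal version of the main theorem. -/

open Filter Topology
open scoped TensorProduct

namespace Vale.Agent.P101

universe u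

theorem nontrivial_of_isJiangSu {Z : Type u} [CStarAlgebra Z] (hZ : IsJiangSu Z) :
    Nontrivial Z := by
  obtain ⟨p, q, S, -, h, -⟩ := hZ.limit
  obtain ⟨hp, hq, -, ⟨e⟩⟩ := h 0
  by_contra hc
  rw [not_nontrivial_iff_subsingleton] at hc
  have h1 : (1 : dimDrop (p 0) (q 0)) = 0 := by
    apply e.injective
    apply Subtype.ext
    exact Subsingleton.elim _ _
  have h2 := congrArg (fun f : dimDrop (p 0) (q 0) =>
    (f : C(unitInterval, Matrix (Fin (p 0) × Fin (q 0)) (Fin (p 0) × Fin (q 0)) ℂ)) 0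
      (⟨0, hp⟩, ⟨0, hq⟩) (⟨0, hp⟩, ⟨0, hq⟩)) h1
  simp only [OneMemClass.coe_one, ContinuousMap.one_apply, Matrix.one_apply_eq, ZeroMemClass.coe_zero, ContinuousMap.zero_apply, Matrix.zero_apply, one_ne_zero] at h2

theorem injective_of_isCStarTensor {A Z B : Type u} [CStarAlgebra A] [CStarAlgebra Z]
    [CStarAlgebra B] [Nontrivial Z] (i : A →⋆ₐ[ℂ] B) (j : Z →⋆ₐ[ℂ] B) (hT : IsCStarTensor i j) :
    Function.Injective i := by
  have h1 : Function.Injective (algebraMap ℂ Z) := (algebraMap ℂ Z).injective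
  have h2 : Function.Injective
      (Algebra.TensorProduct.includeLeft : A →ₐ[ℂ] A ⊗[ℂ] Z) :=
    Algebra.TensorProduct.includeLeft_injective h1
  intro a b hab
  apply h2
  apply hT.inj
  rw [Algebra.TensorProduct.includeLeft_apply, Algebra.TensorProduct.includeLeft_apply,
    Algebra.TensorProduct.lift_tmul, Algebra.TensorProduct.lift_tmul]
  show i a * j 1 = i b * j 1
  rw [hab]

end Vale.Agent.P101
end

section

/-! The dimension drop algebras `I(p,q)`, `p, q ≥ 2`, have no characters. -/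

open scoped BigOperators Kronecker

namespace Vale.Agent.P101

namespace NoChar

/-- scalar function times a constant matrix -/
noncomputable def scal (p q : ℕ) (g : C(unitInterval, ℝ))
    (M : Matrix (Fin p × Fin q) (Fin p × Fin q) ℂ) :
    C(unitInterval, Matrix (Fin p × Fin q) (Fin p × Fin q) ℂ) where
  toFun t := ((g t : ℝ) : ℂ) • M
  continuous_toFun := by
    have : Continuous fun t => ((g t : ℝ) : ℂ) := Complex.continuous_ofReal.comp g.continuous
    exact this.smul continuous_const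

/-- `t ↦ t` -/
noncomputable def g₁ : C(unitInterval, ℝ) := ⟨fun t => (t : ℝ), by fun_prop⟩

end NoChar

end Vale.Agent.P101
end

section

/-! If `A` absorbs the Jiang-Su algebra, then the central sequence algebra of `A` has no
characters. -/

open Filter Topology
open scoped TensorProduct Kronecker

namespace Vale.Agent.P095J

open Vale.Agent.P101 Vale.Agent.P101.SeqQuot Vale.Agent.P095

universe u v

section

theorem norm_conj_sub {B : Type u} [CStarAlgebra B] {v : B} (hv : v ∈ unitary B) (x y : B) :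
    ‖x - star v * y * v‖ = ‖v * x * star v - y‖ := by
  have h1 : v * (x - star v * y * v) * star v = v * x * star v - y := by
    have h2 : v * star v = 1 := Unitary.mul_star_self_of_mem hv
    calc v * (x - star v * y * v) * star v
        = v * x * star v - (v * star v) * y * (v * star v) := by noncomm_ring
      _ = _ := by rw [h2, one_mul, mul_one]
  rw [← h1, CStarRing.norm_mul_mem_unitary _ (Unitary.star_mem hv),
    CStarRing.norm_mem_unitary_mul _ hv]

/-- The Jiang-Su algebra has no characters. -/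
theorem isEmpty_char_jiangSu {Z : Type u} [CStarAlgebra Z] (hZ : IsJiangSuAlgebra Z) :
    IsEmpty (Z →⋆ₐ[ℂ] ℂ) := by
  refine ⟨fun χ => ?_⟩
  have key : ∀ x : Z, x = algebraMap ℂ Z (χ x) := by
    intro x
    let ψ : Z →⋆ₐ[ℂ] Z := (StarAlgHom.ofId ℂ Z).comp χ
    have hψ : ∀ y, ψ y = algebraMap ℂ Z (χ y) := fun y => rfl
    by_contra hne
    have hpos : 0 < ‖x - algebraMap ℂ Z (χ x)‖ := norm_pos_iff.2 (sub_ne_zero.2 hne)
    obtain ⟨v, hv, hx⟩ := (hZ.half_flip Z).flip (StarAlgHom.id ℂ Z) ψ (fun a b => by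
      rw [hψ]
      exact (Algebra.commutes' (χ b) _).symm) {x} _ hpos
    have h1 := hx x (Finset.mem_singleton_self x)
    rw [hψ] at h1
    have h2 : star v * algebraMap ℂ Z (χ x) * v = algebraMap ℂ Z (χ x) := by
      rw [← Algebra.commutes, mul_assoc, Unitary.star_mul_self_of_mem hv, mul_one]
    have h3 : ‖x - star v * algebraMap ℂ Z (χ x) * v‖ < ‖x - algebraMap ℂ Z (χ x)‖ := by
      rw [norm_conj_sub hv]
      exact h1
    rw [h2] at h3
    exact lt_irrefl _ h3
  obtain ⟨p, q, S, -, h, -⟩ := hZ.isJiangSu.limit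
  obtain ⟨hp, hq, -, ⟨e⟩⟩ := h 0
  let f : dimDrop (p 0) (q 0) :=
    ⟨NoChar.scal (p 0) (q 0) NoChar.g₁ 1, ⟨0, by simp only [NoChar.scal, NoChar.g₁, ContinuousMap.coe_mk, Complex.coe_smul, Set.Icc.coe_zero, zero_smul, zero_mul, implies_true, Matrix.kroneckerMap_zero_left]⟩,
      ⟨1, by simp only [NoChar.scal, NoChar.g₁, ContinuousMap.coe_mk, Complex.coe_smul, Set.Icc.coe_one, one_smul, zero_mul, implies_true, mul_zero, mul_one, Matrix.kroneckerMap_one_one]⟩⟩
  obtain ⟨c, hc⟩ : ∃ c : ℂ, ((e f : S 0) : Z) = algebraMap ℂ Z c := ⟨_, key _⟩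
  have h1 : e f = e (algebraMap ℂ _ c) := by
    apply Subtype.ext
    rw [hc, AlgHomClass.commutes e]
    rfl
  have h2 : f = algebraMap ℂ _ c := e.injective h1
  have h3 := congrArg (fun f : dimDrop (p 0) (q 0) =>
    (f : C(unitInterval, Matrix (Fin (p 0) × Fin (q 0)) (Fin (p 0) × Fin (q 0)) ℂ)) 0
      (⟨0, hp⟩, ⟨0, hq⟩) (⟨0, hp⟩, ⟨0, hq⟩)) h2
  have h4 := congrArg (fun f : dimDrop (p 0) (q 0) =>
    (f : C(unitInterval, Matrix (Fin (p 0) × Fin (q 0)) (Fin (p 0) × Fin (q 0)) ℂ)) 1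
      (⟨0, hp⟩, ⟨0, hq⟩) (⟨0, hp⟩, ⟨0, hq⟩)) h2
  simp only [NoChar.scal, NoChar.g₁, ContinuousMap.coe_mk, Complex.coe_smul, Set.Icc.coe_zero, Matrix.smul_apply, Matrix.one_apply_eq, zero_smul, SubalgebraClass.coe_algebraMap, algebraMap_apply, smul_eq_mul, mul_one, Set.Icc.coe_one, one_smul, f] at h3 h4
  rw [← h3] at h4
  exact one_ne_zero h4

/-- The approximately central maps of a strongly self-absorbing algebra. -/
theorem exists_maps {Z : Type u} [CStarAlgebra Z] [TopologicalSpace.SeparableSpace Z]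
    (hS : IsStronglySelfAbsorbing Z) : ∃ ψ : ℕ → Z →⋆ₐ[ℂ] Z,
      ∀ z x, Tendsto (fun n => ‖ψ n z * x - x * ψ n z‖) atTop (𝓝 0) := by
  classical
  obtain ⟨E, _, hSE⟩ := hS.square
  obtain ⟨i, j, φ, hE, hφ⟩ := hSE.iso
  have hd : DenseRange (TopologicalSpace.denseSeq Z) := TopologicalSpace.denseRange_denseSeq Z
  set d : ℕ → Z := TopologicalSpace.denseSeq Z with hddef
  have hv : ∀ n : ℕ, ∃ v ∈ unitary E, ∀ k ≤ n,
      ‖v * φ (d k) * star v - i (d k)‖ < 1 / ((n : ℝ) + 1) := by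
    intro n
    obtain ⟨v, hv, h⟩ := hφ ((Finset.range (n + 1)).image d) (1 / ((n : ℝ) + 1)) (by (clear * -; positivity))
    exact ⟨v, hv, fun k hk => h _ (Finset.mem_image_of_mem _ (Finset.mem_range.2 (by omega)))⟩
  choose v hvu hv using hv
  have hni : ∀ x, ‖i x‖ ≤ ‖x‖ := fun x => NonUnitalStarAlgHom.norm_apply_le i x
  have hnj : ∀ x, ‖j x‖ ≤ ‖x‖ := fun x => NonUnitalStarAlgHom.norm_apply_le j x
  have hnφ : ∀ x, ‖φ x‖ ≤ ‖x‖ := fun x =>
    NonUnitalStarAlgHom.norm_apply_le ((φ : Z ≃⋆ₐ[ℂ] E) : Z →⋆ₐ[ℂ] E) x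
  have hnφ' : ∀ x, ‖φ.symm x‖ ≤ ‖x‖ := fun x =>
    NonUnitalStarAlgHom.norm_apply_le ((φ.symm : E ≃⋆ₐ[ℂ] Z) : E →⋆ₐ[ℂ] Z) x
  have hlim : ∀ x, Tendsto (fun n => ‖v n * φ x * star (v n) - i x‖) atTop (𝓝 0) := by
    intro x
    rw [Metric.tendsto_atTop]
    intro ε hε
    obtain ⟨k, hk⟩ := Metric.denseRange_iff.1 hd x (ε / 3) (by positivity)
    rw [dist_eq_norm] at hk
    obtain ⟨N, hN⟩ := exists_nat_one_div_lt (show (0 : ℝ) < ε / 3 by (clear * - hε; positivity))
    refine ⟨max k N, fun n hn => ?_⟩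
    rw [dist_zero_right, norm_norm]
    have h1 := hv n k (le_trans (le_max_left _ _) hn)
    have h2 : 1 / ((n : ℝ) + 1) ≤ 1 / ((N : ℝ) + 1) :=
      one_div_le_one_div_of_le (by (clear * -; positivity)) (by
        have : (N : ℝ) ≤ n := by exact_mod_cast le_trans (le_max_right _ _) hn
        linarith only [this])
    have e : v n * φ x * star (v n) - i x = v n * φ (x - d k) * star (v n) +
        (v n * φ (d k) * star (v n) - i (d k)) - i (x - d k) := by
      rw [map_sub, map_sub]; noncomm_ring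
    have h3 : ‖v n * φ (x - d k) * star (v n)‖ ≤ ‖x - d k‖ := by
      rw [CStarRing.norm_mul_mem_unitary _ (Unitary.star_mem (hvu n)),
        CStarRing.norm_mem_unitary_mul _ (hvu n)]
      exact hnφ _
    have h4 := hni (x - d k)
    rw [e]
    have h5 := norm_sub_le (v n * φ (x - d k) * star (v n) +
      (v n * φ (d k) * star (v n) - i (d k))) (i (x - d k))
    have h6 := norm_add_le (v n * φ (x - d k) * star (v n))
      (v n * φ (d k) * star (v n) - i (d k))
    linarith only [hk, hN, h1, h2, h3, h4, h5, h6]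
  refine ⟨fun n => ((φ.symm : E ≃⋆ₐ[ℂ] Z) : E →⋆ₐ[ℂ] Z).comp
    (((Unitary.conjStarAlgAut ℂ E ⟨star (v n), Unitary.star_mem (hvu n)⟩ : E ≃⋆ₐ[ℂ] E) :
      E →⋆ₐ[ℂ] E).comp j), fun z x => ?_⟩
  have h0 : Tendsto (fun n => 2 * ‖z‖ * ‖v n * φ x * star (v n) - i x‖) atTop (𝓝 0) := by
    simpa only [mul_zero] using (hlim x).const_mul (2 * ‖z‖)
  refine squeeze_zero (fun n => norm_nonneg _) (fun n => ?_) h0
  have hψ : (((φ.symm : E ≃⋆ₐ[ℂ] Z) : E →⋆ₐ[ℂ] Z).comp
      (((Unitary.conjStarAlgAut ℂ E ⟨star (v n), Unitary.star_mem (hvu n)⟩ : E ≃⋆ₐ[ℂ] E) :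
      E →⋆ₐ[ℂ] E).comp j)) z = φ.symm (star (v n) * j z * v n) := by
    show φ.symm (star (v n) * j z * star (star (v n))) = _
    rw [star_star]
  rw [hψ]
  have e1 : ∀ y : E, φ.symm y * x - x * φ.symm y = φ.symm (y * φ x - φ x * y) := fun y => by
    rw [map_sub, map_mul, map_mul, StarAlgEquiv.symm_apply_apply]
  rw [e1]
  refine (hnφ' _).trans ?_
  have hvv : star (v n) * v n = 1 := Unitary.star_mul_self_of_mem (hvu n)
  have e2 : star (v n) * j z * v n * φ x - φ x * (star (v n) * j z * v n)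
      = star (v n) * (j z * (v n * φ x * star (v n) - i x)
        - (v n * φ x * star (v n) - i x) * j z) * v n := by
    have hc := (hE.comm x z).eq
    have : star (v n) * (j z * (v n * φ x * star (v n) - i x)
        - (v n * φ x * star (v n) - i x) * j z) * v n
        = star (v n) * j z * v n * φ x * (star (v n) * v n)
          - (star (v n) * v n) * φ x * (star (v n) * j z * v n)
          + star (v n) * (i x * j z - j z * i x) * v n := by noncomm_ring
    rw [this, hvv, hc, sub_self, mul_zero, zero_mul, add_zero, mul_one, one_mul]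
  rw [e2, CStarRing.norm_mul_mem_unitary _ (hvu n),
    CStarRing.norm_mem_unitary_mul _ (Unitary.star_mem (hvu n))]
  refine (norm_sub_le _ _).trans ?_
  have h7 := norm_mul_le (j z) (v n * φ x * star (v n) - i x)
  have h8 := norm_mul_le (v n * φ x * star (v n) - i x) (j z)
  have h9 := mul_le_mul_of_nonneg_right (hnj z) (norm_nonneg (v n * φ x * star (v n) - i x))
  linarith only [h7, h8, h9]

end

end Vale.Agent.P095J
end

section

/-! Commuting copies of the fixed point algebra of a central sequence algebra. -/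

open Filter Topology

namespace Vale.Agent.P095.ZS

universe u v w

open Vale.Agent.P101 Vale.Agent.P101.SeqQuot

section Pull

variable {A : Type u} [CStarAlgebra A] {G : Type w} [Group G] (α : G →* (A ≃⋆ₐ[ℂ] A))
  {ι ι' : Type v} {μ : Filter ι} {μ' : Filter ι'}

/-- pull-back of functions along a map of index sets -/
noncomputable def pullSeq (f : ι' → ι) (hf : Tendsto f μ' μ) : fixSeq α μ →⋆ₐ[ℂ] fixSeq α μ' where
  toFun x := ⟨fun i => (x : ι → A) (f i), by
    have hx := (mem_fixSeq α μ _).1 x.2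
    refine (mem_fixSeq α μ' _).2 ⟨?_, fun g => (hx.2 g).comp hf⟩
    obtain ⟨⟨C, hC⟩, h⟩ := hx.1
    exact ⟨⟨C, fun i => hC (f i)⟩, fun a => (h a).comp hf⟩⟩
  map_one' := rfl
  map_mul' _ _ := rfl
  map_zero' := rfl
  map_add' _ _ := rfl
  commutes' _ := rfl
  map_star' _ := rfl

/-- pull-back on fixed point algebras -/
noncomputable def pull (f : ι' → ι) (hf : Tendsto f μ' μ) : Fa α μ →⋆ₐ[ℂ] Fa α μ' :=
  { (nullConG μ (fixSeq α μ) (isSeqAlg_fixSeq α μ)).liftₐ
      (((nullConG μ' (fixSeq α μ') (isSeqAlg_fixSeq α μ')).mkₐ ℂ).comp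
        (pullSeq α f hf : fixSeq α μ →ₐ[ℂ] fixSeq α μ')) (by
      intro x y hxy
      have h : Tendsto (fun i => ‖(x : ι → A) i - (y : ι → A) i‖) μ (𝓝 0) := hxy
      refine Quotient.sound (?_ : (nullConG μ' (fixSeq α μ') (isSeqAlg_fixSeq α μ')) _ _)
      exact h.comp hf) with
    map_star' := by
      rintro ⟨x⟩
      rfl }

theorem pull_mk (f : ι' → ι) (hf : Tendsto f μ' μ) (x : fixSeq α μ) :
    pull α f hf (Quotient.mk'' x : Fa α μ) = (Quotient.mk'' (pullSeq α f hf x) : Fa α μ') :=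
  rfl

end Pull

section Curry

variable {A : Type u} [CStarAlgebra A] {G : Type w} [Group G] (α : G →* (A ≃⋆ₐ[ℂ] A))
  {ι ι' : Type v} (μ : Filter ι) (μ' : Filter ι')

theorem pull_commute (x : Fa α μ') (y : Fa α μ) :
    Commute (pull α Prod.fst (tendsto_fst_curry μ μ') x : Fa α (μ'.curry μ))
      (pull α Prod.snd (tendsto_snd_curry μ μ') y) := by
  induction x using Quotient.inductionOn' with
  | h x =>
  induction y using Quotient.inductionOn' with
  | h y =>
  rw [pull_mk, pull_mk]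
  refine Quotient.sound
    (?_ : (nullConG (μ'.curry μ) (fixSeq α (μ'.curry μ)) (isSeqAlg_fixSeq α (μ'.curry μ))) _ _)
  show Tendsto (fun p : ι' × ι => ‖(x : ι' → A) p.1 * (y : ι → A) p.2
    - (y : ι → A) p.2 * (x : ι' → A) p.1‖) (μ'.curry μ) (𝓝 0)
  refine Filter.Tendsto.curry (f := fun i j => ‖(x : ι' → A) i * (y : ι → A) j
    - (y : ι → A) j * (x : ι' → A) i‖) (Filter.Eventually.of_forall fun i => ?_)
  have := y.2.1.2 ((x : ι' → A) i)
  simpa only [norm_sub_rev] using this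

end Curry

theorem exists_legs_fin {A : Type u} [CStarAlgebra A] {G : Type w} [Group G]
    (α : G →* (A ≃⋆ₐ[ℂ] A)) (k : ℕ) (ι : Type) (μ : Filter ι) [NeBot μ] :
    ∃ (ι' : Type) (μ' : Filter ι') (_ : NeBot μ'), Nonempty (Legs (Fin k) (Fa α μ) (Fa α μ')) := by
  induction k with
  | zero => exact ⟨ι, μ, inferInstance, ⟨⟨fun i => i.elim0, fun i => i.elim0⟩⟩⟩
  | succ k ih =>
    obtain ⟨ι', μ', hμ', ⟨L⟩⟩ := ih
    refine ⟨ι' × ι, μ'.curry μ, curry_neBot μ μ', ⟨⟨fun i => Fin.cases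
      (pull α Prod.snd (tendsto_snd_curry μ μ'))
      (fun i => (pull α Prod.fst (tendsto_fst_curry μ μ')).comp (L.σ i)) i, ?_⟩⟩⟩
    intro i j
    refine Fin.cases ?_ (fun i => ?_) i
    · refine Fin.cases (fun h => (h rfl).elim) (fun j _ x y => ?_) j
      exact (pull_commute α μ μ' (L.σ j y) x).symm
    · refine Fin.cases (fun _ x y => ?_) (fun j h x y => ?_) j
      · exact pull_commute α μ μ' (L.σ i x) y
      · have h' : i ≠ j := fun e => h (congrArg Fin.succ e)
        exact (L.comm i j h' x y).map (pull α Prod.fst (tendsto_fst_curry μ μ'))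

theorem exists_legs {A : Type u} [CStarAlgebra A] {G : Type w} [Group G]
    (α : G →* (A ≃⋆ₐ[ℂ] A)) (κ : Type) [Fintype κ] (ι : Type) (μ : Filter ι) [NeBot μ] :
    ∃ (ι' : Type) (μ' : Filter ι') (_ : NeBot μ'), Nonempty (Legs κ (Fa α μ) (Fa α μ')) := by
  obtain ⟨ι', μ', hμ', ⟨L⟩⟩ := exists_legs_fin α (Fintype.card κ) ι μ
  exact ⟨ι', μ', hμ', ⟨L.reindex (Fintype.equivFin κ) (Fintype.equivFin κ).injective⟩⟩

end Vale.Agent.P095.ZS
end

section

/-! Assembly of the steps for the fixed point algebras `Fa α μ`. -/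

open Filter Topology

namespace Vale.Agent.P095.ZS

universe u v w

open Vale.Agent.P101 Vale.Agent.P101.SeqQuot

variable {A : Type u} [CStarAlgebra A] {G : Type w} [Group G] (α : G →* (A ≃⋆ₐ[ℂ] A))

theorem exists_nilpotent (ι : Type) (μ : Filter ι) [NeBot μ]
    (h : IsEmpty (Fa α μ →⋆ₐ[ℂ] ℂ)) :
    ∃ (ι' : Type) (μ' : Filter ι') (_ : NeBot μ') (X : Fa α μ'), X * X = 0 ∧ Full {X} := by
  -- step 1
  obtain ⟨n, l, x, r, hx, hsum⟩ := (step1 h).exists_sum
  choose a b ha hab using hx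
  have hfull : Full {y : Fa α μ | ∃ j b, y = a j * b - b * a j} :=
    Full.of_sum Finset.univ l x r (fun i _ => ⟨i, b i, hab i⟩) hsum
  -- step 2
  obtain ⟨ι₂, μ₂, _, ⟨L₂⟩⟩ := exists_legs α (Fin (n + 1)) ι μ
  obtain ⟨q, hq, hqf⟩ := step2 n a ha hfull L₂
  -- step 3
  obtain ⟨D⟩ := step3 q hq hqf
  -- step 4
  obtain ⟨ι₄, μ₄, _, ⟨L₄⟩⟩ := exists_legs α (Fin (3 * D.M + 2)) ι₂ μ₂
  obtain ⟨ξ, hξ, hξf⟩ := step4 D L₄
  -- nilpotents
  obtain ⟨n', l', x', r', hx', hsum'⟩ := D.full.exists_sum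
  have hnil : ∀ i, x' i * x' i = 0 := by
    intro i
    obtain ⟨s, t, b, hst, hi⟩ := hx' i
    have h0 : D.f t * D.f s = 0 := D.orth t s (by rw [abs_sub_comm]; omega)
    rw [hi, show D.f s * b * D.f t * (D.f s * b * D.f t)
      = D.f s * b * (D.f t * D.f s) * b * D.f t by noncomm_ring, h0]
    simp
  let σ : Fa α μ₂ →⋆ₐ[ℂ] Fa α μ₄ := L₄.σ ⟨0, by omega⟩
  have hfull' : Full (Set.range fun i => σ (x' i)) := by
    refine Full.of_sum Finset.univ (fun i => σ (l' i)) (fun i => σ (x' i)) (fun i => σ (r' i))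
      (fun i _ => ⟨i, rfl⟩) ?_
    rw [← map_one σ, ← hsum', map_sum]
    simp only [map_mul]
  have hnil' : ∀ i, σ (x' i) * σ (x' i) = 0 := fun i => by rw [← map_mul, hnil, map_zero]
  -- step 5
  obtain ⟨ι₅, μ₅, h₅, ⟨L₅⟩⟩ := exists_legs α (Fin (n' + 1)) ι₄ μ₄
  obtain ⟨X, hX, hXf⟩ := step5 n' (fun i => σ (x' i)) hnil' hfull' ξ hξ hξf L₅
  exact ⟨ι₅, μ₅, h₅, X, hX, hXf⟩

theorem exists_glueData (ι : Type) (μ : Filter ι) [NeBot μ]
    (h : IsEmpty (Fa α μ →⋆ₐ[ℂ] ℂ)) (l : ℕ) (hl : 0 < l) :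
    ∃ (ι' : Type) (μ' : Filter ι') (_ : NeBot μ'),
      Nonempty (GlueData (Fin l → Bool) Unit (Fa α μ')) := by
  obtain ⟨ι₅, μ₅, _, X, hX, hXf⟩ := exists_nilpotent α ι μ h
  obtain ⟨ι₆, μ₆, _, ⟨L₆⟩⟩ := exists_legs α (Fin l) ι₅ μ₅
  obtain ⟨D⟩ := step6G X hX hXf l L₆
  obtain ⟨ι₇, μ₇, h₇, ⟨L₇⟩⟩ := exists_legs α (Fin (D.N ^ D.N) ⊕ Fin D.N) ι₆ μ₆
  let _ : PartialOrder (Fa α μ₇) := CStarAlgebra.spectralOrder (Fa α μ₇)
  have _ : StarOrderedRing (Fa α μ₇) := CStarAlgebra.spectralOrderedRing (Fa α μ₇)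
  obtain ⟨D'⟩ := step7G l hl D L₇
  exact ⟨ι₇, μ₇, h₇, step8G l D'⟩

theorem exists_dimDrop_hom (ι : Type) (μ : Filter ι) [NeBot μ]
    (h : IsEmpty (Fa α μ →⋆ₐ[ℂ] ℂ)) (p q : ℕ) (hp : 0 < p) (hq : 0 < q)
    (hpq : Nat.Coprime p q) :
    ∃ (ι' : Type) (μ' : Filter ι') (_ : NeBot μ'),
      Nonempty (dimDrop p q →⋆ₐ[ℂ] Fa α μ') := by
  obtain ⟨ι', μ', h', ⟨D⟩⟩ := exists_glueData α ι μ h (2 * (p * q)) (by positivity)
  exact ⟨ι', μ', h', dimDrop_hom_of_glueData p q hp hq hpq D⟩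

end Vale.Agent.P095.ZS
end

section

/-! Homomorphisms from an inductive limit of dimension drop algebras into a fixed point algebra. -/

open Filter Topology

namespace Vale.Agent.P095.ZS

universe u v w x

open Vale.Agent.P101 Vale.Agent.P101.SeqQuot

section Rep

variable {A : Type u} [CStarAlgebra A] {G : Type x} [Group G] (α : G →* (A ≃⋆ₐ[ℂ] A))
  {ι : Type v} {μ : Filter ι}

/-- Any representative of `φ d` has norm eventually less than `r` if `‖d‖ < r`. -/
theorem rep_norm_lt {D : Type w} [CStarAlgebra D] (φ : D →⋆ₐ[ℂ] Fa α μ) (d : D) {r : ℝ}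
    (hr : ‖d‖ < r) (y : fixSeq α μ) (hy : (Quotient.mk'' y : Fa α μ) = φ d) :
    ∀ᶠ i in μ, ‖(y : ι → A) i‖ < r :=
  Vale.Agent.P101.rep_norm_lt ((incl α μ).comp φ) d hr (inclSeq α μ y)
    (show (Quotient.mk'' (inclSeq α μ y) : Fcs A μ) = incl α μ (φ d) by rw [← hy]; rfl)

/-- Representatives with bounded norm. -/
theorem exists_rep_bounded (x : Fa α μ) (r : ℝ) (hr : 0 ≤ r)
    (h : ∀ y : fixSeq α μ, (Quotient.mk'' y : Fa α μ) = x → ∀ᶠ i in μ, ‖(y : ι → A) i‖ < r) :
    ∃ y : fixSeq α μ, (Quotient.mk'' y : Fa α μ) = x ∧ ∀ i, ‖(y : ι → A) i‖ ≤ r := by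
  classical
  obtain ⟨y, hy⟩ : ∃ y : fixSeq α μ, (Quotient.mk'' y : Fa α μ) = x := Quotient.exists_rep x
  have hev := h y hy
  let y' : ι → A := fun i => if ‖(y : ι → A) i‖ ≤ r then (y : ι → A) i else 0
  have hy' : ∀ᶠ i in μ, y' i = (y : ι → A) i := by
    filter_upwards [hev] with i hi
    simp only [y', if_pos hi.le]
  have hb : ∀ i, ‖y' i‖ ≤ r := by
    intro i
    simp only [y']
    split_ifs with h1
    · exact h1
    · simpa only [norm_zero] using hr
  have hmem : y' ∈ fixSeq α μ := by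
    have hyf := (mem_fixSeq α μ _).1 y.2
    refine (mem_fixSeq α μ _).2 ⟨⟨⟨r, hb⟩, fun a => ?_⟩, fun g => ?_⟩
    · refine (hyf.1.2 a).congr' ?_
      filter_upwards [hy'] with i hi
      rw [hi]
    · refine (hyf.2 g).congr' ?_
      filter_upwards [hy'] with i hi
      rw [hi]
  refine ⟨⟨y', hmem⟩, ?_, hb⟩
  rw [← hy]
  refine Quotient.sound (?_ : (nullConG μ (fixSeq α μ) (isSeqAlg_fixSeq α μ)) _ _)
  show Tendsto (fun i => ‖y' i - (y : ι → A) i‖) μ (𝓝 0)
  refine tendsto_const_nhds.congr' ?_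
  filter_upwards [hy'] with i hi
  rw [hi, sub_self, norm_zero]

end Rep

section Limit

variable {A : Type u} [CStarAlgebra A] {G : Type x} [Group G] (α : G →* (A ≃⋆ₐ[ℂ] A))
  {Z : Type v} [CStarAlgebra Z]

/-- a `*`-homomorphism on a `*`-subalgebra of `Z` which is contractive in the sense of
representatives -/
def ContractiveRep {ι : Type w} {μ : Filter ι} {S : StarSubalgebra ℂ Z}
    (φ : S →⋆ₐ[ℂ] Fa α μ) : Prop :=
  ∀ (s : S) (r : ℝ), ‖(s : Z)‖ < r → ∀ y : fixSeq α μ, (Quotient.mk'' y : Fa α μ) = φ s →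
    ∀ᶠ i in μ, ‖(y : ι → A) i‖ < r

theorem exists_hom_of_contractive {S : ℕ → StarSubalgebra ℂ Z} (hmono : Monotone S)
    (hdense : Dense (⋃ n, (S n : Set Z))) {ι : ℕ → Type w} {μ : ∀ n, Filter (ι n)}
    (hμ : ∀ n, NeBot (μ n)) (φ : ∀ n, S n →⋆ₐ[ℂ] Fa α (μ n))
    (hφ : ∀ n, ContractiveRep α (φ n)) :
    ∃ (ν : Filter (Σ n, ι n)) (_ : NeBot ν), Nonempty (Z →⋆ₐ[ℂ] Fa α ν) := by
  classical
  let ν : Filter (Σ n, ι n) := atTop.bind (fun n => (μ n).map (Sigma.mk n))
  have hev : ∀ p : (Σ n, ι n) → Prop,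
      (∀ᶠ x in ν, p x) ↔ ∀ᶠ n in atTop, ∀ᶠ i in μ n, p ⟨n, i⟩ := fun p => by
    simp only [ν, eventually_bind, eventually_map]
  have hν : NeBot ν := by
    refine ⟨fun h => ?_⟩
    have h1 : ∀ᶠ x in ν, False := by rw [h]; trivial
    rw [hev] at h1
    obtain ⟨n, hn⟩ := h1.exists
    obtain ⟨_, hi⟩ := hn.exists
    exact hi
  -- the relation defining the homomorphism
  let Rel : Z → fixSeq α ν → Prop := fun z w =>
    ∃ s : ∀ n, S n, Tendsto (fun n => (s n : Z)) atTop (𝓝 z) ∧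
      ∀ n, ∃ y : fixSeq α (μ n), (Quotient.mk'' y : Fa α (μ n)) = φ n (s n) ∧
        ∀ i, (w : (Σ n, ι n) → A) ⟨n, i⟩ = (y : ι n → A) i
  have hadd : ∀ z z' w w', Rel z w → Rel z' w' → Rel (z + z') (w + w') := by
    rintro z z' w w' ⟨s, hs, h⟩ ⟨s', hs', h'⟩
    refine ⟨fun n => s n + s' n, hs.add hs', fun n => ?_⟩
    obtain ⟨y, hy, e⟩ := h n
    obtain ⟨y', hy', e'⟩ := h' n
    refine ⟨y + y', ?_, fun i => ?_⟩
    · rw [map_add, ← hy, ← hy']; rfl
    · show (w : (Σ n, ι n) → A) ⟨n, i⟩ + (w' : (Σ n, ι n) → A) ⟨n, i⟩ = _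
      rw [e, e']; rfl
  have hmul : ∀ z z' w w', Rel z w → Rel z' w' → Rel (z * z') (w * w') := by
    rintro z z' w w' ⟨s, hs, h⟩ ⟨s', hs', h'⟩
    refine ⟨fun n => s n * s' n, hs.mul hs', fun n => ?_⟩
    obtain ⟨y, hy, e⟩ := h n
    obtain ⟨y', hy', e'⟩ := h' n
    refine ⟨y * y', ?_, fun i => ?_⟩
    · rw [map_mul, ← hy, ← hy']; rfl
    · show (w : (Σ n, ι n) → A) ⟨n, i⟩ * (w' : (Σ n, ι n) → A) ⟨n, i⟩ = _
      rw [e, e']; rfl
  have hstar : ∀ z w, Rel z w → Rel (star z) (star w) := by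
    rintro z w ⟨s, hs, h⟩
    refine ⟨fun n => star (s n), hs.star, fun n => ?_⟩
    obtain ⟨y, hy, e⟩ := h n
    refine ⟨star y, ?_, fun i => ?_⟩
    · rw [map_star, ← hy]; rfl
    · show star ((w : (Σ n, ι n) → A) ⟨n, i⟩) = _
      rw [e]; rfl
  have halg : ∀ c : ℂ, Rel (algebraMap ℂ Z c) (algebraMap ℂ (fixSeq α ν) c) := by
    intro c
    refine ⟨fun n => algebraMap ℂ (S n) c, tendsto_const_nhds, fun n => ?_⟩
    refine ⟨algebraMap ℂ (fixSeq α (μ n)) c, ?_, fun i => rfl⟩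
    rw [AlgHomClass.commutes]; rfl
  have huniq : ∀ z w w', Rel z w → Rel z w' →
      (Quotient.mk'' w : Fa α ν) = Quotient.mk'' w' := by
    rintro z w w' ⟨s, hs, h⟩ ⟨s', hs', h'⟩
    refine Quotient.sound (?_ : (nullConG ν (fixSeq α ν) (isSeqAlg_fixSeq α ν)) _ _)
    show Tendsto (fun x => ‖(w : (Σ n, ι n) → A) x - (w' : (Σ n, ι n) → A) x‖) ν (𝓝 0)
    rw [Metric.tendsto_nhds]
    intro ε hε
    rw [hev]
    have hdiff : Tendsto (fun n => ‖(s n : Z) - (s' n : Z)‖) atTop (𝓝 0) := by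
      have := (hs.sub hs').norm
      rwa [sub_self, norm_zero] at this
    filter_upwards [hdiff.eventually (gt_mem_nhds hε)] with n hn
    obtain ⟨y, hy, e⟩ := h n
    obtain ⟨y', hy', e'⟩ := h' n
    have h1 := hφ n (s n - s' n) ε hn (y - y') (by rw [map_sub, ← hy, ← hy']; rfl)
    filter_upwards [h1] with i hi
    rw [e, e', dist_zero_right, norm_norm]
    exact hi
  have hex : ∀ z, ∃ w, Rel z w := by
    intro z
    have h1 : ∀ n, ∃ s : S n, dist z (s : Z) < Metric.infDist z (S n : Set Z) + 1 / ((n : ℝ) + 1) := by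
      intro n
      have hne : (S n : Set Z).Nonempty := ⟨0, zero_mem _⟩
      have hlt : Metric.infDist z (S n : Set Z)
          < Metric.infDist z (S n : Set Z) + 1 / ((n : ℝ) + 1) := by
        have : (0 : ℝ) < 1 / ((n : ℝ) + 1) := by positivity
        linarith
      obtain ⟨y, hy, hd⟩ := (Metric.infDist_lt_iff hne).1 hlt
      exact ⟨⟨y, hy⟩, hd⟩
    choose s hs using h1
    have hconv : Tendsto (fun n => (s n : Z)) atTop (𝓝 z) := by
      rw [Metric.tendsto_atTop]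
      intro ε hε
      obtain ⟨y, hy, hyz⟩ := Metric.dense_iff.1 hdense z (ε / 2) (by linarith only [hε])
      obtain ⟨m, hm⟩ := Set.mem_iUnion.1 hyz
      obtain ⟨k, hk⟩ := exists_nat_one_div_lt (show (0 : ℝ) < ε / 2 by linarith)
      refine ⟨max m k, fun n hn => ?_⟩
      have hmn : (y : Z) ∈ (S n : Set Z) := hmono ((le_max_left m k).trans hn) hm
      have h2 : Metric.infDist z (S n : Set Z) ≤ dist z y := Metric.infDist_le_dist_of_mem hmn
      have h3 : dist z y < ε / 2 := by rw [dist_comm]; exact hy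
      have h4 : 1 / ((n : ℝ) + 1) ≤ 1 / ((k : ℝ) + 1) := by
        apply one_div_le_one_div_of_le (by positivity)
        have : (k : ℝ) ≤ n := by exact_mod_cast (le_max_right m k).trans hn
        linarith only [this]
      have h5 := hs n
      rw [dist_comm]
      linarith only [hk, h2, h3, h4, h5]
    -- uniform bound
    obtain ⟨C, hC⟩ : ∃ C : ℝ, ∀ n, ‖(s n : Z)‖ < C := by
      obtain ⟨C, hC⟩ := (Metric.isBounded_range_of_tendsto _ hconv).exists_norm_le
      exact ⟨C + 1, fun n => lt_of_le_of_lt (hC _ ⟨n, rfl⟩) (by linarith)⟩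
    have hC0 : 0 ≤ C := (norm_nonneg _).trans (hC 0).le
    have h2 : ∀ n, ∃ y : fixSeq α (μ n), (Quotient.mk'' y : Fa α (μ n)) = φ n (s n) ∧
        ∀ i, ‖(y : ι n → A) i‖ ≤ C := fun n =>
      exists_rep_bounded α _ C hC0 (fun y hy => hφ n (s n) C (hC n) y hy)
    choose y hy hyC using h2
    let w : (Σ n, ι n) → A := fun x => (y x.1 : ι x.1 → A) x.2
    have hw : w ∈ fixSeq α ν := by
      refine (mem_fixSeq α ν _).2 ⟨⟨⟨C, fun x => hyC _ _⟩, fun a => ?_⟩, fun g => ?_⟩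
      · rw [Metric.tendsto_nhds]
        intro ε hε
        rw [hev]
        refine Eventually.of_forall fun n => ?_
        exact (Metric.tendsto_nhds.1 (((mem_fixSeq α (μ n) _).1 (y n).2).1.2 a)) ε hε
      · rw [Metric.tendsto_nhds]
        intro ε hε
        rw [hev]
        refine Eventually.of_forall fun n => ?_
        exact (Metric.tendsto_nhds.1 (((mem_fixSeq α (μ n) _).1 (y n).2).2 g)) ε hε
    exact ⟨⟨w, hw⟩, s, hconv, fun n => ⟨y n, hy n, fun i => rfl⟩⟩
  choose W hW using hex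
  refine ⟨ν, hν, ⟨{
    toFun := fun z => (Quotient.mk'' (W z) : Fa α ν)
    map_one' := ?_
    map_mul' := fun z z' => ?_
    map_zero' := ?_
    map_add' := fun z z' => ?_
    commutes' := fun c => ?_
    map_star' := fun z => ?_ }⟩⟩
  · have h1 := halg 1
    rw [map_one, map_one] at h1
    exact huniq _ _ _ (hW 1) h1
  · exact huniq _ _ _ (hW (z * z')) (hmul _ _ _ _ (hW z) (hW z'))
  · have h1 := halg 0
    rw [map_zero, map_zero] at h1
    exact huniq _ _ _ (hW 0) h1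
  · exact huniq _ _ _ (hW (z + z')) (hadd _ _ _ _ (hW z) (hW z'))
  · exact huniq _ _ _ (hW _) (halg c)
  · exact huniq _ _ _ (hW (star z)) (hstar _ _ (hW z))

end Limit

section DimDrop

open scoped Matrix.Norms.L2Operator

theorem contractiveRep_of_equiv {A : Type u} [CStarAlgebra A] {G : Type x} [Group G]
    (α : G →* (A ≃⋆ₐ[ℂ] A)) {Z : Type v} [CStarAlgebra Z]
    {ι : Type w} {μ : Filter ι} {S : StarSubalgebra ℂ Z} (p q : ℕ)
    (e : dimDrop p q ≃⋆ₐ[ℂ] S) (φ : dimDrop p q →⋆ₐ[ℂ] Fa α μ) :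
    ContractiveRep α (φ.comp (e.symm : S →⋆ₐ[ℂ] dimDrop p q)) := by
  intro s r hr y hy
  have : IsClosed ((dimDrop p q : StarSubalgebra ℂ
      C(unitInterval, Matrix (Fin p × Fin q) (Fin p × Fin q) ℂ)) :
      Set C(unitInterval, Matrix (Fin p × Fin q) (Fin p × Fin q) ℂ)) :=
    sepAux_isClosed_dimDrop p q
  let _ : CStarAlgebra (dimDrop p q) := StarSubalgebra.cstarAlgebra (dimDrop p q)
  let j : dimDrop p q →⋆ₐ[ℂ] Z := S.subtype.comp (e : dimDrop p q →⋆ₐ[ℂ] S)
  have hj : Function.Injective j := fun a b hab => e.injective (Subtype.ext hab)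
  have hnorm : ‖e.symm s‖ = ‖(s : Z)‖ := by
    have h1 := NonUnitalStarAlgHom.norm_map j hj (e.symm s)
    have h2 : j (e.symm s) = (s : Z) := by
      show ((e (e.symm s) : S) : Z) = s
      rw [e.apply_symm_apply]
    rw [h2] at h1
    exact h1.symm
  exact rep_norm_lt α φ (e.symm s) (by rw [hnorm]; exact hr) y hy

end DimDrop

theorem exists_hom_of_limit {A Z : Type u} [CStarAlgebra A] [CStarAlgebra Z] {G : Type x} [Group G]
    (α : G →* (A ≃⋆ₐ[ℂ] A)) (hZ : IsJiangSu Z)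
    (hA : ∀ p q : ℕ, 0 < p → 0 < q → Nat.Coprime p q →
      ∃ (ι : Type) (μ : Filter ι) (_ : NeBot μ), Nonempty (dimDrop p q →⋆ₐ[ℂ] Fa α μ)) :
    ∃ (ι : Type) (ν : Filter ι) (_ : NeBot ν), Nonempty (Z →⋆ₐ[ℂ] Fa α ν) := by
  obtain ⟨p, q, S, hmono, hS, hdense⟩ := hZ.limit
  have h1 : ∀ n, ∃ (ι : Type) (μ : Filter ι) (_ : NeBot μ) (φ : S n →⋆ₐ[ℂ] Fa α μ),
      ContractiveRep α φ := by
    intro n
    obtain ⟨hp, hq, hpq, ⟨e⟩⟩ := hS n
    obtain ⟨ι, μ, hμ, ⟨φ⟩⟩ := hA (p n) (q n) hp hq hpq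
    exact ⟨ι, μ, hμ, φ.comp (e.symm : S n →⋆ₐ[ℂ] dimDrop (p n) (q n)),
      contractiveRep_of_equiv α (p n) (q n) e φ⟩
  choose ι μ hμ φ hφ using h1
  obtain ⟨ν, hν, h⟩ := exists_hom_of_contractive α hmono hdense hμ φ hφ
  exact ⟨Σ n, ι n, ν, hν, h⟩

end Vale.Agent.P095.ZS
end

section

/-! If the fixed point algebra of the central sequence algebra has no characters, then the action
is equivariantly `𝒵`-stable. -/

open Filter Topology
open scoped TensorProduct

namespace Vale.Agent.P095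

universe u w

open Vale.Agent.P101 Vale.Agent.P095.ZS

end Vale.Agent.P095
end

section

/-! Separable invariant subalgebras, and no characters. -/

open Filter Topology

namespace Vale.Agent.P095R

universe u w

open Vale.Agent.P095

/-- Countable closure under countably many operations on finite sets. -/
theorem closing_off {M : Type*} (D0 : Set M) (hD0 : D0.Countable) {J : Type*} [Countable J]
    (w : J → Finset M → Finset M) :
    ∃ D : Set M, D.Countable ∧ D0 ⊆ D ∧ ∀ j (F : Finset M), (F : Set M) ⊆ D → (w j F : Set M) ⊆ D := by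
  classical
  let step : Set M → Set M := fun D => D ∪ ⋃ (j : J), ⋃ F ∈ {F : Finset M | (F : Set M) ⊆ D},
    (w j F : Set M)
  have hstep : ∀ D : Set M, D.Countable → (step D).Countable := by
    intro D hD
    refine hD.union (Set.countable_iUnion fun j => ?_)
    refine Set.Countable.biUnion ?_ fun F _ => (w j F).countable_toSet
    have h1 : {t : Set M | t.Finite ∧ t ⊆ D}.Countable := Set.countable_ofPred_finite_subset hD
    refine Set.MapsTo.countable_of_injOn (f := fun F : Finset M => (F : Set M)) ?_ ?_ h1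
    · intro F hF
      exact ⟨F.finite_toSet, hF⟩
    · exact Finset.coe_injective.injOn
  let D : ℕ → Set M := fun k => step^[k] D0
  have hDs : ∀ k, D (k + 1) = step (D k) := fun k => Function.iterate_succ_apply' step k D0
  have hDc : ∀ k, (D k).Countable := by
    intro k
    induction k with
    | zero => exact hD0
    | succ k ih => rw [hDs]; exact hstep _ ih
  have hmono : Monotone D := by
    refine monotone_nat_of_le_succ fun k => ?_
    rw [hDs]
    exact Set.subset_union_left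
  refine ⟨⋃ k, D k, Set.countable_iUnion hDc, Set.subset_iUnion D 0, ?_⟩
  intro j F hF
  have h1 : ∀ x : M, ∃ k, x ∈ F → x ∈ D k := by
    intro x
    by_cases hx : x ∈ F
    · obtain ⟨k, hk⟩ := Set.mem_iUnion.1 (hF hx)
      exact ⟨k, fun _ => hk⟩
    · exact ⟨0, fun h => absurd h hx⟩
  choose κ hκ using h1
  have h2 : (F : Set M) ⊆ D (F.sup κ) := fun x hx =>
    hmono (Finset.le_sup (f := κ) hx) (hκ x hx)
  refine Set.Subset.trans ?_ (Set.subset_iUnion D (F.sup κ + 1))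
  rw [hDs]
  refine Set.Subset.trans ?_ Set.subset_union_right
  intro y hy
  exact Set.mem_iUnion.2 ⟨j, Set.mem_iUnion₂.2 ⟨F, h2, hy⟩⟩

/-- Almost commuting with elements of the closed subalgebra generated by `D`. -/
theorem approx_comm {M : Type u} [CStarAlgebra M] (D : Set M) (hD : ∀ d ∈ D, star d ∈ D) (R : ℝ)
    (x : M) (hx : x ∈ (StarAlgebra.adjoin ℂ D).topologicalClosure) (ε : ℝ) (hε : 0 < ε) :
    ∃ (F : Finset M) (δ : ℝ), (F : Set M) ⊆ D ∧ 0 < δ ∧ ∀ y : M, ‖y‖ ≤ R →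
      (∀ d ∈ F, ‖y * d - d * y‖ ≤ δ) → ‖y * x - x * y‖ ≤ ε := by
  classical
  have key : ∀ x ∈ StarAlgebra.adjoin ℂ D, ∀ ε : ℝ, 0 < ε →
      ∃ (F : Finset M) (δ : ℝ), (F : Set M) ⊆ D ∧ 0 < δ ∧ ∀ y : M, ‖y‖ ≤ R →
      (∀ d ∈ F, ‖y * d - d * y‖ ≤ δ) → ‖y * x - x * y‖ ≤ ε := by
    intro x hx
    induction hx using StarAlgebra.adjoin_induction with
    | mem d hd =>
      intro ε hε
      refine ⟨{d}, ε, by simpa using hd, hε, fun y _ hy => hy d (Finset.mem_singleton_self d)⟩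
    | algebraMap r =>
      intro ε hε
      refine ⟨∅, 1, by simp, one_pos, fun y _ _ => ?_⟩
      rw [← Algebra.commutes r y, sub_self, norm_zero]
      exact hε.le
    | add a b _ _ iha ihb =>
      intro ε hε
      obtain ⟨F1, δ1, hF1, hδ1, h1⟩ := iha (ε / 2) (by (clear * - hε; positivity))
      obtain ⟨F2, δ2, hF2, hδ2, h2⟩ := ihb (ε / 2) (by positivity)
      refine ⟨F1 ∪ F2, min δ1 δ2, by rw [Finset.coe_union]; exact Set.union_subset hF1 hF2,
        lt_min hδ1 hδ2, fun y hy hyF => ?_⟩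
      have k1 := h1 y hy fun d hd =>
        (hyF d (Finset.mem_union_left _ hd)).trans (min_le_left _ _)
      have k2 := h2 y hy fun d hd =>
        (hyF d (Finset.mem_union_right _ hd)).trans (min_le_right _ _)
      have e : y * (a + b) - (a + b) * y = (y * a - a * y) + (y * b - b * y) := by noncomm_ring
      rw [e]
      have := norm_add_le (y * a - a * y) (y * b - b * y)
      linarith only [k1, k2, this]
    | mul a b _ _ iha ihb =>
      intro ε hε
      have ha0 := norm_nonneg a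
      have hb0 := norm_nonneg b
      obtain ⟨F1, δ1, hF1, hδ1, h1⟩ := iha (ε / (2 * (‖b‖ + 1))) (by positivity)
      obtain ⟨F2, δ2, hF2, hδ2, h2⟩ := ihb (ε / (2 * (‖a‖ + 1))) (by positivity)
      refine ⟨F1 ∪ F2, min δ1 δ2, by rw [Finset.coe_union]; exact Set.union_subset hF1 hF2,
        lt_min hδ1 hδ2, fun y hy hyF => ?_⟩
      have k1 := h1 y hy fun d hd =>
        (hyF d (Finset.mem_union_left _ hd)).trans (min_le_left _ _)
      have k2 := h2 y hy fun d hd =>
        (hyF d (Finset.mem_union_right _ hd)).trans (min_le_right _ _)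
      have e : y * (a * b) - (a * b) * y = (y * a - a * y) * b + a * (y * b - b * y) := by
        noncomm_ring
      rw [e]
      have t1 : ‖(y * a - a * y) * b‖ ≤ ε / 2 := by
        refine (norm_mul_le _ _).trans ?_
        calc ‖y * a - a * y‖ * ‖b‖ ≤ ε / (2 * (‖b‖ + 1)) * (‖b‖ + 1) := by gcongr; linarith only []
          _ = ε / 2 := by (clear * - hε; field_simp)
      have t2 : ‖a * (y * b - b * y)‖ ≤ ε / 2 := by
        refine (norm_mul_le _ _).trans ?_
        calc ‖a‖ * ‖y * b - b * y‖ ≤ (‖a‖ + 1) * (ε / (2 * (‖a‖ + 1))) := by gcongr; linarith only []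
          _ = ε / 2 := by (clear * - hε; field_simp)
      have := norm_add_le ((y * a - a * y) * b) (a * (y * b - b * y))
      linarith only [t1, t2, this]
    | star a _ iha =>
      intro ε hε
      obtain ⟨F1, δ1, hF1, hδ1, h1⟩ := iha ε hε
      refine ⟨F1.image star, δ1, ?_, hδ1, fun y hy hyF => ?_⟩
      · intro d hd
        rw [Finset.coe_image] at hd
        obtain ⟨d', hd', rfl⟩ := hd
        exact hD d' (hF1 hd')
      · have k1 := h1 (star y) (by rw [norm_star]; exact hy) fun d hd => by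
          have h3 := hyF (star d) (Finset.mem_image_of_mem _ hd)
          have e3 : star y * d - d * star y = -star (y * star d - star d * y) := by
            simp only [star_sub, star_mul, star_star]; abel
          rw [e3, norm_neg, norm_star]
          exact h3
        have e4 : y * star a - star a * y = -star (star y * a - a * star y) := by
          simp only [star_sub, star_mul, star_star]; abel
        rw [e4, norm_neg, norm_star]
        exact k1
  have hx' : x ∈ closure ((StarAlgebra.adjoin ℂ D : StarSubalgebra ℂ M) : Set M) := hx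
  obtain ⟨x', hx'm, hxx'⟩ := Metric.mem_closure_iff.1 hx' (ε / (4 * (|R| + 1))) (by (clear * - hε; positivity))
  obtain ⟨F, δ, hF, hδ, h⟩ := key x' hx'm (ε / 2) (by positivity)
  refine ⟨F, δ, hF, hδ, fun y hy hyF => ?_⟩
  have h1 := h y hy hyF
  rw [dist_eq_norm] at hxx'
  have hyR : ‖y‖ ≤ |R| + 1 := hy.trans (by linarith only [le_abs_self R])
  have e : y * x - x * y = y * (x - x') - (x - x') * y + (y * x' - x' * y) := by noncomm_ring
  have t1 : ‖y * (x - x')‖ ≤ ε / 4 := by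
    refine (norm_mul_le _ _).trans ?_
    calc ‖y‖ * ‖x - x'‖ ≤ (|R| + 1) * (ε / (4 * (|R| + 1))) := by gcongr
      _ = ε / 4 := by (clear * - hε; field_simp)
  have t2 : ‖(x - x') * y‖ ≤ ε / 4 := by
    refine (norm_mul_le _ _).trans ?_
    calc ‖x - x'‖ * ‖y‖ ≤ (ε / (4 * (|R| + 1))) * (|R| + 1) := by (clear * - hxx' hyR hε; gcongr)
      _ = ε / 4 := by field_simp
  rw [e]
  have t3 := norm_add_le (y * (x - x') - (x - x') * y) (y * x' - x' * y)
  have t4 := norm_sub_le (y * (x - x')) ((x - x') * y)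
  linarith only [h1, t1, t2, t3, t4]

theorem countable_submonoid_closure' {M : Type*} [Monoid M] {s : Set M} (hs : s.Countable) :
    (Submonoid.closure s : Set M).Countable := by
  have := hs.to_subtype
  refine (Set.countable_range (fun l : List s => (l.map Subtype.val).prod)).mono ?_
  intro x hx
  obtain ⟨l, hl, rfl⟩ := Submonoid.exists_list_of_mem_closure hx
  refine ⟨l.attach.map (fun y => ⟨y.1, hl y.1 y.2⟩), ?_⟩
  simp only [List.map_map, Function.comp_def, List.map_subtype, List.unattach_attach, List.map_id_fun', id_eq]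

theorem isSeparable_adjoin_closure {M : Type u} [CStarAlgebra M] {s : Set M} (hs : s.Countable) :
    TopologicalSpace.IsSeparable
      (((StarAlgebra.adjoin ℂ s).topologicalClosure : StarSubalgebra ℂ M) : Set M) := by
  have h0 : TopologicalSpace.IsSeparable ((StarAlgebra.adjoin ℂ s : StarSubalgebra ℂ M) :
      Set M) := by
    have h1 : ((StarAlgebra.adjoin ℂ s : StarSubalgebra ℂ M) : Set M) =
        (Submodule.span ℂ (Submonoid.closure (s ∪ star s) : Set M) : Set M) := by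
      rw [← Algebra.adjoin_eq_span]; rfl
    rw [h1]
    have hs' : (star s).Countable := by
      rw [← Set.image_star]; exact hs.image _
    exact ((countable_submonoid_closure' (hs.union hs')).isSeparable).span
  exact h0.closure

/-- There is a separable closed invariant subalgebra in which the families can be chosen. -/
theorem exists_separable_sub {M : Type u} [CStarAlgebra M] {G : Type w} [Group G] [Countable G]
    (γ : G →* (M ≃⋆ₐ[ℂ] M)) (m : ℕ) (R : ℝ) (hM : NoCharOn γ m R Set.univ) (D0 : Set M)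
    (hD0 : D0.Countable) :
    ∃ E : StarSubalgebra ℂ M, IsClosed (E : Set M) ∧ TopologicalSpace.IsSeparable (E : Set M) ∧
      D0 ⊆ E ∧ (∀ g, ∀ x ∈ E, γ g x ∈ E) ∧ NoCharOn γ m R (E : Set M) := by
  classical
  have hM' : ∀ (F : Finset M) (p : Finset G × ℕ), ∃ x : Fin 4 → Fin m → M,
      (∀ q i, ‖x q i‖ ≤ R) ∧
      (∀ q i, ∀ y ∈ F, ‖x q i * y - y * x q i‖ ≤ 1 / ((p.2 : ℝ) + 1)) ∧
      (∀ q i, ∀ g ∈ p.1, ‖γ g (x q i) - x q i‖ ≤ 1 / ((p.2 : ℝ) + 1)) ∧
      ‖(∑ i, x 0 i * (x 1 i * x 2 i - x 2 i * x 1 i) * x 3 i) - 1‖ ≤ 1 / ((p.2 : ℝ) + 1) := by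
    intro F p
    obtain ⟨x, -, h1, h2, h3, h4⟩ := hM F p.1 (1 / ((p.2 : ℝ) + 1)) (by positivity)
      (fun _ _ => Set.mem_univ _)
    exact ⟨x, h1, h2, h3, h4⟩
  choose X hX1 hX2 hX3 hX4 using hM'
  let w : (Unit ⊕ (G ⊕ (Finset G × ℕ))) → Finset M → Finset M := fun j F =>
    match j with
    | Sum.inl _ => F.image star
    | Sum.inr (Sum.inl g) => F.image (γ g)
    | Sum.inr (Sum.inr p) => (Finset.univ : Finset (Fin 4 × Fin m)).image fun q => X F p q.1 q.2
  obtain ⟨D, hDc, hD0D, hDw⟩ := closing_off D0 hD0 w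
  have hstar : ∀ d ∈ D, star d ∈ D := by
    intro d hd
    have := hDw (Sum.inl ()) {d} (by simpa using hd)
    refine this ?_
    show star d ∈ ((({d} : Finset M).image star : Finset M) : Set M)
    simp only [Finset.image_singleton, Finset.coe_singleton, Set.mem_singleton_iff]
  have hact : ∀ g, ∀ d ∈ D, γ g d ∈ D := by
    intro g d hd
    have := hDw (Sum.inr (Sum.inl g)) {d} (by simpa using hd)
    refine this ?_
    show γ g d ∈ ((({d} : Finset M).image (γ g) : Finset M) : Set M)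
    simp
  have hwit : ∀ (F : Finset M) (p : Finset G × ℕ), (F : Set M) ⊆ D → ∀ q i, X F p q i ∈ D := by
    intro F p hF q i
    have := hDw (Sum.inr (Sum.inr p)) F hF
    refine this ?_
    show X F p q i ∈ (((Finset.univ : Finset (Fin 4 × Fin m)).image
      fun q => X F p q.1 q.2 : Finset M) : Set M)
    rw [Finset.mem_coe, Finset.mem_image]
    exact ⟨(q, i), Finset.mem_univ _, rfl⟩
  let E : StarSubalgebra ℂ M := (StarAlgebra.adjoin ℂ D).topologicalClosure
  have hEc : IsClosed (E : Set M) := StarSubalgebra.isClosed_topologicalClosure _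
  have hDE : D ⊆ (E : Set M) :=
    (StarAlgebra.subset_adjoin ℂ D).trans (StarSubalgebra.le_topologicalClosure _)
  refine ⟨E, hEc, isSeparable_adjoin_closure hDc, hD0D.trans hDE, ?_, ?_⟩
  · intro g
    let φ : M →⋆ₐ[ℂ] M := (γ g : M ≃⋆ₐ[ℂ] M)
    have hφ : Continuous φ :=
      AddMonoidHomClass.continuous_of_bound φ 1
        (by simpa only [one_mul] using! NonUnitalStarAlgHom.norm_apply_le φ)
    have hle : E ≤ E.comap φ := by
      refine StarSubalgebra.topologicalClosure_minimal ?_ ?_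
      · refine StarAlgebra.adjoin_le fun d hd => ?_
        exact hDE (hact g d hd)
      · exact hEc.preimage hφ
    intro x hx
    exact hle hx
  · intro Y S ε hε hY
    have h1 : ∀ y : M, ∃ (F : Finset M) (δ : ℝ), (F : Set M) ⊆ D ∧ 0 < δ ∧ (y ∈ Y → ∀ z : M,
        ‖z‖ ≤ R → (∀ d ∈ F, ‖z * d - d * z‖ ≤ δ) → ‖z * y - y * z‖ ≤ ε) := by
      intro y
      by_cases hy : y ∈ Y
      · obtain ⟨F, δ, hF, hδ, h⟩ := approx_comm D hstar R y (hY y hy) ε hε
        exact ⟨F, δ, hF, hδ, fun _ => h⟩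
      · exact ⟨∅, 1, by simp, one_pos, fun h => absurd h hy⟩
    choose F δ hF hδ h using h1
    obtain ⟨n, hn1, hn2⟩ : ∃ n : ℕ, 1 / ((n : ℝ) + 1) ≤ ε ∧ ∀ y ∈ Y, 1 / ((n : ℝ) + 1) ≤ δ y := by
      have hev : ∀ r : ℝ, 0 < r → ∀ᶠ n : ℕ in atTop, 1 / ((n : ℝ) + 1) ≤ r := by
        intro r hr
        filter_upwards [(tendsto_one_div_add_atTop_nhds_zero_nat (𝕜 := ℝ)).eventually
          (gt_mem_nhds hr)] with n hn
        exact hn.le
      have h2 : ∀ᶠ n : ℕ in atTop, ∀ y ∈ Y, 1 / ((n : ℝ) + 1) ≤ δ y :=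
        (Finset.eventually_all Y).2 fun y _ => hev (δ y) (hδ y)
      exact ((hev ε hε).and h2).exists
    have hFF : ((Y.biUnion F : Finset M) : Set M) ⊆ D := by
      intro d hd
      rw [Finset.mem_coe, Finset.mem_biUnion] at hd
      obtain ⟨y, -, hd⟩ := hd
      exact hF y hd
    refine ⟨X (Y.biUnion F) (S, n), fun q i => hDE (hwit _ _ hFF q i), fun q i => hX1 _ _ q i,
      ?_, ?_, (hX4 _ _).trans hn1⟩
    · intro q i y hy
      refine h y hy _ (hX1 _ _ q i) fun d hd => ?_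
      exact (hX2 _ _ q i d (Finset.mem_biUnion.2 ⟨y, hy, hd⟩)).trans (hn2 y hy)
    · intro q i g hg
      exact (hX3 _ _ q i g hg).trans hn1

theorem tendsto_comm_dense {E : Type u} [CStarAlgebra E] (x : ℕ → E) (hx : DenseRange x)
    (a : ℕ → E) (C : ℝ)
    (hC : ∀ n, ‖a n‖ ≤ C) (h : ∀ m, Tendsto (fun n => ‖a n * x m - x m * a n‖) atTop (𝓝 0))
    (z : E) : Tendsto (fun n => ‖a n * z - z * a n‖) atTop (𝓝 0) := by
  have hC0 : 0 ≤ C := (norm_nonneg _).trans (hC 0)
  rw [Metric.tendsto_atTop]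
  intro ε hε
  obtain ⟨m, hm⟩ := Metric.denseRange_iff.1 hx z (ε / (2 * (2 * C + 1))) (by (clear * - hε hC0; positivity))
  rw [dist_eq_norm] at hm
  obtain ⟨N, hN⟩ := Metric.tendsto_atTop.mp (h m) (ε / 2) (by positivity)
  refine ⟨N, fun n hn => ?_⟩
  have h1 := hN n hn
  rw [dist_zero_right, norm_norm] at h1 ⊢
  have e : a n * z - z * a n = (a n * x m - x m * a n) +
      (a n * (z - x m) - (z - x m) * a n) := by noncomm_ring
  rw [e]
  have t1 := norm_add_le (a n * x m - x m * a n) (a n * (z - x m) - (z - x m) * a n)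
  have t2 := norm_sub_le (a n * (z - x m)) ((z - x m) * a n)
  have t3 : ‖a n * (z - x m)‖ ≤ C * ‖z - x m‖ :=
    (norm_mul_le _ _).trans (mul_le_mul_of_nonneg_right (hC n) (norm_nonneg _))
  have t4 : ‖(z - x m) * a n‖ ≤ C * ‖z - x m‖ := by
    refine (norm_mul_le _ _).trans ?_
    rw [mul_comm]
    exact mul_le_mul_of_nonneg_right (hC n) (norm_nonneg _)
  have t5 : (2 * C + 1) * ‖z - x m‖ < ε / 2 := by
    have h6 : (2 * C + 1) * ‖z - x m‖ < (2 * C + 1) * (ε / (2 * (2 * C + 1))) :=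
      mul_lt_mul_of_pos_left hm (by positivity)
    have h7 : (2 * C + 1) * (ε / (2 * (2 * C + 1))) = ε / 2 := by field_simp
    linarith only [h6, h7]
  nlinarith only [h1, t1, t2, t3, t4, t5, norm_nonneg (z - x m)]

theorem tendsto_of_level (f : ℕ → ℝ) (hf : ∀ n, 0 ≤ f n) (m : ℕ)
    (h : ∀ n, m ≤ n → f n ≤ 1 / ((n : ℝ) + 1)) : Tendsto f atTop (𝓝 0) := by
  refine squeeze_zero' (Eventually.of_forall hf) ?_ tendsto_one_div_add_atTop_nhds_zero_nat
  filter_upwards [eventually_ge_atTop m] with n hn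
  exact h n hn

/-- The families give that the fixed point algebra of the central sequence algebra has no
characters. -/
theorem isEmpty_Fa {E : Type u} [CStarAlgebra E] [TopologicalSpace.SeparableSpace E] {G : Type w}
    [Group G] [Countable G] (γ : G →* (E ≃⋆ₐ[ℂ] E)) (m : ℕ) (R : ℝ)
    (hE : NoCharOn γ m R Set.univ) : IsEmpty (ZS.Fa γ (atTop : Filter ℕ) →⋆ₐ[ℂ] ℂ) := by
  classical
  refine ⟨fun χ => ?_⟩
  have : Nonempty E := ⟨0⟩
  obtain ⟨d, hd⟩ := TopologicalSpace.exists_dense_seq E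
  obtain ⟨en, hen⟩ := exists_surjective_nat G
  have hE' : ∀ n : ℕ, ∃ x : Fin 4 → Fin m → E, (∀ q i, ‖x q i‖ ≤ R) ∧
      (∀ q i, ∀ y ∈ (Finset.range (n + 1)).image d, ‖x q i * y - y * x q i‖ ≤ 1 / ((n : ℝ) + 1)) ∧
      (∀ q i, ∀ g ∈ (Finset.range (n + 1)).image en,
        ‖γ g (x q i) - x q i‖ ≤ 1 / ((n : ℝ) + 1)) ∧
      ‖(∑ i, x 0 i * (x 1 i * x 2 i - x 2 i * x 1 i) * x 3 i) - 1‖ ≤ 1 / ((n : ℝ) + 1) := by
    intro n
    obtain ⟨x, -, h1, h2, h3, h4⟩ := hE ((Finset.range (n + 1)).image d)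
      ((Finset.range (n + 1)).image en) (1 / ((n : ℝ) + 1)) (by positivity)
      (fun _ _ => Set.mem_univ _)
    exact ⟨x, h1, h2, h3, h4⟩
  choose X hX1 hX2 hX3 hX4 using hE'
  have hmem : ∀ q i, (fun n => X n q i) ∈ ZS.fixSeq γ (atTop : Filter ℕ) := by
    intro q i
    rw [ZS.mem_fixSeq]
    refine ⟨⟨⟨R, fun n => hX1 n q i⟩, tendsto_comm_dense d hd _ R (fun n => hX1 n q i)
      fun k => ?_⟩, fun g => ?_⟩
    · exact tendsto_of_level _ (fun n => norm_nonneg _) k fun n hn =>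
        hX2 n q i _ (Finset.mem_image.2 ⟨k, Finset.mem_range.2 (by omega), rfl⟩)
    · obtain ⟨k, rfl⟩ := hen g
      exact tendsto_of_level _ (fun n => norm_nonneg _) k fun n hn =>
        hX3 n q i _ (Finset.mem_image.2 ⟨k, Finset.mem_range.2 (by omega), rfl⟩)
  let W : Fin 4 → Fin m → ZS.fixSeq γ (atTop : Filter ℕ) := fun q i => ⟨_, hmem q i⟩
  let V : Fin 4 → Fin m → ZS.Fa γ (atTop : Filter ℕ) := fun q i => ZS.Fa.mk γ atTop (W q i)
  let π : ZS.fixSeq γ (atTop : Filter ℕ) →+* ZS.Fa γ (atTop : Filter ℕ) :=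
    { toFun := ZS.Fa.mk γ atTop
      map_one' := rfl
      map_mul' := fun _ _ => rfl
      map_zero' := rfl
      map_add' := fun _ _ => rfl }
  have h1 : (∑ i, V 0 i * (V 1 i * V 2 i - V 2 i * V 1 i) * V 3 i) = 1 := by
    have e1 : (∑ i, V 0 i * (V 1 i * V 2 i - V 2 i * V 1 i) * V 3 i) =
        π (∑ i, W 0 i * (W 1 i * W 2 i - W 2 i * W 1 i) * W 3 i) := by
      simp only [map_sum, map_mul, map_sub]
      rfl
    have e2 : (1 : ZS.Fa γ (atTop : Filter ℕ)) = ZS.Fa.mk γ atTop 1 := rfl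
    rw [e1, e2]
    show ZS.Fa.mk γ atTop _ = _
    rw [ZS.Fa.mk_eq_iff]
    refine tendsto_of_level _ (fun n => norm_nonneg _) 0 fun n _ => ?_
    refine le_trans (le_of_eq ?_) (hX4 n)
    congr 1
    have e3 : ((∑ i, W 0 i * (W 1 i * W 2 i - W 2 i * W 1 i) * W 3 i :
        ZS.fixSeq γ (atTop : Filter ℕ)) : ℕ → E) n =
        ∑ i, X n 0 i * (X n 1 i * X n 2 i - X n 2 i * X n 1 i) * X n 3 i := by
      rw [AddSubmonoidClass.coe_finsetSum, Finset.sum_apply]
      rfl
    rw [e3]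
    rfl
  have h2 : χ (∑ i, V 0 i * (V 1 i * V 2 i - V 2 i * V 1 i) * V 3 i) = 0 := by
    rw [map_sum]
    refine Finset.sum_eq_zero fun i _ => ?_
    rw [map_mul, map_mul, map_sub, map_mul, map_mul]
    ring
  rw [h1, map_one] at h2
  exact one_ne_zero h2

end Vale.Agent.P095R
end

section

/-! Equivariant one-sided approximate intertwining, with the approximating unitaries. -/

open Filter Topology

namespace Vale.Agent.P095R

universe u w

open Vale.Agent.P101 Vale.Agent.P095 Vale.Agent.P095.ZS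

theorem elliott_lim {A B : Type u} [CStarAlgebra A] [CStarAlgebra B]
    [TopologicalSpace.SeparableSpace A] [TopologicalSpace.SeparableSpace B]
    {G : Type w} [Group G] [Countable G] (α : G →* (A ≃⋆ₐ[ℂ] A)) (β : G →* (B ≃⋆ₐ[ℂ] B))
    (i : A →⋆ₐ[ℂ] B) (hi : Function.Injective i) (hαβ : ∀ g a, i (α g a) = β g (i a))
    (h : ∀ (S : Finset A) (T : Finset B) (K : Finset G) (ε : ℝ), 0 < ε → ∃ v ∈ unitary B,
      (∀ a ∈ S, ‖v * i a - i a * v‖ < ε) ∧ (∀ b ∈ T, ∃ a, ‖star v * b * v - i a‖ < ε) ∧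
      ∀ g ∈ K, ‖β g v - v‖ < ε) :
    ∃ (Φ : A ≃⋆ₐ[ℂ] B) (u : G → B) (V : ℕ → B), (∀ n, V n ∈ unitary B) ∧
      (∀ g, u g ∈ unitary B) ∧ (∀ g h, u (g * h) = u g * β g (u h)) ∧
      (∀ g a, Φ (α g a) = u g * β g (Φ a) * star (u g)) ∧
      ∀ a, Tendsto (fun n => V n * i a * star (V n)) atTop (𝓝 (Φ a)) := by
  classical
  obtain ⟨eG, heG⟩ := exists_surjective_nat G
  have h' : ∀ (S : Finset A) (T : Finset B) (n : ℕ), ∃ (v : unitary B) (κ : B → A),
      (∀ a ∈ S, ‖(v : B) * i a - i a * v‖ < (1 / 2 : ℝ) ^ n) ∧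
      (∀ b ∈ T, ‖star (v : B) * b * v - i (κ b)‖ < (1 / 2 : ℝ) ^ n) ∧
      ∀ j ≤ n, ‖β (eG j) (v : B) - v‖ < (1 / 2 : ℝ) ^ n := by
    intro S T n
    obtain ⟨v, hv, h1, h2, h4⟩ := h S T ((Finset.range (n + 1)).image eG) ((1 / 2 : ℝ) ^ n)
      (by positivity)
    have h3 : ∀ b : B, ∃ a : A, b ∈ T → ‖star v * b * v - i a‖ < (1 / 2 : ℝ) ^ n := by
      intro b
      by_cases hb : b ∈ T
      · obtain ⟨a, ha⟩ := h2 b hb
        exact ⟨a, fun _ => ha⟩
      · exact ⟨0, fun h => absurd h hb⟩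
    choose κ hκ using h3
    exact ⟨⟨v, hv⟩, κ, h1, hκ, fun j hj => h4 _ (Finset.mem_image.2 ⟨j, by simp; omega, rfl⟩)⟩
  choose V κ hV hκ hβV using h'
  obtain ⟨a, ha⟩ := TopologicalSpace.exists_dense_seq A
  obtain ⟨b, hb⟩ := TopologicalSpace.exists_dense_seq B
  let G1 : ℕ → unitary B × Finset A → Finset A :=
    fun n p => p.2 ∪ (Finset.range (n + 1)).image a
  let G2 : ℕ → unitary B × Finset A → Finset B :=
    fun n p => (Finset.range (n + 1)).image (fun j => star (p.1 : B) * b j * p.1)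
  let F : ℕ → unitary B × Finset A := fun n => Nat.rec (1, ∅)
    (fun n p => (p.1 * V (G1 n p) (G2 n p) n,
      G1 n p ∪ (G2 n p).image (κ (G1 n p) (G2 n p) n))) n
  let U : ℕ → unitary B := fun n => (F n).1
  let W : ℕ → Finset A := fun n => G1 n (F n)
  let v : ℕ → unitary B := fun n => V (W n) (G2 n (F n)) n
  have hU : ∀ n, U (n + 1) = U n * v n := fun n => rfl
  have hW : ∀ n, W n ⊆ W (n + 1) := by
    intro n x hx
    exact Finset.mem_union_left _ (Finset.mem_union_left _ hx)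
  have hWm : ∀ m k, m ≤ k → W m ⊆ W k := by
    intro m k hmk
    induction hmk with
    | refl => exact Finset.Subset.refl _
    | step _ ih => exact ih.trans (hW _)
  have haW : ∀ j n, j ≤ n → a j ∈ W n := by
    intro j n hj
    exact Finset.mem_union_right _ (Finset.mem_image.2 ⟨j, by simp only [Finset.mem_range, Order.lt_add_one_iff]; omega, rfl⟩)
  have hbW : ∀ j n, j ≤ n → ∃ c ∈ W (n + 1),
      ‖star (U (n + 1) : B) * b j * U (n + 1) - i c‖ < (1 / 2 : ℝ) ^ n := by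
    intro j n hj
    have hmem : star (U n : B) * b j * U n ∈ G2 n (F n) :=
      Finset.mem_image.2 ⟨j, by simp; omega, rfl⟩
    refine ⟨κ (W n) (G2 n (F n)) n (star (U n : B) * b j * U n), ?_, ?_⟩
    · exact Finset.mem_union_left _ (Finset.mem_union_right _
        (Finset.mem_image.2 ⟨_, hmem, rfl⟩))
    · have := hκ (W n) (G2 n (F n)) n _ hmem
      rw [hU]
      have e : star ((U n * v n : unitary B) : B) * b j * ((U n * v n : unitary B) : B)
          = star (v n : B) * (star (U n : B) * b j * U n) * v n := by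
        simp only [Submonoid.coe_mul, star_mul, mul_assoc]
      rw [e]
      exact this
  -- the approximating homomorphisms
  let φ : ℕ → A →⋆ₐ[ℂ] B := fun n =>
    ((Unitary.conjStarAlgAut ℂ B (U n) : B ≃⋆ₐ[ℂ] B) : B →⋆ₐ[ℂ] B).comp i
  have hφ : ∀ n x, φ n x = (U n : B) * i x * star (U n : B) := fun n x => rfl
  have hφn : ∀ n x, ‖φ n x‖ = ‖x‖ := by
    intro n x
    rw [hφ, CStarRing.norm_mul_mem_unitary _ (Unitary.star_mem (U n).2),
      CStarRing.norm_coe_unitary_mul]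
    exact NonUnitalStarAlgHom.norm_map i hi x
  have hstep : ∀ n, ∀ x ∈ W n, ‖φ (n + 1) x - φ n x‖ ≤ (1 / 2 : ℝ) ^ n := by
    intro n x hx
    have e : φ (n + 1) x - φ n x
        = (U n : B) * (((v n : B) * i x - i x * v n) * star (v n : B)) * star (U n : B) := by
      have e2 : (v n : B) * star (v n : B) = 1 := Unitary.mul_star_self_of_mem (v n).2
      rw [hφ n x, hφ (n + 1) x, hU]
      simp only [Submonoid.coe_mul, star_mul, mul_sub, sub_mul, mul_assoc, e2, mul_one]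
    rw [e, CStarRing.norm_mul_mem_unitary _ (Unitary.star_mem (U n).2),
      CStarRing.norm_coe_unitary_mul, CStarRing.norm_mul_mem_unitary _ (Unitary.star_mem (v n).2)]
    exact (hV (W n) (G2 n (F n)) n x hx).le
  have hclose : ∀ m, ∀ x ∈ W m, ∀ k, m ≤ k →
      ‖φ k x - φ m x‖ ≤ 2 * (1 / 2 : ℝ) ^ m - 2 * (1 / 2 : ℝ) ^ k := by
    intro m x hx k hk
    induction k, hk using Nat.le_induction with
    | base => simp
    | succ k hk ih =>
      have h1 := hstep k x (hWm m k hk hx)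
      have h2 : φ (k + 1) x - φ m x = (φ (k + 1) x - φ k x) + (φ k x - φ m x) := by abel
      rw [h2]
      refine (norm_add_le _ _).trans ?_
      rw [pow_succ]
      linarith only [ih, h1]
  have hclose' : ∀ m, ∀ x ∈ W m, ∀ k, m ≤ k → ‖φ k x - φ m x‖ ≤ 2 * (1 / 2 : ℝ) ^ m := by
    intro m x hx k hk
    have := hclose m x hx k hk
    have h2 : (0 : ℝ) ≤ (1 / 2 : ℝ) ^ k := by positivity
    linarith only [this, h2]
  have hpow : ∀ ε : ℝ, 0 < ε → ∀ N : ℕ, ∃ n ≥ N, (1 / 2 : ℝ) ^ n < ε := by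
    intro ε hε N
    obtain ⟨n, hn⟩ := exists_pow_lt_of_lt_one hε (by norm_num : (1 / 2 : ℝ) < 1)
    refine ⟨max n N, le_max_right _ _, ?_⟩
    exact lt_of_le_of_lt (pow_le_pow_of_le_one (by norm_num) (by norm_num) (le_max_left _ _)) hn
  have hcauchy : ∀ x, CauchySeq (fun n => φ n x) := by
    intro x
    rw [Metric.cauchySeq_iff']
    intro ε hε
    obtain ⟨j, hj⟩ := Metric.denseRange_iff.1 ha x (ε / 4) (by linarith)
    obtain ⟨m, hmj, hm⟩ := hpow (ε / 8) (by linarith only [hε]) j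
    refine ⟨m, fun k hk => ?_⟩
    rw [dist_eq_norm] at hj ⊢
    have e : φ k x - φ m x = φ k (x - a j) + (φ k (a j) - φ m (a j)) - φ m (x - a j) := by
      simp only [map_sub]; abel
    rw [e]
    have h1 := hclose' m (a j) (haW j m hmj) k hk
    have h2 := hφn k (x - a j)
    have h3 := hφn m (x - a j)
    have h4 := norm_sub_le (φ k (x - a j) + (φ k (a j) - φ m (a j))) (φ m (x - a j))
    have h5 := norm_add_le (φ k (x - a j)) (φ k (a j) - φ m (a j))
    linarith only [hε, hj, hm, h1, h2, h3, h4, h5]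
  choose Φ hΦ using fun x => cauchySeq_tendsto_of_complete (hcauchy x)
  let Ψ : A →⋆ₐ[ℂ] B :=
    { toFun := Φ
      map_one' := tendsto_nhds_unique (hΦ 1) (by simp only [map_one, tendsto_const_nhds_iff])
      map_mul' := fun x y => tendsto_nhds_unique (hΦ (x * y))
        (by simpa only [map_mul] using (hΦ x).mul (hΦ y))
      map_zero' := tendsto_nhds_unique (hΦ 0) (by simp)
      map_add' := fun x y => tendsto_nhds_unique (hΦ (x + y))
        (by simpa only [map_add] using (hΦ x).add (hΦ y))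
      commutes' := fun r => tendsto_nhds_unique (hΦ (algebraMap ℂ A r))
        (by simpa only [AlgHomClass.commutes] using tendsto_const_nhds)
      map_star' := fun x => tendsto_nhds_unique (hΦ (star x))
        (by simpa only [map_star] using (hΦ x).star) }
  have hΨ : ∀ x, Tendsto (fun n => φ n x) atTop (𝓝 (Ψ x)) := hΦ
  have hnorm : ∀ x, ‖Ψ x‖ = ‖x‖ := by
    intro x
    refine tendsto_nhds_unique (hΨ x).norm ?_
    simp only [hφn]
    exact tendsto_const_nhds
  have hiso : Isometry Ψ := AddMonoidHomClass.isometry_of_norm Ψ hnorm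
  have hclosed : IsClosed (Set.range Ψ) := hiso.isClosedEmbedding.isClosed_range
  have hlim : ∀ m, ∀ x ∈ W m, ‖Ψ x - φ m x‖ ≤ 2 * (1 / 2 : ℝ) ^ m := by
    intro m x hx
    have h1 : Tendsto (fun k => ‖φ k x - φ m x‖) atTop (𝓝 ‖Ψ x - φ m x‖) :=
      ((hΨ x).sub tendsto_const_nhds).norm
    refine le_of_tendsto h1 ?_
    filter_upwards [eventually_ge_atTop m] with k hk
    exact hclose' m x hx k hk
  have hsurj : Function.Surjective Ψ := by
    have hdense : Set.range b ⊆ Set.range Ψ := by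
      rintro _ ⟨j, rfl⟩
      rw [← hclosed.closure_eq, Metric.mem_closure_iff]
      intro ε hε
      obtain ⟨n, hnj, hn⟩ := hpow (ε / 4) (by linarith only [hε]) j
      obtain ⟨c, hc, hc'⟩ := hbW j n hnj
      refine ⟨Ψ c, ⟨c, rfl⟩, ?_⟩
      rw [dist_eq_norm]
      have h1 := hlim (n + 1) c hc
      have h2 : ‖b j - φ (n + 1) c‖ < (1 / 2 : ℝ) ^ n := by
        have e : b j - φ (n + 1) c
            = (U (n + 1) : B) * (star (U (n + 1) : B) * b j * U (n + 1) - i c)
              * star (U (n + 1) : B) := by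
          have e2 : (U (n + 1) : B) * star (U (n + 1) : B) = 1 :=
            Unitary.mul_star_self_of_mem (U (n + 1)).2
          have e3 : (U (n + 1) : B) * (star (U (n + 1) : B) * b j * U (n + 1))
              * star (U (n + 1) : B) = ((U (n + 1) : B) * star (U (n + 1) : B)) * b j
              * ((U (n + 1) : B) * star (U (n + 1) : B)) := by
            simp only [mul_assoc]
          rw [mul_sub, sub_mul, e3, e2, one_mul, mul_one, hφ (n + 1) c]
        rw [e, CStarRing.norm_mul_mem_unitary _ (Unitary.star_mem (U (n + 1)).2),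
          CStarRing.norm_coe_unitary_mul]
        exact hc'
      have e : b j - Ψ c = (b j - φ (n + 1) c) - (Ψ c - φ (n + 1) c) := by abel
      rw [e]
      have h3 := norm_sub_le (b j - φ (n + 1) c) (Ψ c - φ (n + 1) c)
      rw [pow_succ] at h1
      linarith only [hε, hn, h1, h2, h3]
    have h1 : closure (Set.range b) ⊆ Set.range Ψ := closure_minimal hdense hclosed
    rw [hb.closure_range] at h1
    intro y
    exact h1 (Set.mem_univ y)
  -- the cocycle
  have hβn : ∀ g x, ‖β g x‖ ≤ ‖x‖ := fun g x => norm_act β g x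
  let c : ℕ → G → B := fun n g => (U n : B) * star (β g (U n : B))
  have hβU : ∀ g n, β g (U n : B) ∈ unitary B := fun g n => by
    rw [Unitary.mem_iff, ← map_star, ← map_mul, ← map_mul, Unitary.star_mul_self_of_mem (U n).2,
      Unitary.mul_star_self_of_mem (U n).2, map_one]
    exact ⟨rfl, rfl⟩
  have hβv : ∀ g n, β g (v n : B) ∈ unitary B := fun g n => by
    rw [Unitary.mem_iff, ← map_star, ← map_mul, ← map_mul, Unitary.star_mul_self_of_mem (v n).2,
      Unitary.mul_star_self_of_mem (v n).2, map_one]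
    exact ⟨rfl, rfl⟩
  have hcu : ∀ n g, c n g ∈ unitary B := fun n g =>
    mul_mem (U n).2 (Unitary.star_mem (hβU g n))
  have hcstep : ∀ j n, j ≤ n → ‖c (n + 1) (eG j) - c n (eG j)‖ ≤ (1 / 2 : ℝ) ^ n := by
    intro j n hj
    have e : c (n + 1) (eG j) - c n (eG j)
        = (U n : B) * (((v n : B) - β (eG j) (v n : B)) * star (β (eG j) (v n : B)))
          * star (β (eG j) (U n : B)) := by
      have e2 : β (eG j) (v n : B) * star (β (eG j) (v n : B)) = 1 :=
        Unitary.mul_star_self_of_mem (hβv _ _)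
      have e3 : β (eG j) ((U n * v n : unitary B) : B)
          = β (eG j) (U n : B) * β (eG j) (v n : B) := by
        rw [Submonoid.coe_mul, map_mul]
      show (U (n + 1) : B) * star (β (eG j) (U (n + 1) : B)) - _ = _
      rw [hU, e3, star_mul, sub_mul, e2]
      simp only [c, Submonoid.coe_mul, mul_sub, sub_mul, mul_assoc, mul_one]
    rw [e, CStarRing.norm_mul_mem_unitary _ (Unitary.star_mem (hβU _ _)),
      CStarRing.norm_coe_unitary_mul, CStarRing.norm_mul_mem_unitary _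
        (Unitary.star_mem (hβv _ _)), norm_sub_rev]
    exact (hβV (W n) (G2 n (F n)) n j hj).le
  have hccauchy : ∀ g, CauchySeq (fun n => c n g) := by
    intro g
    obtain ⟨j, rfl⟩ := heG g
    have h1 : CauchySeq (fun n => c (n + j) (eG j)) := by
      refine cauchySeq_of_le_geometric (1 / 2 : ℝ) 1 (by norm_num) fun n => ?_
      rw [dist_comm, dist_eq_norm, one_mul]
      have h2 := hcstep j (n + j) (by omega)
      have e : n + 1 + j = n + j + 1 := by omega
      rw [e]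
      refine h2.trans ?_
      exact pow_le_pow_of_le_one (by norm_num) (by norm_num) (by omega)
    exact (cauchySeq_shift j).1 h1
  choose u hu using fun g => cauchySeq_tendsto_of_complete (hccauchy g)
  have hclu : IsClosed (unitary B : Set B) := by
    have e : (unitary B : Set B) = {x | star x * x = 1} ∩ {x | x * star x = 1} := by
      ext x; exact Unitary.mem_iff
    rw [e]
    exact (isClosed_eq (by fun_prop) continuous_const).inter
      (isClosed_eq (by fun_prop) continuous_const)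
  have hβc : ∀ g, Continuous (β g) := fun g =>
    AddMonoidHomClass.continuous_of_bound (β g) 1 (by simpa only [one_mul] using hβn g)
  refine ⟨StarAlgEquiv.ofBijective Ψ ⟨hiso.injective, hsurj⟩, u, fun n => (U n : B),
    fun n => (U n).2, fun g =>
    hclu.mem_of_tendsto (hu g) (Eventually.of_forall fun n => hcu n g), fun g k => ?_,
    fun g a => ?_, fun a => hΨ a⟩
  · refine tendsto_nhds_unique (hu (g * k)) ?_
    have h1 := (hu g).mul (((hβc g).tendsto _).comp (hu k))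
    refine h1.congr fun n => ?_
    show (U n : B) * star (β g (U n : B)) * β g ((U n : B) * star (β k (U n : B)))
      = (U n : B) * star (β (g * k) (U n : B))
    have e1 : star (β g (U n : B)) * β g (U n : B) = 1 := Unitary.star_mul_self_of_mem (hβU _ _)
    have e2 : β (g * k) (U n : B) = β g (β k (U n : B)) := by rw [map_mul]; rfl
    rw [map_mul, map_star, e2, mul_assoc, ← mul_assoc (star (β g (U n : B))), e1, one_mul]
  · show Ψ (α g a) = u g * β g (Ψ a) * star (u g)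
    refine tendsto_nhds_unique (hΨ (α g a)) ?_
    have h1 := ((hu g).mul (((hβc g).tendsto _).comp (hΨ a))).mul (hu g).star
    refine h1.congr fun n => ?_
    show (U n : B) * star (β g (U n : B)) * β g (φ n a) * star ((U n : B) * star (β g (U n : B)))
      = φ n (α g a)
    rw [hφ, hφ, hαβ, map_mul, map_mul, map_star, star_mul, star_star]
    have e1 : star (β g (U n : B)) * β g (U n : B) = 1 := Unitary.star_mul_self_of_mem (hβU _ _)
    calc (U n : B) * star (β g (U n : B)) * (β g (U n : B) * β g (i a) * star (β g (U n : B)))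
          * (β g (U n : B) * star (U n : B))
        = (U n : B) * (star (β g (U n : B)) * β g (U n : B)) * β g (i a)
          * (star (β g (U n : B)) * β g (U n : B)) * star (U n : B) := by
          simp only [mul_assoc]
      _ = _ := by rw [e1, mul_one, mul_one]

theorem conj_limit {E Z B : Type u} [CStarAlgebra E] [CStarAlgebra Z] [CStarAlgebra B]
    [TopologicalSpace.SeparableSpace E] {G : Type w} [Group G] [Countable G]
    (γ : G →* (E ≃⋆ₐ[ℂ] E)) (β : G →* (B ≃⋆ₐ[ℂ] B)) (ι : Type) (μ : Filter ι) [NeBot μ]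
    (h : IsEmpty (Fa γ μ →⋆ₐ[ℂ] ℂ)) (hZ : IsJiangSuAlgebra Z) (i : E →⋆ₐ[ℂ] B) (j : Z →⋆ₐ[ℂ] B)
    (hT : IsTensorCompletion i j) (hαβ : IsTensorTrivial i j γ β) :
    ∃ (Φ : E ≃⋆ₐ[ℂ] B) (u : G → B) (V : ℕ → B), (∀ n, V n ∈ unitary B) ∧
      (∀ g, u g ∈ unitary B) ∧ (∀ g h, u (g * h) = u g * β g (u h)) ∧
      (∀ g a, Φ (γ g a) = u g * β g (Φ a) * star (u g)) ∧
      ∀ a, Tendsto (fun n => V n * i a * star (V n)) atTop (𝓝 (Φ a)) := by
  have hZ' := hZ.isJiangSu
  have hT' := hT.isCStarTensor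
  have _ : TopologicalSpace.SeparableSpace Z := separable_dimDrop_closure hZ'
  have _ : TopologicalSpace.SeparableSpace B := separable_tensor i j hT'
  have _ : Nontrivial Z := nontrivial_of_isJiangSu hZ'
  have h1 : ∃ (ι : Type) (μ : Filter ι) (_ : NeBot μ), Nonempty (Z →⋆ₐ[ℂ] Fa γ μ) :=
    exists_hom_of_limit γ hZ' fun p q hp hq hpq => exists_dimDrop_hom γ ι μ h p q hp hq hpq
  exact elliott_lim γ β i (injective_of_isCStarTensor i j hT') (fun g a => (hαβ.left g a).symm)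
    (unitaries γ β hZ' i j hT' (fun g a => (hαβ.left g a).symm) hαβ.right h1)

end Vale.Agent.P095R
end

section

/-! The conjugacy theorem for a tensor product inside a larger algebra. -/

open Filter Topology
open scoped TensorProduct

namespace Vale.Agent.P095R

universe u w

open Vale.Agent.P095 Vale.Agent.P095.ZS Vale.Agent.P101

section ran

variable {E Z N : Type u} [CStarAlgebra E] [CStarAlgebra Z] [CStarAlgebra N]
  (i : E →⋆ₐ[ℂ] N) (j : Z →⋆ₐ[ℂ] N) (hc : ∀ x z, Commute (i x) (j z))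

/-- The range of the algebraic tensor product. -/
noncomputable def tenRange : StarSubalgebra ℂ N :=
  { (Algebra.TensorProduct.lift (i : E →ₐ[ℂ] N) (j : Z →ₐ[ℂ] N) hc).range with
    star_mem' := by
      rintro _ ⟨t, rfl⟩
      show star ((Algebra.TensorProduct.lift (i : E →ₐ[ℂ] N) (j : Z →ₐ[ℂ] N) hc) t) ∈
        (Algebra.TensorProduct.lift (i : E →ₐ[ℂ] N) (j : Z →ₐ[ℂ] N) hc).range
      induction t using TensorProduct.induction_on with
      | zero => rw [map_zero, star_zero]; exact zero_mem _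
      | add s t hs ht => rw [map_add, star_add]; exact add_mem hs ht
      | tmul x z =>
        refine ⟨star x ⊗ₜ star z, ?_⟩
        show (Algebra.TensorProduct.lift (i : E →ₐ[ℂ] N) (j : Z →ₐ[ℂ] N) hc) (star x ⊗ₜ star z) = _
        rw [Algebra.TensorProduct.lift_tmul, Algebra.TensorProduct.lift_tmul, star_mul]
        show i (star x) * j (star z) = star (j z) * star (i x)
        rw [hc, map_star, map_star] }

theorem mul_mem_tenRange (x : E) (z : Z) : i x * j z ∈ tenRange i j hc := by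
  refine ⟨x ⊗ₜ z, ?_⟩
  show (Algebra.TensorProduct.lift (i : E →ₐ[ℂ] N) (j : Z →ₐ[ℂ] N) hc) (x ⊗ₜ z) = _
  rw [Algebra.TensorProduct.lift_tmul]
  rfl

theorem conj_range [TopologicalSpace.SeparableSpace E] {G : Type w} [Group G] [Countable G]
    (γ : G →* (E ≃⋆ₐ[ℂ] E)) (δ : G →* (N ≃⋆ₐ[ℂ] N))
    (hinj : Function.Injective (Algebra.TensorProduct.lift (i : E →ₐ[ℂ] N) (j : Z →ₐ[ℂ] N) hc))
    (hi : ∀ g x, δ g (i x) = i (γ g x)) (hj : ∀ g z, δ g (j z) = j z)
    (hZ : IsJiangSuAlgebra Z) (h : IsEmpty (Fa γ (atTop : Filter ℕ) →⋆ₐ[ℂ] ℂ)) :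
    ∃ (Φ : E →⋆ₐ[ℂ] N) (u : G → N) (V : ℕ → N), (∀ n, V n ∈ unitary N) ∧
      (∀ g, u g ∈ unitary N) ∧ (∀ g h, u (g * h) = u g * δ g (u h)) ∧
      (∀ g a, Φ (γ g a) = u g * δ g (Φ a) * star (u g)) ∧
      (∀ a, Tendsto (fun n => V n * i a * star (V n)) atTop (𝓝 (Φ a))) ∧
      (∀ a, ‖Φ a‖ = ‖a‖) ∧ IsClosed (Set.range Φ) ∧ ∀ a z, i a * j z ∈ Set.range Φ := by
  let B₁ : StarSubalgebra ℂ N := (tenRange i j hc).topologicalClosure
  have hB : IsClosed (B₁ : Set N) := StarSubalgebra.isClosed_topologicalClosure _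
  have hle : tenRange i j hc ≤ B₁ := StarSubalgebra.le_topologicalClosure _
  have hmi : ∀ x, i x ∈ B₁ := fun x => hle (by simpa only [map_one, mul_one] using mul_mem_tenRange i j hc x 1)
  have hmj : ∀ z, j z ∈ B₁ := fun z => hle (by simpa only [map_one, one_mul] using mul_mem_tenRange i j hc 1 z)
  let i' : E →⋆ₐ[ℂ] B₁ := i.codRestrict B₁ hmi
  let j' : Z →⋆ₐ[ℂ] B₁ := j.codRestrict B₁ hmj
  have hi' : ∀ x, ((i' x : B₁) : N) = i x := fun x => rfl
  have hj' : ∀ x, ((j' x : B₁) : N) = j x := fun x => rfl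
  have hc' : ∀ a z, Commute (i' a) (j' z) := fun a z => Subtype.ext (hc a z)
  have hlift : ∀ t, ((Algebra.TensorProduct.lift (i' : E →ₐ[ℂ] B₁) (j' : Z →ₐ[ℂ] B₁) hc' t : B₁) : N)
      = Algebra.TensorProduct.lift (i : E →ₐ[ℂ] N) (j : Z →ₐ[ℂ] N) hc t := by
    intro t
    induction t using TensorProduct.induction_on with
    | zero => rw [map_zero, map_zero]; rfl
    | add s t hs ht => rw [map_add, map_add, ← hs, ← ht]; rfl
    | tmul x z =>
      rw [Algebra.TensorProduct.lift_tmul, Algebra.TensorProduct.lift_tmul]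
      rfl
  have hT : IsTensorCompletion i' j' := by
    refine ⟨hc', ?_, ?_⟩
    · intro s t hst
      refine hinj ?_
      rw [← hlift, ← hlift, hst]
    · intro y
      rw [Metric.mem_closure_iff]
      intro ε hε
      have hy : (y : N) ∈ closure ((tenRange i j hc : StarSubalgebra ℂ N) : Set N) := by
        have := y.2
        rwa [← StarSubalgebra.topologicalClosure_coe]
      obtain ⟨w, hw, hd⟩ := Metric.mem_closure_iff.1 hy ε hε
      obtain ⟨t, ht⟩ := hw
      refine ⟨Algebra.TensorProduct.lift (i' : E →ₐ[ℂ] B₁) (j' : Z →ₐ[ℂ] B₁) hc' t, ⟨t, rfl⟩, ?_⟩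
      rw [Subtype.dist_eq, hlift]
      have ht' : Algebra.TensorProduct.lift (i : E →ₐ[ℂ] N) (j : Z →ₐ[ℂ] N) hc t = w := ht
      rw [ht']
      exact hd
  have hδ : ∀ g, ∀ x ∈ B₁, δ g x ∈ B₁ := by
    intro g
    let φ : N →⋆ₐ[ℂ] N := (δ g : N ≃⋆ₐ[ℂ] N)
    have hφ : Continuous φ :=
      AddMonoidHomClass.continuous_of_bound φ 1
        (by simpa only [one_mul] using! NonUnitalStarAlgHom.norm_apply_le φ)
    have hle' : B₁ ≤ B₁.comap φ := by
      refine StarSubalgebra.topologicalClosure_minimal ?_ ?_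
      · rintro _ ⟨t, rfl⟩
        show δ g (Algebra.TensorProduct.lift (i : E →ₐ[ℂ] N) (j : Z →ₐ[ℂ] N) hc t) ∈ B₁
        refine hle ?_
        induction t using TensorProduct.induction_on with
        | zero => rw [map_zero, map_zero]; exact zero_mem _
        | add s t hs ht => rw [map_add, map_add]; exact add_mem hs ht
        | tmul x z =>
          rw [Algebra.TensorProduct.lift_tmul]
          show δ g (i x * j z) ∈ _
          rw [map_mul, hi, hj]
          exact mul_mem_tenRange i j hc _ _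
      · exact hB.preimage hφ
    intro x hx
    exact hle' hx
  let β : G →* (B₁ ≃⋆ₐ[ℂ] B₁) := resAct δ B₁ hδ
  have hαβ : IsTensorTrivial i' j' γ β :=
    ⟨fun g a => Subtype.ext (hi g a), fun g z => Subtype.ext (hj g z)⟩
  obtain ⟨Φ, u, V, h1, h2, h3, h4, h5⟩ :=
    conj_limit γ β ℕ atTop h hZ i' j' hT hαβ
  have hval : ∀ x : B₁, B₁.subtype x = (x : N) := fun x => rfl
  refine ⟨B₁.subtype.comp (Φ : E →⋆ₐ[ℂ] B₁), fun g => (u g : N), fun n => (V n : N),
    ?_, ?_, ?_, ?_, ?_, ?_, ?_, ?_⟩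
  · intro n
    have := h1 n
    rw [Unitary.mem_iff] at this ⊢
    exact ⟨congrArg Subtype.val this.1, congrArg Subtype.val this.2⟩
  · intro g
    have := h2 g
    rw [Unitary.mem_iff] at this ⊢
    exact ⟨congrArg Subtype.val this.1, congrArg Subtype.val this.2⟩
  · intro g k
    exact congrArg Subtype.val (h3 g k)
  · intro g a
    exact congrArg Subtype.val (h4 g a)
  · intro a
    exact (continuous_subtype_val.tendsto _).comp (h5 a)
  · intro a
    show ‖Φ a‖ = ‖a‖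
    exact NonUnitalStarAlgHom.norm_map Φ (Φ.injective) a
  · have : Set.range (B₁.subtype.comp (Φ : E →⋆ₐ[ℂ] B₁)) = (B₁ : Set N) := by
      ext y
      constructor
      · rintro ⟨x, rfl⟩
        exact (Φ x).2
      · intro hy
        refine ⟨Φ.symm ⟨y, hy⟩, ?_⟩
        show ((Φ (Φ.symm ⟨y, hy⟩) : B₁) : N) = y
        rw [StarAlgEquiv.apply_symm_apply]
    rw [this]
    exact hB
  · intro a z
    refine ⟨Φ.symm (i' a * j' z), ?_⟩
    show ((Φ (Φ.symm (i' a * j' z)) : B₁) : N) = i a * j z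
    rw [StarAlgEquiv.apply_symm_apply]
    rfl

end ran

end Vale.Agent.P095R
end

section

/-! Approximate units of `A` act as approximate units of a completion of `A ⊗ Z`. -/

open Filter Topology
open scoped MultiplierAlgebra TensorProduct

namespace Vale.Agent.P095R

universe u w

variable {A Z B : Type u} [NonUnitalCStarAlgebra A] [CStarAlgebra Z] [NonUnitalCStarAlgebra B]
  (T : A →ₗ[ℂ] Z →ₗ[ℂ] B) (hT : IsTensorCompletionN T)
  (θ : 𝓜(ℂ, A) →⋆ₐ[ℂ] 𝓜(ℂ, B)) (hθ : ∀ x a z, (θ x).fst (T a z) = T (x.fst a) z)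
  (j : Z →⋆ₐ[ℂ] 𝓜(ℂ, B)) (hj : ∀ z' a z, (j z').fst (T a z) = T a (z' * z))

include hT hθ hj

theorem norm_tensor_le (a : A) (z : Z) : ‖T a z‖ ≤ ‖a‖ * ‖z‖ := by
  rw [← norm_coe_mult (T a z), ← ext_coe T hT θ hθ j hj a z]
  refine (norm_mul_le _ _).trans (mul_le_mul ?_ ?_ (norm_nonneg _) (norm_nonneg _))
  · refine (NonUnitalStarAlgHom.norm_apply_le θ _).trans ?_
    rw [norm_coe_mult]
  · exact NonUnitalStarAlgHom.norm_apply_le j _

theorem left_coe (a : A) : θ (a : 𝓜(ℂ, A)) = ((T a 1 : B) : 𝓜(ℂ, B)) := by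
  rw [← ext_coe T hT θ hθ j hj a 1, map_one, mul_one]

theorem exists_unit_left (b : B) (ε : ℝ) (hε : 0 < ε) :
    ∃ h : A, ‖(θ (h : 𝓜(ℂ, A))).fst b - b‖ < ε := by
  let _ : PartialOrder A := CStarAlgebra.spectralOrder A
  have : StarOrderedRing A := CStarAlgebra.spectralOrderedRing A
  have hU := CStarAlgebra.increasingApproximateUnit A
  have h1 : ∀ s : A ⊗[ℂ] Z, Tendsto (fun h : A => (θ (h : 𝓜(ℂ, A))).fst (TensorProduct.lift T s))
      (CStarAlgebra.approximateUnit A) (𝓝 (TensorProduct.lift T s)) := by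
    intro s
    induction s using TensorProduct.induction_on with
    | zero => simp only [map_zero, tendsto_const_nhds_iff]
    | add s t hs ht => 
      simp only [map_add]
      exact hs.add ht
    | tmul a z =>
      simp only [TensorProduct.lift.tmul, hθ]
      rw [tendsto_iff_norm_sub_tendsto_zero]
      have h2 : Tendsto (fun h : A => ‖h * a - a‖ * ‖z‖) (CStarAlgebra.approximateUnit A)
          (𝓝 0) := by
        have := (tendsto_iff_norm_sub_tendsto_zero.1 (hU.tendsto_mul_right a)).mul_const ‖z‖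
        simpa only [zero_mul] using this
      refine squeeze_zero (fun h => norm_nonneg _) (fun h => ?_) h2
      have e : T ((h : 𝓜(ℂ, A)).fst a) z - T a z = T (h * a - a) z := by
        rw [map_sub, LinearMap.sub_apply]
        rfl
      rw [e]
      exact norm_tensor_le T hT θ hθ j hj _ _
  obtain ⟨s, hs⟩ := Metric.denseRange_iff.1 hT.dense b (ε / 3) (by positivity)
  rw [dist_eq_norm] at hs
  have h2 := (tendsto_iff_norm_sub_tendsto_zero.1 (h1 s)).eventually (gt_mem_nhds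
    (show (0 : ℝ) < ε / 3 by positivity))
  obtain ⟨h, hh1, hh2⟩ := (h2.and hU.eventually_norm).exists
  refine ⟨h, ?_⟩
  have hn : ‖(θ (h : 𝓜(ℂ, A))).fst (b - TensorProduct.lift T s)‖ ≤ ε / 3 := by
    refine ((θ (h : 𝓜(ℂ, A))).fst.le_opNorm _).trans ?_
    have h3 : ‖(θ (h : 𝓜(ℂ, A))).fst‖ ≤ 1 := by
      rw [DoubleCentralizer.norm_fst]
      refine (NonUnitalStarAlgHom.norm_apply_le θ _).trans ?_
      rw [norm_coe_mult]
      exact hh2
    calc ‖(θ (h : 𝓜(ℂ, A))).fst‖ * ‖b - TensorProduct.lift T s‖ ≤ 1 * (ε / 3) :=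
          mul_le_mul h3 hs.le (norm_nonneg _) zero_le_one
      _ = ε / 3 := one_mul _
  have e : (θ (h : 𝓜(ℂ, A))).fst b - b = (θ (h : 𝓜(ℂ, A))).fst (b - TensorProduct.lift T s) +
      ((θ (h : 𝓜(ℂ, A))).fst (TensorProduct.lift T s) - TensorProduct.lift T s) -
      (b - TensorProduct.lift T s) := by
    rw [map_sub]; abel
  rw [e]
  calc _ ≤ ‖(θ (h : 𝓜(ℂ, A))).fst (b - TensorProduct.lift T s)‖ +
        ‖(θ (h : 𝓜(ℂ, A))).fst (TensorProduct.lift T s) - TensorProduct.lift T s‖ +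
        ‖b - TensorProduct.lift T s‖ := (norm_sub_le _ _).trans (add_le_add_left (norm_add_le _ _) _)
    _ < ε := by linarith only [hs, hh1, hn]

end Vale.Agent.P095R
end

section

/-! Nonunital C*-algebras: no characters imply equivariant `𝒵`-stability. -/

open Filter Topology
open scoped MultiplierAlgebra TensorProduct

namespace Vale.Agent.P095R

universe u w

open Vale.Agent.P095 Vale.Agent.P095.ZS Vale.Agent.P101

theorem isometry_coeM {A : Type u} [NonUnitalCStarAlgebra A] :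
    Isometry (fun a : A => (a : 𝓜(ℂ, A))) :=
  AddMonoidHomClass.isometry_of_norm (DoubleCentralizer.coeHom (𝕜 := ℂ) (A := A)) norm_coe_mult

theorem coeM_injective {A : Type u} [NonUnitalCStarAlgebra A] :
    Function.Injective (fun a : A => (a : 𝓜(ℂ, A))) := isometry_coeM.injective

theorem isClosed_range_coeM {A : Type u} [NonUnitalCStarAlgebra A] :
    IsClosed (Set.range (fun a : A => (a : 𝓜(ℂ, A)))) :=
  isometry_coeM.isClosedEmbedding.isClosed_range

theorem conj_mem_coeM {B : Type u} [NonUnitalCStarAlgebra B] (v w : 𝓜(ℂ, B)) (b : B) :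
    v * (b : 𝓜(ℂ, B)) * w ∈ Set.range (fun a : B => (a : 𝓜(ℂ, B))) := by
  rw [mult_mul_coe, coe_mul_mult]
  exact ⟨_, rfl⟩

theorem zstableN_of_local {A : Type u} [NonUnitalCStarAlgebra A]
    [TopologicalSpace.SeparableSpace A] {G : Type w} [Group G] [Countable G]
    (α : G →* (A ≃⋆ₐ[ℂ] A)) (hN : NoCharLocalN α) : EquivariantlyZStableN α := by
  obtain ⟨m, R, hM⟩ := noCharOn_mult α hN
  obtain ⟨E, hEc, hEs, hD0, hE, hEN⟩ := exists_separable_sub (multAct α) m R hM
    (Set.range fun n => ((TopologicalSpace.denseSeq A n : A) : 𝓜(ℂ, A))) (Set.countable_range _)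
  have : IsClosed (E : Set 𝓜(ℂ, A)) := hEc
  have hEsep : TopologicalSpace.SeparableSpace E := hEs.separableSpace
  have hAE : ∀ a : A, (a : 𝓜(ℂ, A)) ∈ E := by
    have h1 : IsClosed {a : A | (a : 𝓜(ℂ, A)) ∈ E} := hEc.preimage isometry_coeM.continuous
    have h2 : Set.range (TopologicalSpace.denseSeq A) ⊆ {a : A | (a : 𝓜(ℂ, A)) ∈ E} := by
      rintro _ ⟨n, rfl⟩
      exact hD0 ⟨n, rfl⟩
    intro a
    have h3 := closure_minimal h2 h1
    exact h3 ((TopologicalSpace.denseRange_denseSeq A) a)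
  have hemp : IsEmpty (Fa (resAct (multAct α) E hE) (atTop : Filter ℕ) →⋆ₐ[ℂ] ℂ) :=
    isEmpty_Fa _ m R (noCharOn_res (multAct α) E hE m R hEN)
  refine ⟨fun Z B _ _ T β hZ hT hβ => ?_⟩
  obtain ⟨θ, hθ⟩ := exists_leftHom T hT
  obtain ⟨j, hj⟩ := exists_rightHom T hT
  have hc := ext_comm T hT θ hθ j hj
  have hinj := ext_injective T hT θ hθ j hj hc
  have hcoe := ext_coe T hT θ hθ j hj
  have hact := fun g x z => ext_act T hT θ hθ j hj (α g) (β g) (hβ g) x z
  have hc' : ∀ (x : E) z, Commute ((θ.comp E.subtype) x) (j z) := fun x z => hc _ _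
  have hinj' : Function.Injective
      (Algebra.TensorProduct.lift ((θ.comp E.subtype : E →⋆ₐ[ℂ] 𝓜(ℂ, B)) : E →ₐ[ℂ] 𝓜(ℂ, B))
        (j : Z →ₐ[ℂ] 𝓜(ℂ, B)) hc') := by
    have e : ∀ t, (Algebra.TensorProduct.lift
        ((θ.comp E.subtype : E →⋆ₐ[ℂ] 𝓜(ℂ, B)) : E →ₐ[ℂ] 𝓜(ℂ, B)) (j : Z →ₐ[ℂ] 𝓜(ℂ, B)) hc') t =
        (Algebra.TensorProduct.lift (θ : 𝓜(ℂ, A) →ₐ[ℂ] 𝓜(ℂ, B)) (j : Z →ₐ[ℂ] 𝓜(ℂ, B)) hc)
          (LinearMap.rTensor Z (E.subtype : E →ₗ[ℂ] 𝓜(ℂ, A)) t) := by
      intro t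
      induction t using TensorProduct.induction_on with
      | zero => rw [map_zero, map_zero, map_zero]
      | add s t hs ht => rw [map_add, map_add, map_add, hs, ht]
      | tmul x z =>
        rw [LinearMap.rTensor_tmul, Algebra.TensorProduct.lift_tmul,
          Algebra.TensorProduct.lift_tmul]
        rfl
    intro s t hst
    rw [e, e] at hst
    exact Module.Flat.rTensor_preserves_injective_linearMap (M := Z)
      (E.subtype : E →ₗ[ℂ] 𝓜(ℂ, A)) Subtype.val_injective (hinj hst)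
  obtain ⟨Φ, u, V, hV, hu, hcoc, hΦ, hlim, hnorm, hcl, hran⟩ :=
    conj_range (θ.comp E.subtype) j hc' (resAct (multAct α) E hE) (multAct β) hinj'
      (fun g x => (hact g (x : 𝓜(ℂ, A)) 1).1) (fun g z => (hact g 1 z).2) hZ hemp
  have hθ1 : ∀ a : A, θ (a : 𝓜(ℂ, A)) = ((T a 1 : B) : 𝓜(ℂ, B)) := left_coe T hT θ hθ j hj
  -- `Φ` maps `A` into `B`
  have hΦB : ∀ a : A, ∃ b : B, (b : 𝓜(ℂ, B)) = Φ ⟨(a : 𝓜(ℂ, A)), hAE a⟩ := by
    intro a
    have := isClosed_range_coeM.mem_of_tendsto (hlim ⟨(a : 𝓜(ℂ, A)), hAE a⟩)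
      (Eventually.of_forall fun n => by
        show V n * θ (a : 𝓜(ℂ, A)) * star (V n) ∈ _
        rw [hθ1]
        exact conj_mem_coeM _ _ _)
    exact this
  -- `θ` is isometric on `E`
  have hθE : ∀ x : E, ‖θ (x : 𝓜(ℂ, A))‖ = ‖x‖ := by
    intro x
    have h1 := (hlim x).norm
    have h2 : ∀ n, ‖V n * (θ.comp E.subtype) x * star (V n)‖ = ‖θ (x : 𝓜(ℂ, A))‖ := by
      intro n
      rw [CStarRing.norm_mul_mem_unitary _ (Unitary.star_mem (hV n)),
        CStarRing.norm_mem_unitary_mul _ (hV n)]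
      rfl
    simp only [h2, hnorm] at h1
    exact tendsto_nhds_unique tendsto_const_nhds h1
  -- multipliers mapped into `B` are in `A`
  have hback : ∀ x : E, (∃ b : B, (b : 𝓜(ℂ, B)) = θ (x : 𝓜(ℂ, A))) →
      ∃ a : A, (a : 𝓜(ℂ, A)) = x := by
    rintro x ⟨b, hb⟩
    have h1 : (x : 𝓜(ℂ, A)) ∈ closure (Set.range (fun a : A => (a : 𝓜(ℂ, A)))) := by
      rw [Metric.mem_closure_iff]
      intro ε hε
      obtain ⟨h, hh⟩ := exists_unit_left T hT θ hθ j hj b ε hε
      refine ⟨_, ⟨(x : 𝓜(ℂ, A)).snd h, rfl⟩, ?_⟩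
      show dist (x : 𝓜(ℂ, A)) (((x : 𝓜(ℂ, A)).snd h : A) : 𝓜(ℂ, A)) < ε
      rw [← coe_mul_mult, dist_comm, dist_eq_norm]
      have hmem : (h : 𝓜(ℂ, A)) * (x : 𝓜(ℂ, A)) - (x : 𝓜(ℂ, A)) ∈ E :=
        sub_mem (mul_mem (hAE h) x.2) x.2
      have h2 := hθE ⟨_, hmem⟩
      have h3 : ‖(⟨_, hmem⟩ : E)‖ = ‖(h : 𝓜(ℂ, A)) * (x : 𝓜(ℂ, A)) - (x : 𝓜(ℂ, A))‖ := rfl
      rw [← h3, ← h2, map_sub, map_mul, ← hb, mult_mul_coe]
      have h4 : ((((θ (h : 𝓜(ℂ, A))).fst b : B) : 𝓜(ℂ, B)) - (b : 𝓜(ℂ, B))) =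
          (((θ (h : 𝓜(ℂ, A))).fst b - b : B) : 𝓜(ℂ, B)) := (coeM_sub _ _).symm
      rw [h4, norm_coe_mult]
      exact hh
    rwa [isClosed_range_coeM.closure_eq] at h1
  have hsurj : ∀ b : B, ∃ a : A, (b : 𝓜(ℂ, B)) = Φ ⟨(a : 𝓜(ℂ, A)), hAE a⟩ := by
    intro b
    have h1 : (b : 𝓜(ℂ, B)) ∈ Set.range Φ := by
      have h2 : IsClosed {b : B | (b : 𝓜(ℂ, B)) ∈ Set.range Φ} :=
        hcl.preimage isometry_coeM.continuous
      have h3 : Set.range (TensorProduct.lift T) ⊆ {b : B | (b : 𝓜(ℂ, B)) ∈ Set.range Φ} := by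
        rintro _ ⟨t, rfl⟩
        show ((TensorProduct.lift T t : B) : 𝓜(ℂ, B)) ∈ Set.range Φ
        induction t using TensorProduct.induction_on with
        | zero => exact ⟨0, by rw [map_zero, map_zero]; exact (map_zero (DoubleCentralizer.coeHom (𝕜 := ℂ) (A := B))).symm⟩
        | add s t hs ht =>
          obtain ⟨x, hx⟩ := hs
          obtain ⟨y, hy⟩ := ht
          refine ⟨x + y, ?_⟩
          rw [map_add, map_add, hx, hy]
          exact (map_add (DoubleCentralizer.coeHom (𝕜 := ℂ) (A := B)) _ _).symm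
        | tmul a z =>
          rw [TensorProduct.lift.tmul, ← hcoe]
          exact hran ⟨(a : 𝓜(ℂ, A)), hAE a⟩ z
      exact closure_minimal h3 h2 (hT.dense b)
    obtain ⟨x, hx⟩ := h1
    have h2 : (θ (x : 𝓜(ℂ, A))) ∈ closure (Set.range (fun a : B => (a : 𝓜(ℂ, B)))) := by
      rw [Metric.mem_closure_iff]
      intro ε hε
      obtain ⟨n, hn⟩ := ((Metric.tendsto_atTop.1 (hlim x)) ε hε)
      have hn := hn n le_rfl
      rw [hx, dist_eq_norm] at hn
      refine ⟨star (V n) * (b : 𝓜(ℂ, B)) * V n, conj_mem_coeM _ _ _, ?_⟩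
      rw [dist_eq_norm]
      have e : θ (x : 𝓜(ℂ, A)) - star (V n) * (b : 𝓜(ℂ, B)) * V n =
          star (V n) * (V n * (θ.comp E.subtype) x * star (V n) - (b : 𝓜(ℂ, B))) * V n := by
        have h4 : star (V n) * V n = 1 := Unitary.star_mul_self_of_mem (hV n)
        have h5 : star (V n) * (V n * (θ.comp E.subtype) x * star (V n)) * V n =
            (star (V n) * V n) * θ (x : 𝓜(ℂ, A)) * (star (V n) * V n) := by
          simp only [mul_assoc]
          rfl
        rw [mul_sub, sub_mul, h5, h4, one_mul, mul_one]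
      rw [e, CStarRing.norm_mul_mem_unitary _ (hV n),
        CStarRing.norm_mem_unitary_mul _ (Unitary.star_mem (hV n))]
      exact hn
    rw [isClosed_range_coeM.closure_eq] at h2
    obtain ⟨a, ha⟩ := hback x h2
    refine ⟨a, ?_⟩
    rw [← hx]
    exact congrArg Φ (Subtype.ext ha.symm)
  choose Ψ hΨ using hΦB
  have hmk : ∀ a a' : A, (⟨((a * a' : A) : 𝓜(ℂ, A)), hAE _⟩ : E) =
      ⟨(a : 𝓜(ℂ, A)), hAE a⟩ * ⟨(a' : 𝓜(ℂ, A)), hAE a'⟩ := fun a a' => Subtype.ext (coeM_mul a a')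
  have hadd : ∀ a a' : A, (⟨((a + a' : A) : 𝓜(ℂ, A)), hAE _⟩ : E) =
      ⟨(a : 𝓜(ℂ, A)), hAE a⟩ + ⟨(a' : 𝓜(ℂ, A)), hAE a'⟩ := fun a a' => Subtype.ext
        (map_add (DoubleCentralizer.coeHom (𝕜 := ℂ) (A := A)) a a')
  have hsmul : ∀ (c : ℂ) (a : A), (⟨((c • a : A) : 𝓜(ℂ, A)), hAE _⟩ : E) =
      c • ⟨(a : 𝓜(ℂ, A)), hAE a⟩ := fun c a => Subtype.ext
        (map_smul (DoubleCentralizer.coeHom (𝕜 := ℂ) (A := A)) c a)
  have hstar : ∀ (a : A), (⟨((star a : A) : 𝓜(ℂ, A)), hAE _⟩ : E) =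
      star ⟨(a : 𝓜(ℂ, A)), hAE a⟩ := fun a => Subtype.ext
        (map_star (DoubleCentralizer.coeHom (𝕜 := ℂ) (A := A)) a)
  have hΨinj : Function.Injective Ψ := by
    intro a a' h
    have h1 : Φ ⟨(a : 𝓜(ℂ, A)), hAE a⟩ = Φ ⟨(a' : 𝓜(ℂ, A)), hAE a'⟩ := by
      rw [← hΨ, ← hΨ, h]
    have h2 : Isometry Φ := AddMonoidHomClass.isometry_of_norm Φ hnorm
    have h3 := congrArg Subtype.val (h2.injective h1)
    exact coeM_injective h3
  have hΨsurj : Function.Surjective Ψ := by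
    intro b
    obtain ⟨a, ha⟩ := hsurj b
    refine ⟨a, coeM_injective ?_⟩
    show ((Ψ a : B) : 𝓜(ℂ, B)) = (b : 𝓜(ℂ, B))
    rw [hΨ, ha]
  let e : A ≃ B := Equiv.ofBijective Ψ ⟨hΨinj, hΨsurj⟩
  have hmulΨ : ∀ a a', Ψ (a * a') = Ψ a * Ψ a' := by
    intro a a'
    refine coeM_injective ?_
    show ((Ψ (a * a') : B) : 𝓜(ℂ, B)) = ((Ψ a * Ψ a' : B) : 𝓜(ℂ, B))
    rw [hΨ, hmk, map_mul, ← hΨ, ← hΨ, coeM_mul]
  have haddΨ : ∀ a a', Ψ (a + a') = Ψ a + Ψ a' := by
    intro a a'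
    refine coeM_injective ?_
    show ((Ψ (a + a') : B) : 𝓜(ℂ, B)) = ((Ψ a + Ψ a' : B) : 𝓜(ℂ, B))
    refine Eq.trans ?_ (map_add (DoubleCentralizer.coeHom (𝕜 := ℂ) (A := B)) (Ψ a) (Ψ a')).symm
    show _ = ((Ψ a : B) : 𝓜(ℂ, B)) + ((Ψ a' : B) : 𝓜(ℂ, B))
    rw [hΨ, hΨ, hΨ, hadd, map_add]
  have hsmulΨ : ∀ (c : ℂ) a, Ψ (c • a) = c • Ψ a := by
    intro c a
    refine coeM_injective ?_
    show ((Ψ (c • a) : B) : 𝓜(ℂ, B)) = ((c • Ψ a : B) : 𝓜(ℂ, B))
    refine Eq.trans ?_ (map_smul (DoubleCentralizer.coeHom (𝕜 := ℂ) (A := B)) c (Ψ a)).symm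
    show _ = c • ((Ψ a : B) : 𝓜(ℂ, B))
    rw [hΨ, hΨ, hsmul, map_smul]
  have hstarΨ : ∀ a, Ψ (star a) = star (Ψ a) := by
    intro a
    refine coeM_injective ?_
    show ((Ψ (star a) : B) : 𝓜(ℂ, B)) = ((star (Ψ a) : B) : 𝓜(ℂ, B))
    refine Eq.trans ?_ (map_star (DoubleCentralizer.coeHom (𝕜 := ℂ) (A := B)) (Ψ a)).symm
    show _ = star ((Ψ a : B) : 𝓜(ℂ, B))
    rw [hΨ, hΨ, hstar, map_star]
  refine ⟨{ e with
    map_mul' := hmulΨ
    map_add' := haddΨ
    map_smul' := hsmulΨ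
    map_star' := hstarΨ }, u, hu, hcoc, ?_⟩
  intro g a
  show ((Ψ (α g a) : B) : 𝓜(ℂ, B)) = u g * ((β g (Ψ a) : B) : 𝓜(ℂ, B)) * star (u g)
  have h5 : ((β g (Ψ a) : B) : 𝓜(ℂ, B)) = multAut (β g) (Φ ⟨(a : 𝓜(ℂ, A)), hAE a⟩) := by
    rw [← multAut_coe, hΨ]
  rw [hΨ, h5]
  refine Eq.trans (congrArg Φ (Subtype.ext ?_)) (hΦ g ⟨(a : 𝓜(ℂ, A)), hAE a⟩)
  show ((α g a : A) : 𝓜(ℂ, A)) = multAut (α g) (a : 𝓜(ℂ, A))
  rw [multAut_coe]

end Vale.Agent.P095R
end
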