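import Vale.Agent.P095.MathlibUsed
import Vale.Agent.P095.Bdl.B9
import Vale.Agent.P095.Bdl.B6
import Vale.Agent.P095.Bdl.B8
import Vale.Agent.P095.Bdl.B12
import Vale.Agent.P083.NuclearDef
import Vale.Agent.P095.Bdl.B3

set_option linter.all false

section

/-! The free group trick. -/

set_option linter.unusedSectionVars false

open scoped InnerProductSpace Matrix

namespace Vale.Agent.P095C

open Vale.Agent

universe u

variable {A : Type u} [CStarAlgebra A] [PartialOrder A] [StarOrderedRing A]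

theorem cuntz_of_subsingleton [Subsingleton A] {m n : Type} [Fintype m] [DecidableEq m] [Fintype n]
    (a : m → A) (b : n → A) : P135.CuntzLE a b := by
  intro ε hε
  have h0 : ∀ x : A, ‖x‖ ≤ ε := fun x => by
    rw [Subsingleton.elim x 0, norm_zero]
    exact hε.le
  exact ⟨fun _ _ => 0, fun i i' => h0 _⟩

end Vale.Agent.P095C
end

section

/-! Completely positive maps in entrywise form; normalisation to unital maps. -/

set_option linter.unusedSectionVars false

open Filter Topology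
open scoped CStarAlgebra ComplexOrder

namespace Vale.Agent.P095M

open Vale.Agent.P095

universe u v w

/-- Complete positivity in entrywise form, for possibly nonunital algebras. -/
def IsCPN {A B : Type*} [NonUnitalRing A] [StarRing A] [Module ℂ A] [NonUnitalRing B] [StarRing B]
    [Module ℂ B] (f : A →ₗ[ℂ] B) : Prop :=
  ∀ (n : ℕ) (X : Matrix (Fin n) (Fin n) A), ∃ Y : Matrix (Fin n) (Fin n) B,
    ∀ i j, f ((X.conjTranspose * X) i j) = (Y.conjTranspose * Y) i j

/-- Nuclearity of a possibly nonunital C*-algebra: the identity is approximated in point norm by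
compositions of completely positive maps through matrix algebras. -/
def IsNuclearN (A : Type u) [NonUnitalCStarAlgebra A] : Prop :=
  ∀ (F : Finset A) (ε : ℝ), 0 < ε → ∃ (k : ℕ) (φ : A →ₗ[ℂ] Matrix (Fin k) (Fin k) ℂ)
    (ψ : Matrix (Fin k) (Fin k) ℂ →ₗ[ℂ] A), IsCPN φ ∧ IsCPN ψ ∧ ∀ a ∈ F, ‖ψ (φ a) - a‖ < ε

/-- Sums of Gram matrices are Gram matrices. -/
def GramAdd (B : Type v) [NonUnitalRing B] [StarRing B] : Prop :=
  ∀ (n : ℕ) (Y₁ Y₂ : Matrix (Fin n) (Fin n) B), ∃ Y : Matrix (Fin n) (Fin n) B, ∀ i j,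
    (Y₁.conjTranspose * Y₁) i j + (Y₂.conjTranspose * Y₂) i j = (Y.conjTranspose * Y) i j

theorem gramAdd_cstar (B : Type v) [CStarAlgebra B] : GramAdd B := by
  intro n Y₁ Y₂
  let _ : PartialOrder B := CStarAlgebra.spectralOrder B
  have _ : StarOrderedRing B := CStarAlgebra.spectralOrderedRing B
  have h : 0 ≤ star (CStarMatrix.ofMatrixStarAlgEquiv Y₁) * CStarMatrix.ofMatrixStarAlgEquiv Y₁ +
      star (CStarMatrix.ofMatrixStarAlgEquiv Y₂) * CStarMatrix.ofMatrixStarAlgEquiv Y₂ :=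
    add_nonneg (star_mul_self_nonneg _) (star_mul_self_nonneg _)
  obtain ⟨Z, hZ⟩ := exists_star_mul_self_eq h
  refine ⟨CStarMatrix.ofMatrixStarAlgEquiv.symm Z, fun i j => ?_⟩
  exact CStarMatrix.ext_iff.mpr hZ i j

theorem gramAdd_of_equiv {B : Type v} {C : Type w} [Ring B] [StarRing B] [Algebra ℂ B]
    [Ring C] [StarRing C] [Algebra ℂ C] (e : B ≃⋆ₐ[ℂ] C) (h : GramAdd C) : GramAdd B := by
  have key : ∀ (n : ℕ) (Y : Matrix (Fin n) (Fin n) B) (i j : Fin n),
      e ((Y.conjTranspose * Y) i j) =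
        ((Matrix.of fun a b => e (Y a b)).conjTranspose * Matrix.of fun a b => e (Y a b)) i j := by
    intro n Y i j
    rw [Matrix.mul_apply, Matrix.mul_apply, map_sum]
    refine Finset.sum_congr rfl fun l _ => ?_
    rw [map_mul, Matrix.conjTranspose_apply, Matrix.conjTranspose_apply, map_star]
    rfl
  have key' : ∀ (n : ℕ) (Y : Matrix (Fin n) (Fin n) C) (i j : Fin n),
      e.symm ((Y.conjTranspose * Y) i j) =
        ((Matrix.of fun a b => e.symm (Y a b)).conjTranspose *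
          Matrix.of fun a b => e.symm (Y a b)) i j := by
    intro n Y i j
    rw [Matrix.mul_apply, Matrix.mul_apply, map_sum]
    refine Finset.sum_congr rfl fun l _ => ?_
    rw [map_mul, Matrix.conjTranspose_apply, Matrix.conjTranspose_apply, map_star]
    rfl
  intro n Y₁ Y₂
  obtain ⟨Y, hY⟩ := h n (Matrix.of fun a b => e (Y₁ a b)) (Matrix.of fun a b => e (Y₂ a b))
  refine ⟨Matrix.of fun a b => e.symm (Y a b), fun i j => ?_⟩
  rw [← key', ← hY, ← key, ← key, ← map_add, StarAlgEquiv.symm_apply_apply]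

theorem gramAdd_matrix (k : ℕ) : GramAdd (Matrix (Fin k) (Fin k) ℂ) :=
  gramAdd_of_equiv (CStarMatrix.ofMatrixStarAlgEquiv :
    Matrix (Fin k) (Fin k) ℂ ≃⋆ₐ[ℂ] CStarMatrix (Fin k) (Fin k) ℂ) (gramAdd_cstar _)

section basic

variable {A B C : Type*} [NonUnitalRing A] [StarRing A] [Module ℂ A] [NonUnitalRing B]
  [StarRing B] [Module ℂ B] [NonUnitalRing C] [StarRing C] [Module ℂ C]

theorem IsCPN.comp {g : B →ₗ[ℂ] C} {f : A →ₗ[ℂ] B} (hg : IsCPN g) (hf : IsCPN f) :
    IsCPN (g ∘ₗ f) := by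
  intro n X
  obtain ⟨Y, hY⟩ := hf n X
  obtain ⟨Z, hZ⟩ := hg n Y
  exact ⟨Z, fun i j => by rw [LinearMap.comp_apply, hY, hZ]⟩

theorem IsCPN.add (hB : GramAdd B) {f g : A →ₗ[ℂ] B} (hf : IsCPN f) (hg : IsCPN g) :
    IsCPN (f + g) := by
  intro n X
  obtain ⟨Y, hY⟩ := hf n X
  obtain ⟨Z, hZ⟩ := hg n X
  obtain ⟨W, hW⟩ := hB n Y Z
  exact ⟨W, fun i j => by rw [LinearMap.add_apply, hY, hZ, hW]⟩

theorem isCPN_zero : IsCPN (0 : A →ₗ[ℂ] B) := fun n X => ⟨0, fun i j => by simp⟩

theorem GramAdd.sum (hB : GramAdd B) {ι : Type*} (s : Finset ι) (n : ℕ)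
    (Y : ι → Matrix (Fin n) (Fin n) B) : ∃ Z : Matrix (Fin n) (Fin n) B, ∀ i j,
      ∑ c ∈ s, ((Y c).conjTranspose * Y c) i j = (Z.conjTranspose * Z) i j := by
  classical
  induction s using Finset.induction_on with
  | empty => exact ⟨0, fun i j => by simp⟩
  | insert a s ha ih =>
    obtain ⟨Z, hZ⟩ := ih
    obtain ⟨W, hW⟩ := hB n (Y a) Z
    exact ⟨W, fun i j => by rw [Finset.sum_insert ha, hZ, hW]⟩

end basic

/-- The diagonal entries of matrices give completely positive maps. -/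
theorem isCPN_entry {B : Type v} [Ring B] [StarRing B] [Algebra ℂ B] (hB : GramAdd B) {m : ℕ}
    (a : Fin m) : IsCPN (B := B) (Matrix.entryLinearMap ℂ B a a) := by
  intro n X
  obtain ⟨Z, hZ⟩ := hB.sum Finset.univ n (fun c : Fin m => Matrix.of fun i j => X i j c a)
  refine ⟨Z, fun i j => ?_⟩
  rw [← hZ, Matrix.entryLinearMap_apply]
  have h1 : (X.conjTranspose * X) i j = ∑ l, (X l i).conjTranspose * X l j := by
    rw [Matrix.mul_apply]; rfl
  rw [h1, Matrix.sum_apply]
  simp only [Matrix.mul_apply, Matrix.conjTranspose_apply, Matrix.of_apply]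
  rw [Finset.sum_comm]

/-- conjugation by a fixed element -/
def conjMap {B : Type v} [Ring B] [Algebra ℂ B] (c d : B) : B →ₗ[ℂ] B :=
  (LinearMap.mulRight ℂ d) ∘ₗ (LinearMap.mulLeft ℂ c)

theorem conjMap_apply {B : Type v} [Ring B] [Algebra ℂ B] (c d x : B) :
    conjMap c d x = c * x * d := rfl

theorem isCPN_conj {B : Type v} [Ring B] [StarRing B] [Algebra ℂ B] (c : B) :
    IsCPN (conjMap (star c) c) := by
  intro n X
  refine ⟨Matrix.of fun a b => X a b * c, fun i j => ?_⟩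
  rw [conjMap_apply, Matrix.mul_apply, Matrix.mul_apply, Finset.mul_sum, Finset.sum_mul]
  refine Finset.sum_congr rfl fun l _ => ?_
  rw [Matrix.conjTranspose_apply, Matrix.conjTranspose_apply]
  simp only [Matrix.of_apply, star_mul]
  noncomm_ring

/-- star homomorphisms are completely positive -/
theorem isCPN_hom {B : Type v} {C : Type w} [Ring B] [StarRing B] [Algebra ℂ B]
    [Ring C] [StarRing C] [Algebra ℂ C] (e : B →⋆ₐ[ℂ] C) :
    IsCPN (e : B →ₐ[ℂ] C).toLinearMap := by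
  intro n X
  refine ⟨Matrix.of fun a b => e (X a b), fun i j => ?_⟩
  change e _ = _
  rw [Matrix.mul_apply, Matrix.mul_apply, map_sum]
  refine Finset.sum_congr rfl fun l _ => ?_
  rw [map_mul, Matrix.conjTranspose_apply, Matrix.conjTranspose_apply, map_star]
  rfl

/-- scalar maps `μ ↦ μ • w* w` -/
theorem isCPN_smul {B : Type v} [Ring B] [StarRing B] [Algebra ℂ B] [StarModule ℂ B] (w : B) :
    IsCPN (LinearMap.toSpanSingleton ℂ B (star w * w)) := by
  intro n X
  refine ⟨Matrix.of fun a b => X a b • w, fun i j => ?_⟩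
  rw [LinearMap.toSpanSingleton_apply, Matrix.mul_apply, Matrix.mul_apply, Finset.sum_smul]
  refine Finset.sum_congr rfl fun l _ => ?_
  rw [Matrix.conjTranspose_apply, Matrix.conjTranspose_apply]
  simp only [Matrix.of_apply, star_smul]
  rw [smul_mul_smul_comm]

/-- the value of a completely positive map at one is of the form `y* y` -/
theorem IsCPN.apply_one {B : Type v} {C : Type w} [Ring B] [StarRing B] [Algebra ℂ B]
    [Ring C] [StarRing C] [Algebra ℂ C] {f : B →ₗ[ℂ] C} (hf : IsCPN f) :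
    ∃ y : C, f 1 = star y * y := by
  obtain ⟨Y, hY⟩ := hf 1 (1 : Matrix (Fin 1) (Fin 1) B)
  refine ⟨Y 0 0, ?_⟩
  have := hY 0 0
  simpa only [Fin.isValue, Matrix.conjTranspose_one, Matrix.mul_apply, Finset.univ_unique, Fin.default_eq_zero,     Finset.sum_singleton, Matrix.one_apply_eq, mul_one, Matrix.conjTranspose_apply] using this

/-- square roots of strictly positive elements -/
theorem exists_sqrt_inv {B : Type v} [CStarAlgebra B] [PartialOrder B] [StarOrderedRing B]
    (T : B) {η : ℝ} (hη : 0 < η) (hT : algebraMap ℝ B η ≤ T) (hsa : IsSelfAdjoint T) :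
    ∃ C S : B, star C = C ∧ star S = S ∧ C * C = T ∧ S * C = 1 ∧ C * S = 1 ∧
      ∀ κ : ℝ, ‖T - 1‖ ≤ κ → κ ≤ 1 / 2 → ‖S - 1‖ ≤ κ := by
  have hspec : ∀ t ∈ spectrum ℝ T, η ≤ t := (algebraMap_le_iff_le_spectrum (r := η) (a := T)).1 hT
  have hpos : ∀ t ∈ spectrum ℝ T, 0 < t := fun t ht => lt_of_lt_of_le hη (hspec t ht)
  have hg : ContinuousOn (fun t : ℝ => (Real.sqrt t)⁻¹) (spectrum ℝ T) := by
    apply ContinuousOn.inv₀ (by fun_prop)
    intro t ht
    exact (Real.sqrt_pos.mpr (hpos t ht)).ne'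
  have hs : ContinuousOn (fun t : ℝ => Real.sqrt t) (spectrum ℝ T) := by fun_prop
  refine ⟨cfc (fun t : ℝ => Real.sqrt t) T, cfc (fun t : ℝ => (Real.sqrt t)⁻¹) T,
    (cfc_predicate _ T : IsSelfAdjoint _).star_eq, (cfc_predicate _ T : IsSelfAdjoint _).star_eq,
    ?_, ?_, ?_, ?_⟩
  · rw [← cfc_mul _ _ T hs hs]
    conv_rhs => rw [← cfc_id' ℝ T]
    apply cfc_congr
    intro t ht
    exact Real.mul_self_sqrt (hpos t ht).le
  · rw [← cfc_mul _ _ T hg hs, ← cfc_const_one ℝ T]
    apply cfc_congr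
    intro t ht
    exact inv_mul_cancel₀ (Real.sqrt_pos.mpr (hpos t ht)).ne'
  · rw [← cfc_mul _ _ T hs hg, ← cfc_const_one ℝ T]
    apply cfc_congr
    intro t ht
    exact mul_inv_cancel₀ (Real.sqrt_pos.mpr (hpos t ht)).ne'
  · intro κ hκ hκ2
    have hκ0 : 0 ≤ κ := (norm_nonneg _).trans hκ
    have h1 : cfc (fun t : ℝ => (Real.sqrt t)⁻¹) T - 1 =
        cfc (fun t : ℝ => (Real.sqrt t)⁻¹ - 1) T := by
      rw [cfc_sub _ _ T hg (by fun_prop), cfc_const_one ℝ T]
    rw [h1]
    refine norm_cfc_le hκ0 fun t ht => ?_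
    have ht0 := hpos t ht
    have h2 : |t - 1| ≤ κ := by
      have h3 : T - 1 = cfc (fun t : ℝ => t - 1) T := by
        rw [cfc_sub _ _ T (by fun_prop) (by fun_prop), cfc_const_one ℝ T, cfc_id' ℝ T]
      rw [h3] at hκ
      have := norm_apply_le_norm_cfc (fun t : ℝ => t - 1) T ht (by fun_prop) hsa
      exact this.trans hκ
    have h5 := abs_le.1 h2
    have h6 : 1 / 2 ≤ t := by linarith only [hκ2, h5]
    have h7 : 0 < Real.sqrt t := Real.sqrt_pos.mpr ht0
    have h8 := Real.mul_self_sqrt ht0.le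
    have h9 : 1 / 2 ≤ Real.sqrt t := by
      by_contra h
      push Not at h
      nlinarith only [h8, hκ2, h7, h, h5]
    have h10 : 1 ≤ Real.sqrt t * (1 + Real.sqrt t) := by linarith
    have h11 : (Real.sqrt t)⁻¹ - 1 = (1 - t) / (Real.sqrt t * (1 + Real.sqrt t)) := by
      rw [eq_div_iff (by positivity)]
      field_simp
      nlinarith only [h8]
    rw [Real.norm_eq_abs, h11, abs_div, abs_of_pos (by positivity : 0 < Real.sqrt t *
      (1 + Real.sqrt t)), div_le_iff₀ (by positivity)]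
    rw [abs_sub_comm] at h2
    nlinarith only [h2, h5, h8, hκ2, h9]

end Vale.Agent.P095M
end

section

/-! Normalisation of completely positive approximations to unital ones. -/

set_option linter.unusedSectionVars false

open Filter Topology
open scoped CStarAlgebra ComplexOrder

namespace Vale.Agent.P095M

open Vale.Agent.P095

universe u v w

/-- a weak form of the completely positive approximation property -/
def CPW (M : Type u) [CStarAlgebra M] : Prop :=
  ∀ (F : Finset M) (ε : ℝ), 0 < ε → ∃ (N : ℕ) (α : M →ₗ[ℂ] Matrix (Fin N) (Fin N) ℂ)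
    (β : Matrix (Fin N) (Fin N) ℂ →ₗ[ℂ] M), IsCPN α ∧ IsCPN β ∧ ∀ d ∈ F, ‖β (α d) - d‖ ≤ ε

theorem norm_one_le' (M : Type u) [CStarAlgebra M] : ‖(1 : M)‖ ≤ 1 := by
  have h := CStarRing.norm_star_mul_self (x := (1 : M))
  rw [star_one, one_mul] at h
  rcases eq_or_ne ‖(1 : M)‖ 0 with h0 | h0
  · rw [h0]; exact zero_le_one
  · have : ‖(1 : M)‖ * 1 = ‖(1 : M)‖ * ‖(1 : M)‖ := by rw [mul_one]; exact h
    exact (mul_left_cancel₀ h0 this).ge

theorem half_le_of_norm_le {B : Type v} [CStarAlgebra B] [PartialOrder B] [StarOrderedRing B]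
    {R : B} (hR : IsSelfAdjoint R) (h : ‖R - 1‖ ≤ 1 / 2) : algebraMap ℝ B (1 / 2) ≤ R := by
  have h1 : IsSelfAdjoint (R - 1) := hR.sub (IsSelfAdjoint.one B)
  have h2 := h1.neg_algebraMap_norm_le_self
  have h3 : algebraMap ℝ B ‖R - 1‖ ≤ algebraMap ℝ B (1 / 2) := algebraMap_mono B h
  have h4 : algebraMap ℝ B (1 / 2) + algebraMap ℝ B (1 / 2) = 1 := by
    rw [← map_add]; norm_num
  have h5 : -algebraMap ℝ B (1 / 2) ≤ R - 1 := (neg_le_neg h3).trans h2
  calc algebraMap ℝ B (1 / 2) = -algebraMap ℝ B (1 / 2) +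
        (algebraMap ℝ B (1 / 2) + algebraMap ℝ B (1 / 2)) := by abel
    _ = -algebraMap ℝ B (1 / 2) + 1 := by rw [h4]
    _ ≤ R - 1 + 1 := by gcongr
    _ = R := by abel

theorem matrix_sqrt_inv {N : ℕ} (y : Matrix (Fin N) (Fin N) ℂ) {η : ℝ} (hη : 0 < η) :
    ∃ C S : Matrix (Fin N) (Fin N) ℂ, star C = C ∧ star S = S ∧
      C * C = star y * y + (η : ℂ) • (1 : Matrix (Fin N) (Fin N) ℂ) ∧ S * C = 1 ∧ C * S = 1 := by
  let e : Matrix (Fin N) (Fin N) ℂ ≃⋆ₐ[ℂ] CStarMatrix (Fin N) (Fin N) ℂ :=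
    CStarMatrix.ofMatrixStarAlgEquiv
  have h1 : algebraMap ℝ (CStarMatrix (Fin N) (Fin N) ℂ) η =
      (η : ℂ) • (1 : CStarMatrix (Fin N) (Fin N) ℂ) := by
    rw [Algebra.algebraMap_eq_smul_one]
    exact (Complex.coe_smul _ _).symm
  have h2 : algebraMap ℝ (CStarMatrix (Fin N) (Fin N) ℂ) η ≤
      star (e y) * e y + (η : ℂ) • (1 : CStarMatrix (Fin N) (Fin N) ℂ) := by
    rw [← h1]
    exact le_add_of_nonneg_left (star_mul_self_nonneg _)
  have hsa : IsSelfAdjoint (star (e y) * e y + (η : ℂ) • (1 : CStarMatrix (Fin N) (Fin N) ℂ)) := by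
    rw [← h1]
    exact (IsSelfAdjoint.star_mul_self _).add (IsSelfAdjoint.algebraMap _ (IsSelfAdjoint.all η))
  obtain ⟨C, S, hC, hS, hCC, hSC, hCS, -⟩ := exists_sqrt_inv _ hη h2 hsa
  refine ⟨e.symm C, e.symm S, ?_, ?_, ?_, ?_, ?_⟩
  · rw [← map_star, hC]
  · rw [← map_star, hS]
  · rw [← map_mul, hCC, map_add, map_mul, map_star, map_smul, map_one,
      StarAlgEquiv.symm_apply_apply]
  · rw [← map_mul, hSC, map_one]
  · rw [← map_mul, hCS, map_one]

theorem isNuclear_of_cpw {M : Type u} [CStarAlgebra M] (χ : M →⋆ₐ[ℂ] ℂ) (h : CPW M) :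
    P083.IsNuclear M := by
  classical
  let _ : PartialOrder M := CStarAlgebra.spectralOrder M
  have _ : StarOrderedRing M := CStarAlgebra.spectralOrderedRing M
  intro F ε hε
  set B0 : ℝ := 1 + ∑ d ∈ F, ‖d‖ with hB0
  have hB01 : 1 ≤ B0 := by
    have : 0 ≤ ∑ d ∈ F, ‖d‖ := Finset.sum_nonneg fun d _ => norm_nonneg d
    linarith
  have hB0d : ∀ d ∈ F, ‖d‖ ≤ B0 := fun d hd => by
    have := Finset.single_le_sum (f := fun d : M => ‖d‖) (fun d _ => norm_nonneg d) hd
    linarith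
  set κ : ℝ := min (1 / 2) (ε / (16 * B0)) with hκd
  have hκ : 0 < κ := by positivity
  have hκ2 : κ ≤ 1 / 2 := min_le_left _ _
  have hκε : 16 * (κ * B0) ≤ ε := by
    have : κ ≤ ε / (16 * B0) := min_le_right _ _
    rw [le_div_iff₀ (by positivity)] at this
    linarith only [this]
  obtain ⟨N, α, β, hα, hβ, happ⟩ := h (insert 1 F) (κ / 2) (by (clear * - hε; positivity))
  set K : ℝ := ‖β 1‖ with hK
  have hK0 : 0 ≤ K := norm_nonneg _
  set η : ℝ := κ / (2 * (1 + K) * B0) with hηd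
  have hη : 0 < η := by positivity
  have hηK : η * K * B0 ≤ κ / 2 := by
    have e1 : η * (2 * (1 + K) * B0) = κ := by
      rw [hηd]; exact div_mul_cancel₀ _ (by (clear * -; positivity))
    have : 0 ≤ η * B0 := by (clear * - hε; positivity)
    nlinarith only [e1, this]
  -- the perturbed map
  set w : Matrix (Fin N) (Fin N) ℂ := ((Real.sqrt η : ℝ) : ℂ) • 1 with hw
  have hww : star w * w = (η : ℂ) • (1 : Matrix (Fin N) (Fin N) ℂ) := by
    rw [hw, star_smul, smul_mul_smul_comm, star_one, one_mul]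
    congr 1
    have h2 : star ((Real.sqrt η : ℝ) : ℂ) = ((Real.sqrt η : ℝ) : ℂ) := Complex.conj_ofReal _
    rw [h2, ← Complex.ofReal_mul, Real.mul_self_sqrt hη.le]
  let γ : M →ₗ[ℂ] Matrix (Fin N) (Fin N) ℂ :=
    (LinearMap.toSpanSingleton ℂ _ (star w * w)) ∘ₗ (χ : M →ₐ[ℂ] ℂ).toLinearMap
  have hγ : IsCPN γ := (isCPN_smul w).comp (isCPN_hom χ)
  have hγa : ∀ d, γ d = (χ d * η : ℂ) • (1 : Matrix (Fin N) (Fin N) ℂ) := by
    intro d
    change χ d • (star w * w) = _
    rw [hww, smul_smul]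
  obtain ⟨y, hy⟩ := hα.apply_one
  obtain ⟨C, S, hC, hS, hCC, hSC, hCS⟩ := matrix_sqrt_inv y hη
  have hα1 : IsCPN (α + γ) := hα.add (gramAdd_matrix N) hγ
  have hT : (α + γ) 1 = C * C := by
    rw [LinearMap.add_apply, hy, hγa, map_one, one_mul, hCC]
  have hSCPN : IsCPN (conjMap S S) := by
    have := isCPN_conj S
    rwa [hS] at this
  have hCCPN : IsCPN (conjMap C C) := by
    have := isCPN_conj C
    rwa [hC] at this
  -- the almost unital map back
  have hβγ : ∀ d, ‖d‖ ≤ B0 → ‖β (γ d)‖ ≤ κ / 2 := by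
    intro d hd
    rw [hγa, map_smul, norm_smul, norm_mul, Complex.norm_real, Real.norm_of_nonneg hη.le]
    have h1 : ‖χ d‖ ≤ B0 := (NonUnitalStarAlgHom.norm_apply_le χ d).trans hd
    calc ‖χ d‖ * η * ‖β 1‖ ≤ B0 * η * K := by (clear * - h1 hε; gcongr)
      _ = η * K * B0 := by ring
      _ ≤ κ / 2 := hηK
  have happ' : ∀ d ∈ insert 1 F, ‖d‖ ≤ B0 → ‖β ((α + γ) d) - d‖ ≤ κ := by
    intro d hd hdn
    have e1 : β ((α + γ) d) - d = (β (α d) - d) + β (γ d) := by
      rw [LinearMap.add_apply, map_add]; abel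
    rw [e1]
    refine (norm_add_le _ _).trans ?_
    linarith only [happ d hd, hβγ d hdn]
  set R : M := β ((α + γ) 1) with hR
  have hR1 : ‖R - 1‖ ≤ κ := happ' 1 (Finset.mem_insert_self _ _)
    ((norm_one_le' M).trans hB01)
  have hRsa : IsSelfAdjoint R := by
    have h1 : IsCPN (β ∘ₗ (α + γ)) := hβ.comp hα1
    obtain ⟨y', hy'⟩ := h1.apply_one
    have : R = star y' * y' := hy'
    rw [this]
    exact IsSelfAdjoint.star_mul_self _
  obtain ⟨C2, S2, hC2, hS2, hCC2, hSC2, hCS2, hS2n⟩ := exists_sqrt_inv R (by norm_num)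
    (half_le_of_norm_le hRsa (hR1.trans hκ2)) hRsa
  have hS2κ : ‖S2 - 1‖ ≤ κ := hS2n κ hR1 hκ2
  have hS2CPN : IsCPN (conjMap S2 S2) := by
    have := isCPN_conj S2
    rwa [hS2] at this
  refine ⟨N, conjMap S S ∘ₗ (α + γ), conjMap S2 S2 ∘ₗ (β ∘ₗ conjMap C C),
    hSCPN.comp hα1, hS2CPN.comp (hβ.comp hCCPN), ?_, ?_, ?_⟩
  · rw [LinearMap.comp_apply, conjMap_apply, hT]
    calc S * (C * C) * S = (S * C) * (C * S) := by noncomm_ring
      _ = 1 := by rw [hSC, hCS, one_mul]
  · rw [LinearMap.comp_apply, LinearMap.comp_apply, conjMap_apply, conjMap_apply, mul_one, ← hT,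
      ← hR, ← hCC2]
    calc S2 * (C2 * C2) * S2 = (S2 * C2) * (C2 * S2) := by noncomm_ring
      _ = 1 := by rw [hSC2, hCS2, one_mul]
  · intro d hd
    have e1 : C * (S * (α + γ) d * S) * C = (α + γ) d := by
      calc C * (S * (α + γ) d * S) * C = (C * S) * (α + γ) d * (S * C) := by noncomm_ring
        _ = _ := by rw [hSC, hCS, one_mul, mul_one]
    rw [LinearMap.comp_apply, LinearMap.comp_apply, LinearMap.comp_apply, conjMap_apply,
      conjMap_apply, conjMap_apply, e1]
    have h1 := happ' d (Finset.mem_insert_of_mem hd) (hB0d d hd)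
    set x : M := β ((α + γ) d) with hx
    have e2 : S2 * x * S2 - d = S2 * (x - d) * S2 + (S2 - 1) * d * S2 + d * (S2 - 1) := by
      noncomm_ring
    have hS2n1 : ‖S2‖ ≤ 2 := by
      have h3 : S2 = (S2 - 1) + 1 := by abel
      rw [h3]
      refine (norm_add_le _ _).trans ?_
      linarith only [hκ2, hS2κ, norm_one_le' M]
    have n1 : ‖S2 * (x - d) * S2‖ ≤ 2 * κ * 2 :=
      (norm_mul_le _ _).trans (mul_le_mul ((norm_mul_le _ _).trans
        (mul_le_mul hS2n1 h1 (norm_nonneg _) zero_le_two)) hS2n1 (norm_nonneg _) (by (clear * - hε; positivity)))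
    have n2 : ‖(S2 - 1) * d * S2‖ ≤ κ * B0 * 2 :=
      (norm_mul_le _ _).trans (mul_le_mul ((norm_mul_le _ _).trans
        (mul_le_mul hS2κ (hB0d d hd) (norm_nonneg _) hκ.le)) hS2n1 (norm_nonneg _)
        (by (clear * - hε; positivity)))
    have n3 : ‖d * (S2 - 1)‖ ≤ B0 * κ :=
      (norm_mul_le _ _).trans (mul_le_mul (hB0d d hd) hS2κ (norm_nonneg _) (by (clear * -; positivity)))
    rw [e2]
    have n4 := norm_add_le (S2 * (x - d) * S2 + (S2 - 1) * d * S2) (d * (S2 - 1))
    have n5 := norm_add_le (S2 * (x - d) * S2) ((S2 - 1) * d * S2)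
    have n6 : 0 < κ * B0 := by (clear * - hε; positivity)
    have n7 : κ ≤ κ * B0 := le_mul_of_one_le_right hκ.le hB01
    linarith only [hκε, n1, n2, n3, n4, n5, n6, n7]

end Vale.Agent.P095M
end

section

/-! Cuntz comparison from a matrix inequality with weights, and in simple ideals. -/

namespace Vale.Agent.P095C

open Vale.Agent Vale.Agent.P133 Vale.Agent.P095N

universe u

/-- `diag(e,...,e) ≤ θ + X b X*` implies that the copies of `(e - ε)_+` are below `b`. -/
theorem cuntz_of_matrix_le_b {A : Type*} [CStarAlgebra A] [PartialOrder A] [StarOrderedRing A]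
    {m n : Type} [Fintype m] [DecidableEq m] [Fintype n] [DecidableEq n]
    {e : A} (he : 0 ≤ e) {θ ε : ℝ} (h0 : 0 ≤ θ) (h : θ < ε) (b : n → A) (X : m → n → A)
    (hX : (CStarMatrix.ofMatrix (Matrix.diagonal fun _ : m => e) : CStarMatrix m m A) ≤
      θ • (1 : CStarMatrix m m A) +
        CStarMatrix.ofMatrix (Matrix.of fun i i' => ∑ j, X i j * b j * star (X i' j))) :
    P135.CuntzLE (fun _ : m => P135.cut e ε) b := by
  intro δ hδ
  set XX : CStarMatrix m m A :=
    CStarMatrix.ofMatrix (Matrix.of fun i i' => ∑ j, X i j * b j * star (X i' j)) with hXX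
  have hXXa : ∀ i i', XX i i' = ∑ j, X i j * b j * star (X i' j) := fun i i' => rfl
  -- the function `g`
  set g0 : ℝ → ℝ := fun t => Real.sqrt (max (t - ε) 0 / max (t - θ) (ε - θ)) with hg0
  have hpos : ∀ t : ℝ, 0 < max (t - θ) (ε - θ) := fun t =>
    lt_of_lt_of_le (by linarith only [h]) (le_max_right _ _)
  have hg0c : Continuous g0 := by
    refine Continuous.sqrt (Continuous.div (by fun_prop) (by fun_prop) fun t => (hpos t).ne')
  have hes : IsSelfAdjoint e := he.isSelfAdjoint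
  set g : A := cfc g0 e with hg
  have hgs : star g = g := P135.star_cfc' g0 e
  have hcut : P135.cut e ε = g * (e - θ • (1 : A)) * g := by
    have e1 : e - θ • (1 : A) = cfc (fun t : ℝ => t - θ) e := by
      rw [cfc_sub (fun t : ℝ => t) (fun _ => θ) e (by fun_prop) (by fun_prop), cfc_id' ℝ e,
        cfc_const θ e, Algebra.algebraMap_eq_smul_one]
    rw [e1, hg, ← cfc_mul g0 (fun t : ℝ => t - θ) e hg0c.continuousOn (by fun_prop),
      ← cfc_mul (fun t => g0 t * (t - θ)) g0 e (by (clear * - hg0c; fun_prop)) hg0c.continuousOn]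
    unfold P135.cut
    refine cfc_congr fun t _ => ?_
    show max (t - ε) 0 = g0 t * (t - θ) * g0 t
    have e2 : g0 t * (t - θ) * g0 t = g0 t * g0 t * (t - θ) := by ring
    have e3 : g0 t * g0 t = max (t - ε) 0 / max (t - θ) (ε - θ) :=
      Real.mul_self_sqrt (div_nonneg (le_max_right _ _) (hpos t).le)
    rw [e2, e3]
    by_cases ht : t ≤ ε
    · rw [max_eq_right (by linarith only [ht] : t - ε ≤ 0), zero_div, zero_mul]
    · push Not at ht
      rw [max_eq_left (by linarith only [ht] : ε - θ ≤ t - θ), div_mul_cancel₀]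
      linarith only [h, ht]
  have hcut0 : 0 ≤ P135.cut e ε := cfc_nonneg fun t _ => le_max_right _ _
  have hle1 : mcD m e - θ • (1 : CStarMatrix m m A) ≤ XX := by
    rw [sub_le_iff_le_add']
    exact hX
  have hG : star (mcD m g) = mcD m g := by rw [mcD_star, hgs]
  have hle2 : mcD m (P135.cut e ε) ≤ mcD m g * XX * mcD m g := by
    have h1 := star_left_conjugate_le_conjugate hle1 (mcD m g)
    rw [hG] at h1
    refine le_trans (le_of_eq ?_) h1
    rw [hcut, ← mcD_mul, ← mcD_mul, mcD_sub, mcD_smul_one]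
  obtain ⟨r, hr⟩ := P135.exists_mono (mcD_nonneg (m := m) hcut0) hle2 hδ
  refine ⟨fun i j => ∑ k, (r * mcD m g) i k * X k j, fun i i' => ?_⟩
  have key : (∑ j, (∑ k, (r * mcD m g) i k * X k j) * b j *
      star (∑ k, (r * mcD m g) i' k * X k j)) =
      (r * (mcD m g * XX * mcD m g) * star r) i i' := by
    have e1 : r * (mcD m g * XX * mcD m g) * star r =
        (r * mcD m g) * XX * star (r * mcD m g) := by
      rw [star_mul, hG]
      simp only [mul_assoc]
    rw [e1, CStarMatrix.mul_apply]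
    have e2 : ∀ k', ((r * mcD m g) * XX) i k' * star (r * mcD m g) k' i' =
        ∑ j, ∑ k, (r * mcD m g) i k * X k j *
          (b j * (star (X k' j) * star ((r * mcD m g) i' k'))) := by
      intro k'
      rw [CStarMatrix.mul_apply, CStarMatrix.star_apply, Finset.sum_mul, Finset.sum_comm]
      refine Finset.sum_congr rfl fun k _ => ?_
      rw [hXXa, Finset.mul_sum, Finset.sum_mul]
      refine Finset.sum_congr rfl fun j _ => ?_
      simp only [mul_assoc]
    simp_rw [e2]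
    rw [Finset.sum_comm]
    refine Finset.sum_congr rfl fun j _ => ?_
    rw [star_sum, Finset.sum_mul, Finset.sum_mul_sum, Finset.sum_comm]
    refine Finset.sum_congr rfl fun k' _ => ?_
    refine Finset.sum_congr rfl fun k _ => ?_
    rw [star_mul]
    simp only [mul_assoc]
  rw [key]
  have e3 : (r * (mcD m g * XX * mcD m g) * star r) i i' -
      (if i = i' then P135.cut e ε else 0) =
      (r * (mcD m g * XX * mcD m g) * star r - mcD m (P135.cut e ε)) i i' := by
    rw [CStarMatrix.sub_apply, mcD_apply]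
  rw [e3]
  exact CStarMatrix.norm_entry_le_norm.trans hr

variable {M : Type u} [CStarAlgebra M] [PartialOrder M] [StarOrderedRing M]

theorem cut_cuntz_of_simple {I : CIdeal M} (hS : SimpleI I) {h c : M} (hh : h ∈ I) (h0 : 0 ≤ h)
    (hc : c ∈ I) (hc0 : 0 ≤ c) (hcne : c ≠ 0) {e₀ : ℝ} (he₀ : 0 < e₀) :
    ∃ m : ℕ, P135.CuntzLE (fun _ : Unit => P135.cut h e₀) (fun _ : Fin m => c) := by
  obtain ⟨n, l, r, -, -, hlr⟩ := hS c hc hcne h hh (e₀ / 2) (by positivity)
  have hcs : star c = c := hc0.isSelfAdjoint.star_eq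
  have hhs : star h = h := h0.isSelfAdjoint.star_eq
  set s : ℝ := 1 / Real.sqrt 2 with hs
  have hss : s * s = 1 / 2 := by
    rw [hs, div_mul_div_comm, Real.mul_self_sqrt (by norm_num), one_mul]
  set S : M := ∑ i, l i * c * r i with hSdef
  set T : M := ∑ i, (l i * c * star (l i) + star (r i) * c * r i) with hT
  have h1 : S + star S ≤ T := by
    have e2 : S + star S = ∑ i, (l i * c * r i + star (r i) * c * star (l i)) := by
      rw [Finset.sum_add_distrib, hSdef, star_sum]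
      congr 1
      refine Finset.sum_congr rfl fun i _ => ?_
      rw [star_mul, star_mul, hcs, mul_assoc]
    rw [e2, hT]
    refine Finset.sum_le_sum fun i _ => ?_
    have h3 : 0 ≤ (l i - star (r i)) * c * star (l i - star (r i)) :=
      star_right_conjugate_nonneg hc0 _
    have h4 : (l i - star (r i)) * c * star (l i - star (r i)) =
        (l i * c * star (l i) + star (r i) * c * r i) -
        (l i * c * r i + star (r i) * c * star (l i)) := by
      rw [star_sub, star_star]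
      noncomm_ring
    rw [h4] at h3
    exact sub_nonneg.1 h3
  have h2 : h ≤ (e₀ / 2) • (1 : M) + (1 / 2 : ℝ) • T := by
    have e1 : ‖h - (1 / 2 : ℝ) • (S + star S)‖ ≤ e₀ / 2 := by
      have e2 : h - (1 / 2 : ℝ) • (S + star S) =
          (1 / 2 : ℝ) • (h - S) + (1 / 2 : ℝ) • star (h - S) := by
        rw [star_sub, hhs, ← smul_add]
        have : h - S + (h - star S) = (2 : ℝ) • h - (S + star S) := by
          rw [two_smul]; abel
        rw [this, smul_sub, smul_smul]
        norm_num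
      rw [e2]
      have e3 : ‖h - S‖ ≤ e₀ / 2 := by
        rw [norm_sub_rev]
        exact hlr
      calc ‖(1 / 2 : ℝ) • (h - S) + (1 / 2 : ℝ) • star (h - S)‖
          ≤ ‖(1 / 2 : ℝ) • (h - S)‖ + ‖(1 / 2 : ℝ) • star (h - S)‖ := norm_add_le _ _
        _ = ‖h - S‖ := by
            rw [norm_smul, norm_smul, norm_star]
            norm_num
            ring
        _ ≤ e₀ / 2 := e3
    have hsa : IsSelfAdjoint (h - (1 / 2 : ℝ) • (S + star S)) := by
      refine h0.isSelfAdjoint.sub ?_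
      refine IsSelfAdjoint.smul (by simp [IsSelfAdjoint]) ?_
      exact IsSelfAdjoint.add_star_self S
    have e4 : h - (1 / 2 : ℝ) • (S + star S) ≤ (e₀ / 2) • (1 : M) := by
      refine (hsa.le_algebraMap_norm_self).trans ?_
      rw [Algebra.algebraMap_eq_smul_one]
      exact smul_le_smul_of_nonneg_right e1 zero_le_one
    have e5 : (1 / 2 : ℝ) • (S + star S) ≤ (1 / 2 : ℝ) • T :=
      smul_le_smul_of_nonneg_left h1 (by norm_num)
    calc h = (h - (1 / 2 : ℝ) • (S + star S)) + (1 / 2 : ℝ) • (S + star S) := by abel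
      _ ≤ _ := add_le_add e4 e5
  refine ⟨n + n, ?_⟩
  refine cuntz_of_matrix_le_b (m := Unit) (n := Fin (n + n)) h0 (θ := e₀ / 2) (by positivity)
    (by linarith only [he₀]) (fun _ => c)
    (fun _ => Fin.append (fun i => s • l i) (fun i => s • star (r i))) ?_
  have e6 : ∀ i i' : Unit, (∑ j : Fin (n + n),
      Fin.append (fun i => s • l i) (fun i => s • star (r i)) j * c *
        star (Fin.append (fun i => s • l i) (fun i => s • star (r i)) j)) =
      (1 / 2 : ℝ) • T := by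
    intro _ _
    rw [Fin.sum_univ_add]
    simp only [Fin.append_left, Fin.append_right]
    rw [hT, Finset.smul_sum, ← Finset.sum_add_distrib]
    refine Finset.sum_congr rfl fun i _ => ?_
    rw [star_smul, star_smul, star_star, star_trivial, smul_add]
    simp only [smul_mul_assoc, mul_smul_comm, smul_smul, hss]
  have e7 : (CStarMatrix.ofMatrix (Matrix.of fun _ _ : Unit => ∑ j : Fin (n + n),
      Fin.append (fun i => s • l i) (fun i => s • star (r i)) j * c *
        star (Fin.append (fun i => s • l i) (fun i => s • star (r i)) j)) :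
          CStarMatrix Unit Unit M) = mcD Unit ((1 / 2 : ℝ) • T) := by
    refine CStarMatrix.ext fun i i' => ?_
    rw [mcD_apply, if_pos (Subsingleton.elim i i')]
    exact e6 i i'
  show mcD Unit h ≤ (e₀ / 2) • (1 : CStarMatrix Unit Unit M) + _
  rw [e7, ← mcD_smul_one]
  have e8 : mcD Unit ((e₀ / 2) • (1 : M)) + mcD Unit ((1 / 2 : ℝ) • T) - mcD Unit h =
      mcD Unit ((e₀ / 2) • (1 : M) + (1 / 2 : ℝ) • T - h) := by
    refine CStarMatrix.ext fun i i' => ?_
    rw [CStarMatrix.sub_apply, CStarMatrix.add_apply]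
    simp only [mcD_apply, if_true]
  rw [← sub_nonneg, e8]
  exact mcD_nonneg (sub_nonneg.2 h2)

end Vale.Agent.P095C
end

section

/-! The free group trick inside a hereditary subalgebra: preparations. -/

set_option linter.unusedSectionVars false

open scoped Matrix

namespace Vale.Agent.P095C

open Vale.Agent Vale.Agent.P133 Vale.Agent.P095N Vale.Agent.P095

universe u

section her

variable {M : Type u} [CStarAlgebra M] [PartialOrder M] [StarOrderedRing M] {u : M}

theorem herC_add {x y : M} (hx : x ∈ herC u) (hy : y ∈ herC u) : x + y ∈ herC u := by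
  refine map_mem_closure₂ (f := fun a b : M => a + b) (by fun_prop) hx hy ?_
  rintro _ ⟨a, rfl⟩ _ ⟨b, rfl⟩
  exact ⟨a + b, by noncomm_ring⟩

theorem herC_zero : (0 : M) ∈ herC u := subset_closure ⟨0, by simp⟩

theorem herC_smul (c : ℂ) {x : M} (hx : x ∈ herC u) : c • x ∈ herC u := by
  refine map_mem_closure (f := fun a : M => c • a) (by fun_prop) hx ?_
  rintro _ ⟨a, rfl⟩
  exact ⟨c • a, by simp⟩

theorem herC_sum {ι : Type*} (s : Finset ι) {f : ι → M} (h : ∀ i ∈ s, f i ∈ herC u) :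
    ∑ i ∈ s, f i ∈ herC u := by
  classical
  induction s using Finset.induction_on with
  | empty => simpa using herC_zero
  | insert a s ha ih =>
    rw [Finset.sum_insert ha]
    exact herC_add (h a (Finset.mem_insert_self _ _))
      (ih fun i hi => h i (Finset.mem_insert_of_mem hi))

theorem herC_star (hu : 0 ≤ u) {x : M} (hx : x ∈ herC u) : star x ∈ herC u := by
  refine map_mem_closure (f := fun a : M => star a) (by fun_prop) hx ?_
  rintro _ ⟨a, rfl⟩
  exact ⟨star a, by simp only [mul_assoc, star_mul, hu.isSelfAdjoint.star_eq]⟩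

theorem herC_mul_mul (y : M) {x z : M} (hx : x ∈ herC u) (hz : z ∈ herC u) :
    x * y * z ∈ herC u := by
  refine map_mem_closure₂ (f := fun a b : M => a * y * b) (by fun_prop) hx hz ?_
  rintro _ ⟨a, rfl⟩ _ ⟨b, rfl⟩
  exact ⟨a * u * y * u * b, by noncomm_ring⟩

theorem isClosed_herC : IsClosed (herC u) := isClosed_closure

end her

section sqrtm

variable {M : Type u} [CStarAlgebra M] [PartialOrder M] [StarOrderedRing M] {u : M}
  {κ : Type} [Fintype κ] [DecidableEq κ]

theorem tendsto_entry {P : ℕ → CStarMatrix κ κ M} {Q : CStarMatrix κ κ M}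
    (h : Filter.Tendsto P Filter.atTop (nhds Q)) (i j : κ) :
    Filter.Tendsto (fun n => P n i j) Filter.atTop (nhds (Q i j)) := by
  rw [tendsto_iff_norm_sub_tendsto_zero] at h ⊢
  refine squeeze_zero (fun n => norm_nonneg _) (fun n => ?_) h
  have := CStarMatrix.norm_entry_le_norm (M := P n - Q) (i := i) (j := j)
  rwa [CStarMatrix.sub_apply] at this

/-- The square root of a positive element as a limit of `P c P`. -/
theorem sqrt_limit {B : Type*} [CStarAlgebra B] [PartialOrder B] [StarOrderedRing B] (P : B)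
    (hP : 0 ≤ P) : ∃ (c : ℕ → B) (S : B), star S = S ∧ S * S = P ∧
      Filter.Tendsto (fun n => P * c n * P) Filter.atTop (nhds S) := by
  have hsa : IsSelfAdjoint P := hP.isSelfAdjoint
  let φ : ℕ → ℝ → ℝ := fun n t => Real.sqrt t / (t ^ 2 + 1 / (n + 1))
  have hφc : ∀ n, ContinuousOn (φ n) (spectrum ℝ P) := by
    intro n
    refine ContinuousOn.div (by fun_prop) (by fun_prop) fun t _ => ?_
    positivity
  refine ⟨fun n => cfc (φ n) P, CFC.sqrt P, (CFC.sqrt_nonneg P).isSelfAdjoint.star_eq,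
    CFC.sqrt_mul_sqrt_self P hP, ?_⟩
  have hid : ContinuousOn (fun t : ℝ => t) (spectrum ℝ P) := by fun_prop
  have e1 : ∀ n, P * cfc (φ n) P * P = cfc (fun t => t * φ n t * t) P := by
    intro n
    rw [cfc_mul (fun t => t * φ n t) (fun t => t) P (hid.mul (hφc n)) hid,
      cfc_mul (fun t => t) (φ n) P hid (hφc n), cfc_id' ℝ P]
  have e2 : CFC.sqrt P = cfc Real.sqrt P := by
    rw [CFC.sqrt_eq_real_sqrt P hP, cfcₙ_eq_cfc]
  rw [tendsto_iff_norm_sub_tendsto_zero]
  have hb : ∀ n : ℕ, ‖P * cfc (φ n) P * P - CFC.sqrt P‖ ≤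
      Real.sqrt (Real.sqrt (1 / ((n : ℝ) + 1))) := by
    intro n
    rw [e1, e2, ← cfc_sub (fun t => t * φ n t * t) Real.sqrt P
      ((hid.mul (hφc n)).mul hid) (by fun_prop)]
    refine norm_cfc_le (by positivity) fun t ht => ?_
    have ht0 : 0 ≤ t := spectrum_nonneg_of_nonneg hP ht
    set s : ℝ := 1 / ((n : ℝ) + 1) with hs
    have hs0 : 0 < s := by positivity
    have hden : 0 < t ^ 2 + s := by positivity
    have e3 : t * φ n t * t - Real.sqrt t = - (Real.sqrt t * (s / (t ^ 2 + s))) := by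
      show t * (Real.sqrt t / (t ^ 2 + s)) * t - Real.sqrt t = _
      field_simp
      ring
    rw [e3, norm_neg, Real.norm_of_nonneg (by (clear * -; positivity))]
    rcases le_or_gt t (Real.sqrt s) with h1 | h1
    · calc Real.sqrt t * (s / (t ^ 2 + s)) ≤ Real.sqrt (Real.sqrt s) * 1 := by
            refine mul_le_mul (Real.sqrt_le_sqrt h1) ?_ (by (clear * -; positivity)) (by positivity)
            rw [div_le_one hden]
            nlinarith only []
        _ = _ := mul_one _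
    · have hss : Real.sqrt s * Real.sqrt s = s := Real.mul_self_sqrt hs0.le
      have hs1 : 0 < Real.sqrt s := Real.sqrt_pos.2 hs0
      have h2 : Real.sqrt (Real.sqrt s) * Real.sqrt (Real.sqrt s) = Real.sqrt s :=
        Real.mul_self_sqrt hs1.le
      have hts : Real.sqrt t * Real.sqrt t = t := Real.mul_self_sqrt ht0
      have h3 : Real.sqrt (Real.sqrt s) ≤ Real.sqrt t := Real.sqrt_le_sqrt h1.le
      have h4 : 0 < Real.sqrt (Real.sqrt s) := Real.sqrt_pos.2 hs1
      have h40 := Real.sqrt_nonneg t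
      generalize Real.sqrt (Real.sqrt s) = q at *
      generalize Real.sqrt t = p at *
      have hs4 : s = q ^ 4 := by
        rw [← hss, ← h2]; ring
      have ht2 : t = p ^ 2 := by rw [← hts]; ring
      rw [← mul_div_assoc, div_le_iff₀ hden, hs4, ht2]
      have h5 : q ^ 3 ≤ p ^ 3 := pow_le_pow_left₀ h4.le h3 3
      have h6 : p * q ^ 4 = q * (p * q ^ 3) := by ring
      rw [h6]
      refine mul_le_mul_of_nonneg_left ?_ h4.le
      have h7 : p * q ^ 3 ≤ p * p ^ 3 := mul_le_mul_of_nonneg_left h5 (by positivity)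
      nlinarith only [hs0, hs4, h7]
  refine squeeze_zero (fun n => norm_nonneg _) hb ?_
  have h0 : Filter.Tendsto (fun n : ℕ => 1 / ((n : ℝ) + 1)) Filter.atTop (nhds 0) :=
    tendsto_one_div_add_atTop_nhds_zero_nat
  have h1 := (Real.continuous_sqrt.tendsto _).comp ((Real.continuous_sqrt.tendsto _).comp h0)
  rw [Real.sqrt_zero, Real.sqrt_zero] at h1
  exact h1

/-- A positive matrix over a hereditary subalgebra has a square root with entries in it. -/
theorem exists_sqrt_entry (P : CStarMatrix κ κ M) (hP : 0 ≤ P) (h : ∀ i j, P i j ∈ herC u) :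
    ∃ S : CStarMatrix κ κ M, star S = S ∧ S * S = P ∧ ∀ i j, S i j ∈ herC u := by
  obtain ⟨c, S, h1, h2, h3⟩ := sqrt_limit P hP
  refine ⟨S, h1, h2, fun i j => ?_⟩
  refine isClosed_herC.mem_of_tendsto (tendsto_entry h3 i j)
    (Filter.Eventually.of_forall fun n => ?_)
  rw [CStarMatrix.mul_apply]
  refine herC_sum _ fun k _ => ?_
  rw [CStarMatrix.mul_apply, Finset.sum_mul]
  exact herC_sum _ fun l _ => herC_mul_mul _ (h i l) (h k j)

end sqrtm

end Vale.Agent.P095C
end

section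

/-! The matrix inequality with a contractive completely positive map. -/

set_option linter.unusedSectionVars false

open scoped Matrix

namespace Vale.Agent.P095C

open Vale.Agent Vale.Agent.P133 Vale.Agent.P095N Vale.Agent.P095

universe u

variable {M : Type u} [CStarAlgebra M] [PartialOrder M] [StarOrderedRing M] {u : M}

/-- Choi factorization with entries in the hereditary subalgebra. -/
theorem choi_her {κ : Type} [Fintype κ] [DecidableEq κ] (β : Matrix κ κ ℂ →ₗ[ℂ] M)
    (Y : κ → κ → M) (hY : ∀ m, β m = ∑ l, ∑ i, ∑ j, m i j • (star (Y l i) * Y l j)) {f : M}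
    (hf : f ∈ herC u) (hfs : star f = f) :
    ∃ Y' : κ → κ → M, (∀ l j, Y' l j ∈ herC u) ∧
      ∀ m : Matrix κ κ ℂ, f * (β m * f) = ∑ l, ∑ i, ∑ j, m i j • (star (Y' l i) * Y' l j) := by
  set W : CStarMatrix κ κ M := CStarMatrix.ofMatrix (Matrix.of fun l j => Y l j * f) with hW
  have hWa : ∀ l j, W l j = Y l j * f := fun l j => rfl
  have hP : ∀ i j, (star W * W) i j = ∑ l, f * (star (Y l i) * Y l j) * f := by
    intro i j
    rw [CStarMatrix.mul_apply]
    refine Finset.sum_congr rfl fun l _ => ?_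
    rw [CStarMatrix.star_apply, hWa, hWa, star_mul, hfs]
    simp only [mul_assoc]
  obtain ⟨S, hS1, hS2, hS3⟩ := exists_sqrt_entry (u := u) (star W * W) (star_mul_self_nonneg W)
    (fun i j => by
      rw [hP]
      exact herC_sum _ fun l _ => herC_mul_mul _ hf hf)
  refine ⟨fun l j => S l j, hS3, fun m => ?_⟩
  have h1 : ∀ i j, ∑ l, star (S l i) * S l j = ∑ l, f * (star (Y l i) * Y l j) * f := by
    intro i j
    rw [← hP, ← hS2, CStarMatrix.mul_apply]
    refine Finset.sum_congr rfl fun l _ => ?_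
    have h2 : star (S l i) = S i l := by
      have := congrArg (fun X : CStarMatrix κ κ M => X i l) hS1
      simpa only [CStarMatrix.star_apply] using this
    rw [h2]
  calc f * (β m * f) = ∑ i, ∑ j, m i j • ∑ l, f * (star (Y l i) * Y l j) * f := by
        rw [hY, Finset.sum_mul, Finset.mul_sum]
        simp only [Finset.sum_mul, Finset.mul_sum, Finset.smul_sum, smul_mul_assoc, mul_smul_comm,
          mul_assoc]
        rw [Finset.sum_comm]
        exact Finset.sum_congr rfl fun i _ => Finset.sum_comm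
    _ = ∑ i, ∑ j, m i j • ∑ l, star (S l i) * S l j := by
        simp only [h1]
    _ = _ := by
        simp only [Finset.smul_sum]
        symm
        rw [Finset.sum_comm]
        exact Finset.sum_congr rfl fun i _ => Finset.sum_comm

variable {κ : Type} [Fintype κ] [DecidableEq κ] {L N : ℕ} {Q : Type} [Group Q] [Fintype Q]
  [DecidableEq Q]

theorem matrix_le' (β : Matrix κ κ ℂ →ₗ[ℂ] M) (Y : κ → κ → M)
    (hY : ∀ m, β m = ∑ l, ∑ i, ∑ j, m i j • (star (Y l i) * Y l j)) (hβ1 : β 1 ≤ 1)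
    (s : Fin L × Fin N → Q) (z : Fin N → M) (e : M) (hse : star e = e)
    (c : Fin N → Fin N → Matrix κ κ ℂ) (d : Matrix κ κ ℂ)
    (hc : ∀ i j, star (c i j) = c j i) (hd : star d = d)
    {θ ε1 : ℝ} (hθ : 0 ≤ θ) (hcz : ∀ i j, ‖β (c i j) - z i * star (z j)‖ ≤ ε1)
    (hde : ‖β d - e‖ ≤ ε1) {r : ℕ} (V : Matrix ((Fin L × Q) × κ) (Fin r) ℂ)
    (C : Matrix ((Fin L × Q) × κ) ((Fin L × Q) × κ) ℂ)
    (hVC : flat (TMQ s c d) +
      (θ : ℂ) • (1 : Matrix ((Fin L × Q) × κ) ((Fin L × Q) × κ) ℂ) + V * Vᴴ = Cᴴ * C) :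
    (CStarMatrix.ofMatrix (Matrix.diagonal fun _ : Fin L × Q => e) :
        CStarMatrix (Fin L × Q) (Fin L × Q) M) ≤
      (θ + (L * N ^ 2 + 1) * ε1) • (1 : CStarMatrix (Fin L × Q) (Fin L × Q) M) +
        CStarMatrix.ofMatrix (Matrix.of fun p q => ∑ x : Q ⊕ (κ × Fin r),
          colX Y s z V p x * star (colX Y s z V q x)) := by
  set E1 : CStarMatrix (Fin L × Q) (Fin L × Q) M := CStarMatrix.ofMatrix (Matrix.of fun p q =>
    TM s (fun i j => β (c i j) - z i * star (z j)) (β d - e) p q) with hE1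
  have hE1a : ∀ p q, E1 p q = TM s (fun i j => β (c i j) - z i * star (z j)) (β d - e) p q :=
    fun p q => rfl
  have hβs : ∀ m, star (β m) = β (star m) := fun m => choi_star β Y hY m
  have hEs : star E1 = E1 := by
    ext p q
    rw [CStarMatrix.star_apply, hE1a, hE1a]
    refine star_TM s _ _ (fun i j => ?_) ?_ q p
    · rw [star_sub, hβs, hc, star_mul, star_star]
    · rw [star_sub, hβs, hd, hse]
  have hEg := gershgorin E1 hEs (C := (L * N ^ 2 + 1) * ε1) fun p =>
    TM_row_sum s _ _ hcz hde p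
  have hG := gram_nonneg (A := M) (I := Fin L × Q)
    (fun (x : ((Fin L × Q) × κ) × κ) (p : Fin L × Q) => ∑ a, C x.1 (p, a) • Y x.2 a)
  have hD : 0 ≤ mcD (Fin L × Q) (θ • (1 - β 1)) :=
    mcD_nonneg (smul_nonneg hθ (sub_nonneg.2 hβ1))
  rw [← sub_nonneg]
  have key : ((θ + (L * N ^ 2 + 1) * ε1) • (1 : CStarMatrix (Fin L × Q) (Fin L × Q) M) +
        CStarMatrix.ofMatrix (Matrix.of fun p q => ∑ x : Q ⊕ (κ × Fin r),
          colX Y s z V p x * star (colX Y s z V q x))) -
      CStarMatrix.ofMatrix (Matrix.diagonal fun _ : Fin L × Q => e) =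
      (((L * N ^ 2 + 1) * ε1) • (1 : CStarMatrix (Fin L × Q) (Fin L × Q) M) - E1) +
      CStarMatrix.ofMatrix (Matrix.of fun p q => ∑ x : ((Fin L × Q) × κ) × κ,
        star (∑ a, C x.1 (p, a) • Y x.2 a) * (∑ a, C x.1 (q, a) • Y x.2 a)) +
      mcD (Fin L × Q) (θ • (1 - β 1)) := by
    ext p q
    have h1 : E1 p q = β (TM s c d p q) -
        ((∑ q', colY s z p q' * star (colY s z q q')) - if p = q then e else 0) := by
      rw [hE1a, TM_sub' s (fun i j => β (c i j)) (fun i j => z i * star (z j)) (β d) e, TM_gram]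
      congr 1
      exact TM_map (β : Matrix κ κ ℂ →+ M) s c d p q
    have h2 : β (TM s c d p q) + θ • (if p = q then β 1 else 0) +
        (∑ x : κ × Fin r, (∑ a, V (p, a) x.2 • star (Y x.1 a)) *
          star (∑ a, V (q, a) x.2 • star (Y x.1 a))) =
        ∑ x : ((Fin L × Q) × κ) × κ, star (∑ a, C x.1 (p, a) • Y x.2 a) *
          (∑ a, C x.1 (q, a) • Y x.2 a) := by
      rw [← choi_vv β Y hY V p q, ← choi_cc β Y hY C p q, ← hVC]
      have h3 : θ • (if p = q then β 1 else 0) =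
          β ((θ : ℂ) • (if p = q then (1 : Matrix κ κ ℂ) else 0)) := by
        rw [map_smul]
        split_ifs
        · rfl
        · rw [map_zero, smul_zero, smul_zero]
      rw [h3, ← map_add, ← map_add]
      congr 1
      ext a b
      simp only [Matrix.add_apply, Matrix.smul_apply, Matrix.of_apply, flat_apply, TMQ]
      congr 2
      congr 1
      by_cases hpq : p = q
      · subst hpq
        rw [if_pos rfl, Matrix.one_apply, Matrix.one_apply]
        by_cases hab : a = b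
        · rw [if_pos hab, if_pos (by rw [hab])]
        · rw [if_neg hab, if_neg]
          intro h
          exact hab (Prod.mk.injEq _ _ _ _ ▸ h).2
      · rw [if_neg hpq, Matrix.one_apply, if_neg, Matrix.zero_apply]
        intro h
        exact hpq (Prod.mk.injEq _ _ _ _ ▸ h).1
    have h4 : θ • (if p = q then (1 : M) else 0) =
        θ • (if p = q then β 1 else 0) + (if p = q then θ • (1 - β 1) else 0) := by
      split_ifs
      · rw [← smul_add, add_sub_cancel]
      · simp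
    simp only [CStarMatrix.sub_apply, CStarMatrix.add_apply, CStarMatrix.smul_apply,
      CStarMatrix.ofMatrix_apply, Matrix.of_apply, Matrix.diagonal_apply, CStarMatrix.one_apply,
      mcD_apply]
    rw [h1, ← h2, Fintype.sum_sum_type]
    simp only [colX, Sum.elim_inl, Sum.elim_inr]
    rw [add_smul, h4]
    abel
  rw [key]
  exact add_nonneg (add_nonneg (sub_nonneg.2 hEg) hG) hD

end Vale.Agent.P095C
end

section

/-! The free group trick inside a hereditary subalgebra. -/

set_option linter.unusedSectionVars false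

open scoped InnerProductSpace Matrix

namespace Vale.Agent.P095C

open Vale.Agent Vale.Agent.P133 Vale.Agent.P095N Vale.Agent.P095

universe u

variable {M : Type u} [CStarAlgebra M] [PartialOrder M] [StarOrderedRing M]

/-- Approximate units of a hereditary subalgebra in the form `w u w`. -/
theorem exists_wuw {u : M} (hu : 0 ≤ u) (F : Finset M) (hF : ∀ x ∈ F, x ∈ herC u) {ε : ℝ}
    (hε : 0 < ε) : ∃ f w : M, f ∈ herC u ∧ star f = f ∧ ‖f‖ ≤ 1 ∧ star w = w ∧ w * u * w = f ∧
      ∀ x ∈ F, ‖x * f - x‖ ≤ ε ∧ ‖f * x - x‖ ≤ ε := by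
  have hus : IsSelfAdjoint u := hu.isSelfAdjoint
  have hap : ∀ x : M, ∃ y : M, x ∈ F → ‖x - u * y * u‖ < ε / 4 := by
    intro x
    by_cases hx : x ∈ F
    · obtain ⟨_, ⟨y, rfl⟩, hy⟩ := Metric.mem_closure_iff.1 (hF x hx) (ε / 4) (by positivity)
      exact ⟨y, fun _ => by rw [← dist_eq_norm]; exact hy⟩
    · exact ⟨0, fun h => absurd h hx⟩
  choose y hy using hap
  obtain ⟨s, hs0, hs⟩ : ∃ s : ℝ, 0 < s ∧ Real.sqrt s * (‖u‖ * ∑ x ∈ F, ‖y x‖) ≤ ε / 4 := by
    set K := ‖u‖ * ∑ x ∈ F, ‖y x‖ with hK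
    have hK0 : 0 ≤ K := by positivity
    refine ⟨(ε / 4 / (K + 1)) ^ 2, by positivity, ?_⟩
    rw [Real.sqrt_sq (by positivity), div_mul_eq_mul_div, div_le_iff₀ (by positivity)]
    linarith
  have hpos : ∀ t : ℝ, 0 < t ^ 2 + s := fun t => by positivity
  have c1 : Continuous fun t : ℝ => t ^ 2 / (t ^ 2 + s) :=
    Continuous.div (by fun_prop) (by fun_prop) fun t => (hpos t).ne'
  have c2 : Continuous fun t : ℝ => Real.sqrt (t / (t ^ 2 + s)) :=
    Continuous.sqrt (Continuous.div (by fun_prop) (by fun_prop) fun t => (hpos t).ne')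
  have c3 : Continuous fun t : ℝ => 1 / (t ^ 2 + s) :=
    Continuous.div (by fun_prop) (by fun_prop) fun t => (hpos t).ne'
  set f : M := cfc (fun t : ℝ => t ^ 2 / (t ^ 2 + s)) u with hf
  set w : M := cfc (fun t : ℝ => Real.sqrt (t / (t ^ 2 + s))) u with hw
  have hfu : f = u * cfc (fun t : ℝ => 1 / (t ^ 2 + s)) u * u := by
    have e1 : u * cfc (fun t : ℝ => 1 / (t ^ 2 + s)) u * u =
        cfc (fun t : ℝ => t * (1 / (t ^ 2 + s)) * t) u := by
      rw [cfc_mul (fun t : ℝ => t * (1 / (t ^ 2 + s))) (fun t => t) u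
        ((continuous_id.mul c3).continuousOn) (by fun_prop),
        cfc_mul (fun t : ℝ => t) (fun t : ℝ => 1 / (t ^ 2 + s)) u (by fun_prop) c3.continuousOn,
        cfc_id' ℝ u]
    rw [e1, hf]
    refine cfc_congr fun t _ => ?_
    show t ^ 2 / (t ^ 2 + s) = t * (1 / (t ^ 2 + s)) * t
    ring
  have hfs : star f = f := P135.star_cfc' _ u
  have hws : star w = w := P135.star_cfc' _ u
  have hf1 : ‖f‖ ≤ 1 := by
    refine norm_cfc_le zero_le_one fun t _ => ?_
    rw [Real.norm_of_nonneg (div_nonneg (by positivity) (hpos t).le), div_le_one (hpos t)]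
    linarith only [hs0]
  have hwuw : w * u * w = f := by
    have e1 : w * u * w = cfc (fun t : ℝ => Real.sqrt (t / (t ^ 2 + s)) * t *
        Real.sqrt (t / (t ^ 2 + s))) u := by
      rw [cfc_mul (fun t : ℝ => Real.sqrt (t / (t ^ 2 + s)) * t)
        (fun t : ℝ => Real.sqrt (t / (t ^ 2 + s))) u ((c2.mul continuous_id).continuousOn)
        c2.continuousOn,
        cfc_mul (fun t : ℝ => Real.sqrt (t / (t ^ 2 + s))) (fun t : ℝ => t) u c2.continuousOn
        (by fun_prop), cfc_id' ℝ u]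
    rw [e1, hf]
    refine cfc_congr fun t ht => ?_
    have ht0 : 0 ≤ t := spectrum_nonneg_of_nonneg hu ht
    show Real.sqrt (t / (t ^ 2 + s)) * t * Real.sqrt (t / (t ^ 2 + s)) = t ^ 2 / (t ^ 2 + s)
    have e2 : Real.sqrt (t / (t ^ 2 + s)) * Real.sqrt (t / (t ^ 2 + s)) = t / (t ^ 2 + s) :=
      Real.mul_self_sqrt (div_nonneg ht0 (hpos t).le)
    calc _ = Real.sqrt (t / (t ^ 2 + s)) * Real.sqrt (t / (t ^ 2 + s)) * t := by ring
      _ = _ := by rw [e2]; ring
  have hfu1 : ‖f * u - u‖ ≤ Real.sqrt s := by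
    have e1 : f * u - u = cfc (fun t : ℝ => t ^ 2 / (t ^ 2 + s) * t - t) u := by
      rw [cfc_sub (fun t : ℝ => t ^ 2 / (t ^ 2 + s) * t) (fun t => t) u
        ((c1.mul continuous_id).continuousOn) (by fun_prop),
        cfc_mul (fun t : ℝ => t ^ 2 / (t ^ 2 + s)) (fun t : ℝ => t) u c1.continuousOn (by fun_prop),
        cfc_id' ℝ u]
    rw [e1]
    refine norm_cfc_le (by positivity) fun t _ => ?_
    have e2 : t ^ 2 / (t ^ 2 + s) * t - t = - (t * (s / (t ^ 2 + s))) := by
      have := (hpos t).ne'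
      field_simp
      ring
    rw [e2, norm_neg, norm_mul, Real.norm_eq_abs, Real.norm_of_nonneg
      (div_nonneg hs0.le (hpos t).le), ← mul_div_assoc, div_le_iff₀ (hpos t)]
    have h1 : Real.sqrt s * Real.sqrt s = s := Real.mul_self_sqrt hs0.le
    have h2 : 0 < Real.sqrt s := Real.sqrt_pos.2 hs0
    have h3 : t ^ 2 = |t| ^ 2 := (sq_abs t).symm
    rw [h3]
    have h4 := abs_nonneg t
    calc |t| * s = |t| * (Real.sqrt s * Real.sqrt s) := by rw [h1]
      _ = Real.sqrt s * (|t| * Real.sqrt s) := by ring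
      _ ≤ Real.sqrt s * (|t| ^ 2 + s) := by
          refine mul_le_mul_of_nonneg_left ?_ h2.le
          nlinarith only [h1]
  have hfu2 : ‖u * f - u‖ ≤ Real.sqrt s := by
    have : star (f * u - u) = u * f - u := by
      rw [star_sub, star_mul, hfs, hus.star_eq]
    rw [← this, norm_star]
    exact hfu1
  have hys : ∀ x ∈ F, Real.sqrt s * (‖u‖ * ‖y x‖) ≤ ε / 4 := by
    intro x hx
    refine le_trans ?_ hs
    refine mul_le_mul_of_nonneg_left (mul_le_mul_of_nonneg_left ?_ (norm_nonneg _))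
      (Real.sqrt_nonneg _)
    exact Finset.single_le_sum (f := fun x => ‖y x‖) (fun _ _ => norm_nonneg _) hx
  refine ⟨f, w, ?_, hfs, hf1, hws, hwuw, fun x hx => ⟨?_, ?_⟩⟩
  · rw [hfu]
    exact subset_closure ⟨_, rfl⟩
  · have e1 : x * f - x = (x - u * y x * u) * f + u * y x * (u * f - u) - (x - u * y x * u) := by
      noncomm_ring
    rw [e1]
    have n1 : ‖(x - u * y x * u) * f‖ ≤ ε / 4 * 1 :=
      (norm_mul_le _ _).trans (mul_le_mul (hy x hx).le hf1 (norm_nonneg _) (by positivity))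
    have n2 : ‖u * y x * (u * f - u)‖ ≤ ε / 4 := by
      refine (norm_mul_le _ _).trans ?_
      refine le_trans ?_ (hys x hx)
      rw [mul_comm (Real.sqrt s)]
      exact mul_le_mul (norm_mul_le _ _) hfu2 (norm_nonneg _) (by (clear * -; positivity))
    refine (norm_sub_le _ _).trans ?_
    refine (add_le_add (norm_add_le _ _) le_rfl).trans ?_
    have := (hy x hx).le
    linarith only [hε, n1, n2, this]
  · have e1 : f * x - x = f * (x - u * y x * u) + (f * u - u) * (y x * u) - (x - u * y x * u) := by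
      noncomm_ring
    rw [e1]
    have n1 : ‖f * (x - u * y x * u)‖ ≤ 1 * (ε / 4) :=
      (norm_mul_le _ _).trans (mul_le_mul hf1 (hy x hx).le (norm_nonneg _) (by positivity))
    have n2 : ‖(f * u - u) * (y x * u)‖ ≤ ε / 4 := by
      refine (norm_mul_le _ _).trans ?_
      refine le_trans ?_ (hys x hx)
      refine mul_le_mul hfu1 ?_ (norm_nonneg _) (by positivity)
      rw [mul_comm ‖u‖]
      exact norm_mul_le _ _
    refine (norm_sub_le _ _).trans ?_
    refine (add_le_add (norm_add_le _ _) le_rfl).trans ?_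
    have := (hy x hx).le
    linarith only [hε, n1, n2, this]

theorem mul_sub_gersh_bound {I J : Type*} [Fintype I] [Fintype J] (X : I → J → M) (f : M) {ρ : ℝ}
    (hρ : ∀ p x, ‖X p x * f - X p x‖ ≤ ρ) (p : I) :
    ∑ q, ‖∑ x, X p x * star (X q x) - ∑ x, X p x * f * star (X q x)‖ ≤
      ρ * ∑ q, ∑ x, ‖X q x‖ := by
  rw [Finset.mul_sum]
  refine Finset.sum_le_sum fun q _ => ?_
  rw [← Finset.sum_sub_distrib, Finset.mul_sum]
  refine norm_sum_le_of_le _ fun x _ => ?_
  rw [← sub_mul, ← norm_star (X q x)]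
  refine (norm_mul_le _ _).trans (mul_le_mul_of_nonneg_right ?_ (norm_nonneg _))
  rw [norm_sub_rev]
  exact hρ p x

/-- Replace the columns by columns weighted with `u`. -/
theorem weighted_le {I J : Type} [Fintype I] [DecidableEq I] [Fintype J] [DecidableEq J]
    {u e : M} (hu : 0 ≤ u) {θ ε' : ℝ} (hε' : 0 < ε') (X : I → J → M)
    (hXu : ∀ p x, X p x ∈ herC u)
    (h : (CStarMatrix.ofMatrix (Matrix.diagonal fun _ : I => e) : CStarMatrix I I M) ≤
      θ • (1 : CStarMatrix I I M) +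
        CStarMatrix.ofMatrix (Matrix.of fun p q => ∑ x, X p x * star (X q x))) :
    ∃ X' : I → J → M, (CStarMatrix.ofMatrix (Matrix.diagonal fun _ : I => e) :
        CStarMatrix I I M) ≤ (θ + ε') • (1 : CStarMatrix I I M) +
        CStarMatrix.ofMatrix (Matrix.of fun p q => ∑ x, X' p x * u * star (X' q x)) := by
  classical
  set S : ℝ := ∑ q, ∑ x, ‖X q x‖ with hS
  have hS0 : 0 ≤ S := Finset.sum_nonneg fun _ _ => Finset.sum_nonneg fun _ _ => norm_nonneg _
  obtain ⟨f, w, hf, hfs, -, hws, hwuw, hfx⟩ := exists_wuw hu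
    (Finset.univ.image fun p : I × J => X p.1 p.2)
    (fun x hx => by
      obtain ⟨p, -, rfl⟩ := Finset.mem_image.1 hx
      exact hXu _ _) (ε := ε' / (S + 1)) (by positivity)
  refine ⟨fun p x => X p x * w, ?_⟩
  have e1 : ∀ p q : I, ∑ x, X p x * w * u * star (X q x * w) = ∑ x, X p x * f * star (X q x) := by
    intro p q
    refine Finset.sum_congr rfl fun x _ => ?_
    rw [star_mul, hws, ← hwuw]
    simp only [mul_assoc]
  set E2 : CStarMatrix I I M := CStarMatrix.ofMatrix (Matrix.of fun p q =>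
    ∑ x, X p x * star (X q x) - ∑ x, X p x * f * star (X q x)) with hE2
  have hE2a : ∀ p q, E2 p q = ∑ x, X p x * star (X q x) - ∑ x, X p x * f * star (X q x) :=
    fun p q => rfl
  have hE2s : star E2 = E2 := by
    ext p q
    rw [CStarMatrix.star_apply, hE2a, hE2a, star_sub, star_sum, star_sum]
    congr 1
    · refine Finset.sum_congr rfl fun x _ => ?_
      rw [star_mul, star_star]
    · refine Finset.sum_congr rfl fun x _ => ?_
      rw [star_mul, star_mul, star_star, hfs, mul_assoc]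
  have hg := gershgorin E2 hE2s (C := ε') fun p => by
    have h1 := mul_sub_gersh_bound X f (ρ := ε' / (S + 1))
      (fun p x => (hfx _ (Finset.mem_image.2 ⟨(p, x), Finset.mem_univ _, rfl⟩)).1) p
    refine h1.trans ?_
    rw [div_mul_eq_mul_div, div_le_iff₀ (by (clear * -; positivity))]
    nlinarith only [hε']
  have e2 : CStarMatrix.ofMatrix (Matrix.of fun p q => ∑ x, X p x * star (X q x)) =
      E2 + (CStarMatrix.ofMatrix (Matrix.of fun p q => ∑ x, X p x * w * u * star (X q x * w)) :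
        CStarMatrix I I M) := by
    ext p q
    rw [CStarMatrix.add_apply, hE2a, CStarMatrix.ofMatrix_apply, CStarMatrix.ofMatrix_apply,
      Matrix.of_apply, Matrix.of_apply, e1]
    abel
  refine h.trans ?_
  rw [e2, add_smul, add_assoc]
  exact add_le_add_right (add_le_add_left hg _) _

theorem free_trick_her_cp {u : M} (hu : 0 ≤ u) {k L N : ℕ}
    (α : M →ₗ[ℂ] Matrix (Fin (k + 1)) (Fin (k + 1)) ℂ)
    (β : Matrix (Fin (k + 1)) (Fin (k + 1)) ℂ →ₗ[ℂ] M) (hα : P083.IsCP α) (hβ : P083.IsCP β)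
    (hα1 : α 1 = 1) (hβ1 : β 1 = 1) (z : Fin N → M) (hz : ∀ i, z i ∈ herC u) {e : M}
    (he0 : 0 ≤ e) (he1 : ‖e‖ ≤ 1) (heu : e ∈ herC u) {f : M} (hf : f ∈ herC u) (hfs : star f = f)
    (hf1 : ‖f‖ ≤ 1) {δ θ ε1 ε ε' : ℝ} (hδ0 : 0 ≤ δ) (hδ1 : δ ≤ 1)
    (h1 : ‖e - ∑ i, z i * star (z i)‖ ≤ δ)
    (h2 : ‖∑ i, star (z i) * z i‖ ≤ δ) (hθ0 : 0 < θ) (hδθ : 8 * (L + 1) * Real.sqrt δ ≤ θ)
    (hcz : ∀ i j, ‖f * (β (α (z i * star (z j))) * f) - z i * star (z j)‖ ≤ ε1)
    (hde : ‖f * (β (α e) * f) - e‖ ≤ ε1) (hε' : 0 < ε')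
    (hθ : 0 ≤ 2 * θ + (L * N ^ 2 + 1) * ε1 + ε') (hε : 2 * θ + (L * N ^ 2 + 1) * ε1 + ε' < ε) :
    ∃ k : ℕ, 0 < k ∧
      P135.CuntzLE (fun _ : Fin (L * k) => P135.cut e ε) (fun _ : Fin (2 * k) => u) := by
  obtain ⟨H, _, _, _, φ, ξ, hξ⟩ := P083.exists_stinespring α hα
  obtain ⟨Y0, hY0⟩ := P083.exists_choi β hβ
  obtain ⟨Y, hYu, hY⟩ := choi_her β Y0 hY0 hf hfs
  have hse : star e = e := he0.isSelfAdjoint.star_eq
  have hφ : ∀ a : M, ‖φ a‖ ≤ ‖a‖ := fun a => NonUnitalStarAlgHom.norm_apply_le φ a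
  have h1' : ‖φ e - ∑ i, φ (z i) * star (φ (z i))‖ ≤ δ := by
    refine le_trans (le_of_eq ?_) ((hφ (e - ∑ i, z i * star (z i))).trans h1)
    simp only [map_sub, map_sum, map_mul, map_star]
  have h2' : ‖∑ i, star (φ (z i)) * φ (z i)‖ ≤ δ := by
    refine le_trans (le_of_eq ?_) ((hφ (∑ i, star (z i) * z i)).trans h2)
    simp only [map_sum, map_mul, map_star]
  have hαs : ∀ d, star (α d) = α (star d) := by
    intro d
    rw [Matrix.star_eq_conjTranspose]
    ext i j
    rw [Matrix.conjTranspose_apply, ← hξ, ← hξ, map_star, ContinuousLinearMap.star_eq_adjoint,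
      ContinuousLinearMap.adjoint_inner_right, RCLike.star_def, inner_conj_symm]
  obtain ⟨Q, _, _, _, s, r, V, C, hr, hVC⟩ := exists_spectral_data α hα1 φ ξ hξ (L := L) z e hse
    hδ0 hδ1 ((hφ e).trans he1) h1' h2' hθ0 hδθ
  let β0 : Matrix (Fin (k + 1)) (Fin (k + 1)) ℂ →ₗ[ℂ] M :=
    (LinearMap.mulLeft ℂ f).comp ((LinearMap.mulRight ℂ f).comp β)
  have hβ0 : ∀ m, β0 m = f * (β m * f) := fun m => rfl
  have hff : β0 1 ≤ 1 := by
    rw [hβ0, hβ1, one_mul]
    have h3 : f * f = star f * f := by rw [hfs]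
    rw [h3]
    have h4 := (IsSelfAdjoint.star_mul_self f).le_algebraMap_norm_self
    refine h4.trans ?_
    rw [CStarRing.norm_star_mul_self]
    have h5 : ‖f‖ * ‖f‖ ≤ 1 := mul_le_one₀ hf1 (norm_nonneg _) hf1
    have h6 : algebraMap ℝ M (‖f‖ * ‖f‖) ≤ algebraMap ℝ M 1 := algebraMap_mono M h5
    rwa [map_one] at h6
  have hmat := matrix_le' β0 Y (fun m => by rw [hβ0]; exact hY m) hff s z e hse
    (fun i j => α (z i * star (z j))) (α e)
    (fun i j => by rw [hαs, star_mul, star_star]) (by rw [hαs, hse]) (θ := 2 * θ) (ε1 := ε1)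
    (by positivity) (fun i j => hcz i j) hde V C hVC
  have hXu : ∀ p x, colX Y s z V p x ∈ herC u := by
    intro p x
    rcases x with x | x
    · show colY s z p x ∈ herC u
      unfold colY
      refine herC_sum _ fun i _ => ?_
      split_ifs
      · exact hz i
      · exact herC_zero
    · show ∑ a, V (p, a) x.2 • star (Y x.1 a) ∈ herC u
      exact herC_sum _ fun a _ => herC_smul _ (herC_star hu (hYu _ _))
  obtain ⟨X', hX'⟩ := weighted_le hu hε' (colX Y s z V) hXu hmat
  have hcu := cuntz_of_matrix_le_b he0 hθ hε (fun _ => u) X' hX'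
  have e1 : Fin (L * Fintype.card Q) ≃ Fin L × Q :=
    (Fintype.equivFinOfCardEq (by rw [Fintype.card_prod, Fintype.card_fin])).symm
  have e2 : Fin (Fintype.card Q + Fintype.card (Fin (k + 1)) * r) ≃ Q ⊕ (Fin (k + 1) × Fin r) :=
    (Fintype.equivFinOfCardEq (by
      rw [Fintype.card_sum, Fintype.card_prod, Fintype.card_fin r])).symm
  exact ⟨Fintype.card Q, Fintype.card_pos,
    cuntz_mono_card (hcu.reindex e1 e2) le_rfl (by omega)⟩

theorem free_trick_her (hnuc : P083.IsNuclear M) {u : M} (hu : 0 ≤ u) (L : ℕ) {ε : ℝ}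
    (hε : 0 < ε) : ∃ δ : ℝ, 0 < δ ∧ ∀ e ∈ herC u, 0 ≤ e → ‖e‖ ≤ 1 → ∀ (N : ℕ) (z : Fin N → M),
      (∀ i, z i ∈ herC u) → ‖e - ∑ i, z i * star (z i)‖ ≤ δ → ‖∑ i, star (z i) * z i‖ ≤ δ →
        ∃ k : ℕ, 0 < k ∧
          P135.CuntzLE (fun _ : Fin (L * k) => P135.cut e ε) (fun _ : Fin (2 * k) => u) := by
  have hθ0 : 0 < ε / 8 := by positivity
  obtain ⟨δ, hδ⟩ : ∃ δ : ℝ, δ = min 1 ((ε / 8 / (8 * (L + 1))) ^ 2) := ⟨_, rfl⟩
  have hδ0 : 0 < δ := by
    rw [hδ]
    exact lt_min one_pos (by positivity)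
  have hδ1 : δ ≤ 1 := hδ ▸ min_le_left _ _
  have hδθ : 8 * (L + 1) * Real.sqrt δ ≤ ε / 8 := by
    have h1 : Real.sqrt δ ≤ ε / 8 / (8 * (L + 1)) := by
      rw [Real.sqrt_le_left (by positivity), hδ]
      exact min_le_right _ _
    calc 8 * (L + 1) * Real.sqrt δ ≤ 8 * (L + 1) * (ε / 8 / (8 * (L + 1))) := by (clear * - h1; gcongr)
      _ = ε / 8 := by field_simp
  refine ⟨δ, hδ0, fun e heu he0 he1 N z hz h1 h2 => ?_⟩
  classical
  obtain ⟨ε1, hε1⟩ : ∃ ε1 : ℝ, ε1 = ε / (8 * (L * N ^ 2 + 1)) := ⟨_, rfl⟩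
  have hε10 : 0 < ε1 := by rw [hε1]; (clear * - hε; positivity)
  have hε2 : ((L : ℝ) * N ^ 2 + 1) * ε1 = ε / 8 := by
    rw [hε1]; (clear * - hε; field_simp)
  set F0 : Finset M := insert e
    ((Finset.univ : Finset (Fin N × Fin N)).image fun p => z p.1 * star (z p.2)) with hF0
  have hF0u : ∀ x ∈ F0, x ∈ herC u := by
    intro x hx
    rcases Finset.mem_insert.1 hx with rfl | hx
    · exact heu
    · obtain ⟨p, -, rfl⟩ := Finset.mem_image.1 hx
      have := herC_mul_mul (u := u) (1 : M) (hz p.1) (herC_star hu (hz p.2))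
      rwa [mul_one] at this
  obtain ⟨k', α, β, hα, hβ, hα1, hβ1, happ⟩ := hnuc F0 (ε1 / 2) (by positivity)
  obtain ⟨f, w, hf, hfs, hf1, -, -, hfx⟩ := exists_wuw hu F0 hF0u (ε := ε1 / 4) (by positivity)
  have hb : ∀ x ∈ F0, ‖f * (β (α x) * f) - x‖ ≤ ε1 := by
    intro x hx
    have e1 : f * (β (α x) * f) - x = f * ((β (α x) - x) * f) + f * (x * f - x) + (f * x - x) := by
      noncomm_ring
    rw [e1]
    have n1 : ‖f * ((β (α x) - x) * f)‖ ≤ 1 * (ε1 / 2 * 1) :=
      (norm_mul_le _ _).trans (mul_le_mul hf1 ((norm_mul_le _ _).trans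
        (mul_le_mul (happ x hx).le hf1 (norm_nonneg _) (by positivity))) (norm_nonneg _)
        zero_le_one)
    have n2 : ‖f * (x * f - x)‖ ≤ 1 * (ε1 / 4) :=
      (norm_mul_le _ _).trans (mul_le_mul hf1 (hfx x hx).1 (norm_nonneg _) zero_le_one)
    have n3 := (hfx x hx).2
    refine (norm_add_le _ _).trans ?_
    refine (add_le_add (norm_add_le _ _) le_rfl).trans ?_
    linarith only [n1, n2, n3]
  rcases k' with - | k
  · have h3 : (1 : M) = 0 := by
      rw [← hβ1]
      have : (1 : Matrix (Fin 0) (Fin 0) ℂ) = 0 := Subsingleton.elim _ _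
      rw [this, map_zero]
    have : Subsingleton M := subsingleton_of_zero_eq_one h3.symm
    exact ⟨1, one_pos, cuntz_of_subsingleton _ _⟩
  refine free_trick_her_cp hu α β hα hβ hα1 hβ1 z hz he0 he1 heu hf hfs hf1 hδ0.le hδ1 h1 h2 hθ0
    hδθ (ε1 := ε1) (ε' := ε / 8)
    (fun i j => hb _ (Finset.mem_insert_of_mem (Finset.mem_image.2
      ⟨(i, j), Finset.mem_univ _, rfl⟩)))
    (hb _ (Finset.mem_insert_self _ _)) (by positivity) ?_ ?_
  · rw [hε2]; positivity
  · rw [hε2]; linarith only [hε]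

end Vale.Agent.P095C
end
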