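import Vale.Agent.P095.MathlibUsed
import Vale.Agent.P095.Bdl.B14
import Vale.Agent.P095.Bdl.B4
import Vale.Agent.P095.Bdl.B3
import Vale.Agent.P095.Bdl.B13
import Vale.Agent.P095.Bdl.B12
import Vale.Agent.P095.Bdl.K_Comm
import Vale.Agent.P095.Bdl.B2
import Vale.Agent.P095.Bdl.B9
import Vale.Agent.P095.Bdl.B11

set_option linter.all false

namespace AFaste384bbx13a
@[reducible] noncomputable def a0.{u1} {x1 : Type u1} [x2 : CStarAlgebra x1] : Ring ↥(Vale.Agent.P095.BSeq x1) := inferInstance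
@[reducible] noncomputable def a1.{u1} {x1 : Type u1} [x2 : CStarAlgebra x1] : Semiring ↥(Vale.Agent.P095.BSeq x1) := inferInstance
@[reducible] noncomputable def a2.{u1} {x1 : Type u1} [x2 : CStarAlgebra x1] : Mul ↥(Vale.Agent.P095.BSeq x1) := inferInstance
@[reducible] noncomputable def a3.{u1} {x1 : Type u1} [x2 : CStarAlgebra x1] : Distrib ↥(Vale.Agent.P095.BSeq x1) := inferInstance
theorem a4.{u1} {x1 : Type u1} [x2 : CStarAlgebra x1] : SubringClass (StarSubalgebra ℂ (ℕ → x1)) (ℕ → x1) := inferInstance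
@[reducible] noncomputable def a5.{u1} {x1 : Type u1} [x2 : CStarAlgebra x1] : Sub ↥(Vale.Agent.P095.BSeq x1) := inferInstance
@[reducible] noncomputable def a6.{u1} {x1 : Type u1} [x2 : CStarAlgebra x1] : NonAssocSemiring ↥(Vale.Agent.P095.BSeq x1) := inferInstance
theorem a7.{u1} {x1 : Type u1} [x2 : CStarAlgebra x1] : AddSubgroupClass (StarSubalgebra ℂ (ℕ → x1)) (ℕ → x1) := inferInstance
@[reducible] noncomputable def a8.{u1} {x1 : Type u1} [x2 : CStarAlgebra x1] : AddCommMonoid ↥(Vale.Agent.P095.BSeq x1) := inferInstance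
@[reducible] noncomputable def a9.{u1} {x1 : Type u1} [x2 : CStarAlgebra x1] : Star ↥(Vale.Agent.P095.BSeq x1) := inferInstance
@[reducible] noncomputable def a10.{u1} {x1 : Type u1} [x2 : CStarAlgebra x1] : SetLike (StarSubalgebra ℂ (ℕ → x1)) (ℕ → x1) := inferInstance
@[reducible] noncomputable def a11.{u1} {x1 : Type u1} [x2 : CStarAlgebra x1] : Add ↥(Vale.Agent.P095.BSeq x1) := inferInstance
@[reducible] noncomputable def a12.{u1} {x1 : Type u1} [x2 : CStarAlgebra x1] : Algebra ℂ ↥(Vale.Agent.P095.BSeq x1) := inferInstance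
@[reducible] def a13.{u1} {x1 : Type u1} [x2 : NonUnitalCStarAlgebra x1] : Algebra ℂ (Unitization ℂ x1) := inferInstance
theorem a14.{u1} {x1 : Type u1} [x2 : CStarAlgebra x1] : StarMemClass (StarSubalgebra ℂ (ℕ → x1)) (ℕ → x1) := inferInstance
theorem a15.{u1} {x1 : Type u1} [x2 : CStarAlgebra x1] : StarModule ℂ (ℕ → x1) := inferInstance
@[reducible] noncomputable def a16.{u1} {x1 : Type u1} [x2 : CStarAlgebra x1] : StarRing ↥(Vale.Agent.P095.BSeq x1) := inferInstance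
theorem a17.{u1} {x1 : Type u1} [x2 : CStarAlgebra x1] : StarModule ℂ ↥(Vale.Agent.P095.BSeq x1) := inferInstance
@[reducible] noncomputable def a18.{u1} {x1 : Type u1} [x2 : CStarAlgebra x1] : MulOneClass ↥(Vale.Agent.P095.BSeq x1) := inferInstance
@[reducible] noncomputable def a19.{u1} {x1 : Type u1} [x2 : CStarAlgebra x1] : MulZeroOneClass ↥(Vale.Agent.P095.BSeq x1) := inferInstance
@[reducible] def a20.{u1} {x1 : Type u1} {x2 : ℕ} [x3 : CStarAlgebra x1] : StarMul ((fun a => x1) x2) := inferInstance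
theorem a21.{u1} {x1 : Type u1} [x2 : CStarAlgebra x1] : NonUnitalAlgHomClass (↥(Vale.Agent.P095.BSeq x1) →⋆ₐ[ℂ] ↥(Vale.Agent.P095.BSeq x1)) ℂ ↥(Vale.Agent.P095.BSeq x1) ↥(Vale.Agent.P095.BSeq x1) := inferInstance
@[reducible] noncomputable def a22.{u1} {x1 : Type u1} [x2 : CStarAlgebra x1] : AddZeroClass ↥(Vale.Agent.P095.BSeq x1) := inferInstance
@[reducible] noncomputable def a23.{u1} {x1 : Type u1} [x2 : CStarAlgebra x1] : AddMonoid ↥(Vale.Agent.P095.BSeq x1) := inferInstance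
@[reducible] def a24.{u1} {x1 : Type u1} [x2 : CStarAlgebra x1] : MulOne (x1 ≃⋆ₐ[ℂ] x1) := inferInstance
@[reducible] def a25.{u1} {x1 : Type u1} [x2 : NonUnitalCStarAlgebra x1] : Mul (Unitization ℂ x1) := inferInstance
@[reducible] def a26.{u1} {x1 : Type u1} [x2 : CStarAlgebra x1] : MulOneClass (x1 ≃⋆ₐ[ℂ] x1) := inferInstance
theorem a27.{u1} {x1 : Type u1} [x2 : CStarAlgebra x1] : AddMonoidHomClass (↥(Vale.Agent.P095.BSeq x1) →⋆ₐ[ℂ] ↥(Vale.Agent.P095.BSeq x1)) ↥(Vale.Agent.P095.BSeq x1) ↥(Vale.Agent.P095.BSeq x1) := inferInstance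
theorem a28.{u1} {x1 : Type u1} [x2 : CStarAlgebra x1] : DistribMulActionSemiHomClass (↥(Vale.Agent.P095.BSeq x1) →⋆ₐ[ℂ] ↥(Vale.Agent.P095.BSeq x1)) ⇑(MonoidHom.id ℂ) ↥(Vale.Agent.P095.BSeq x1) ↥(Vale.Agent.P095.BSeq x1) := inferInstance
theorem a29.{u1} {x1 : Type u1} [x2 : CStarAlgebra x1] : MulHomClass (↥(Vale.Agent.P095.BSeq x1) →⋆ₐ[ℂ] ↥(Vale.Agent.P095.BSeq x1)) ↥(Vale.Agent.P095.BSeq x1) ↥(Vale.Agent.P095.BSeq x1) := inferInstance
@[reducible] def a30.{u1} {x1 : Type u1} [x2 : NonUnitalCStarAlgebra x1] : SMul ℂ (Unitization ℂ x1) := inferInstance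
@[reducible] noncomputable def a31.{u1} {x1 : Type u1} [x2 : CStarAlgebra x1] : NonUnitalNonAssocSemiring ↥(Vale.Agent.P095.BSeq x1) := inferInstance
@[reducible] def a32.{u1} {x1 : Type u1} [x2 : CStarAlgebra x1] : Monoid (x1 ≃⋆ₐ[ℂ] x1) := inferInstance
@[reducible] noncomputable def a33.{u1} {x1 : Type u1} [x2 : CStarAlgebra x1] : AddGroupWithOne ↥(Vale.Agent.P095.BSeq x1) := inferInstance
@[reducible] def a34.{u1} {x1 : Type u1} [x2 : NonUnitalCStarAlgebra x1] : Semiring (Unitization ℂ x1) := inferInstance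
@[reducible] def a35.{u1} {x1 : Type u1} {x2 : ℕ} [x3 : CStarAlgebra x1] : InvolutiveStar ((fun a => x1) x2) := inferInstance
@[reducible] noncomputable def a36.{u1} {x1 : Type u1} [x2 : CStarAlgebra x1] : AddMonoidWithOne ↥(Vale.Agent.P095.BSeq x1) := inferInstance
@[reducible] def a37.{u1} {x1 : Type u1} [x2 : CStarAlgebra x1] : Star (ℕ → x1) := inferInstance
theorem a38 : CovariantClass ℝ ℝ (Function.swap fun x1 x2 => x1 + x2) fun x1 x2 => x1 ≤ x2 := inferInstance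
theorem a39 : CharZero ℝ := inferInstance
@[reducible] def a40.{u1} {x1 : Type u1} {x2 : ℕ} [x3 : CStarAlgebra x1] : NonUnitalSemiring ((fun a => x1) x2) := inferInstance
@[reducible] noncomputable def a41.{u1} {x1 : Type u1} [x2 : CStarAlgebra x1] : StarRing (ℕ → x1) := inferInstance
@[reducible] def a42.{u1} {x1 : Type u1} [x2 : CStarAlgebra x1] : Algebra ℂ (ℕ → x1) := inferInstance
@[reducible] noncomputable def a43.{u1} {x1 : Type u1} [x2 : CStarAlgebra x1] : One ↥(Vale.Agent.P095.BSeq x1) := inferInstance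
@[reducible] def a44.{u1} {x1 : Type u1} [x2 : NonUnitalCStarAlgebra x1] : Star (Unitization ℂ x1) := inferInstance
@[reducible] def a45.{u1} {x1 : Type u1} {x2 : ℕ} [x3 : CStarAlgebra x1] : NonUnitalNonAssocSemiring ((fun a => x1) x2) := inferInstance
@[reducible] def a46.{u1} {x1 : Type u1} [x2 : CStarAlgebra x1] : Semiring (ℕ → x1) := inferInstance
theorem a47.{u1} {x1 : Type u1} [x2 : NonUnitalCStarAlgebra x1] : NonUnitalAlgHomClass (Unitization ℂ x1 →⋆ₐ[ℂ] Unitization ℂ x1) ℂ (Unitization ℂ x1) (Unitization ℂ x1) := inferInstance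
@[reducible] noncomputable def a48.{u1} {x1 : Type u1} [x2 : CStarAlgebra x1] : NonUnitalNonAssocRing ↥(Vale.Agent.P095.BSeq x1) := inferInstance
@[reducible] def a49.{u1} {x1 : Type u1} {x2 : ℕ} [x3 : CStarAlgebra x1] : Distrib ((fun a => x1) x2) := inferInstance
@[reducible] noncomputable def a50.{u1} {x1 : Type u1} [x2 : NonUnitalCStarAlgebra x1] : Star (DoubleCentralizer ℂ x1) := inferInstance
@[reducible] noncomputable def a51.{u1} {x1 : Type u1} [x2 : CStarAlgebra x1] : NonAssocRing ↥(Vale.Agent.P095.BSeq x1) := inferInstance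
theorem a52 : AddLeftMono ℝ := inferInstance
theorem a53.{u1} {x1 : Type u1} [x2 : NonUnitalCStarAlgebra x1] : CompletelyPositiveMapClass (Unitization ℂ x1 →⋆ₐ[ℂ] Unitization ℂ x1) (Unitization ℂ x1) (Unitization ℂ x1) := inferInstance
theorem a54.{u1} {x1 : Type u1} [x2 : CStarAlgebra x1] : OneMemClass (StarSubalgebra ℂ (ℕ → x1)) (ℕ → x1) := inferInstance
theorem a55.{u1} {x1 : Type u1} [x2 : CStarAlgebra x1] : SubsemiringClass (StarSubalgebra ℂ (ℕ → x1)) (ℕ → x1) := inferInstance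
@[reducible] noncomputable def a56.{u1} {x1 : Type u1} [x2 : NonUnitalCStarAlgebra x1] : StarRing (DoubleCentralizer ℂ x1) := inferInstance
theorem a57.{u1} {x1 : Type u1} [x2 : NonUnitalCStarAlgebra x1] : NonUnitalAlgHomClass (x1 ≃⋆ₐ[ℂ] x1) ℂ x1 x1 := inferInstance
@[reducible] noncomputable def a58.{u1} {x1 : Type u1} [x2 : CStarAlgebra x1] : AddZero ↥(Vale.Agent.P095.BSeq x1) := inferInstance
@[reducible] noncomputable def a59.{u1} {x1 : Type u1} [x2 : CStarAlgebra x1] : SubNegMonoid ↥(Vale.Agent.P095.BSeq x1) := inferInstance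
theorem a60 : PosMulReflectLT ℝ := inferInstance
theorem a61 : AddRightStrictMono ℝ := inferInstance
theorem a62 : AddRightReflectLE ℝ := inferInstance
@[reducible] noncomputable def a63.{u1} {x1 : Type u1} [x2 : CStarAlgebra x1] : AddGroup ↥(Vale.Agent.P095.BSeq x1) := inferInstance
@[reducible] noncomputable def a64.{u1} {x1 : Type u1} [x2 : CStarAlgebra x1] : AddCommGroup ↥(Vale.Agent.P095.BSeq x1) := inferInstance
@[reducible] def a65.{u1} {x1 : Type u1} [x2 : NonUnitalCStarAlgebra x1] : Module ℂ (Unitization ℂ x1) := inferInstance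
@[reducible] def a66.{u1} {x1 : Type u1} [x2 : NonUnitalCStarAlgebra x1] : Add (Unitization ℂ x1) := inferInstance
theorem a67 : PosMulReflectLE ℝ := inferInstance
@[reducible] def a68.{u1} {x1 : Type u1} [x2 : NonUnitalCStarAlgebra x1] : NonUnitalRing (Unitization ℂ x1) := inferInstance
@[reducible] noncomputable def a69.{u1} {x1 : Type u1} [x2 : NonUnitalCStarAlgebra x1] : InvolutiveStar (DoubleCentralizer ℂ x1) := inferInstance
end AFaste384bbx13a
attribute [local instance] AFaste384bbx13a.a0 AFaste384bbx13a.a1 AFaste384bbx13a.a2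
  AFaste384bbx13a.a3 AFaste384bbx13a.a4 AFaste384bbx13a.a5 AFaste384bbx13a.a6 AFaste384bbx13a.a7
  AFaste384bbx13a.a8 AFaste384bbx13a.a9 AFaste384bbx13a.a10 AFaste384bbx13a.a11
  AFaste384bbx13a.a12 AFaste384bbx13a.a13 AFaste384bbx13a.a14 AFaste384bbx13a.a15
  AFaste384bbx13a.a16 AFaste384bbx13a.a17 AFaste384bbx13a.a18 AFaste384bbx13a.a19
  AFaste384bbx13a.a20 AFaste384bbx13a.a21 AFaste384bbx13a.a22 AFaste384bbx13a.a23
  AFaste384bbx13a.a24 AFaste384bbx13a.a25 AFaste384bbx13a.a26 AFaste384bbx13a.a27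
  AFaste384bbx13a.a28 AFaste384bbx13a.a29 AFaste384bbx13a.a30 AFaste384bbx13a.a31
  AFaste384bbx13a.a32 AFaste384bbx13a.a33 AFaste384bbx13a.a34 AFaste384bbx13a.a35
  AFaste384bbx13a.a36 AFaste384bbx13a.a37 AFaste384bbx13a.a38 AFaste384bbx13a.a39
  AFaste384bbx13a.a40 AFaste384bbx13a.a41 AFaste384bbx13a.a42 AFaste384bbx13a.a43
  AFaste384bbx13a.a44 AFaste384bbx13a.a45 AFaste384bbx13a.a46 AFaste384bbx13a.a47
  AFaste384bbx13a.a48 AFaste384bbx13a.a49 AFaste384bbx13a.a50 AFaste384bbx13a.a51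
  AFaste384bbx13a.a52 AFaste384bbx13a.a53 AFaste384bbx13a.a54 AFaste384bbx13a.a55
  AFaste384bbx13a.a56 AFaste384bbx13a.a57 AFaste384bbx13a.a58 AFaste384bbx13a.a59
  AFaste384bbx13a.a60 AFaste384bbx13a.a61 AFaste384bbx13a.a62 AFaste384bbx13a.a63
  AFaste384bbx13a.a64 AFaste384bbx13a.a65 AFaste384bbx13a.a66 AFaste384bbx13a.a67
  AFaste384bbx13a.a68 AFaste384bbx13a.a69
namespace AFaste384bbx13b
@[reducible] noncomputable def a0.{u1} {x1 : Type u1} [x2 : CStarAlgebra x1] : Module ℂ ↥(Vale.Agent.P095.BSeq x1) := inferInstance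
theorem a1.{u1} {x1 : Type u1} [x2 : CStarAlgebra x1] : LinearMapClass (↥(Vale.Agent.P095.BSeq x1) →⋆ₐ[ℂ] ↥(Vale.Agent.P095.BSeq x1)) ℂ ↥(Vale.Agent.P095.BSeq x1) ↥(Vale.Agent.P095.BSeq x1) := inferInstance
theorem a2.{u1} {x1 : Type u1} [x2 : CStarAlgebra x1] : MulActionSemiHomClass (↥(Vale.Agent.P095.BSeq x1) →⋆ₐ[ℂ] ↥(Vale.Agent.P095.BSeq x1)) ⇑(RingHom.id ℂ) ↥(Vale.Agent.P095.BSeq x1) ↥(Vale.Agent.P095.BSeq x1) := inferInstance
@[reducible] noncomputable def a3.{u1} {x1 : Type u1} [x2 : NonUnitalCStarAlgebra x1] : Module ℂ (DoubleCentralizer ℂ x1) := inferInstance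
@[reducible] noncomputable def a4.{u1} {x1 : Type u1} [x2 : CStarAlgebra x1] : SMulZeroClass ℂ ↥(Vale.Agent.P095.BSeq x1) := inferInstance
theorem a5.{u1} {x1 : Type u1} [x2 : NonUnitalCStarAlgebra x1] : LinearMapClass (Unitization ℂ x1 →⋆ₐ[ℂ] Unitization ℂ x1) ℂ (Unitization ℂ x1) (Unitization ℂ x1) := inferInstance
theorem a6.{u1} {x1 : Type u1} [x2 : NonUnitalCStarAlgebra x1] : SemilinearMapClass (Unitization ℂ x1 →⋆ₐ[ℂ] Unitization ℂ x1) (RingHom.id ℂ) (Unitization ℂ x1) (Unitization ℂ x1) := inferInstance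
@[reducible] noncomputable def a7.{u1} {x1 : Type u1} [x2 : CStarAlgebra x1] : DistribSMul ℂ ↥(Vale.Agent.P095.BSeq x1) := inferInstance
theorem a8.{u1} {x1 : Type u1} [x2 : NonUnitalCStarAlgebra x1] : StarHomClass (x1 ≃⋆ₐ[ℂ] x1) x1 x1 := inferInstance
theorem a9.{u1} {x1 : Type u1} [x2 : NonUnitalCStarAlgebra x1] : ContinuousLinearMapClass (Unitization ℂ x1 →⋆ₐ[ℂ] Unitization ℂ x1) ℂ (Unitization ℂ x1) (Unitization ℂ x1) := inferInstance
@[reducible] noncomputable def a10.{u1} {x1 : Type u1} [x2 : NonUnitalCStarAlgebra x1] : SMul ℂ (DoubleCentralizer ℂ x1) := inferInstance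
theorem a11.{u1} {x1 : Type u1} [x2 : NonUnitalCStarAlgebra x1] : OrderHomClass (Unitization ℂ x1 →⋆ₐ[ℂ] Unitization ℂ x1) (Unitization ℂ x1) (Unitization ℂ x1) := inferInstance
@[reducible] noncomputable def a12.{u1} {x1 : Type u1} [x2 : CStarAlgebra x1] : DistribMulAction ℂ ↥(Vale.Agent.P095.BSeq x1) := inferInstance
@[reducible] noncomputable def a13.{u1} {x1 : Type u1} [x2 : NonUnitalCStarAlgebra x1] : DistribMulAction ℂ (DoubleCentralizer ℂ x1) := inferInstance
theorem a14.{u1} {x1 : Type u1} [x2 : NonUnitalCStarAlgebra x1] : AddHomClass (Unitization ℂ x1 →⋆ₐ[ℂ] Unitization ℂ x1) (Unitization ℂ x1) (Unitization ℂ x1) := inferInstance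
end AFaste384bbx13b
attribute [local instance] AFaste384bbx13b.a0 AFaste384bbx13b.a1 AFaste384bbx13b.a2
  AFaste384bbx13b.a3 AFaste384bbx13b.a4 AFaste384bbx13b.a5 AFaste384bbx13b.a6 AFaste384bbx13b.a7
  AFaste384bbx13b.a8 AFaste384bbx13b.a9 AFaste384bbx13b.a10 AFaste384bbx13b.a11
  AFaste384bbx13b.a12 AFaste384bbx13b.a13 AFaste384bbx13b.a14
section

/-! From the relative local statement in `M` to the statement about multipliers. -/

open Filter Topology
open scoped MultiplierAlgebra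

namespace Vale.Agent.P095K

open Vale.Agent.P095 Vale.Agent.P095J Vale.Agent.P095N Vale.Agent.P095R Vale.Agent.P133

universe u v w

section bridge

variable {A : Type u} [NonUnitalCStarAlgebra A] {M : Type v} [CStarAlgebra M] {I : CIdeal M}
  {G : Type w} [Group G] {α : G →* (A ≃⋆ₐ[ℂ] A)} {β : G →* (M ≃⋆ₐ[ℂ] M)}

theorem theta_defect (θ : M →⋆ₐ[ℂ] 𝓜(ℂ, A)) (w : M) :
    θ (defectN w) = Vale.Agent.P095.defect (θ w) := by
  unfold defectN Vale.Agent.P095.defect
  simp only [map_smul, map_add, map_mul, map_star, map_sub, map_one]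

open Classical in
/-- The images of `w`, `s`, `t` under a homomorphism to the multiplier algebra. -/
theorem wstLocalN_of_localNoCharR (hβ : InvI I β) (θ : M →⋆ₐ[ℂ] 𝓜(ℂ, A)) (j : A → M)
    (hj : ∀ a, j a ∈ I) (hθ : ∀ a, θ (j a) = (a : 𝓜(ℂ, A)))
    (hθβ : ∀ g x, θ (β g x) = multAct α g (θ x)) (h : LocalNoCharR I β) : WSTLocalN α := by
  intro F S ε hε
  let F1 : Finset M := F.image j ∪ (F.image j).image star
  have hF1 : ∀ x ∈ F1, x ∈ I := by
    intro x hx
    rcases Finset.mem_union.1 hx with hx | hx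
    · obtain ⟨a, -, rfl⟩ := Finset.mem_image.1 hx
      exact hj a
    · obtain ⟨y, hy, rfl⟩ := Finset.mem_image.1 hx
      obtain ⟨a, -, rfl⟩ := Finset.mem_image.1 hy
      exact I.star_mem' _ (hj a)
  let F2 : Finset M := F1 ∪ (S ×ˢ F1).image fun p => β p.1⁻¹ p.2
  have hF2 : ∀ x ∈ F2, x ∈ I := by
    intro x hx
    rcases Finset.mem_union.1 hx with hx | hx
    · exact hF1 x hx
    · obtain ⟨⟨g, b⟩, hgb, rfl⟩ := Finset.mem_image.1 hx
      exact hβ _ _ (hF1 _ (Finset.mem_product.1 hgb).2)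
  have h12 : ∀ x ∈ F1, x ∈ F2 := fun x hx => Finset.mem_union_left _ hx
  have hm : ∀ a ∈ F, j a ∈ F1 := fun a ha => Finset.mem_union_left _ (Finset.mem_image_of_mem _ ha)
  have hms : ∀ a ∈ F, star (j a) ∈ F1 := fun a ha =>
    Finset.mem_union_right _ (Finset.mem_image_of_mem _ (Finset.mem_image_of_mem _ ha))
  have hn : ∀ x : M, ‖θ x‖ ≤ ‖x‖ := fun x => NonUnitalStarAlgHom.norm_apply_le θ x
  obtain ⟨w, s, t, ⟨hw, hwc⟩, ⟨hs, hsc⟩, ⟨ht, htc⟩, hD⟩ := h F2 S (ε / 5) hF2 (by positivity)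
  have comm : ∀ y : M, (∀ a ∈ F2, ‖y * a - a * y‖ ≤ ε / 5 ∧ ∀ g ∈ S, ‖(β g y - y) * a‖ ≤ ε / 5) →
      ∀ a ∈ F, ‖θ y * (a : 𝓜(ℂ, A)) - (a : 𝓜(ℂ, A)) * θ y‖ ≤ ε := by
    intro y hy a ha
    rw [← hθ, ← map_mul, ← map_mul, ← map_sub]
    refine (hn _).trans (((hy _ (h12 _ (hm a ha))).1).trans (by linarith only [hε]))
  have fix : ∀ y : M, (∀ a ∈ F2, ‖y * a - a * y‖ ≤ ε / 5 ∧ ∀ g ∈ S, ‖(β g y - y) * a‖ ≤ ε / 5) →
      ∀ g ∈ S, ∀ a ∈ F, ‖(a : 𝓜(ℂ, A)) * (multAct α g (θ y) - θ y)‖ ≤ ε := by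
    intro y hy g hg a ha
    rw [← hθ, ← hθβ, ← map_sub, ← map_mul]
    refine (hn _).trans ?_
    have e : j a * (β g y - y) = (β g y - y) * j a - (β g y * j a - j a * β g y) +
        (y * j a - j a * y) := by noncomm_ring
    have e2 : β g y * j a - j a * β g y = β g (y * β g⁻¹ (j a) - β g⁻¹ (j a) * y) := by
      rw [map_sub, map_mul, map_mul, act_act_inv]
    have n1 := (hy _ (h12 _ (hm a ha))).2 g hg
    have n2 : ‖β g y * j a - j a * β g y‖ ≤ ε / 5 := by
      rw [e2, P095J.norm_act]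
      exact (hy _ (Finset.mem_union_right _ (Finset.mem_image.2
        ⟨(g, j a), Finset.mem_product.2 ⟨hg, hm a ha⟩, rfl⟩))).1
    have n3 := (hy _ (h12 _ (hm a ha))).1
    rw [e]
    have m1 := norm_add_le ((β g y - y) * j a - (β g y * j a - j a * β g y))
      (y * j a - j a * y)
    have m2 := norm_sub_le ((β g y - y) * j a) (β g y * j a - j a * β g y)
    linarith only [hε, n1, n2, n3, m1, m2]
  have sa : ∀ (z : M), star z = z → ∀ a ∈ F, ‖z * star (j a)‖ ≤ ε / 5 →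
      ‖(a : 𝓜(ℂ, A)) * θ z‖ ≤ ε := by
    intro z hz a ha h1
    rw [← hθ, ← map_mul]
    refine (hn _).trans ?_
    have e : j a * z = star (z * star (j a)) := by rw [star_mul, star_star, hz]
    rw [e, norm_star]
    linarith
  have hDs : star (defectN w) = defectN w := by
    unfold defectN
    simp only [star_smul, star_add, star_mul, star_sub, star_one, star_star]
    congr 1
    · simp only [one_div, star_inv₀, star_ofNat]
  refine ⟨θ w, θ s, θ t, ⟨(hn w).trans (by linarith only [hw]), (hn s).trans hs, (hn t).trans ht⟩,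
    fun a ha => ⟨comm w hwc a ha, comm s hsc a ha, comm t htc a ha⟩,
    fun g hg a ha => ⟨fix w hwc g hg a ha, fix s hsc g hg a ha, fix t htc g hg a ha⟩,
    fun a ha => ⟨?_, ?_, ?_⟩⟩
  · rw [← theta_defect, ← map_star, ← map_mul, ← map_sub]
    refine sa _ ?_ a ha (hD _ (h12 _ (hms a ha))).1
    rw [star_sub, star_mul, star_star, hDs]
  · rw [← theta_defect, ← map_star, ← map_mul, ← map_sub]
    refine sa _ ?_ a ha (hD _ (h12 _ (hms a ha))).2.1
    rw [star_sub, star_mul, star_star, hDs]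
  · rw [← hθ, ← map_star, ← map_mul, ← map_mul]
    refine (hn _).trans ?_
    have e : j a * (star s * t) = star s * t * j a - (star s * (t * j a - j a * t) +
        (star s * j a - j a * star s) * t) := by noncomm_ring
    have e2 : star s * j a - j a * star s = -star (s * star (j a) - star (j a) * s) := by
      simp only [star_sub, star_mul, star_star]; abel
    have n1 := (hD _ (h12 _ (hm a ha))).2.2
    have n2 : ‖star s * (t * j a - j a * t)‖ ≤ 2 * (ε / 5) := by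
      refine (norm_mul_le _ _).trans (mul_le_mul ?_ (htc _ (h12 _ (hm a ha))).1 (norm_nonneg _)
        (by norm_num))
      rw [norm_star]; exact hs
    have n3 : ‖(star s * j a - j a * star s) * t‖ ≤ ε / 5 * 2 := by
      refine (norm_mul_le _ _).trans (mul_le_mul ?_ ht (norm_nonneg _) (by positivity))
      rw [e2, norm_neg, norm_star]
      exact (hsc _ (h12 _ (hms a ha))).1
    rw [e]
    have m1 := norm_sub_le (star s * t * j a) (star s * (t * j a - j a * t) +
        (star s * j a - j a * star s) * t)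
    have m2 := norm_add_le (star s * (t * j a - j a * t)) ((star s * j a - j a * star s) * t)
    linarith only [n1, n2, n3, m1, m2]

end bridge

section unitization

variable {A : Type u} [NonUnitalCStarAlgebra A]

theorem starMap_mk (f : A →⋆ₙₐ[ℂ] A) (r : ℂ) (a : A) :
    Unitization.starMap f (Unitization.inl r + Unitization.inr a) =
      Unitization.inl r + Unitization.inr (f a) := by
  rw [map_add, Unitization.starMap_inl, Unitization.starMap_inr, Unitization.algebraMap_eq_inl]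

theorem starMap_starMap (f g : A →⋆ₙₐ[ℂ] A) (h : ∀ a, f (g a) = a) (x : Unitization ℂ A) :
    Unitization.starMap f (Unitization.starMap g x) = x := by
  induction x using Unitization.ind with
  | inl_add_inr r a => rw [starMap_mk, starMap_mk, h]

/-- The unitization of an automorphism. -/
noncomputable def unitAut (f : A ≃⋆ₐ[ℂ] A) : Unitization ℂ A ≃⋆ₐ[ℂ] Unitization ℂ A where
  toFun := Unitization.starMap (f : A →⋆ₙₐ[ℂ] A)
  invFun := Unitization.starMap (f.symm : A →⋆ₙₐ[ℂ] A)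
  left_inv x := starMap_starMap _ _ (fun a => f.symm_apply_apply a) x
  right_inv x := starMap_starMap _ _ (fun a => f.apply_symm_apply a) x
  map_mul' x y := map_mul _ x y
  map_add' x y := map_add _ x y
  map_smul' c x := map_smul _ c x
  map_star' x := map_star _ x

theorem unitAut_mk (f : A ≃⋆ₐ[ℂ] A) (r : ℂ) (a : A) :
    unitAut f (Unitization.inl r + Unitization.inr a) =
      Unitization.inl r + Unitization.inr (f a) := starMap_mk _ r a

theorem unitAut_inr (f : A ≃⋆ₐ[ℂ] A) (a : A) :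
    unitAut f (Unitization.inr a) = Unitization.inr (f a) := Unitization.starMap_inr _ a

/-- The unitization of an action. -/
noncomputable def unitAct {G : Type w} [Group G] (α : G →* (A ≃⋆ₐ[ℂ] A)) :
    G →* (Unitization ℂ A ≃⋆ₐ[ℂ] Unitization ℂ A) where
  toFun g := unitAut (α g)
  map_one' := by
    refine StarAlgEquiv.ext fun x => ?_
    induction x using Unitization.ind with
    | inl_add_inr r a => rw [unitAut_mk, map_one]; rfl
  map_mul' g h := by
    refine StarAlgEquiv.ext fun x => ?_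
    induction x using Unitization.ind with
    | inl_add_inr r a =>
      show unitAut (α (g * h)) _ = unitAut (α g) (unitAut (α h) _)
      rw [unitAut_mk, unitAut_mk, unitAut_mk, map_mul]; rfl

theorem unitAct_apply {G : Type w} [Group G] (α : G →* (A ≃⋆ₐ[ℂ] A)) (g : G)
    (x : Unitization ℂ A) : unitAct α g x = unitAut (α g) x := rfl

/-- The homomorphism from the unitization to the multiplier algebra. -/
noncomputable def unitMult (A : Type u) [NonUnitalCStarAlgebra A] :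
    Unitization ℂ A →⋆ₐ[ℂ] 𝓜(ℂ, A) :=
  Unitization.starLift DoubleCentralizer.coeHom

theorem unitMult_inr (a : A) : unitMult A (Unitization.inr a) = (a : 𝓜(ℂ, A)) := by
  rw [← Unitization.starLift_symm_apply_apply (unitMult A) a, unitMult,
    Equiv.symm_apply_apply]
  rfl

theorem unitMult_act {G : Type w} [Group G] (α : G →* (A ≃⋆ₐ[ℂ] A)) (g : G)
    (x : Unitization ℂ A) : unitMult A (unitAct α g x) = multAct α g (unitMult A x) := by
  induction x using Unitization.ind with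
  | inl_add_inr r a =>
    rw [unitAct_apply, unitAut_mk, map_add, map_add, map_add, unitMult_inr, unitMult_inr,
      multAct_coe, ← Unitization.algebraMap_eq_inl, AlgHomClass.commutes]
    congr 1
    rw [AlgHomClass.commutes]

end unitization

end Vale.Agent.P095K
end

section

/-! From property (SI) to equivariant property (SI), local form: the main statement. -/

open Filter Topology

namespace Vale.Agent.P095J

open Vale.Agent.P101 Vale.Agent.P101.SeqQuot Vale.Agent.P095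

universe u v w

variable {A : Type u} [CStarAlgebra A] {G : Type w} [Group G] {α : G →* (A ≃⋆ₐ[ℂ] A)}

end Vale.Agent.P095J
end

section

/-! Relative property (SI). -/

set_option linter.unusedSectionVars false

open Filter Topology

namespace Vale.Agent.P095M

open Vale.Agent.P133 (CIdeal)
open Vale.Agent.P095 Vale.Agent.P095N

universe u v w

section
variable {A : Type u} [CStarAlgebra A] [PartialOrder A] [StarOrderedRing A]

theorem norm_conj_comm_le (e u c : A) (he1 : ‖e‖ ≤ 1) (hu1 : ‖u‖ ≤ 1) {κ η : ℝ} (hκ : 0 ≤ κ)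
    (h1 : ‖u * c - c‖ ≤ κ) (h2 : ‖c * u - c‖ ≤ κ) (h3 : ‖e * c - c * e‖ ≤ η)
    (h4 : ‖e * u - u * e‖ ≤ η) :
    ‖u * e * u * c - c * (u * e * u)‖ ≤ 4 * κ + (1 + ‖c‖) * η := by
  have hη : 0 ≤ η := (norm_nonneg _).trans h3
  have e1 : u * e * u * c - c * (u * e * u) = u * e * (u * c - c) + u * (e * c - c * e) +
      (u * c - c) * e - (c * u - c) * e * u - c * (e * u - u * e) - (c * u - c) * e := by
    noncomm_ring
  have n1 : ‖u * e * (u * c - c)‖ ≤ 1 * 1 * κ :=
    (norm_mul_le _ _).trans (mul_le_mul ((norm_mul_le _ _).trans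
      (mul_le_mul hu1 he1 (norm_nonneg _) zero_le_one)) h1 (norm_nonneg _) (by norm_num))
  have n2 : ‖u * (e * c - c * e)‖ ≤ 1 * η :=
    (norm_mul_le _ _).trans (mul_le_mul hu1 h3 (norm_nonneg _) zero_le_one)
  have n3 : ‖(u * c - c) * e‖ ≤ κ * 1 :=
    (norm_mul_le _ _).trans (mul_le_mul h1 he1 (norm_nonneg _) hκ)
  have n4 : ‖(c * u - c) * e * u‖ ≤ κ * 1 * 1 :=
    (norm_mul_le _ _).trans (mul_le_mul ((norm_mul_le _ _).trans
      (mul_le_mul h2 he1 (norm_nonneg _) hκ)) hu1 (norm_nonneg _) (by linarith only [hκ]))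
  have n5 : ‖c * (e * u - u * e)‖ ≤ ‖c‖ * η :=
    (norm_mul_le _ _).trans (mul_le_mul_of_nonneg_left h4 (norm_nonneg _))
  have n6 : ‖(c * u - c) * e‖ ≤ κ * 1 :=
    (norm_mul_le _ _).trans (mul_le_mul h2 he1 (norm_nonneg _) hκ)
  rw [e1]
  refine (norm_sub_le _ _).trans ?_
  have m1 := norm_sub_le (u * e * (u * c - c) + u * (e * c - c * e) +
      (u * c - c) * e - (c * u - c) * e * u) (c * (e * u - u * e))
  have m2 := norm_sub_le (u * e * (u * c - c) + u * (e * c - c * e) +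
      (u * c - c) * e) ((c * u - c) * e * u)
  have m3 := norm_add_le (u * e * (u * c - c) + u * (e * c - c * e)) ((u * c - c) * e)
  have m4 := norm_add_le (u * e * (u * c - c)) (u * (e * c - c * e))
  linarith only [n1, n2, n3, n4, n5, n6, m1, m2, m3, m4]

theorem norm_mul_conj_sub_le (e u x : A) (he1 : ‖e‖ ≤ 1) (hu1 : ‖u‖ ≤ 1) {κ η : ℝ} (hκ : 0 ≤ κ)
    (h1 : ‖x * u - x‖ ≤ κ) (h4 : ‖e * u - u * e‖ ≤ η) :
    ‖x * (u * e * u) - x * e‖ ≤ 2 * κ + ‖x‖ * η := by
  have e1 : x * (u * e * u) - x * e = (x * u - x) * e * u + x * (e * u - u * e) +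
      (x * u - x) * e := by noncomm_ring
  have n4 : ‖(x * u - x) * e * u‖ ≤ κ * 1 * 1 :=
    (norm_mul_le _ _).trans (mul_le_mul ((norm_mul_le _ _).trans
      (mul_le_mul h1 he1 (norm_nonneg _) hκ)) hu1 (norm_nonneg _) (by linarith only [hκ]))
  have n5 : ‖x * (e * u - u * e)‖ ≤ ‖x‖ * η :=
    (norm_mul_le _ _).trans (mul_le_mul_of_nonneg_left h4 (norm_nonneg _))
  have n6 : ‖(x * u - x) * e‖ ≤ κ * 1 :=
    (norm_mul_le _ _).trans (mul_le_mul h1 he1 (norm_nonneg _) hκ)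
  rw [e1]
  refine (norm_add_le _ _).trans ?_
  have m4 := norm_add_le ((x * u - x) * e * u) (x * (e * u - u * e))
  linarith only [n4, n5, n6, m4]

/-- the construction for a fixed `y`, given the cut-down elements -/
theorem si_step_rel {I : CIdeal A} {P n : ℕ} (X : Finset A) (z c : Fin P → Fin n → A)
    (h d : Fin P → A) (ψ : Fin P → A → Fin n → Fin n → ℂ) (y u : A) {ε ε' δ0 C1 C2 : ℝ}
    (hε : 0 < ε) (hε'0 : 0 < ε') (huI : u ∈ I) (hu1 : ‖u‖ ≤ 1) (hu0 : 0 ≤ u)
    (hC : CmpR I u) (hzI : ∀ k i, z k i ∈ I) (hcI : ∀ k i, c k i ∈ I)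
    (huc : ∀ k i, ‖u * c k i - c k i‖ ≤ ε' / 8 ∧ ‖c k i * u - c k i‖ ≤ ε' / 8)
    (huX : ∀ x ∈ X, ‖x * u - x‖ ≤ ε / 16)
    (hz : ∀ k i, ‖z k i‖ ≤ 1) (hdI : ∀ k, d k ∈ I) (hd0 : ∀ k, 0 ≤ d k) (hd1 : ∀ k, ‖d k‖ = 1)
    (hdh : ∀ k, Absb (d k) (h k) ε') (hdy : ∀ k, Absb (d k) y ε')
    (hoff : ∀ k l, k ≠ l → ∀ i i', ∀ x ∈ X, ∀ v w : A,
      ‖star (d k * v) * (star (z k i) * x * z l i') * (d l * w)‖ ≤
        ε' * ‖d k * v‖ * ‖d l * w‖)
    (hz2 : ∀ k, ∀ x ∈ X, ∀ i i', ‖star (z k i) * x * z k i' - ψ k x i i' • h k‖ ≤ δ0)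
    (hW : δ0 * ∑ k, ∑ i, ∑ i', ‖c k i‖ * ‖c k i'‖ ≤ ε / 16)
    (hap : ∀ x ∈ X, ‖∑ k, ∑ i, ∑ i', ψ k x i i' • (star (c k i) * c k i') - x‖ ≤ ε / 16)
    (hC1 : ∀ x ∈ X, ∑ p : Fin P × Fin n, ∑ q : Fin P × Fin n,
        (1 + ‖c p.1 p.2‖) * (1 + ‖c q.1 q.2‖) * (1 + ‖ψ p.1 x p.2 q.2‖) ≤ C1)
    (hC2 : ∑ p : Fin P × Fin n, ‖c p.1 p.2‖ ≤ C2)
    (hε1 : ε' ≤ 1) (h1 : 16 * (ε' * C1) ≤ ε) (h2 : 16 * (ε' * C2) ≤ ε)
    (hyz : ∀ k i, ‖y * z k i - z k i * y‖ ≤ ε') :
    ∃ (F2 : Finset A) (δ2 : ℝ), (∀ x ∈ F2, x ∈ I) ∧ 0 < δ2 ∧ ∀ e : A, 0 ≤ e → ‖e‖ ≤ 1 →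
        Small u e δ2 → (∀ b ∈ F2, ‖e * b - b * e‖ ≤ δ2) →
        ∃ s ∈ I, ‖s‖ ≤ 2 * C2 ∧ (∀ x ∈ X, ‖star s * x * s - x * e‖ ≤ ε) ∧ ‖y * s - s‖ ≤ ε := by
  classical
  have hdne : ∀ k, d k ≠ 0 := by
    intro k h0
    have := hd1 k
    rw [h0, norm_zero] at this
    exact one_ne_zero this.symm
  choose η hη Hη using fun k => hC (d k) (hdI k) (hd0 k) (hdne k) ε' hε'0
  obtain ⟨η0, hη0, hη0k⟩ := exists_pos_le_fin η hη
  have hC20 : 0 ≤ C2 := (Finset.sum_nonneg fun p _ => norm_nonneg _).trans hC2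
  have hcC2 : ∀ k i, ‖c k i‖ ≤ C2 := by
    intro k i
    exact (Finset.single_le_sum (f := fun p : Fin P × Fin n => ‖c p.1 p.2‖)
      (fun p _ => norm_nonneg _) (Finset.mem_univ (k, i))).trans hC2
  set Cx : ℝ := ∑ x ∈ X, ‖x‖ with hCx
  have hCx0 : 0 ≤ Cx := Finset.sum_nonneg fun p _ => norm_nonneg _
  have hxCx : ∀ x ∈ X, ‖x‖ ≤ Cx := fun x hx =>
    Finset.single_le_sum (f := fun x : A => ‖x‖) (fun p _ => norm_nonneg _) hx
  set η1 : ℝ := min (ε' / (2 * (1 + C2))) (ε / (16 * (1 + Cx))) with hη1d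
  have hη1 : 0 < η1 := lt_min (by (clear * - hε'0 hC20; positivity)) (by (clear * - hε; positivity))
  have hη1a : (1 + C2) * η1 ≤ ε' / 2 := by
    have : η1 ≤ ε' / (2 * (1 + C2)) := min_le_left _ _
    rw [le_div_iff₀ (by (clear * - hC20; positivity))] at this
    linarith only [this]
  have hη1b : (1 + Cx) * η1 ≤ ε / 16 := by
    have : η1 ≤ ε / (16 * (1 + Cx)) := min_le_right _ _
    rw [le_div_iff₀ (by (clear * -; positivity))] at this
    linarith only [this]
  refine ⟨insert u (Finset.univ.image (fun p : Fin P × Fin n => c p.1 p.2)), min η0 η1,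
    ?_, lt_min hη0 hη1, fun e he0 he1 hτ hcomm => ?_⟩
  · intro x hx
    rcases Finset.mem_insert.1 hx with rfl | hx
    · exact huI
    · obtain ⟨p, -, rfl⟩ := Finset.mem_image.1 hx
      exact hcI _ _
  have heu : ‖e * u - u * e‖ ≤ η1 := (hcomm u (Finset.mem_insert_self _ _)).trans
    (min_le_right _ _)
  have hec0 : ∀ k i, ‖e * c k i - c k i * e‖ ≤ η1 := fun k i =>
    (hcomm _ (Finset.mem_insert_of_mem (Finset.mem_image_of_mem
      (fun p : Fin P × Fin n => c p.1 p.2) (Finset.mem_univ (k, i))))).trans (min_le_right _ _)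
  have husa : star u = u := (IsSelfAdjoint.of_nonneg hu0).star_eq
  -- the compressed element
  set e' : A := u * e * u with he'
  have he'1 : ‖e'‖ ≤ 1 := by
    rw [he']
    calc ‖u * e * u‖ ≤ 1 * 1 * 1 := (norm_mul_le _ _).trans (mul_le_mul ((norm_mul_le _ _).trans
          (mul_le_mul hu1 he1 (norm_nonneg _) zero_le_one)) hu1 (norm_nonneg _) (by norm_num))
      _ = 1 := by norm_num
  have hec : ∀ k i, ‖e' * c k i - c k i * e'‖ ≤ ε' := by
    intro k i
    refine (norm_conj_comm_le e u (c k i) he1 hu1 (by positivity : (0 : ℝ) ≤ ε' / 8)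
      (huc k i).1 (huc k i).2 (hec0 k i) heu).trans ?_
    have : (1 + ‖c k i‖) * η1 ≤ (1 + C2) * η1 :=
      mul_le_mul_of_nonneg_right (by linarith only [hcC2 k i]) hη1.le
    linarith only [hη1a, this]
  have hxe : ∀ x ∈ X, ‖x * e' - x * e‖ ≤ 3 * (ε / 16) := by
    intro x hx
    refine (norm_mul_conj_sub_le e u x he1 hu1 (by positivity : (0 : ℝ) ≤ ε / 16)
      (huX x hx) heu).trans ?_
    have : ‖x‖ * η1 ≤ (1 + Cx) * η1 :=
      mul_le_mul_of_nonneg_right (by linarith only [hxCx x hx]) hη1.le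
    linarith only [hη1b, this]
  have hmono : ∀ k, Small u e (η k) := fun k τ hτ' =>
    (hτ τ hτ').trans ((min_le_left _ _).trans (hη0k k))
  choose v hvI hv using fun k => Hη k e he0 he1 (hmono k)
  have hx'e : ∀ k, ‖star (d k * v k) * (d k * v k) - e'‖ ≤ ε' := hv
  have hx'2 : ∀ k, ‖d k * v k‖ * ‖d k * v k‖ ≤ 2 := by
    intro k
    rw [← CStarRing.norm_star_mul_self]
    have := norm_add_le (star (d k * v k) * (d k * v k) - e') e'
    rw [sub_add_cancel] at this
    linarith only [hε1, he'1, this, hx'e k]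
  have hx'n : ∀ k, ‖d k * v k‖ ≤ 2 := by
    intro k
    nlinarith only [hx'2 k]
  have hhx : ∀ k, ‖h k * (d k * v k) - d k * v k‖ ≤ ε' * ‖d k * v k‖ := fun k =>
    absb_self hε'0.le (hdh k) (v k)
  have hyx : ∀ k, ‖y * (d k * v k) - d k * v k‖ ≤ ε' * ‖d k * v k‖ := fun k =>
    absb_self hε'0.le (hdy k) (v k)
  refine ⟨∑ p : Fin P × Fin n, z p.1 p.2 * (d p.1 * v p.1) * c p.1 p.2, ?_, ?_, fun x hx => ?_, ?_⟩
  · exact I.toSub.sum_mem fun p _ => P133.CIdeal.left_mem I _ (hcI _ _)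
  · calc ‖∑ p : Fin P × Fin n, z p.1 p.2 * (d p.1 * v p.1) * c p.1 p.2‖
        ≤ ∑ p : Fin P × Fin n, 2 * ‖c p.1 p.2‖ := by
          refine (norm_sum_le _ _).trans (Finset.sum_le_sum fun p _ => ?_)
          refine (norm_mul_le _ _).trans (mul_le_mul_of_nonneg_right ?_ (norm_nonneg _))
          calc _ ≤ 1 * 2 := (norm_mul_le _ _).trans
                (mul_le_mul (hz _ _) (hx'n _) (norm_nonneg _) zero_le_one)
            _ = 2 := by norm_num
      _ = 2 * ∑ p : Fin P × Fin n, ‖c p.1 p.2‖ := by rw [Finset.mul_sum]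
      _ ≤ 2 * C2 := mul_le_mul_of_nonneg_left hC2 (by norm_num)
  · have hoff' : ∀ k l, k ≠ l → ∀ i i', ‖star (d k * v k) * (star (z k i) * x * z l i') *
        (d l * v l)‖ ≤ ε' * 4 := by
      intro k l hkl i i'
      refine (hoff k l hkl i i' x hx (v k) (v l)).trans ?_
      have := mul_le_mul (hx'n k) (hx'n l) (norm_nonneg _) (by norm_num)
      rw [mul_assoc]
      exact mul_le_mul_of_nonneg_left (this.trans (by norm_num)) hε'0.le
    have h5 := (main_term z c (fun k => d k * v k) h e' x (fun k => ψ k x) hε'0 he'1 hx'2 hhx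
      (fun k => hz2 k x hx) hx'e hec hoff' (hap x hx))
    have h3 := mul_le_mul_of_nonneg_left (hC1 x hx) hε'0.le
    refine (norm_sub_le_norm_sub_add_norm_sub _ (x * e') _).trans ?_
    refine (add_le_add h5 (hxe x hx)).trans ?_
    linarith only [hε, hW, h1, h3]
  · refine (absorb_term z c (fun k => d k * v k) y hε'0 hz hx'n hyx hyz).trans ?_
    have h3 := mul_le_mul_of_nonneg_left hC2 hε'0.le
    linarith only [hε, h2, h3]

theorem si_local_rel [Nontrivial A] {I : CIdeal A} (hA : SimpleI I) (b₀ : A) (hbI : b₀ ∈ I)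
    (hb1 : ‖b₀‖ ≤ 1) (hN : CPAPR I) (hO : CentOrthR I b₀) (hC : CmpI I) (X : Finset A)
    (hX : ∀ x ∈ X, x ∈ I) (ε : ℝ) (hε : 0 < ε) :
    ∃ (K : ℝ) (F : Finset A) (δ : ℝ) (u : A), 0 ≤ K ∧ 0 < δ ∧ (u ∈ I ∧ 0 ≤ u) ∧
      ∀ y : A, AlmC I b₀ F δ y →
      ∃ (F2 : Finset A) (δ2 : ℝ), (∀ x ∈ F2, x ∈ I) ∧ 0 < δ2 ∧ ∀ e : A, 0 ≤ e → ‖e‖ ≤ 1 →
        Small u e δ2 → (∀ b ∈ F2, ‖e * b - b * e‖ ≤ δ2) →
        ∃ s ∈ I, ‖s‖ ≤ K ∧ (∀ x ∈ X, ‖star s * x * s - x * e‖ ≤ ε) ∧ ‖y * s - s‖ ≤ ε := by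
  classical
  obtain ⟨P, n, z, c, ψ, δ0, hδ0, hzI, hcI, hz1, hz2, hW, hap⟩ :=
    cpap_data_rel hN X hX (ε / 16) (by (clear * - hε; positivity))
  -- the norm one positive elements
  have hh0 : ∀ k, 0 ≤ ∑ i, star (z k i) * z k i :=
    fun k => Finset.sum_nonneg fun i _ => star_mul_self_nonneg _
  have hhI : ∀ k, ∑ i, star (z k i) * z k i ∈ I :=
    fun k => I.toSub.sum_mem fun i _ => P133.CIdeal.left_mem I _ (hzI k i)
  have hz : ∀ k i, ‖z k i‖ ≤ 1 := by
    intro k i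
    have h1 : star (z k i) * z k i ≤ ∑ i, star (z k i) * z k i :=
      Finset.single_le_sum (f := fun i => star (z k i) * z k i)
        (fun i _ => star_mul_self_nonneg _) (Finset.mem_univ i)
    have h2 := CStarAlgebra.norm_le_norm_of_nonneg_of_le (star_mul_self_nonneg (z k i)) h1
    rw [CStarRing.norm_star_mul_self, hz1 k] at h2
    nlinarith only [h2]
  let Z : Finset A := Finset.univ.biUnion fun p : Fin P × Fin n =>
    Finset.univ.biUnion fun q : Fin P × Fin n =>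
      X.image fun x => star (z p.1 p.2) * x * z q.1 q.2
  have hZ : ∀ (p q : Fin P × Fin n), ∀ x ∈ X, star (z p.1 p.2) * x * z q.1 q.2 ∈ Z := by
    intro p q x hx
    exact Finset.mem_biUnion.2 ⟨p, Finset.mem_univ _, Finset.mem_biUnion.2
      ⟨q, Finset.mem_univ _, Finset.mem_image_of_mem _ hx⟩⟩
  have hZI : ∀ x ∈ Z, x ∈ I := by
    intro x hx
    obtain ⟨p, -, hx⟩ := Finset.mem_biUnion.1 hx
    obtain ⟨q, -, hx⟩ := Finset.mem_biUnion.1 hx
    obtain ⟨x', -, rfl⟩ := Finset.mem_image.1 hx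
    exact P133.CIdeal.left_mem I _ (hzI _ _)
  have hwt0 : ∀ x : A, 0 ≤ ∑ p : Fin P × Fin n, ∑ q : Fin P × Fin n,
      (1 + ‖c p.1 p.2‖) * (1 + ‖c q.1 q.2‖) * (1 + ‖ψ p.1 x p.2 q.2‖) :=
    fun x => Finset.sum_nonneg fun p _ => Finset.sum_nonneg fun q _ => by (clear * -; positivity)
  obtain ⟨C1, hC10, hC1⟩ : ∃ C1 : ℝ, 1 ≤ C1 ∧ ∀ x ∈ X, ∑ p : Fin P × Fin n,
      ∑ q : Fin P × Fin n, (1 + ‖c p.1 p.2‖) * (1 + ‖c q.1 q.2‖) * (1 + ‖ψ p.1 x p.2 q.2‖)
        ≤ C1 := by
    refine ⟨1 + ∑ x ∈ X, ∑ p : Fin P × Fin n, ∑ q : Fin P × Fin n,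
      (1 + ‖c p.1 p.2‖) * (1 + ‖c q.1 q.2‖) * (1 + ‖ψ p.1 x p.2 q.2‖), ?_, fun x hx => ?_⟩
    · have := Finset.sum_nonneg fun x (_ : x ∈ X) => hwt0 x
      linarith only [this]
    · have := Finset.single_le_sum (f := fun x => ∑ p : Fin P × Fin n, ∑ q : Fin P × Fin n,
        (1 + ‖c p.1 p.2‖) * (1 + ‖c q.1 q.2‖) * (1 + ‖ψ p.1 x p.2 q.2‖))
        (fun x _ => hwt0 x) hx
      linarith only [this]
  have hC20 : 1 ≤ 1 + ∑ p : Fin P × Fin n, ‖c p.1 p.2‖ := by
    have : 0 ≤ ∑ p : Fin P × Fin n, ‖c p.1 p.2‖ := Finset.sum_nonneg fun p _ => norm_nonneg _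
    linarith only [this]
  obtain ⟨ε1, hε1, h1, h2⟩ := exists_eps' hC10 hC20 hε
  have hm1 : min ε1 1 ≤ ε1 := min_le_left _ _
  have hm0 : 0 < min ε1 1 := lt_min hε1 one_pos
  -- the unit
  obtain ⟨u, huI, hu0, hu1, huC, hux⟩ := hC
    (X ∪ Finset.univ.image (fun p : Fin P × Fin n => c p.1 p.2)) (min (min ε1 1 / 8) (ε / 16))
    (by
      intro x hx
      rcases Finset.mem_union.1 hx with hx | hx
      · exact hX x hx
      · obtain ⟨p, -, rfl⟩ := Finset.mem_image.1 hx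
        exact hcI _ _) (by (clear * - hε1 hε; positivity))
  have huc : ∀ k i, ‖u * c k i - c k i‖ ≤ min ε1 1 / 8 ∧ ‖c k i * u - c k i‖ ≤ min ε1 1 / 8 := by
    intro k i
    have h3 := hux (c k i) (Finset.mem_union_right _ (Finset.mem_image_of_mem
      (fun p : Fin P × Fin n => c p.1 p.2) (Finset.mem_univ (k, i))))
    exact ⟨h3.2.trans (min_le_left _ _), h3.1.trans (min_le_left _ _)⟩
  have huX : ∀ x ∈ X, ‖x * u - x‖ ≤ ε / 16 := fun x hx =>
    (hux x (Finset.mem_union_left _ hx)).1.trans (min_le_right _ _)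
  obtain ⟨F, δ, hδ, H⟩ := core_cuts_rel hA b₀ hbI hb1 hO (fun k => ∑ i, star (z k i) * z k i)
    hhI hh0 hz1 Z hZI (min ε1 1) hm0
  refine ⟨2 * (1 + ∑ p : Fin P × Fin n, ‖c p.1 p.2‖),
    F ∪ Finset.univ.image (fun p : Fin P × Fin n => z p.1 p.2), min δ (min ε1 1), u,
    by linarith only [hC20], lt_min hδ hm0, ⟨huI, hu0⟩, fun y hy => ?_⟩
  obtain ⟨d, hd, hdd⟩ := H y (hy.mono Finset.subset_union_left (min_le_left _ _))
  have hyz : ∀ k i, ‖y * z k i - z k i * y‖ ≤ min ε1 1 := fun k i =>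
    (hy.2.2.2 _ (Finset.mem_union_right _ (Finset.mem_image_of_mem
      (fun p : Fin P × Fin n => z p.1 p.2) (Finset.mem_univ (k, i)))) (hzI k i)).trans
      (min_le_right _ _)
  refine si_step_rel X z c (fun k => ∑ i, star (z k i) * z k i) d ψ y u hε hm0 huI hu1 hu0 huC
    hzI hcI huc huX hz (fun k => (hd k).1)
    (fun k => (hd k).2.1) (fun k => (hd k).2.2.1) (fun k => (hd k).2.2.2.1)
    (fun k => (hd k).2.2.2.2)
    (fun k l hkl i i' x hx v w => hdd k l hkl _ (hZ (k, i) (l, i') x hx) v w) hz2 hW hap hC1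
    (le_add_of_nonneg_left zero_le_one) (min_le_right _ _) ?_ ?_ hyz
  · have := mul_le_mul_of_nonneg_right hm1 (zero_le_one.trans hC10)
    linarith only [h1, this]
  · have := mul_le_mul_of_nonneg_right hm1 (zero_le_one.trans hC20)
    linarith only [h2, this]

end

end Vale.Agent.P095M
end

section

/-! Relative property (SI), final form. -/

set_option linter.unusedSectionVars false

open Filter Topology

namespace Vale.Agent.P095M

open Vale.Agent.P133 (CIdeal)
open Vale.Agent.P095 Vale.Agent.P095N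

universe u v w

section
variable {A : Type u} [CStarAlgebra A] [PartialOrder A] [StarOrderedRing A]

theorem norm_mul_le_one_left {a b : A} (ha : ‖a‖ ≤ 1) {r : ℝ} (hb : ‖b‖ ≤ r) : ‖a * b‖ ≤ r := by
  have h0 : 0 ≤ r := (norm_nonneg _).trans hb
  calc ‖a * b‖ ≤ 1 * r := (norm_mul_le _ _).trans (mul_le_mul ha hb (norm_nonneg _) zero_le_one)
    _ = r := one_mul _

theorem norm_mul_le_one_right {a b : A} (hb : ‖b‖ ≤ 1) {r : ℝ} (ha : ‖a‖ ≤ r) :
    ‖a * b‖ ≤ r := by
  have h0 : 0 ≤ r := (norm_nonneg _).trans ha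
  calc ‖a * b‖ ≤ r * 1 := (norm_mul_le _ _).trans (mul_le_mul ha hb (norm_nonneg _) h0)
    _ = r := mul_one _

/-- `‖w x w - x‖ ≤ 2 κ` -/
theorem norm_conj_unit_le {w x : A} (hw : ‖w‖ ≤ 1) {κ : ℝ} (h1 : ‖x * w - x‖ ≤ κ)
    (h2 : ‖w * x - x‖ ≤ κ) : ‖w * x * w - x‖ ≤ 2 * κ := by
  have e1 : w * x * w - x = w * (x * w - x) + (w * x - x) := by noncomm_ring
  rw [e1]
  have := norm_mul_le_one_left hw h1
  refine (norm_add_le _ _).trans ?_
  linarith

/-- the commutator of `w s` and `x` -/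
theorem comm_sq_le (w s e x : A) (hw : ‖w‖ ≤ 1) (hwsa : star w = w) (he1 : ‖e‖ ≤ 1)
    {ε1 κ M0 : ℝ} (hε1 : 0 ≤ ε1) (hκ : 0 ≤ κ) (hM0 : ‖x‖ ≤ M0)
    (hxw : ‖x * w - x‖ ≤ κ) (hwx : ‖w * x - x‖ ≤ κ)
    (h1 : ‖star s * (w * w) * s - w * w * e‖ ≤ ε1)
    (h2 : ‖star s * (w * x * w) * s - w * x * w * e‖ ≤ ε1)
    (h3 : ‖star s * (w * star x * w) * s - w * star x * w * e‖ ≤ ε1)
    (h4 : ‖star s * (w * (star x * x) * w) * s - w * (star x * x) * w * e‖ ≤ ε1) :
    ‖w * s * x - x * (w * s)‖ ^ 2 ≤ ε1 * (1 + M0) ^ 2 + 8 * κ * M0 := by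
  have hM00 : 0 ≤ M0 := (norm_nonneg _).trans hM0
  have hxw' : ‖w * star x - star x‖ ≤ κ := by
    have : w * star x - star x = star (x * w - x) := by simp only [star_sub, star_mul, hwsa]
    rw [this, norm_star]; exact hxw
  have hwx' : ‖star x * w - star x‖ ≤ κ := by
    have : star x * w - star x = star (w * x - x) := by simp only [star_sub, star_mul, hwsa]
    rw [this, norm_star]; exact hwx
  have hsx : ‖star x‖ ≤ M0 := by rw [norm_star]; exact hM0
  rw [sq, ← CStarRing.norm_star_mul_self]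
  have e1 : star (w * s * x - x * (w * s)) * (w * s * x - x * (w * s)) =
      star x * (star s * (w * w) * s - w * w * e) * x
      - star x * (star s * (w * x * w) * s - w * x * w * e)
      - (star s * (w * star x * w) * s - w * star x * w * e) * x
      + (star s * (w * (star x * x) * w) * s - w * (star x * x) * w * e)
      + (star x * (w * w) - star x) * e * x - star x * (w * x * w - x) * e
      - (w * star x * w - star x) * e * x + (w * (star x * x) * w - star x * x) * e := by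
    simp only [star_sub, star_mul, hwsa]
    noncomm_ring
  have n1 : ‖star x * (star s * (w * w) * s - w * w * e) * x‖ ≤ M0 * ε1 * M0 :=
    (norm_mul_le _ _).trans (mul_le_mul ((norm_mul_le _ _).trans (mul_le_mul hsx h1
      (norm_nonneg _) hM00)) hM0 (norm_nonneg _) (by (clear * - hM00 hε1; positivity)))
  have n2 : ‖star x * (star s * (w * x * w) * s - w * x * w * e)‖ ≤ M0 * ε1 :=
    (norm_mul_le _ _).trans (mul_le_mul hsx h2 (norm_nonneg _) hM00)
  have n3 : ‖(star s * (w * star x * w) * s - w * star x * w * e) * x‖ ≤ ε1 * M0 :=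
    (norm_mul_le _ _).trans (mul_le_mul h3 hM0 (norm_nonneg _) hε1)
  have n5 : ‖(star x * (w * w) - star x) * e * x‖ ≤ 2 * κ * M0 := by
    have m1 : ‖star x * (w * w) - star x‖ ≤ 2 * κ := by
      have e2 : star x * (w * w) - star x = (star x * w - star x) * w + (star x * w - star x) := by
        noncomm_ring
      rw [e2]
      have := norm_mul_le_one_right hw hwx'
      refine (norm_add_le _ _).trans ?_
      linarith only [hwx', this]
    exact (norm_mul_le _ _).trans (mul_le_mul (norm_mul_le_one_right he1 m1) hM0 (norm_nonneg _)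
      (by (clear * - hκ; positivity)))
  have n6 : ‖star x * (w * x * w - x) * e‖ ≤ M0 * (2 * κ) := by
    refine norm_mul_le_one_right he1 ?_
    exact (norm_mul_le _ _).trans (mul_le_mul hsx (norm_conj_unit_le hw hxw hwx) (norm_nonneg _)
      hM00)
  have n7 : ‖(w * star x * w - star x) * e * x‖ ≤ 2 * κ * M0 :=
    (norm_mul_le _ _).trans (mul_le_mul (norm_mul_le_one_right he1
      (norm_conj_unit_le hw hwx' hxw')) hM0 (norm_nonneg _) (by positivity))
  have n8 : ‖(w * (star x * x) * w - star x * x) * e‖ ≤ κ * M0 + M0 * κ := by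
    refine norm_mul_le_one_right he1 ?_
    have e2 : w * (star x * x) * w - star x * x = (w * star x - star x) * x * w +
        star x * (x * w - x) := by noncomm_ring
    rw [e2]
    refine (norm_add_le _ _).trans (add_le_add ?_ ?_)
    · refine norm_mul_le_one_right hw ?_
      exact (norm_mul_le _ _).trans (mul_le_mul hxw' hM0 (norm_nonneg _) hκ)
    · exact (norm_mul_le _ _).trans (mul_le_mul hsx hxw (norm_nonneg _) hM00)
  rw [e1]
  refine (norm_add_le _ _).trans ?_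
  refine (add_le_add_left (norm_sub_le _ _) _).trans ?_
  refine (add_le_add_left (add_le_add_left (norm_sub_le _ _) _) _).trans ?_
  refine (add_le_add_left (add_le_add_left (add_le_add_left (norm_add_le _ _) _) _) _).trans ?_
  refine (add_le_add_left (add_le_add_left (add_le_add_left (add_le_add_left
    (norm_add_le _ _) _) _) _) _).trans ?_
  refine (add_le_add_left (add_le_add_left (add_le_add_left (add_le_add_left (add_le_add_left
    (norm_sub_le _ _) _) _) _) _) _).trans ?_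
  refine (add_le_add_left (add_le_add_left (add_le_add_left (add_le_add_left (add_le_add_left
    (add_le_add_left (norm_sub_le _ _) _) _) _) _) _) _).trans ?_
  have : ε1 * (1 + M0) ^ 2 + 8 * κ * M0 = M0 * ε1 * M0 + M0 * ε1 + ε1 * M0 + ε1 + 2 * κ * M0 +
      M0 * (2 * κ) + 2 * κ * M0 + (κ * M0 + M0 * κ) := by ring
  rw [this]
  linarith only [h4, n1, n2, n3, n5, n6, n7, n8]

/-- Relative property (SI). -/
theorem sir_of_cpap [Nontrivial A] {I : CIdeal A} (hA : SimpleI I) (b₀ : A) (hbI : b₀ ∈ I)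
    (hb1 : ‖b₀‖ ≤ 1) (hN : CPAPR I) (hO : CentOrthR I b₀) (hC : CmpI I) : SIR I b₀ := by
  classical
  intro X ε hX hε
  -- the bound of the elements of `X`
  set M0 : ℝ := ∑ x ∈ X, ‖x‖ with hM0d
  have hM00 : 0 ≤ M0 := Finset.sum_nonneg fun x _ => norm_nonneg x
  have hM0 : ∀ x ∈ X, ‖x‖ ≤ M0 := fun x hx =>
    Finset.single_le_sum (f := fun x : A => ‖x‖) (fun x _ => norm_nonneg x) hx
  set κ : ℝ := min (ε / 8) (ε ^ 2 / (16 * (1 + M0))) with hκd
  have hκ : 0 < κ := by positivity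
  have hκ1 : κ ≤ ε / 8 := min_le_left _ _
  have hκ2 : 8 * κ * M0 ≤ ε ^ 2 / 2 := by
    have : κ ≤ ε ^ 2 / (16 * (1 + M0)) := min_le_right _ _
    rw [le_div_iff₀ (by (clear * -; positivity))] at this
    linarith
  set ε1 : ℝ := min (min 1 (ε / 8)) (min (ε / (4 * (1 + M0))) (ε ^ 2 / (2 * (1 + M0) ^ 2)))
    with hε1d
  have hε1 : 0 < ε1 := by (clear * - hε; positivity)
  have hε1a : ε1 ≤ 1 := (min_le_left _ _).trans (min_le_left _ _)
  have hε1b : ε1 ≤ ε / 8 := (min_le_left _ _).trans (min_le_right _ _)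
  have hε1c : ε1 * M0 ≤ ε / 4 := by
    have : ε1 ≤ ε / (4 * (1 + M0)) := (min_le_right _ _).trans (min_le_left _ _)
    rw [le_div_iff₀ (by (clear * -; positivity))] at this
    nlinarith only [hε1, this]
  have hε1d' : ε1 * (1 + M0) ^ 2 ≤ ε ^ 2 / 2 := by
    have : ε1 ≤ ε ^ 2 / (2 * (1 + M0) ^ 2) := (min_le_right _ _).trans (min_le_right _ _)
    rw [le_div_iff₀ (by (clear * -; positivity))] at this
    linarith only [this]
  -- the unit
  obtain ⟨w, hwI, hw0, hw1, hwX⟩ := exists_unit_rel I X κ hκ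
  have hwsa : star w = w := (IsSelfAdjoint.of_nonneg hw0).star_eq
  let X' : Finset A := insert (w * w) (((X.image fun x => w * x * w) ∪
    X.image fun x => w * star x * w) ∪ X.image fun x => w * (star x * x) * w)
  have hX' : ∀ x ∈ X', x ∈ I := by
    intro x hx
    rcases Finset.mem_insert.1 hx with rfl | hx
    · exact P133.CIdeal.left_mem I _ hwI
    · rcases Finset.mem_union.1 hx with hx | hx
      · rcases Finset.mem_union.1 hx with hx | hx
        · obtain ⟨x', -, rfl⟩ := Finset.mem_image.1 hx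
          exact P133.CIdeal.left_mem I _ hwI
        · obtain ⟨x', -, rfl⟩ := Finset.mem_image.1 hx
          exact P133.CIdeal.left_mem I _ hwI
      · obtain ⟨x', -, rfl⟩ := Finset.mem_image.1 hx
        exact P133.CIdeal.left_mem I _ hwI
  obtain ⟨K, F, δ, u, hK, hδ, ⟨huI, hu0⟩, H⟩ := si_local_rel hA b₀ hbI hb1 hN hO hC X' hX' ε1 hε1
  set δ' : ℝ := min δ (ε / (2 * (1 + K))) with hδ'd
  have hδ' : 0 < δ' := lt_min hδ (by positivity)
  have hδ'K : δ' * K ≤ ε / 2 := by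
    have : δ' ≤ ε / (2 * (1 + K)) := min_le_right _ _
    rw [le_div_iff₀ (by positivity)] at this
    nlinarith only [hδ', this]
  refine ⟨(insert w F).filter (fun x => x ∈ I), δ', fun x hx => (Finset.mem_filter.1 hx).2, hδ',
    fun y hy => ?_⟩
  have hy' : AlmC I b₀ F δ y := ⟨hy.1, hy.2.1, by
    have := hy.2.2.1
    have h2 : δ' ≤ δ := min_le_left _ _
    linarith only [this, h2], fun a ha haI => (hy.2.2.2 a (Finset.mem_filter.2
      ⟨Finset.mem_insert_of_mem ha, haI⟩)).trans (min_le_left _ _)⟩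
  have hyw : ‖y * w - w * y‖ ≤ δ' := hy.2.2.2 w (Finset.mem_filter.2
    ⟨Finset.mem_insert_self _ _, hwI⟩)
  obtain ⟨F2, δ2, hF2, hδ2, H2⟩ := H y hy'
  refine ⟨F2 ∪ X, {u}, min δ2 (ε / 8), ?_, ?_, lt_min hδ2 (by positivity),
    fun e he0 he1 heF heU => ?_⟩
  · intro x hx
    rcases Finset.mem_union.1 hx with hx | hx
    · exact hF2 x hx
    · exact hX x hx
  · intro x hx
    rw [Finset.mem_singleton.1 hx]; exact ⟨huI, hu0⟩
  have heS : Small u e δ2 := fun τ hτ =>
    (heU u (Finset.mem_singleton_self u) τ hτ).trans (min_le_left _ _)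
  have heX : ∀ x ∈ X, ‖e * x - x * e‖ ≤ ε / 8 := fun x hx =>
    (heF x (Finset.mem_union_right _ hx)).trans (min_le_right _ _)
  obtain ⟨s, hsI, hsK, hsX, hys⟩ := H2 e he0 he1 heS fun b hb =>
    (heF b (Finset.mem_union_left _ hb)).trans (min_le_left _ _)
  have hww : ‖star s * (w * w) * s - w * w * e‖ ≤ ε1 := hsX _ (Finset.mem_insert_self _ _)
  have hwxw : ∀ x ∈ X, ‖star s * (w * x * w) * s - w * x * w * e‖ ≤ ε1 := fun x hx =>
    hsX _ (Finset.mem_insert_of_mem (Finset.mem_union_left _ (Finset.mem_union_left _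
      (Finset.mem_image_of_mem (fun x => w * x * w) hx))))
  have hwxw' : ∀ x ∈ X, ‖star s * (w * star x * w) * s - w * star x * w * e‖ ≤ ε1 :=
    fun x hx => hsX _ (Finset.mem_insert_of_mem (Finset.mem_union_left _
      (Finset.mem_union_right _ (Finset.mem_image_of_mem (fun x => w * star x * w) hx))))
  have hwxxw : ∀ x ∈ X, ‖star s * (w * (star x * x) * w) * s - w * (star x * x) * w * e‖ ≤ ε1 :=
    fun x hx => hsX _ (Finset.mem_insert_of_mem (Finset.mem_union_right _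
      (Finset.mem_image_of_mem (fun x => w * (star x * x) * w) hx)))
  have e0 : star (w * s) * (w * s) = star s * (w * w) * s := by
    rw [star_mul, hwsa]; noncomm_ring
  refine ⟨w * s, P133.CIdeal.left_mem I _ hsI, ?_, ?_, fun x hx => ⟨?_, ?_, ?_⟩⟩
  · have h1 : ‖w * s‖ * ‖w * s‖ ≤ 2 := by
      rw [← CStarRing.norm_star_mul_self, e0]
      have h2 := norm_add_le (star s * (w * w) * s - w * w * e) (w * w * e)
      rw [sub_add_cancel] at h2
      have h3 : ‖w * w * e‖ ≤ 1 :=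
        norm_mul_le_one_right he1 (norm_mul_le_one_right hw1 hw1)
      linarith only [hε1a, hww, h2, h3]
    nlinarith only [h1]
  · have e1 : y * (w * s) - w * s = (y * w - w * y) * s + w * (y * s - s) := by noncomm_ring
    rw [e1]
    have n1 : ‖(y * w - w * y) * s‖ ≤ δ' * K :=
      (norm_mul_le _ _).trans (mul_le_mul hyw hsK (norm_nonneg _) hδ'.le)
    have n2 : ‖w * (y * s - s)‖ ≤ ε1 := norm_mul_le_one_left hw1 hys
    refine (norm_add_le _ _).trans ?_
    linarith only [hκ, hκ1, hε1b, hδ'K, n1, n2]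
  · have e1 : star (w * s) * x * (w * s) - x * e =
        (star s * (w * x * w) * s - w * x * w * e) + (w * x * w - x) * e := by
      rw [star_mul, hwsa]; noncomm_ring
    rw [e1]
    have n2 : ‖(w * x * w - x) * e‖ ≤ 2 * κ :=
      norm_mul_le_one_right he1 (norm_conj_unit_le hw1 (hwX x hx (hX x hx)).1
        (hwX x hx (hX x hx)).2)
    refine (norm_add_le _ _).trans ?_
    have := hwxw x hx
    linarith only [hκ, hκ1, hε1b, n2, this]
  · have h5 := comm_sq_le w s e x hw1 hwsa he1 hε1.le hκ.le (hM0 x hx)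
      (hwX x hx (hX x hx)).1 (hwX x hx (hX x hx)).2 hww (hwxw x hx) (hwxw' x hx) (hwxxw x hx)
    have h6 : ‖w * s * x - x * (w * s)‖ ^ 2 ≤ ε ^ 2 := by linarith only [hκ2, hε1d', h5]
    exact (pow_le_pow_iff_left₀ (norm_nonneg _) hε.le two_ne_zero).1 h6
  · have e1 : (star (w * s) * (w * s) - e) * x =
        (star s * (w * w) * s - w * w * e) * x + w * w * (e * x - x * e) - (e * x - x * e)
        + (w * (w * x - x) + (w * x - x)) * e := by
      rw [e0]; noncomm_ring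
    have n1 : ‖(star s * (w * w) * s - w * w * e) * x‖ ≤ ε1 * M0 :=
      (norm_mul_le _ _).trans (mul_le_mul hww (hM0 x hx) (norm_nonneg _) hε1.le)
    have n2 : ‖w * w * (e * x - x * e)‖ ≤ ε / 8 :=
      norm_mul_le_one_left (norm_mul_le_one_left hw1 hw1) (heX x hx)
    have n3 := heX x hx
    have hwx := (hwX x hx (hX x hx)).2
    have n4 : ‖(w * (w * x - x) + (w * x - x)) * e‖ ≤ 2 * κ := by
      refine norm_mul_le_one_right he1 ?_
      have := norm_mul_le_one_left hw1 hwx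
      refine (norm_add_le _ _).trans ?_
      linarith only [hwx, this]
    rw [e1]
    refine (norm_add_le _ _).trans ?_
    have m1 := norm_sub_le ((star s * (w * w) * s - w * w * e) * x + w * w * (e * x - x * e))
      (e * x - x * e)
    have m2 := norm_add_le ((star s * (w * w) * s - w * w * e) * x) (w * w * (e * x - x * e))
    linarith only [hκ, hκ1, hε1c, n1, n2, n3, n4, m1, m2]

end

end Vale.Agent.P095M
end

section

set_option linter.unusedSectionVars false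
set_option linter.unusedVariables false
set_option linter.unusedSimpArgs false

namespace Vale.Agent.P095

open Finset ComplexConjugate

section
variable {B : Type*} [Ring B] [StarRing B] [Algebra ℂ B] [StarModule ℂ B] {σ : B →ₗ[ℂ] ℂ}

namespace CommAux

/-- the parameters with angle `lam / √R` -/
noncomputable def ccl (R : ℕ) (lam : ℝ) : ℂ := (Real.cos (lam * (Real.sqrt R)⁻¹) : ℂ)
noncomputable def ecl (R : ℕ) (lam : ℝ) : ℂ := Complex.I * (Real.sin (lam * (Real.sqrt R)⁻¹) : ℂ)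

lemma parl (R : ℕ) (lam : ℝ) : Par (ccl R lam) (ecl R lam) where
  rel := by
    unfold ccl ecl
    have h := Real.cos_sq_add_sin_sq (lam * (Real.sqrt R)⁻¹)
    have h' : ((Real.cos (lam * (Real.sqrt R)⁻¹) : ℂ)) ^ 2 +
        ((Real.sin (lam * (Real.sqrt R)⁻¹) : ℂ)) ^ 2 = 1 := by
      exact_mod_cast h
    rw [mul_pow, Complex.I_sq]
    linear_combination h'
  hc := by unfold ccl; exact Complex.conj_ofReal _
  he := by unfold ecl; rw [map_mul, Complex.conj_ofReal, Complex.conj_I]; ring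

lemma norm_ecl_le (R : ℕ) {lam : ℝ} (h0 : 0 ≤ lam) (h1 : lam ≤ 1) :
    ‖ecl R lam‖ ≤ (Real.sqrt R)⁻¹ := by
  unfold ecl
  rw [norm_mul, Complex.norm_I, one_mul, Complex.norm_real, Real.norm_eq_abs]
  have h2 : 0 ≤ (Real.sqrt R)⁻¹ := by positivity
  have := Real.abs_sin_le_abs (x := lam * (Real.sqrt R)⁻¹)
  rw [abs_of_nonneg (mul_nonneg h0 h2)] at this
  exact this.trans (mul_le_of_le_one_left h2 h1)

variable {R : ℕ} {x y : Fin R → B}

lemma chi_eq_lam (lam : ℝ) (ω : Fin R → Bool) :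
    Complex.exp (((lam * signSum ω : ℝ) : ℂ) * Complex.I) =
      ((Finset.univ : Finset (Fin R)).toList.map
        (fun r => (ccl R lam - ecl R lam) * 1 +
          (2 * ecl R lam) * (if ω r then 1 else 0))).prod := by
  rw [Finset.prod_map_toList]
  unfold signSum
  rw [Finset.mul_sum]
  push_cast
  rw [Finset.sum_mul, Complex.exp_sum]
  apply Finset.prod_congr rfl
  intro r _
  have h1 : ∀ θ : ℝ, Complex.exp (θ * Complex.I) = Real.cos θ + Complex.I * Real.sin θ := by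
    intro θ
    rw [Complex.exp_mul_I, Complex.ofReal_cos, Complex.ofReal_sin]
    ring
  by_cases hω : ω r = true
  · have := h1 (lam * (Real.sqrt R)⁻¹)
    simp only [hω, if_true]
    unfold ccl ecl
    push_cast at this ⊢
    rw [one_mul, this]
    ring
  · have := h1 (-(lam * (Real.sqrt R)⁻¹))
    simp only [hω, if_false, Bool.false_eq_true]
    unfold ccl ecl
    rw [Real.cos_neg, Real.sin_neg] at this
    push_cast at this ⊢
    rw [show (lam : ℂ) * (-1 * ((Real.sqrt R : ℝ) : ℂ)⁻¹) * Complex.I =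
      -((lam : ℂ) * ((Real.sqrt R : ℝ) : ℂ)⁻¹) * Complex.I by ring, this]
    ring

lemma ev_chi_lam (hx : CommProj x) (lam : ℝ) :
    ev x (fun ω => Complex.exp (((lam * signSum ω : ℝ) : ℂ) * Complex.I)) =
      UU (ccl R lam) (ecl R lam) (sy x) (Finset.univ : Finset (Fin R)).toList := by
  simp_rw [chi_eq_lam]
  rw [hx.ev_list_prod]
  unfold UU
  congr 1
  apply List.map_congr_left
  intro r _
  rw [ev_add, ev_smul, ev_smul, hx.ev_coord, hx.ev_one]
  unfold uu sy
  module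

lemma ev_sin_lam (hx : CommProj x) (lam : ℝ) :
    ev x (fun ω => (Real.sin (lam * signSum ω) : ℂ)) =
      (-Complex.I / 2) • (UU (ccl R lam) (ecl R lam) (sy x) (Finset.univ : Finset (Fin R)).toList -
        star (UU (ccl R lam) (ecl R lam) (sy x) (Finset.univ : Finset (Fin R)).toList)) := by
  rw [← ev_chi_lam hx, hx.ev_star, ← ev_sub, ← ev_smul]
  congr 1
  funext ω
  rw [← Complex.exp_conj, map_mul, Complex.conj_ofReal, Complex.conj_I, Complex.ofReal_sin,
    Complex.sin]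
  rw [mul_neg, neg_mul]
  ring

/-- An element commuting with all symmetries but one almost commutes with the product. -/
lemma comm_UU_le (h : IsTracialState σ) {c e : ℂ} {ι : Type*} {S : ι → B} (hp : Par c e)
    (hss : ∀ i, S i * S i = 1) (hsa : ∀ i, star (S i) = S i) (r : ι) {w : B}
    (hw : ∀ i, i ≠ r → Commute w (S i)) (hw1 : ∀ z, nrm σ (w * z) ≤ nrm σ z)
    (hw2 : ∀ z, nrm σ (z * w) ≤ nrm σ z) (l : List ι) (hl : l.Nodup) :
    nrm σ (w * UU c e S l - UU c e S l * w) ≤ 2 * ‖e‖ := by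
  induction l with
  | nil => simp only [UU, List.map_nil, List.prod_nil, mul_one, one_mul, sub_self, nrm_zero, Nat.ofNat_pos, mul_nonneg_iff_of_pos_left, norm_nonneg]
  | cons a l ih =>
    rw [List.nodup_cons] at hl
    have ih' := ih hl.2
    have hU : UU c e S l ∈ unitary B := UU_unitary hp hss hsa l
    have hu : uu c e (S a) ∈ unitary B := uu_unitary hp (hss a) (hsa a)
    rw [Unitary.mem_iff] at hU hu
    rw [UU_cons]
    by_cases har : a = r
    · subst har
      have hc : Commute w (UU c e S l) :=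
        commute_UU fun i hi => hw i (fun hia => hl.1 (hia ▸ hi))
      have e1 : w * (uu c e (S a) * UU c e S l) - uu c e (S a) * UU c e S l * w =
          (e • (w * S a - S a * w)) * UU c e S l := by
        rw [mul_assoc (uu c e (S a)), ← hc.eq]
        unfold uu
        simp only [add_mul, mul_add, smul_mul_assoc, mul_smul_comm, one_mul, mul_one, sub_mul,
          mul_assoc, smul_sub]
        abel
      rw [e1, nrm_mul_unitary h hU.2, nrm_smul h, mul_comm (2 : ℝ)]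
      apply mul_le_mul_of_nonneg_left _ (norm_nonneg _)
      refine (nrm_sub_le h _ _).trans ?_
      have hs1 : nrm σ (S a) = 1 := by
        have := nrm_unitary_mul (σ := σ) (u := S a) (by rw [hsa, hss]) 1
        rwa [mul_one, nrm_one h] at this
      have a1 := hw1 (S a)
      have a2 := hw2 (S a)
      linarith
    · have hc : Commute w (uu c e (S a)) := commute_uu (hw a har)
      have e1 : w * (uu c e (S a) * UU c e S l) - uu c e (S a) * UU c e S l * w =
          uu c e (S a) * (w * UU c e S l - UU c e S l * w) := by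
        rw [← mul_assoc, hc.eq, mul_sub, mul_assoc, mul_assoc]
      rw [e1, nrm_unitary_mul hu.1]
      exact ih'

lemma comm_w_sin_le (h : IsTracialState σ) (lam : ℝ) (h0 : 0 ≤ lam) (h1 : lam ≤ 1)
    (hy : CommProj y) (r : Fin R) {w : B}
    (hw : ∀ j, j ≠ r → w * y j = y j * w) (hw1 : ∀ z, nrm σ (w * z) ≤ nrm σ z)
    (hw2 : ∀ z, nrm σ (z * w) ≤ nrm σ z) :
    nrm σ (ev y (fun ω => (Real.sin (lam * signSum ω) : ℂ)) * w -
      w * ev y (fun ω => (Real.sin (lam * signSum ω) : ℂ))) ≤ 2 * (Real.sqrt R)⁻¹ := by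
  have hU := UU_unitary (parl R lam) (sy_sq hy) (sy_sa hy) (Finset.univ : Finset (Fin R)).toList
  have hle := comm_UU_le h (parl R lam) (sy_sq hy) (sy_sa hy) r
    (fun i hi => by
      have hc : Commute w (y i) := hw i hi
      exact (hc.smul_right (2 : ℂ)).sub_right (Commute.one_right _)) hw1 hw2
    (Finset.univ : Finset (Fin R)).toList (Finset.nodup_toList _)
  rw [ev_sin_lam hy]
  set U := UU (ccl R lam) (ecl R lam) (sy y) (Finset.univ : Finset (Fin R)).toList with hUdef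
  have e1 : (-Complex.I / 2) • (U - star U) * w - w * (-Complex.I / 2) • (U - star U) =
      (-Complex.I / 2) • ((w * star U - star U * w) - (w * U - U * w)) := by
    rw [smul_mul_assoc, mul_smul_comm, ← smul_sub]
    congr 1
    noncomm_ring
  rw [e1, nrm_smul h]
  have a1 := nrm_comm_star_right h w hU
  have a2 := nrm_sub_le h (w * star U - star U * w) (w * U - U * w)
  have a3 : ‖(-Complex.I / 2 : ℂ)‖ = 1 / 2 := by simp only [Complex.norm_div, norm_neg, Complex.norm_I, Complex.norm_ofNat, one_div]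
  rw [a3]
  have a4 := norm_ecl_le R h0 h1
  linarith only [hle, a1, a2, a4]

lemma nrm_poly_comm_w (h : IsTracialState σ) {X w : B} (hXl : ∀ z, nrm σ (X * z) ≤ nrm σ z)
    (hXr : ∀ z, nrm σ (z * X) ≤ nrm σ z) (Q : Polynomial ℝ) :
    nrm σ (w * (∑ k ∈ Q.support, (Q.coeff k : ℂ) • X ^ k) -
      (∑ k ∈ Q.support, (Q.coeff k : ℂ) • X ^ k) * w) ≤
      (∑ k ∈ Q.support, |Q.coeff k| * k) * nrm σ (X * w - w * X) := by
  have e1 : w * (∑ k ∈ Q.support, (Q.coeff k : ℂ) • X ^ k) -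
      (∑ k ∈ Q.support, (Q.coeff k : ℂ) • X ^ k) * w =
      ∑ k ∈ Q.support, (Q.coeff k : ℂ) • (w * X ^ k - X ^ k * w) := by
    rw [Finset.mul_sum, Finset.sum_mul, ← Finset.sum_sub_distrib]
    apply Finset.sum_congr rfl
    intro k _
    rw [mul_smul_comm, smul_mul_assoc, smul_sub]
  rw [e1]
  refine (nrm_sum_le h _ _).trans ?_
  rw [Finset.sum_mul]
  apply Finset.sum_le_sum
  intro k _
  rw [nrm_smul h, Complex.norm_real, Real.norm_eq_abs, nrm_sub_comm, mul_assoc]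
  exact mul_le_mul_of_nonneg_left (nrm_pow_comm h hXl hXr w k) (abs_nonneg _)

end CommAux

open CommAux in
/-- `comm_sin_bound` for `sin (lam * signSum ω)` -/
theorem comm_sin_bound_lam (h : IsTracialState σ) {R : ℕ} (hR : 1 ≤ R) (lam : ℝ) (h0 : 0 ≤ lam)
    (h1 : lam ≤ 1) {x y : Fin R → B}
    (hx : CommProj x) (hy : CommProj y) (hxy : ∀ i j, i ≠ j → x i * y j = y j * x i) :
    nrm σ (ev x (fun ω => (Real.sin (lam * signSum ω) : ℂ)) *
        ev y (fun ω => (Real.sin (lam * signSum ω) : ℂ))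
      - ev y (fun ω => (Real.sin (lam * signSum ω) : ℂ)) *
        ev x (fun ω => (Real.sin (lam * signSum ω) : ℂ))) ^ 2
      ≤ 100 / Real.sqrt R := by
  have hU := UU_unitary (parl R lam) (sy_sq hx) (sy_sa hx) (Finset.univ : Finset (Fin R)).toList
  have hV := UU_unitary (parl R lam) (sy_sq hy) (sy_sa hy) (Finset.univ : Finset (Fin R)).toList
  have hW := trace_WW h (parl R lam) (sy_sq hx) (sy_sa hx) (sy_sq hy) (sy_sa hy)
    (fun i j => commute_sy (hx.comm i j)) (fun i j => commute_sy (hy.comm i j))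
    (fun i j hij => commute_sy (hxy i j hij)) (Finset.univ : Finset (Fin R)).toList
    (Finset.nodup_toList _)
  have h2 := nrm_comm_sq_le h hU hV hW
  rw [ev_sin_lam hx, ev_sin_lam hy]
  have h3 := nrm_comm_sin_le h hU hV (-Complex.I / 2) (by simp)
  refine (pow_le_pow_left₀ (nrm_nonneg _) h3 2).trans (h2.trans ?_)
  rw [Finset.length_toList, Finset.card_univ, Fintype.card_fin]
  have hRr : (1 : ℝ) ≤ R := by exact_mod_cast hR
  have hsq : (1 : ℝ) ≤ Real.sqrt R := by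
    rw [Real.one_le_sqrt]; exact hRr
  have h3 : ‖ecl R lam‖ ^ 4 ≤ ((Real.sqrt R)⁻¹) ^ 4 :=
    pow_le_pow_left₀ (norm_nonneg _) (norm_ecl_le R h0 h1) 4
  have h4 : ((Real.sqrt R)⁻¹) ^ 4 = ((R : ℝ)⁻¹) ^ 2 := by
    rw [show (4 : ℕ) = 2 * 2 by norm_num, pow_mul, inv_pow, Real.sq_sqrt (by positivity)]
  rw [h4] at h3
  have h5 : 2 * (2 * ‖ecl R lam‖ ^ 4 * R) ≤ 4 * (R : ℝ)⁻¹ := by
    have h6 : ‖ecl R lam‖ ^ 4 * R ≤ ((R : ℝ)⁻¹) ^ 2 * R :=
      mul_le_mul_of_nonneg_right h3 (by positivity)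
    have h7 : ((R : ℝ)⁻¹) ^ 2 * R = (R : ℝ)⁻¹ := by
      field_simp
    linarith only [h6, h7]
  refine h5.trans ?_
  have h8 : (R : ℝ)⁻¹ ≤ (Real.sqrt R)⁻¹ := by
    apply inv_anti₀ (by positivity)
    calc Real.sqrt R = Real.sqrt R * 1 := (mul_one _).symm
      _ ≤ Real.sqrt R * Real.sqrt R := mul_le_mul_of_nonneg_left hsq (by positivity)
      _ = R := Real.mul_self_sqrt (by positivity)
  rw [div_eq_mul_inv]
  have : 0 ≤ (Real.sqrt R)⁻¹ := by positivity
  linarith only [h8, this]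

namespace CommAux

/-- distance between the indicator and the polynomial -/
lemma nrm_ind_sub_poly_le (h : IsTracialState σ) {R : ℕ} {z : Fin R → B} (lam : ℝ)
    (Q : Polynomial ℝ) (Φ : Finset (Fin R → Bool)) (ε : ℝ)
    (hΦ : (∑ ω, ((if ω ∈ Φ then (1 : ℝ) else 0) - Q.eval (Real.sin (lam * signSum ω))) ^ 2) / 2 ^ R
      ≤ ε) (hz : CommProj z) (hlz : ∀ ω, σ (atom z ω) = (1 / 2 ^ R : ℂ)) :
    nrm σ (ev z (fun ω => if ω ∈ Φ then (1 : ℂ) else 0) -
      ev z (fun ω => ((Q.eval (Real.sin (lam * signSum ω)) : ℝ) : ℂ))) ≤ Real.sqrt ε := by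
  rw [← ev_sub]
  have e1 : (fun ω : Fin R → Bool => (if ω ∈ Φ then (1 : ℂ) else 0) -
      ((Q.eval (Real.sin (lam * signSum ω)) : ℝ) : ℂ)) =
      fun ω => (((if ω ∈ Φ then (1 : ℝ) else 0) -
        Q.eval (Real.sin (lam * signSum ω)) : ℝ) : ℂ) := by
    funext ω
    push_cast
    split_ifs <;> simp
  rw [e1]
  apply Real.le_sqrt_of_sq_le
  rw [nrm_ev_sq h hz hlz]
  exact hΦ

end CommAux

open CommAux in
/-- `comm_ind_bound` for `sin (lam * signSum ω)` -/
theorem comm_ind_bound_lam (h : IsTracialState σ) {R : ℕ} (hR : 1 ≤ R) (lam : ℝ) (h0 : 0 ≤ lam)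
    (h1 : lam ≤ 1) {x y : Fin R → B}
    (hx : CommProj x) (hy : CommProj y) (hxy : ∀ i j, i ≠ j → x i * y j = y j * x i)
    (hlx : ∀ ω, σ (atom x ω) = (1 / 2 ^ R : ℂ)) (hly : ∀ ω, σ (atom y ω) = (1 / 2 ^ R : ℂ))
    (Q : Polynomial ℝ) (hQ : ∀ t ∈ Set.Icc (-1 : ℝ) 1, |Q.eval t| ≤ 2)
    (Φ : Finset (Fin R → Bool)) (ε : ℝ) (hε : 0 ≤ ε)
    (hΦ : (∑ ω, ((if ω ∈ Φ then (1 : ℝ) else 0) - Q.eval (Real.sin (lam * signSum ω))) ^ 2) / 2 ^ R
      ≤ ε) :
    nrm σ (ev x (fun ω => if ω ∈ Φ then 1 else 0) * ev y (fun ω => if ω ∈ Φ then 1 else 0)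
      - ev y (fun ω => if ω ∈ Φ then 1 else 0) * ev x (fun ω => if ω ∈ Φ then 1 else 0))
      ≤ 6 * Real.sqrt ε + commConst Q * Real.sqrt (100 / Real.sqrt R) := by
  set Ex := ev x (fun ω => if ω ∈ Φ then (1 : ℂ) else 0) with hEx
  set Ey := ev y (fun ω => if ω ∈ Φ then (1 : ℂ) else 0) with hEy
  set Dx := ev x (fun ω => ((Q.eval (Real.sin (lam * signSum ω)) : ℝ) : ℂ)) with hDx
  set Dy := ev y (fun ω => ((Q.eval (Real.sin (lam * signSum ω)) : ℝ) : ℂ)) with hDy
  have dx : nrm σ (Ex - Dx) ≤ Real.sqrt ε := nrm_ind_sub_poly_le h lam Q Φ ε hΦ hx hlx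
  have dy : nrm σ (Ey - Dy) ≤ Real.sqrt ε := nrm_ind_sub_poly_le h lam Q Φ ε hΦ hy hly
  have hind : ∀ ω : Fin R → Bool, ‖(if ω ∈ Φ then (1 : ℂ) else 0)‖ ≤ 1 := by
    intro ω; split_ifs <;> simp
  have hQb : ∀ ω : Fin R → Bool, ‖((Q.eval (Real.sin (lam * signSum ω)) : ℝ) : ℂ)‖ ≤ 2 := by
    intro ω
    rw [Complex.norm_real, Real.norm_eq_abs]
    exact hQ _ ⟨Real.neg_one_le_sin _, Real.sin_le_one _⟩
  have hsb : ∀ ω : Fin R → Bool, ‖((Real.sin (lam * signSum ω) : ℝ) : ℂ)‖ ≤ 1 := by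
    intro ω
    rw [Complex.norm_real, Real.norm_eq_abs]
    exact Real.abs_sin_le_one _
  -- three pieces
  have p1 : nrm σ (Ey * (Ex - Dx) - (Ex - Dx) * Ey) ≤ 2 * 1 * nrm σ (Ex - Dx) :=
    nrm_comm_le h (hy.nrm_ev_mul_le h _ 1 (by norm_num) hind _)
      (hy.nrm_mul_ev_le h _ 1 (by norm_num) hind _)
  have p2 : nrm σ (Dx * (Ey - Dy) - (Ey - Dy) * Dx) ≤ 2 * 2 * nrm σ (Ey - Dy) :=
    nrm_comm_le h (hx.nrm_ev_mul_le h _ 2 (by norm_num) hQb _)
      (hx.nrm_mul_ev_le h _ 2 (by norm_num) hQb _)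
  have p3 : nrm σ (Dx * Dy - Dy * Dx) ≤ commConst Q * Real.sqrt (100 / Real.sqrt R) := by
    rw [hDx, hDy, ev_poly hx, ev_poly hy]
    refine (nrm_poly_comm h (fun z => ?_) (fun z => ?_) (fun z => ?_) (fun z => ?_) Q).trans ?_
    · simpa only [Complex.ofReal_sin, Complex.ofReal_mul, one_mul] using hx.nrm_ev_mul_le h _ 1 (by norm_num) hsb z
    · simpa only [Complex.ofReal_sin, Complex.ofReal_mul, one_mul] using hx.nrm_mul_ev_le h _ 1 (by norm_num) hsb z
    · simpa only [Complex.ofReal_sin, Complex.ofReal_mul, one_mul] using hy.nrm_ev_mul_le h _ 1 (by norm_num) hsb z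
    · simpa only [Complex.ofReal_sin, Complex.ofReal_mul, one_mul] using hy.nrm_mul_ev_le h _ 1 (by norm_num) hsb z
    · apply mul_le_mul_of_nonneg_left _ (by unfold commConst; (clear * -; positivity))
      apply Real.le_sqrt_of_sq_le
      exact comm_sin_bound_lam h hR lam h0 h1 hx hy hxy
  have e2 : Ex * Ey - Ey * Ex = -(Ey * (Ex - Dx) - (Ex - Dx) * Ey) +
      (Dx * (Ey - Dy) - (Ey - Dy) * Dx) + (Dx * Dy - Dy * Dx) := by noncomm_ring
  rw [e2]
  have q1 := nrm_add_le h (-(Ey * (Ex - Dx) - (Ex - Dx) * Ey) +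
      (Dx * (Ey - Dy) - (Ey - Dy) * Dx)) (Dx * Dy - Dy * Dx)
  have q2 := nrm_add_le h (-(Ey * (Ex - Dx) - (Ex - Dx) * Ey)) (Dx * (Ey - Dy) - (Ey - Dy) * Dx)
  rw [nrm_neg] at q2
  linarith only [dx, dy, p1, p2, p3, q1, q2]

/-- constant for the next lemma -/
noncomputable def vConst (Q : Polynomial ℝ) : ℝ := 8 * ∑ k ∈ Q.support, |Q.coeff k| * k

open CommAux in
/-- An element commuting with all but one of the `y j` almost commutes with the indicator. -/
theorem comm_v_bound (h : IsTracialState σ) {R : ℕ} (hR : 1 ≤ R) (lam : ℝ) (h0 : 0 ≤ lam)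
    (h1 : lam ≤ 1) {y : Fin R → B} (hy : CommProj y) (r : Fin R) {w : B}
    (hw : ∀ j, j ≠ r → w * y j = y j * w) (hw1 : ∀ z, nrm σ (w * z) ≤ nrm σ z)
    (hw2 : ∀ z, nrm σ (z * w) ≤ nrm σ z)
    (hly : ∀ ω, σ (atom y ω) = (1 / 2 ^ R : ℂ))
    (Q : Polynomial ℝ) (Φ : Finset (Fin R → Bool)) (ε : ℝ) (hε : 0 ≤ ε)
    (hΦ : (∑ ω, ((if ω ∈ Φ then (1 : ℝ) else 0) - Q.eval (Real.sin (lam * signSum ω))) ^ 2) / 2 ^ R
      ≤ ε) :
    nrm σ (w * ev y (fun ω => if ω ∈ Φ then 1 else 0) - ev y (fun ω => if ω ∈ Φ then 1 else 0) * w)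
      ≤ 2 * Real.sqrt ε + vConst Q / Real.sqrt R := by
  set Ey := ev y (fun ω => if ω ∈ Φ then (1 : ℂ) else 0) with hEy
  set Dy := ev y (fun ω => ((Q.eval (Real.sin (lam * signSum ω)) : ℝ) : ℂ)) with hDy
  have dy : nrm σ (Ey - Dy) ≤ Real.sqrt ε := nrm_ind_sub_poly_le h lam Q Φ ε hΦ hy hly
  have hsb : ∀ ω : Fin R → Bool, ‖((Real.sin (lam * signSum ω) : ℝ) : ℂ)‖ ≤ 1 := by
    intro ω
    rw [Complex.norm_real, Real.norm_eq_abs]
    exact Real.abs_sin_le_one _
  have p1 : nrm σ (w * (Ey - Dy) - (Ey - Dy) * w) ≤ 2 * Real.sqrt ε := by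
    refine (nrm_sub_le h _ _).trans ?_
    have a1 := hw1 (Ey - Dy)
    have a2 := hw2 (Ey - Dy)
    linarith only [dy, a1, a2]
  have p2 : nrm σ (w * Dy - Dy * w) ≤ vConst Q / Real.sqrt R := by
    rw [hDy, ev_poly hy]
    refine (nrm_poly_comm_w h (fun z => ?_) (fun z => ?_) Q).trans ?_
    · simpa only [Complex.ofReal_sin, Complex.ofReal_mul, one_mul] using hy.nrm_ev_mul_le h _ 1 (by norm_num) hsb z
    · simpa only [Complex.ofReal_sin, Complex.ofReal_mul, one_mul] using hy.nrm_mul_ev_le h _ 1 (by norm_num) hsb z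
    · have a1 := comm_w_sin_le h lam h0 h1 hy r hw hw1 hw2
      have a2 : 0 ≤ ∑ k ∈ Q.support, |Q.coeff k| * (k : ℝ) :=
        Finset.sum_nonneg fun k _ => by (clear * -; positivity)
      have a3 : 0 ≤ (Real.sqrt R)⁻¹ := by positivity
      refine (mul_le_mul_of_nonneg_left a1 a2).trans ?_
      unfold vConst
      rw [div_eq_mul_inv]
      nlinarith only [a2, a3]
  have e2 : w * Ey - Ey * w = (w * (Ey - Dy) - (Ey - Dy) * w) + (w * Dy - Dy * w) := by
    noncomm_ring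
  rw [e2]
  have q1 := nrm_add_le h (w * (Ey - Dy) - (Ey - Dy) * w) (w * Dy - Dy * w)
  linarith only [p1, p2, q1]

end

end Vale.Agent.P095
end

section

set_option linter.unusedSectionVars false
set_option linter.unusedVariables false
set_option linter.unusedSimpArgs false

namespace Vale.Agent.P095

open Filter Topology ComplexConjugate

section
variable {A : Type*} [CStarAlgebra A] {G : Type*} [Group G] (α : G →* (A ≃⋆ₐ[ℂ] A))

/-- a central copy of the 2x2 matrices -/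
def GoodV (F : Set (BSeq A)) (v : BSeq A) : Prop :=
  (∀ n, ‖v.1 n‖ ≤ 1) ∧ ∀ t : LimTr A, nrm t.val (v * v) = 0 ∧
    nrm t.val (star v * v + v * star v - 1) = 0 ∧ ∀ b ∈ F, nrm t.val (v * b - b * v) = 0

theorem lift_v (h : UniformMcDuff A) (F : Set (BSeq A)) (hF : F.Countable) :
    ∃ v, GoodV F v := by
  classical
  obtain ⟨f, hf⟩ : ∃ f : ℕ → BSeq A, F ⊆ Set.range f := by
    rcases F.eq_empty_or_nonempty with h0 | h0
    · exact ⟨fun _ => 0, by rw [h0]; exact Set.empty_subset _⟩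
    · obtain ⟨f, hf⟩ := hF.exists_eq_range h0
      exact ⟨f, hf.le⟩
  have h1 : ∀ n : ℕ, ∃ v : A, ‖v‖ ≤ 1 ∧ TwoNormLE (v * v) (1 / ((n : ℝ) + 1)) ∧
      TwoNormLE (star v * v + v * star v - 1) (1 / ((n : ℝ) + 1)) ∧
      ∀ a ∈ (Finset.range (n + 1)).image (fun i => (f i).1 n),
        TwoNormLE (v * a - a * v) (1 / ((n : ℝ) + 1)) :=
    fun n => h _ _ (by positivity)
  choose v hv using h1
  have hlim : ∀ t : LimTr A, Tendsto (fun n : ℕ => 1 / ((n : ℝ) + 1)) (t.U : Filter ℕ) (𝓝 0) :=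
    fun t => tendsto_one_div_add_atTop_nhds_zero_nat.mono_left t.hU
  let V : BSeq A := ⟨v, 1, fun n => (hv n).1⟩
  have key : ∀ (t : LimTr A) (z : BSeq A),
      (∀ᶠ n in (t.U : Filter ℕ), TwoNormLE (z.1 n) (1 / ((n : ℝ) + 1))) → nrm t.val z = 0 := by
    intro t z hz
    apply le_antisymm _ (nrm_nonneg _)
    exact le_of_tendsto_of_tendsto (t.tendsto_nrm z) (hlim t)
      (hz.mono (fun n hn => nrm_le_of_two_part (t.hτ n) (by (clear * -; positivity)) hn))
  refine ⟨V, fun n => (hv n).1, fun t => ⟨?_, ?_, ?_⟩⟩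
  · exact key t _ (Eventually.of_forall (fun n => (hv n).2.1))
  · exact key t _ (Eventually.of_forall (fun n => (hv n).2.2.1))
  · intro b hb
    obtain ⟨i, rfl⟩ := hf hb
    have h2 : ∀ᶠ n in (t.U : Filter ℕ), i ≤ n := t.hU (eventually_ge_atTop i)
    refine key t _ (h2.mono (fun n hn => (hv n).2.2.2 _ ?_))
    exact Finset.mem_image_of_mem (fun i => (f i).1 n)
      (Finset.mem_range.mpr (Nat.lt_succ_of_le hn))

/-- diagonal pairs -/
def diagL (l : List (BSeq A)) : List (BSeq A × BSeq A) := l.map (fun v => (v, v))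

theorem exists_matSys (h : UniformMcDuff A) (L : Finset G) (F0 : Set (BSeq A))
    (hF : F0.Countable) (R : ℕ) :
    ∃ v : ℕ → BSeq A, (∀ n k, ‖(v n).1 k‖ ≤ 1) ∧ ∀ t : LimTr A,
      ∃ P : ℕ → Subalgebra ℂ (Qt t.isTracial), (∀ b ∈ F0, t.c b ∈ P 0) ∧
      MatSys t.q R P (fun i : Fin R × {g // g ∈ L} => t.c (actB (α i.2.1) (v i.1))) := by
  classical
  obtain ⟨v, hv⟩ := exists_seq (fun F w => GoodV F w) (lift_v h)
    (fun l => wordsT α L F0 (diagL l)) (fun l => wordsT_countable α L F0 hF _)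
  have hmul : ∀ (t : LimTr A) (x y : BSeq A), t.c (x * y) = t.c x * t.c y :=
    fun t x y => map_mul t.c x y
  refine ⟨v, fun n k => (hv n).1 k, fun t => ⟨fun n => Algebra.adjoin ℂ
    (t.c '' (letters α L F0 (diagL ((List.range n).map v)))), ?_, ?_⟩⟩
  · intro b hb
    exact Algebra.subset_adjoin ⟨b, Or.inl hb, rfl⟩
  -- commutation with words
  have hT : ∀ (n : ℕ) (g : G), g ∈ L → ∀ b ∈ letters α L F0 (diagL ((List.range n).map v)),
      t.c (actB (α g) (v n)) * t.c b = t.c b * t.c (actB (α g) (v n)) := by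
    intro n g hg b hb
    have hb' : actB (α g⁻¹) b ∈ wordsT α L F0 (diagL ((List.range n).map v)) :=
      ⟨g, hg, b, Submonoid.subset_closure hb, rfl⟩
    have h1 := ((hv n).2 (t.comp (α g))).2.2 _ hb'
    rw [t.comp_nrm, map_sub, map_mul, map_mul, actB_inv] at h1
    rw [← hmul, ← hmul]; exact t.c_eq h1
  refine ⟨?_, ?_, ?_, ?_, ?_, ?_⟩
  · intro m n hmn
    apply Algebra.adjoin_mono
    apply Set.image_mono
    apply letters_mono
    intro x hx
    unfold diagL at hx ⊢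
    rw [List.mem_map] at hx ⊢
    obtain ⟨y, hy, rfl⟩ := hx
    refine ⟨y, ?_, rfl⟩
    rw [List.mem_map] at hy ⊢
    obtain ⟨k, hk, rfl⟩ := hy
    exact ⟨k, List.mem_range.mpr (lt_of_lt_of_le (List.mem_range.mp hk) hmn), rfl⟩
  · intro n w hw
    induction hw using Algebra.adjoin_induction with
    | mem x hx =>
      obtain ⟨b, hb, rfl⟩ := hx
      exact Algebra.subset_adjoin ⟨star b, letters_star α L F0 _ hb, rfl⟩
    | algebraMap r =>
      rw [Algebra.algebraMap_eq_smul_one, star_smul, star_one]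
      exact Subalgebra.smul_mem _ (Subalgebra.one_mem _) _
    | add x y _ _ hx hy => rw [star_add]; exact Subalgebra.add_mem _ hx hy
    | mul x y _ _ hx hy => rw [star_mul]; exact Subalgebra.mul_mem _ hy hx
  · rintro n ⟨g, hg⟩
    apply Algebra.subset_adjoin
    refine ⟨actB (α g) (v n), Or.inr (Or.inr ⟨g, hg, (v n, v n), ?_, Or.inl rfl⟩), rfl⟩
    unfold diagL
    refine List.mem_map.mpr ⟨v n, List.mem_map.mpr ⟨n, List.mem_range.mpr
      (Nat.lt_succ_self _), rfl⟩, rfl⟩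
  · rintro ⟨n, g, hg⟩
    have := ((hv n).2 (t.comp (α g))).1
    rw [t.comp_nrm, map_mul] at this
    show t.c (actB (α g) (v n)) * t.c (actB (α g) (v n)) = 0
    rw [← hmul, ← map_zero t.c]
    apply t.c_eq
    rw [sub_zero]; exact this
  · rintro ⟨n, g, hg⟩
    have := ((hv n).2 (t.comp (α g))).2.1
    rw [t.comp_nrm, map_sub, map_add, map_mul, map_mul, map_star, map_one] at this
    show star (t.c (actB (α g) (v n))) * t.c (actB (α g) (v n)) +
      t.c (actB (α g) (v n)) * star (t.c (actB (α g) (v n))) = 1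
    rw [← t.c_star, ← hmul, ← hmul, ← map_add, ← map_one t.c]
    exact t.c_eq this
  · rintro n ⟨g, hg⟩ w hw
    show t.c (actB (α g) (v n)) * w = w * t.c (actB (α g) (v n))
    induction hw using Algebra.adjoin_induction with
    | mem x hx =>
      obtain ⟨b, hb, rfl⟩ := hx
      exact hT n g hg b hb
    | algebraMap r => exact (Algebra.commutes r _).symm
    | add x y _ _ hx hy => rw [mul_add, add_mul, hx, hy]
    | mul x y _ _ hx hy => rw [← mul_assoc, hx, mul_assoc, hy, mul_assoc]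

end

end Vale.Agent.P095
end

section

set_option linter.unusedSectionVars false
set_option linter.unusedVariables false
set_option linter.unusedSimpArgs false

namespace Vale.Agent.P095

open Filter Topology ComplexConjugate

section
variable {A : Type*} [CStarAlgebra A] {G : Type*} [Group G] (α : G →* (A ≃⋆ₐ[ℂ] A))

/-- translates of the sequence -/
noncomputable def VB (L : Finset G) (v : ℕ → BSeq A) (R : ℕ) : Fin R × {g // g ∈ L} → BSeq A :=
  fun i => actB (α i.2.1) (v i.1)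

/-- translates in the quotient -/
noncomputable def VT (t : LimTr A) (L : Finset G) (v : ℕ → BSeq A) (R : ℕ) :
    Fin R × {g // g ∈ L} → Qt t.isTracial := fun i => t.c (actB (α i.2.1) (v i.1))

variable {L : Finset G} {v : ℕ → BSeq A} {R J : ℕ}

theorem bt_at (t : LimTr A) (Φ : Fin J → Finset (Fin R → Bool)) (k : Bool × Fin J)
    (i : {g // g ∈ L}) : t.c (bt Φ (VB α L v R) k i) = bt Φ (VT α t L v R) k i := by
  unfold bt
  rw [map_ev t.c (fun c x => t.c_smul c x)]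
  congr 1
  funext r
  exact map_hp t.c (fun x => t.c_star x) (fun c x => t.c_smul c x) k.1 _

theorem act_bt (Φ : Fin J → Finset (Fin R → Bool)) (k : Bool × Fin J) (h1 : (1 : G) ∈ L)
    (i : {g // g ∈ L}) : actB (α i.1) (bt Φ (VB α L v R) k ⟨1, h1⟩) =
      bt Φ (VB α L v R) k i := by
  unfold bt
  have e1 : actB (α i.1) (ev (hf k.1 (VB α L v R) ⟨1, h1⟩) (fun ω => if ω ∈ Φ k.2 then 1 else 0)) =
      ev (fun r => actB (α i.1) (hf k.1 (VB α L v R) ⟨1, h1⟩ r))
        (fun ω => if ω ∈ Φ k.2 then 1 else 0) :=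
    map_ev ((actB (α i.1) : BSeq A →⋆ₐ[ℂ] BSeq A) : BSeq A →+* BSeq A)
        (fun c x => map_smul (actB (α i.1)) c x) _ _
  rw [e1]
  congr 1
  funext r
  have e2 : actB (α i.1) (hp k.1 (VB α L v R (r, ⟨1, h1⟩))) =
      hp k.1 (actB (α i.1) (VB α L v R (r, ⟨1, h1⟩))) :=
    map_hp ((actB (α i.1) : BSeq A →⋆ₐ[ℂ] BSeq A) : BSeq A →+* BSeq A)
      (fun x => map_star (actB (α i.1)) x) (fun c x => map_smul (actB (α i.1)) c x) k.1 _
  show actB (α i.1) (hp k.1 (VB α L v R (r, ⟨1, h1⟩))) = hp k.1 (VB α L v R (r, i))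
  rw [e2]
  congr 1
  show actB (α i.1) (actB (α 1) (v r)) = actB (α i.1) (v r)
  rw [actB_one]

theorem pq_at (t : LimTr A) (Φ : Fin J → Finset (Fin R → Bool)) (z : Bool × Fin J → BSeq A)
    (i : {g // g ∈ L}) : t.c (pq Φ (VB α L v R) z i) =
      pq Φ (VT α t L v R) (fun k => t.c (z k)) i := by
  unfold pq
  rw [map_sum]
  apply Finset.sum_congr rfl
  intro k _
  rw [map_mul, bt_at]

theorem pq_act (t : LimTr A) (Φ : Fin J → Finset (Fin R → Bool)) (z : Bool × Fin J → BSeq A)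
    (h1 : (1 : G) ∈ L) (i : {g // g ∈ L}) (hz : ∀ k, t.c (actB (α i.1) (z k)) = t.c (z k)) :
    t.c (actB (α i.1) (pq Φ (VB α L v R) z ⟨1, h1⟩)) =
      pq Φ (VT α t L v R) (fun k => t.c (z k)) i := by
  unfold pq
  rw [map_sum, map_sum]
  apply Finset.sum_congr rfl
  intro k _
  rw [map_mul (actB (α i.1)), map_mul t.c, act_bt, bt_at, hz]

theorem vq_at (t : LimTr A) (ζ : Fin R → BSeq A) (i : {g // g ∈ L}) :
    t.c (vq (VB α L v R) ζ i) = vq (VT α t L v R) (fun k => t.c (ζ k)) i := by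
  unfold vq
  rw [map_sum]
  apply Finset.sum_congr rfl
  intro k _
  rw [map_mul]; rfl

theorem vq_act (t : LimTr A) (ζ : Fin R → BSeq A) (h1 : (1 : G) ∈ L) (i : {g // g ∈ L})
    (hz : ∀ k, t.c (actB (α i.1) (ζ k)) = t.c (ζ k)) :
    t.c (actB (α i.1) (vq (VB α L v R) ζ ⟨1, h1⟩)) =
      vq (VT α t L v R) (fun k => t.c (ζ k)) i := by
  unfold vq
  rw [map_sum, map_sum]
  apply Finset.sum_congr rfl
  intro k _
  rw [map_mul (actB (α i.1)), map_mul t.c, hz]
  congr 2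
  show actB (α i.1) (actB (α 1) (v k)) = actB (α i.1) (v k)
  rw [actB_one]

/-- elements of which the first partition has to be independent -/
def XZ (L : Finset G) (F : Finset A) (v : ℕ → BSeq A) (R : ℕ) {J : ℕ}
    (Φ : Fin J → Finset (Fin R → Bool)) (h1 : (1 : G) ∈ L) : Set (BSeq A) :=
  {b | b ∈ cst A '' (F : Set A) ∨ b ∈ Set.range (VB α L v R) ∨
    (∃ k : Bool × Fin J, ∃ i : {g // g ∈ L}, b = bt Φ (VB α L v R) k i) ∨
    (∃ a ∈ F, ∃ k : Bool × Fin J, b = cst A a * bt Φ (VB α L v R) k ⟨1, h1⟩) ∨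
    (∃ a ∈ F, ∃ k : Bool × Fin J, ∃ i : {g // g ∈ L},
      b = (bt Φ (VB α L v R) k i - bt Φ (VB α L v R) k ⟨1, h1⟩) * cst A a) ∨
    (∃ k : Bool × Fin J, ∃ i : {g // g ∈ L},
      b = bt Φ (VB α L v R) k ⟨1, h1⟩ * bt Φ (VB α L v R) k i -
        bt Φ (VB α L v R) k i * bt Φ (VB α L v R) k ⟨1, h1⟩) ∨
    (∃ k : Bool × Fin J, ∃ r : Fin R × {g // g ∈ L},
      b = VB α L v R r * bt Φ (VB α L v R) k ⟨1, h1⟩ -
        bt Φ (VB α L v R) k ⟨1, h1⟩ * VB α L v R r)}

theorem XZ_countable (L : Finset G) (F : Finset A) (v : ℕ → BSeq A) (R : ℕ) {J : ℕ}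
    (Φ : Fin J → Finset (Fin R → Bool)) (h1 : (1 : G) ∈ L) :
    (XZ α L F v R Φ h1).Countable := by
  have hF : (F : Set A).Countable := Finset.countable_toSet F
  have hsub : XZ α L F v R Φ h1 ⊆ cst A '' (F : Set A) ∪ Set.range (VB α L v R) ∪
      (Set.range fun w : (Bool × Fin J) × {g // g ∈ L} => bt Φ (VB α L v R) w.1 w.2) ∪
      (⋃ a ∈ (F : Set A), Set.range fun k : Bool × Fin J =>
        cst A a * bt Φ (VB α L v R) k ⟨1, h1⟩) ∪
      (⋃ a ∈ (F : Set A), Set.range fun w : (Bool × Fin J) × {g // g ∈ L} =>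
        (bt Φ (VB α L v R) w.1 w.2 - bt Φ (VB α L v R) w.1 ⟨1, h1⟩) * cst A a) ∪
      (Set.range fun w : (Bool × Fin J) × {g // g ∈ L} =>
        bt Φ (VB α L v R) w.1 ⟨1, h1⟩ * bt Φ (VB α L v R) w.1 w.2 -
        bt Φ (VB α L v R) w.1 w.2 * bt Φ (VB α L v R) w.1 ⟨1, h1⟩) ∪
      (Set.range fun w : (Bool × Fin J) × (Fin R × {g // g ∈ L}) =>
        VB α L v R w.2 * bt Φ (VB α L v R) w.1 ⟨1, h1⟩ -
        bt Φ (VB α L v R) w.1 ⟨1, h1⟩ * VB α L v R w.2) := by
    rintro b (h | h | ⟨k, i, rfl⟩ | ⟨a, ha, k, rfl⟩ | ⟨a, ha, k, i, rfl⟩ | ⟨k, i, rfl⟩ |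
      ⟨k, r, rfl⟩)
    · exact Or.inl (Or.inl (Or.inl (Or.inl (Or.inl (Or.inl h)))))
    · exact Or.inl (Or.inl (Or.inl (Or.inl (Or.inl (Or.inr h)))))
    · exact Or.inl (Or.inl (Or.inl (Or.inl (Or.inr ⟨(k, i), rfl⟩))))
    · exact Or.inl (Or.inl (Or.inl (Or.inr (Set.mem_iUnion₂.mpr ⟨a, ha, k, rfl⟩))))
    · exact Or.inl (Or.inl (Or.inr (Set.mem_iUnion₂.mpr ⟨a, ha, (k, i), rfl⟩)))
    · exact Or.inl (Or.inr ⟨(k, i), rfl⟩)
    · exact Or.inr ⟨(k, r), rfl⟩
  refine Set.Countable.mono hsub ?_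
  refine Set.Countable.union (Set.Countable.union (Set.Countable.union (Set.Countable.union
    (Set.Countable.union (Set.Countable.union ?_ ?_) ?_) ?_) ?_) ?_) ?_
  · exact hF.image _
  · exact Set.countable_range _
  · exact Set.countable_range _
  · exact hF.biUnion (fun b _ => Set.countable_range _)
  · exact hF.biUnion (fun b _ => Set.countable_range _)
  · exact Set.countable_range _
  · exact Set.countable_range _

/-- elements of which the second partition has to be independent -/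
def XY (L : Finset G) (F : Finset A) (v : ℕ → BSeq A) (R : ℕ) {J : ℕ} (z : Bool × Fin J → BSeq A)
    (p : BSeq A) (h1 : (1 : G) ∈ L) : Set (BSeq A) :=
  {b | b ∈ cst A '' (F : Set A) ∨ b ∈ Set.range (VB α L v R) ∨ b = p ∨
    (∃ a ∈ F, ∃ r : Fin R, ∃ i : {g // g ∈ L},
      b = (VB α L v R (r, i) - VB α L v R (r, ⟨1, h1⟩)) * cst A a) ∨
    (∃ r : Fin R × {g // g ∈ L}, b = VB α L v R r * p - p * VB α L v R r)}

theorem XY_countable (L : Finset G) (F : Finset A) (v : ℕ → BSeq A) (R : ℕ) {J : ℕ}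
    (z : Bool × Fin J → BSeq A) (p : BSeq A) (h1 : (1 : G) ∈ L) :
    (XY α L F v R z p h1).Countable := by
  have hF : (F : Set A).Countable := Finset.countable_toSet F
  have hsub : XY α L F v R z p h1 ⊆ cst A '' (F : Set A) ∪ Set.range (VB α L v R) ∪ {p} ∪
      (⋃ a ∈ (F : Set A), Set.range fun w : Fin R × {g // g ∈ L} =>
        (VB α L v R (w.1, w.2) - VB α L v R (w.1, ⟨1, h1⟩)) * cst A a) ∪
      (Set.range fun w : Fin R × {g // g ∈ L} => VB α L v R w * p - p * VB α L v R w) := by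
    rintro b (h | h | rfl | ⟨a, ha, r, i, rfl⟩ | ⟨r, rfl⟩)
    · exact Or.inl (Or.inl (Or.inl (Or.inl h)))
    · exact Or.inl (Or.inl (Or.inl (Or.inr h)))
    · exact Or.inl (Or.inl (Or.inr rfl))
    · exact Or.inl (Or.inr (Set.mem_iUnion₂.mpr ⟨a, ha, (r, i), rfl⟩))
    · exact Or.inr ⟨r, rfl⟩
  refine Set.Countable.mono hsub ?_
  refine Set.Countable.union (Set.Countable.union (Set.Countable.union
    (Set.Countable.union ?_ ?_) ?_) ?_) ?_
  · exact hF.image _
  · exact Set.countable_range _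
  · exact Set.countable_singleton _
  · exact hF.biUnion (fun b _ => Set.countable_range _)
  · exact Set.countable_range _

/-- the partition in the quotient -/
theorem part0_at (t : LimTr A) {S : Finset G} {X : Set (BSeq A)} {I : Type*} [Fintype I]
    {e : I → BSeq A} (he : IsPart α S X e) : Part0 I (fun i => t.c (e i)) := by
  obtain ⟨e1, e2, e3⟩ := he
  obtain ⟨z1, z2, z3, z4, z5, z6⟩ := e3 t
  exact ⟨z1, z2, fun i => by rw [← t.c_star, e1], z3⟩

theorem ind0_at (t : LimTr A) {S : Finset G} {X : Set (BSeq A)} {I : Type*} [Fintype I]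
    {e : I → BSeq A} (he : IsPart α S (X ∪ (fun b => star b * b) '' X) e) {z : I → BSeq A}
    (hz : ∀ i, z i ∈ X) : Ind0 t.q (fun i => t.c (e i)) (fun i => t.c (z i)) := by
  obtain ⟨e1, e2, e3⟩ := he
  obtain ⟨z1, z2, z3, z4, z5, z6⟩ := e3 t
  refine ⟨fun i => z4 i _ (Or.inl (hz i)), fun i => ?_⟩
  have h2 := z5 i _ (Or.inr ⟨z i, hz i, rfl⟩)
  rw [← t.q_c, ← t.q_c] at h2
  have hmul : ∀ x y : BSeq A, t.c (x * y) = t.c x * t.c y := fun x y => map_mul t.c x y
  simp only [hmul, t.c_star] at h2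
  exact h2

end

end Vale.Agent.P095
end

section

set_option linter.unusedSectionVars false
set_option linter.unusedVariables false
set_option linter.unusedSimpArgs false

namespace Vale.Agent.P095

open Filter Topology ComplexConjugate

section
variable {A : Type*} [CStarAlgebra A] {G : Type*} [Group G] (α : G →* (A ≃⋆ₐ[ℂ] A))

/-- bits -/
noncomputable def fX (K : Finset G) (w : ℕ → BSeq A × BSeq A) (N : ℕ) :
    Fin N × {g // g ∈ K} → BSeq A := fun i => actB (α i.2.1) (w i.1).1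

/-- partial isometries -/
noncomputable def fV (K : Finset G) (w : ℕ → BSeq A × BSeq A) (N : ℕ) :
    Fin N × {g // g ∈ K} → BSeq A := fun i => actB (α i.2.1) (w i.1).2

open Classical in
/-- events -/
noncomputable def tB (K : Finset G) (w : ℕ → BSeq A × BSeq A) (N : ℕ) (j : ℕ) : BSeq A :=
  tw (fX α K w N) Finset.univ j

open Classical in
/-- averaged partial isometries -/
noncomputable def yB (K : Finset G) (w : ℕ → BSeq A × BSeq A) (N : ℕ) (n : Fin N) (j : ℕ) :
    BSeq A := ty (fX α K w N) (fV α K w N) Finset.univ n j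

/-- the event -/
noncomputable def WB (K : Finset G) (w : ℕ → BSeq A × BSeq A) (N : ℕ)
    (e : Fin N × Fin K.card → BSeq A) : BSeq A := ∑ i, e i * tB α K w N i.2

/-- the partial isometry -/
noncomputable def YB (K : Finset G) (w : ℕ → BSeq A × BSeq A) (N : ℕ)
    (e : Fin N × Fin K.card → BSeq A) : BSeq A := ∑ i, e i * yB α K w N i.1 i.2

variable {K L : Finset G} {w : ℕ → BSeq A × BSeq A} {N : ℕ}

/-- bits in the quotient -/
noncomputable def xQ (t : LimTr A) (L : Finset G) (w : ℕ → BSeq A × BSeq A) (N : ℕ) :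
    Fin N × {g // g ∈ L} → Qt t.isTracial := fun i => t.c (actB (α i.2.1) (w i.1).1)

/-- partial isometries in the quotient -/
noncomputable def vQ (t : LimTr A) (L : Finset G) (w : ℕ → BSeq A × BSeq A) (N : ℕ) :
    Fin N × {g // g ∈ L} → Qt t.isTracial := fun i => t.c (actB (α i.2.1) (w i.1).2)

open Classical in
theorem tB_at (t : LimTr A) (hx : CommProj (xQ α t L w N)) (s : G)
    (f : {g // g ∈ K} ↪ {g // g ∈ L}) (hf : ∀ g, (f g).1 = s * g.1) (j : ℕ) :
    t.c (actB (α s) (tB α K w N j)) = tw (xQ α t L w N) (Finset.univ.map f) j := by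
  rw [← tw_comp hx f j]
  have h1 : actB (α s) (ev (fX α K w N) (evt Finset.univ j)) =
      ev (fun i => actB (α s) (fX α K w N i)) (evt Finset.univ j) :=
    map_ev ((actB (α s) : BSeq A →⋆ₐ[ℂ] BSeq A) : BSeq A →+* BSeq A)
        (fun c x => map_smul (actB (α s)) c x) _ _
  have h2 : t.c (ev (fun i => actB (α s) (fX α K w N i)) (evt Finset.univ j)) =
      ev (fun i => t.c (actB (α s) (fX α K w N i))) (evt Finset.univ j) :=
    map_ev t.c (fun c x => t.c_smul c x) _ _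
  show t.c (actB (α s) (ev (fX α K w N) (evt Finset.univ j))) = ev _ _
  rw [h1, h2]
  congr 1
  funext k
  show t.c (actB (α s) (actB (α k.2.1) (w k.1).1)) = t.c (actB (α (f k.2).1) (w k.1).1)
  rw [hf, actB_mul]

open Classical in
theorem yB_at (t : LimTr A) (hx : CommProj (xQ α t L w N)) (s : G)
    (f : {g // g ∈ K} ↪ {g // g ∈ L}) (hf : ∀ g, (f g).1 = s * g.1) (n : Fin N) (j : ℕ) :
    t.c (actB (α s) (yB α K w N n j)) =
      ty (xQ α t L w N) (vQ α t L w N) (Finset.univ.map f) n j := by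
  rw [← ty_comp hx f n j]
  show t.c (actB (α s) (∑ i, ev (fX α K w N) (wgt Finset.univ j i) * fV α K w N (n, i))) = _
  rw [map_sum, map_sum]
  apply Finset.sum_congr rfl
  intro i _
  have h1 : actB (α s) (ev (fX α K w N) (wgt Finset.univ j i)) =
      ev (fun i => actB (α s) (fX α K w N i)) (wgt Finset.univ j i) :=
    map_ev ((actB (α s) : BSeq A →⋆ₐ[ℂ] BSeq A) : BSeq A →+* BSeq A)
        (fun c x => map_smul (actB (α s)) c x) _ _
  have h2 : t.c (ev (fun i => actB (α s) (fX α K w N i)) (wgt Finset.univ j i)) =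
      ev (fun i => t.c (actB (α s) (fX α K w N i))) (wgt Finset.univ j i) :=
    map_ev t.c (fun c x => t.c_smul c x) _ _
  have h3 : (fun k : Fin N × {g // g ∈ K} => t.c (actB (α s) (fX α K w N k))) =
      fun k => xQ α t L w N (k.1, f k.2) := by
    funext k
    show t.c (actB (α s) (actB (α k.2.1) (w k.1).1)) = t.c (actB (α (f k.2).1) (w k.1).1)
    rw [hf, actB_mul]
  have h4 : t.c (actB (α s) (fV α K w N (n, i))) = vQ α t L w N (n, f i) := by
    show t.c (actB (α s) (actB (α i.1) (w n).2)) = t.c (actB (α (f i).1) (w n).2)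
    rw [hf, actB_mul]
  rw [map_mul (actB (α s)), map_mul t.c, h1, h2, h3, h4]

/-- the partition system at a limit trace -/
theorem partQ_at (t : LimTr A) {S : Finset G} {F : Finset (BSeq A)} {X : Set (BSeq A)}
    (hX : XSet α S F (k := K.card) (fX α K w N) (fV α K w N) (tB α K w N) (yB α K w N) ⊆ X)
    {e : Fin N × Fin K.card → BSeq A} (he : IsPart α S X e)
    (hLc : ∀ g ∈ L, g ∈ K ∨ ∃ s ∈ S, ∃ k ∈ K, g = s * k) :
    PartQ (xQ α t L w N) (vQ α t L w N) (fun i => t.c (e i)) := by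
  obtain ⟨e1, e2, e3⟩ := he
  obtain ⟨z1, z2, z3, z4, z5, z6⟩ := e3 t
  refine ⟨z1, z2, fun i => by rw [← t.c_star, e1], z3, ?_, ?_⟩
  · rintro i ⟨n, g, hg⟩
    rcases hLc g hg with h | ⟨s, hs, k, hk, rfl⟩
    · exact z4 i _ (hX (Or.inr (Or.inl ⟨(n, ⟨g, h⟩), rfl⟩)))
    · have := z4 i (actB (α s) (fX α K w N (n, ⟨k, hk⟩)))
        (hX (Or.inr (Or.inr (Or.inr (Or.inr (Or.inr (Or.inr (Or.inr (Or.inr (Or.inl
          ⟨s, hs, (n, ⟨k, hk⟩), rfl⟩))))))))))
      have h2 : t.c (actB (α s) (fX α K w N (n, ⟨k, hk⟩))) = xQ α t L w N (n, ⟨s * k, hg⟩) := by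
        show t.c (actB (α s) (actB (α k) (w n).1)) = t.c (actB (α (s * k)) (w n).1)
        rw [actB_mul]
      rwa [h2] at this
  · rintro i ⟨n, g, hg⟩
    rcases hLc g hg with h | ⟨s, hs, k, hk, rfl⟩
    · exact z4 i _ (hX (Or.inr (Or.inr (Or.inl ⟨(n, ⟨g, h⟩), rfl⟩))))
    · have := z4 i (actB (α s) (fV α K w N (n, ⟨k, hk⟩)))
        (hX (Or.inr (Or.inr (Or.inr (Or.inr (Or.inr (Or.inr (Or.inr (Or.inr (Or.inr
          ⟨s, hs, (n, ⟨k, hk⟩), rfl⟩))))))))))
      have h2 : t.c (actB (α s) (fV α K w N (n, ⟨k, hk⟩))) = vQ α t L w N (n, ⟨s * k, hg⟩) := by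
        show t.c (actB (α s) (actB (α k) (w n).2)) = t.c (actB (α (s * k)) (w n).2)
        rw [actB_mul]
      rwa [h2] at this

/-- independence at a limit trace -/
theorem indQ_at (t : LimTr A) {S : Finset G} {X : Set (BSeq A)}
    {e : Fin N × Fin K.card → BSeq A}
    (he : IsPart α S (X ∪ (fun b => star b * b) '' X) e) {z : Fin N × Fin K.card → BSeq A}
    (hz : ∀ i, z i ∈ X) : IndQ t.q (fun i => t.c (e i)) (fun i => t.c (z i)) := by
  obtain ⟨e1, e2, e3⟩ := he
  obtain ⟨z1, z2, z3, z4, z5, z6⟩ := e3 t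
  refine ⟨fun i => z4 i _ (Or.inl (hz i)), fun i => ?_⟩
  have h2 := z5 i _ (Or.inr ⟨z i, hz i, rfl⟩)
  rw [← t.q_c, ← t.q_c] at h2
  have hmul : ∀ x y : BSeq A, t.c (x * y) = t.c x * t.c y := fun x y => map_mul t.c x y
  simp only [hmul, t.c_star] at h2
  rw [h2, Fintype.card_prod, Fintype.card_fin, Fintype.card_fin]
  push_cast
  rfl

end

end Vale.Agent.P095
end

section

set_option linter.unusedSectionVars false
set_option linter.unusedVariables false
set_option linter.unusedSimpArgs false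

namespace Vale.Agent.P095

open Filter Topology ComplexConjugate

section
variable {A : Type*} [CStarAlgebra A] {G : Type*} [Group G] (α : G →* (A ≃⋆ₐ[ℂ] A))
variable {K L : Finset G} {w : ℕ → BSeq A × BSeq A} {N : ℕ}

open Classical in
/-- the embedding of the translate of the window -/
noncomputable def emb (s : G) (h : ∀ k ∈ K, s * k ∈ L) : {g // g ∈ K} ↪ {g // g ∈ L} :=
  ⟨fun g => ⟨s * g.1, h g.1 g.2⟩, fun a b hab => by
    have : s * a.1 = s * b.1 := congrArg (fun z : {g // g ∈ L} => z.1) hab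
    exact Subtype.ext (mul_left_cancel this)⟩

theorem emb_val (s : G) (h : ∀ k ∈ K, s * k ∈ L) (g : {g // g ∈ K}) :
    (emb (L := L) s h g).1 = s * g.1 := rfl

open Classical in
theorem emb_card (s : G) (h : ∀ k ∈ K, s * k ∈ L) :
    ((Finset.univ.map (emb (L := L) s h) : Finset {g // g ∈ L})).card = K.card := by
  rw [Finset.card_map, Finset.card_univ, Fintype.card_coe]

open Classical in
theorem W_at (t : LimTr A) (hx : CommProj (xQ α t L w N)) (s : G) (h : ∀ k ∈ K, s * k ∈ L)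
    {e : Fin N × Fin K.card → BSeq A} (he : ∀ i, t.c (actB (α s) (e i)) = t.c (e i)) :
    t.c (actB (α s) (WB α K w N e)) =
      Wq (xQ α t L w N) (fun i => t.c (e i)) (Finset.univ.map (emb (L := L) s h)) := by
  unfold WB Wq
  rw [map_sum, map_sum]
  apply Finset.sum_congr rfl
  intro i _
  rw [map_mul (actB (α s)), map_mul t.c, he, tB_at α t hx s _ (emb_val s h)]

open Classical in
theorem Y_at (t : LimTr A) (hx : CommProj (xQ α t L w N)) (s : G) (h : ∀ k ∈ K, s * k ∈ L)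
    {e : Fin N × Fin K.card → BSeq A} (he : ∀ i, t.c (actB (α s) (e i)) = t.c (e i)) :
    t.c (actB (α s) (YB α K w N e)) =
      Yq (xQ α t L w N) (vQ α t L w N) (fun i => t.c (e i))
        (Finset.univ.map (emb (L := L) s h)) := by
  unfold YB Yq
  rw [map_sum, map_sum]
  apply Finset.sum_congr rfl
  intro i _
  rw [map_mul (actB (α s)), map_mul t.c, he, yB_at α t hx s _ (emb_val s h)]

open Classical in
/-- size of the symmetric difference -/
theorem emb_diff (s : G) (h : ∀ k ∈ K, s * k ∈ L) (h1 : ∀ k ∈ K, 1 * k ∈ L) (δ : ℝ)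
    (hδ : ((K.filter (fun g => s * g ∉ K)).card : ℝ) ≤ δ) :
    ((((Finset.univ.map (emb (L := L) 1 h1)) \ (Finset.univ.map (emb (L := L) s h))).card +
      ((Finset.univ.map (emb (L := L) s h)) \ (Finset.univ.map (emb (L := L) 1 h1))).card : ℕ) : ℝ)
      ≤ 2 * δ := by
  set J := Finset.univ.map (emb (L := L) 1 h1)
  set J' := Finset.univ.map (emb (L := L) s h)
  have hsub : J' \ J ⊆
      ((K.filter (fun g => s * g ∉ K)).attach.map
        ⟨fun g => (⟨g.1, (Finset.mem_filter.mp g.2).1⟩ : {g // g ∈ K}), fun a b hab => by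
          apply Subtype.ext; exact congrArg (fun z : {g // g ∈ K} => z.1) hab⟩).map
        (emb (L := L) s h) := by
    intro z hz
    rw [Finset.mem_sdiff, Finset.mem_map, Finset.mem_map] at hz
    obtain ⟨⟨g, _, rfl⟩, hz2⟩ := hz
    rw [Finset.mem_map]
    refine ⟨g, ?_, rfl⟩
    rw [Finset.mem_map]
    refine ⟨⟨g.1, Finset.mem_filter.mpr ⟨g.2, fun hcon => hz2 ?_⟩⟩, Finset.mem_attach _ _, rfl⟩
    refine ⟨⟨s * g.1, hcon⟩, Finset.mem_univ _, ?_⟩
    apply Subtype.ext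
    rw [emb_val, emb_val, one_mul]
  have h8 := Finset.card_le_card hsub
  rw [Finset.card_map, Finset.card_map, Finset.card_attach] at h8
  have h9 : (J \ J').card = (J' \ J).card := by
    have e1 := Finset.card_sdiff_add_card_inter J J'
    have e2 := Finset.card_sdiff_add_card_inter J' J
    rw [Finset.inter_comm J' J] at e2
    have e3 : J.card = J'.card := by rw [emb_card, emb_card]
    omega
  have h10 : ((J' \ J).card : ℝ) ≤ δ := le_trans (by exact_mod_cast h8) hδ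
  rw [h9]
  push_cast
  linarith only [h10]

theorem div_aux {a b c κ m : ℝ} (hb : 0 < b) (ha : 0 ≤ a) (h : (4 * a) / b ≤ κ / 2 * m) :
    a / b ≤ κ / 2 * m := by
  have : a / b ≤ (4 * a) / b := by
    apply div_le_div_of_nonneg_right _ hb.le
    (clear * - ha; linarith)
  linarith only [h, this]

open Classical in
theorem base_clauses (t : LimTr A) {S : Finset G} {F : Finset (BSeq A)} {κ μ C κ1 : ℝ}
    {e : Fin N × Fin K.card → BSeq A} {P : ℕ → Submonoid (Qt t.isTracial)}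
    (he : IsPart α S (XSet α S F (k := K.card) (fX α K w N) (fV α K w N) (tB α K w N)
      (yB α K w N) ∪ (fun b => star b * b) '' (XSet α S F (k := K.card) (fX α K w N) (fV α K w N)
      (tB α K w N) (yB α K w N))) e)
    (sys : TrialSys t.q μ C κ1 N P (xQ α t L w N) (vQ α t L w N))
    (h1L : ∀ k ∈ K, 1 * k ∈ L)
    (hLc : ∀ g ∈ L, g ∈ K ∨ ∃ s ∈ S, ∃ k ∈ K, g = s * k)
    (hP0 : ∀ b ∈ F, t.c b ∈ P 0) (hN : 0 < N) (hk : 0 < K.card) (hμ : 0 < μ) (hμ1 : μ ≤ 1)
    (hC : 0 ≤ C) (hκ1 : 0 ≤ κ1) (hκ : 0 < κ)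
    (hnum : (4 * (K.card : ℝ) ^ 2 * ((2 * C + N * κ1 / μ) * μ ^ N)) / (N * K.card) ≤
      κ / 2 * μ ^ N) :
    star (t.c (WB α K w N e)) = t.c (WB α K w N e) ∧
    t.c (WB α K w N e) * t.c (WB α K w N e) = t.c (WB α K w N e) ∧
    t.c (WB α K w N e) * t.c (YB α K w N e) = t.c (YB α K w N e) ∧
    t.c (YB α K w N e) * t.c (WB α K w N e) = t.c (YB α K w N e) ∧
    (∀ z : BSeq A, nrm t.val (YB α K w N e * z) ≤ nrm t.val z) ∧
    (∀ b ∈ F, t.c (WB α K w N e) * t.c b = t.c b * t.c (WB α K w N e) ∧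
      t.c (YB α K w N e) * t.c b = t.c b * t.c (YB α K w N e) ∧
      t.val (b * WB α K w N e) = (μ ^ N : ℝ) * t.val b) ∧
    nrm t.val (YB α K w N e * YB α K w N e) ^ 2 ≤ κ * μ ^ N ∧
    nrm t.val (star (YB α K w N e) * YB α K w N e + YB α K w N e * star (YB α K w N e) -
      WB α K w N e) ^ 2 ≤ κ * μ ^ N := by
  have hx := sys.commProj
  have part : PartQ (xQ α t L w N) (vQ α t L w N) (fun i => t.c (e i)) :=
    partQ_at α t (Set.subset_union_left) he hLc
  have z4 := (he.2.2 t).2.2.2.1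
  have z5 := (he.2.2 t).2.2.2.2.1
  have he1 : ∀ i, t.c (actB (α 1) (e i)) = t.c (e i) := fun i => by rw [actB_one]
  have hW := W_at α t hx 1 h1L he1
  have hY := Y_at α t hx 1 h1L he1
  rw [actB_one] at hW hY
  have htB : ∀ j, t.c (tB α K w N j) = tw (xQ α t L w N) (Finset.univ.map (emb 1 h1L)) j := by
    intro j
    have := tB_at α t hx 1 _ (emb_val (K := K) 1 h1L) j
    rwa [actB_one] at this
  have hyB : ∀ n j, t.c (yB α K w N n j) =
      ty (xQ α t L w N) (vQ α t L w N) (Finset.univ.map (emb 1 h1L)) n j := by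
    intro n j
    have := yB_at α t hx 1 _ (emb_val (K := K) 1 h1L) n j
    rwa [actB_one] at this
  have hmul : ∀ x y : BSeq A, t.c (x * y) = t.c x * t.c y := fun x y => map_mul t.c x y
  have hJ := emb_card (K := K) (L := L) 1 h1L
  have hbx : ∀ b ∈ F, ∀ k, t.c b * xQ α t L w N k = xQ α t L w N k * t.c b := by
    rintro b hb ⟨n, i⟩
    exact (sys.xcomm n i _ (sys.mono (Nat.zero_le _) (hP0 b hb))).symm
  have hbv : ∀ b ∈ F, ∀ k, t.c b * vQ α t L w N k = vQ α t L w N k * t.c b := by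
    rintro b hb ⟨n, i⟩
    exact (sys.vcomm n i _ (sys.mono (Nat.zero_le _) (hP0 b hb))).symm
  have hmemF : ∀ b ∈ F, b ∈ XSet α S F (k := K.card) (fX α K w N) (fV α K w N) (tB α K w N)
      (yB α K w N) := fun b hb => Or.inl hb
  have hc0 : 0 < μ ^ N := by positivity
  have hkpos : (0 : ℝ) < K.card := by exact_mod_cast hk
  have hNr : (0 : ℝ) < N := by exact_mod_cast hN
  have h3 : κ / 2 * μ ^ N ≤ κ * μ ^ N := by
    apply mul_le_mul_of_nonneg_right _ hc0.le
    linarith only [hκ]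
  refine ⟨?_, ?_, ?_, ?_, ?_, ?_, ?_, ?_⟩
  · rw [hW]; exact part.W_star sys _
  · rw [hW]; exact part.W_idem sys _
  · rw [hW, hY]; exact part.W_Y sys _
  · rw [hW, hY]; exact part.Y_W sys _
  · intro z
    rw [← t.nrm_c, ← t.nrm_c, hmul, hY]
    exact part.contr t.q_tracial sys _ _
  · intro b hb
    refine ⟨?_, ?_, ?_⟩
    · rw [hW]; exact part.W_comm sys _ (hbx b hb) (fun i => z4 i b (Or.inl (hmemF b hb)))
    · rw [hY]
      exact part.Y_comm sys _ (hbx b hb) (hbv b hb) (fun i => z4 i b (Or.inl (hmemF b hb)))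
    · rw [← t.q_c, ← t.q_c, hmul, hW]
      have := part.law t.q_tracial sys hN hJ hk (hP0 b hb) (by
        intro i
        have h1 := z5 i (b * tB α K w N i.2)
          (Or.inl (Or.inr (Or.inr (Or.inr (Or.inl ⟨b, hb, i.2, rfl⟩)))))
        rw [← t.q_c, ← t.q_c, hmul, hmul, htB, Fintype.card_prod, Fintype.card_fin,
          Fintype.card_fin] at h1
        rw [h1]; push_cast; rfl)
      rw [this]; push_cast; rfl
  · have hI := indQ_at α t he (z := fun i => yB α K w N i.1 i.2 * yB α K w N i.1 i.2)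
      (fun i => Or.inr (Or.inr (Or.inr (Or.inr (Or.inl ⟨i, rfl⟩)))))
    simp only [hmul, hyB] at hI
    have := part.sq t.q_tracial sys hN hk hμ hμ1 hC hκ1 hJ hI
    rw [← t.nrm_c, hmul, hY]
    have h5 : ((K.card : ℝ) ^ 2 * ((2 * C + N * κ1 / μ) * μ ^ N)) / (N * K.card) ≤
        κ / 2 * μ ^ N := by
      apply div_aux (c := 0) (by (clear * - hN hk; positivity)) (by (clear * - hk hC hN hκ1 hμ; positivity))
      rw [← mul_assoc]
      exact hnum
    linarith only [h3, this, h5]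
  · have hI := indQ_at α t he (z := fun i => star (yB α K w N i.1 i.2) * yB α K w N i.1 i.2 +
        yB α K w N i.1 i.2 * star (yB α K w N i.1 i.2) - tB α K w N i.2)
      (fun i => Or.inr (Or.inr (Or.inr (Or.inr (Or.inr (Or.inl ⟨i, rfl⟩))))))
    simp only [map_sub, map_add, hmul, t.c_star, hyB, htB] at hI
    have := part.oneB t.q_tracial sys hN hk hμ hμ1 hC hκ1 hJ hI
    rw [← t.nrm_c, map_sub, map_add, hmul, hmul, t.c_star, hY, hW]
    linarith only [hnum, h3, this]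

open Classical in
theorem s_clauses (t : LimTr A) {S : Finset G} {F : Finset (BSeq A)} {κ μ C κ1 : ℝ}
    {e : Fin N × Fin K.card → BSeq A} {P : ℕ → Submonoid (Qt t.isTracial)}
    (he : IsPart α S (XSet α S F (k := K.card) (fX α K w N) (fV α K w N) (tB α K w N)
      (yB α K w N) ∪ (fun b => star b * b) '' (XSet α S F (k := K.card) (fX α K w N) (fV α K w N)
      (tB α K w N) (yB α K w N))) e)
    (sys : TrialSys t.q μ C κ1 N P (xQ α t L w N) (vQ α t L w N))
    (h1L : ∀ k ∈ K, 1 * k ∈ L)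
    (hLc : ∀ g ∈ L, g ∈ K ∨ ∃ s ∈ S, ∃ k ∈ K, g = s * k)
    (hP0 : ∀ b ∈ F, t.c b ∈ P 0) (hN : 0 < N) (hk : 0 < K.card) (hμ : 0 < μ) (hμ1 : μ ≤ 1)
    (hC : 0 ≤ C) (hκ1 : 0 ≤ κ1) (hκ : 0 < κ)
    (hnum : (4 * (K.card : ℝ) ^ 2 * ((2 * C + N * κ1 / μ) * μ ^ N)) / (N * K.card) ≤
      κ / 2 * μ ^ N)
    {s : G} (hs : s ∈ S) (hsL : ∀ k ∈ K, s * k ∈ L)
    (hKs : ((K.filter (fun g => s * g ∉ K)).card : ℝ) ≤ κ / 8 * K.card) :
    t.c (actB (α s) (WB α K w N e)) * t.c (WB α K w N e) =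
      t.c (WB α K w N e) * t.c (actB (α s) (WB α K w N e)) ∧
    nrm t.val (actB (α s) (YB α K w N e) - YB α K w N e) ^ 2 ≤ κ * μ ^ N ∧
      ∀ b ∈ F, nrm t.val ((actB (α s) (WB α K w N e) - WB α K w N e) * b) ^ 2 ≤
        κ * μ ^ N * nrm t.val b ^ 2 := by
  have hx := sys.commProj
  have part : PartQ (xQ α t L w N) (vQ α t L w N) (fun i => t.c (e i)) :=
    partQ_at α t (Set.subset_union_left) he hLc
  have z6 := (he.2.2 t).2.2.2.2.2
  have he1 : ∀ i, t.c (actB (α 1) (e i)) = t.c (e i) := fun i => by rw [actB_one]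
  have hW := W_at α t hx 1 h1L he1
  have hY := Y_at α t hx 1 h1L he1
  rw [actB_one] at hW hY
  have htB : ∀ j, t.c (tB α K w N j) = tw (xQ α t L w N) (Finset.univ.map (emb 1 h1L)) j := by
    intro j
    have := tB_at α t hx 1 _ (emb_val (K := K) 1 h1L) j
    rwa [actB_one] at this
  have hyB : ∀ n j, t.c (yB α K w N n j) =
      ty (xQ α t L w N) (vQ α t L w N) (Finset.univ.map (emb 1 h1L)) n j := by
    intro n j
    have := yB_at α t hx 1 _ (emb_val (K := K) 1 h1L) n j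
    rwa [actB_one] at this
  have hmul : ∀ x y : BSeq A, t.c (x * y) = t.c x * t.c y := fun x y => map_mul t.c x y
  have hJ := emb_card (K := K) (L := L) 1 h1L
  have hc0 : 0 < μ ^ N := by positivity
  have hkpos : (0 : ℝ) < K.card := by exact_mod_cast hk
  have hNr : (0 : ℝ) < N := by exact_mod_cast hN
  have hes : ∀ i, t.c (actB (α s) (e i)) = t.c (e i) := fun i => z6 i s hs
  have hWs := W_at α t hx s hsL hes
  have hYs := Y_at α t hx s hsL hes
  have htBs := tB_at α t hx s _ (emb_val (K := K) s hsL)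
  have hyBs := yB_at α t hx s _ (emb_val (K := K) s hsL)
  have hJs := emb_card (K := K) (L := L) s hsL
  have hd := emb_diff s hsL h1L _ hKs
  set D : ℝ := (((((Finset.univ.map (emb (L := L) 1 h1L)) \
    (Finset.univ.map (emb (L := L) s hsL))).card +
    ((Finset.univ.map (emb (L := L) s hsL)) \
      (Finset.univ.map (emb (L := L) 1 h1L))).card : ℕ)) : ℝ) with hDdef
  have hD0 : 0 ≤ D := by rw [hDdef]; (clear * - h1L hsL; positivity)
  have hDk : D / K.card ≤ κ / 4 := by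
    rw [div_le_iff₀ hkpos]
    linarith only [hd]
  refine ⟨?_, ?_, ?_⟩
  · rw [hWs, hW]; exact part.W_W sys _ _
  · have hI := indQ_at α t he (z := fun i => actB (α s) (yB α K w N i.1 i.2) -
        yB α K w N i.1 i.2)
      (fun i => Or.inr (Or.inr (Or.inr (Or.inr (Or.inr (Or.inr (Or.inl ⟨s, hs, i, rfl⟩)))))))
    simp only [map_sub, hyBs, hyB] at hI
    have := part.inv t.q_tracial sys hN hk hμ hμ1 hC hκ1 hJ hJs hI
    rw [← t.nrm_c, map_sub, hYs, hY]
    refine this.trans ?_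
    rw [← hDdef, add_div]
    have h5 : ((K.card : ℝ) ^ 2 * ((2 * C + N * κ1 / μ) * μ ^ N)) / (N * K.card) ≤
        κ / 2 * μ ^ N := by
      apply div_aux (c := 0) (by (clear * - hN hk; positivity)) (by (clear * - hk hC hN hκ1 hμ; positivity))
      rw [← mul_assoc]
      exact hnum
    have h3 : (N : ℝ) * D * μ ^ N / (N * K.card) = D / K.card * μ ^ N := by
      (clear * - hN hk hμ; field_simp)
    have h4 : D / K.card * μ ^ N ≤ κ / 4 * μ ^ N := mul_le_mul_of_nonneg_right hDk hc0.le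
    have h6 : 0 ≤ κ * μ ^ N := by positivity
    rw [h3]
    linarith only [h5, h4, h6]
  · intro b hb
    have hI := indQ_at α t he (z := fun i => (actB (α s) (tB α K w N i.2) - tB α K w N i.2) * b)
      (fun i => Or.inr (Or.inr (Or.inr (Or.inr (Or.inr (Or.inr (Or.inr (Or.inl
        ⟨s, hs, b, hb, i, rfl⟩))))))))
    simp only [hmul, map_sub, htBs, htB] at hI
    have := part.evtB t.q_tracial sys hN hk hμ hJ hJs (hP0 b hb) hI
    rw [← t.nrm_c, ← t.nrm_c b, hmul, map_sub, hWs, hW]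
    refine this.trans ?_
    rw [← hDdef]
    have h3 : (N : ℝ) * (D * μ ^ N * nrm t.q (t.c b) ^ 2) / (N * K.card) =
        D / K.card * (μ ^ N * nrm t.q (t.c b) ^ 2) := by
      (clear * - hN hk hμ; field_simp)
    rw [h3]
    have h4 : D / K.card * (μ ^ N * nrm t.q (t.c b) ^ 2) ≤
        κ / 4 * (μ ^ N * nrm t.q (t.c b) ^ 2) := mul_le_mul_of_nonneg_right hDk (by (clear * - hμ; positivity))
    have h5 : 0 ≤ κ * (μ ^ N * nrm t.q (t.c b) ^ 2) := by (clear * - hκ hμ; positivity)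
    have h6 : κ * μ ^ N * nrm t.q (t.c b) ^ 2 = κ * (μ ^ N * nrm t.q (t.c b) ^ 2) := by ring
    rw [h6]
    linarith only [h4, h5]

theorem trial_of_pairs (hG : IsAmenable G) (hΓ : EquivariantUniformGamma α)
    (hpair : ∀ (K : Finset G) (κ : ℝ), 0 < κ → ∃ μ C : ℝ, 1 / 2 ≤ μ ∧ μ ≤ 1 ∧ 0 ≤ C ∧
      ∀ (F : Finset A) (ε : ℝ), 0 < ε → ∃ p v, GoodPair α μ C κ K F ε p v) :
    ∀ (S : Finset G) (κ : ℝ), 0 < κ → ∃ c : ℝ, 0 < c ∧ c ≤ 1 ∧
      ∀ F : Finset (BSeq A), ∃ W Y, GoodTrialB α c κ S F W Y := by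
  classical
  intro S κ hκ
  obtain ⟨K, hKne, hKS⟩ := hG S (κ / 8) (by positivity)
  have hk : 0 < K.card := hKne.card_pos
  have hkpos : (0 : ℝ) < K.card := by exact_mod_cast hk
  set L : Finset G := K ∪ S.biUnion (fun s => K.image (fun g => s * g)) with hL
  have h1L : ∀ k ∈ K, 1 * k ∈ L := fun k hk => by
    rw [one_mul, hL]; exact Finset.mem_union_left _ hk
  have hsL : ∀ s ∈ S, ∀ k ∈ K, s * k ∈ L := fun s hs k hk => by
    rw [hL]; apply Finset.mem_union_right
    exact Finset.mem_biUnion.mpr ⟨s, hs, Finset.mem_image_of_mem _ hk⟩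
  have hLc : ∀ g ∈ L, g ∈ K ∨ ∃ s ∈ S, ∃ k ∈ K, g = s * k := by
    intro g hg
    rw [hL, Finset.mem_union] at hg
    rcases hg with hg | hg
    · exact Or.inl hg
    · obtain ⟨s, hs, hg⟩ := Finset.mem_biUnion.mp hg
      obtain ⟨k, hk, rfl⟩ := Finset.mem_image.mp hg
      exact Or.inr ⟨s, hs, k, hk, rfl⟩
  set K0 : Finset G := (L ×ˢ L).image (fun gh => gh.1⁻¹ * gh.2) with hK0
  obtain ⟨μ, C, hμ2, hμ1, hC, hp⟩ := hpair K0 (κ / (32 * K.card)) (by (clear * - hκ hKne; positivity))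
  have hμ : 0 < μ := by linarith only [hμ2]
  obtain ⟨N, hN⟩ := exists_nat_ge (32 * K.card * C / κ + 1)
  have hNnat : 0 < N := by
    have : 0 ≤ 32 * K.card * C / κ := by (clear * - hKne hC hκ; positivity)
    have : (0 : ℝ) < N := by linarith only [hN, this]
    exact_mod_cast this
  have hnum := num_aux (κ := κ) hκ hμ2 hC hk hNnat hN
  have hκ1 : 0 ≤ κ / (32 * K.card) := by (clear * - hκ hKne; positivity)
  have hc0 : 0 < μ ^ N := by positivity
  refine ⟨μ ^ N, hc0, pow_le_one₀ hμ.le hμ1, fun F => ?_⟩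
  obtain ⟨w, hw1, hw⟩ := exists_trialSys α K0 L (by
    intro g hg h hh
    rw [hK0, Finset.mem_image]
    exact ⟨(g, h), Finset.mem_product.mpr ⟨hg, hh⟩, rfl⟩)
    (lift_pair α μ C (κ / (32 * K.card)) K0 hp) (F : Set (BSeq A)) (Finset.countable_toSet F) N
  have hXc := XSet_countable α S F (k := K.card) (fX α K w N) (fV α K w N) (tB α K w N)
    (yB α K w N)
  haveI : Nonempty (Fin N × Fin K.card) := ⟨(⟨0, hNnat⟩, ⟨0, hk⟩)⟩
  obtain ⟨e, he⟩ := exists_part α hΓ (Fin N × Fin K.card) S _ (hXc.union (hXc.image _))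
  refine ⟨WB α K w N e, YB α K w N e, fun t => ?_⟩
  obtain ⟨P, hP, sys0⟩ := hw t
  have sys : TrialSys t.q μ C (κ / (32 * K.card)) N P (xQ α t L w N) (vQ α t L w N) := sys0
  have hP0 : ∀ b ∈ F, t.c b ∈ P 0 := by
    intro b hb
    rw [hP 0]
    exact ⟨b, Submonoid.subset_closure (Or.inl hb), rfl⟩
  obtain ⟨b1, b2, b3, b4, b5, b6, b7, b8⟩ := base_clauses α t he sys h1L hLc hP0 hNnat hk hμ hμ1
    hC hκ1 hκ hnum
  exact ⟨b1, b2, b3, b4, b5, b6, b7, b8, fun s hs => s_clauses α t he sys h1L hLc hP0 hNnat hk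
    hμ hμ1 hC hκ1 hκ hnum hs (hsL s hs) (hKS s hs)⟩

end

end Vale.Agent.P095
end
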