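import Vale.Agent.P095.MathlibUsed
import Vale.Agent.P095.Bdl.B21
import Vale.Agent.P095.Bdl.B6
import Vale.Agent.P095.Bdl.B12
import Vale.Agent.P095.Bdl.B1
import Vale.Agent.P095.Bdl.B10
import Vale.Agent.P095.Bdl.B3
import Vale.Agent.P095.Bdl.B7
import Vale.Agent.P095.Bdl.B8

set_option linter.all false

namespace AFast8f9136x16a
@[reducible] noncomputable def a0.{u1} {x1 : Type u1} [x2 : NonUnitalCStarAlgebra x1] : Semiring ↥(Vale.Agent.P101.bddSeq (DoubleCentralizer ℂ x1) ℕ) := inferInstance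
@[reducible] noncomputable def a1.{u1} {x1 : Type u1} [x2 : NonUnitalCStarAlgebra x1] : Ring ↥(Vale.Agent.P101.bddSeq (DoubleCentralizer ℂ x1) ℕ) := inferInstance
theorem a2.{u1} {x1 : Type u1} [x2 : NonUnitalCStarAlgebra x1] : SubringClass (StarSubalgebra ℂ (ℕ → DoubleCentralizer ℂ x1)) (ℕ → DoubleCentralizer ℂ x1) := inferInstance
@[reducible] noncomputable def a3.{u1} {x1 : Type u1} [x2 : NonUnitalCStarAlgebra x1] : NonUnitalNonAssocSemiring ↥(Vale.Agent.P101.bddSeq (DoubleCentralizer ℂ x1) ℕ) := inferInstance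
@[reducible] noncomputable def a4.{u1} {x1 : Type u1} [x2 : NonUnitalCStarAlgebra x1] : AddCommMonoid (@Vale.Agent.P101.Bq (@DoubleCentralizer Complex x1 (@DenselyNormedField.toNontriviallyNormedField Complex Complex.instDenselyNormedField) (@NonUnitalCStarAlgebra.toNonUnitalNormedRing x1 x2) (@NonUnitalCStarAlgebra.toNormedSpace x1 x2) ⋯ ⋯) (@DoubleCentralizer.instCStarAlgebraComplex x1 x2) Nat (@Filter.atTop Nat Nat.instPreorder)) := inferInstance
@[reducible] noncomputable def a5.{u1} {x1 : Type u1} [x2 : NonUnitalCStarAlgebra x1] : NonAssocSemiring ↥(Vale.Agent.P101.bddSeq (DoubleCentralizer ℂ x1) ℕ) := inferInstance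
@[reducible] noncomputable def a6.{u1} {x1 : Type u1} [x2 : NonUnitalCStarAlgebra x1] : Mul ↥(Vale.Agent.P101.bddSeq (DoubleCentralizer ℂ x1) ℕ) := inferInstance
@[reducible] noncomputable def a7.{u1} {x1 : Type u1} [x2 : NonUnitalCStarAlgebra x1] : Add ↥(Vale.Agent.P101.bddSeq (DoubleCentralizer ℂ x1) ℕ) := inferInstance
@[reducible] noncomputable def a8.{u1} {x1 : Type u1} [x2 : NonUnitalCStarAlgebra x1] : Distrib ↥(Vale.Agent.P101.bddSeq (DoubleCentralizer ℂ x1) ℕ) := inferInstance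
@[reducible] noncomputable def a9.{u1} {x1 : Type u1} [x2 : NonUnitalCStarAlgebra x1] : SetLike (StarSubalgebra ℂ (ℕ → DoubleCentralizer ℂ x1)) (ℕ → DoubleCentralizer ℂ x1) := inferInstance
@[reducible] noncomputable def a10.{u1} {x1 : Type u1} [x2 : NonUnitalCStarAlgebra x1] {x3 : ℕ} : StarMul ((fun a => DoubleCentralizer ℂ x1) x3) := inferInstance
@[reducible] noncomputable def a11.{u1} {x1 : Type u1} [x2 : NonUnitalCStarAlgebra x1] : StarRing (ℕ → DoubleCentralizer ℂ x1) := inferInstance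
@[reducible] noncomputable def a12.{u1} {x1 : Type u1} [x2 : NonUnitalCStarAlgebra x1] : AddMonoid ↥(Vale.Agent.P101.bddSeq (DoubleCentralizer ℂ x1) ℕ) := inferInstance
@[reducible] noncomputable def a13.{u1} {x1 : Type u1} [x2 : NonUnitalCStarAlgebra x1] : AddZeroClass ↥(Vale.Agent.P101.bddSeq (DoubleCentralizer ℂ x1) ℕ) := inferInstance
@[reducible] noncomputable def a14.{u1} {x1 : Type u1} [x2 : NonUnitalCStarAlgebra x1] : AddMonoidWithOne ↥(Vale.Agent.P101.bddSeq (DoubleCentralizer ℂ x1) ℕ) := inferInstance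
@[reducible] noncomputable def a15.{u1} {x1 : Type u1} [x2 : NonUnitalCStarAlgebra x1] : AddGroupWithOne ↥(Vale.Agent.P101.bddSeq (DoubleCentralizer ℂ x1) ℕ) := inferInstance
@[reducible] noncomputable def a16.{u1} {x1 : Type u1} [x2 : NonUnitalCStarAlgebra x1] : StarRing (DoubleCentralizer ℂ x1) := inferInstance
theorem a17.{u1} {x1 : Type u1} [x2 : NonUnitalCStarAlgebra x1] : StarModule ℂ (ℕ → DoubleCentralizer ℂ x1) := inferInstance
@[reducible] noncomputable def a18.{u1} {x1 : Type u1} [x2 : NonUnitalCStarAlgebra x1] {x3 : ℕ} : InvolutiveStar ((fun a => DoubleCentralizer ℂ x1) x3) := inferInstance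
@[reducible] noncomputable def a19.{u1} {x1 : Type u1} [x2 : NonUnitalCStarAlgebra x1] : Algebra ℂ ↥(Vale.Agent.P101.bddSeq (DoubleCentralizer ℂ x1) ℕ) := inferInstance
@[reducible] noncomputable def a20.{u1} {x1 : Type u1} [x2 : NonUnitalCStarAlgebra x1] : NonAssocRing (@Vale.Agent.P101.Bq (@DoubleCentralizer Complex x1 (@DenselyNormedField.toNontriviallyNormedField Complex Complex.instDenselyNormedField) (@NonUnitalCStarAlgebra.toNonUnitalNormedRing x1 x2) (@NonUnitalCStarAlgebra.toNormedSpace x1 x2) ⋯ ⋯) (@DoubleCentralizer.instCStarAlgebraComplex x1 x2) Nat (@Filter.atTop Nat Nat.instPreorder)) := inferInstance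
theorem a21.{u1} {x1 : Type u1} [x2 : NonUnitalCStarAlgebra x1] : SubsemiringClass (StarSubalgebra ℂ (ℕ → DoubleCentralizer ℂ x1)) (ℕ → DoubleCentralizer ℂ x1) := inferInstance
@[reducible] noncomputable def a22.{u1} {x1 : Type u1} [x2 : NonUnitalCStarAlgebra x1] : AddGroup ↥(Vale.Agent.P101.bddSeq (DoubleCentralizer ℂ x1) ℕ) := inferInstance
@[reducible] noncomputable def a23.{u1} {x1 : Type u1} [x2 : NonUnitalCStarAlgebra x1] : Algebra ℂ (DoubleCentralizer ℂ x1) := inferInstance
@[reducible] noncomputable def a24.{u1} {x1 : Type u1} [x2 : NonUnitalCStarAlgebra x1] : NonUnitalNonAssocSemiring (@Vale.Agent.P101.Bq (@DoubleCentralizer Complex x1 (@DenselyNormedField.toNontriviallyNormedField Complex Complex.instDenselyNormedField) (@NonUnitalCStarAlgebra.toNonUnitalNormedRing x1 x2) (@NonUnitalCStarAlgebra.toNormedSpace x1 x2) ⋯ ⋯) (@DoubleCentralizer.instCStarAlgebraComplex x1 x2) Nat (@Filter.atTop Nat Nat.instPreorder)) := inferInstance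
@[reducible] noncomputable def a25.{u1} {x1 : Type u1} [x2 : NonUnitalCStarAlgebra x1] : AddZero (@Vale.Agent.P101.Bq (@DoubleCentralizer Complex x1 (@DenselyNormedField.toNontriviallyNormedField Complex Complex.instDenselyNormedField) (@NonUnitalCStarAlgebra.toNonUnitalNormedRing x1 x2) (@NonUnitalCStarAlgebra.toNormedSpace x1 x2) ⋯ ⋯) (@DoubleCentralizer.instCStarAlgebraComplex x1 x2) Nat (@Filter.atTop Nat Nat.instPreorder)) := inferInstance
theorem a26 : CovariantClass ℝ ℝ (Function.swap fun x1 x2 => x1 + x2) fun x1 x2 => x1 ≤ x2 := inferInstance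
@[reducible] noncomputable def a27.{u1} {x1 : Type u1} [x2 : NonUnitalCStarAlgebra x1] : NonAssocSemiring (@Vale.Agent.P101.Bq (@DoubleCentralizer Complex x1 (@DenselyNormedField.toNontriviallyNormedField Complex Complex.instDenselyNormedField) (@NonUnitalCStarAlgebra.toNonUnitalNormedRing x1 x2) (@NonUnitalCStarAlgebra.toNormedSpace x1 x2) ⋯ ⋯) (@DoubleCentralizer.instCStarAlgebraComplex x1 x2) Nat (@Filter.atTop Nat Nat.instPreorder)) := inferInstance
@[reducible] noncomputable def a28.{u1} {x1 : Type u1} [x2 : NonUnitalCStarAlgebra x1] : AddGroupWithOne (@Vale.Agent.P101.Bq (@DoubleCentralizer Complex x1 (@DenselyNormedField.toNontriviallyNormedField Complex Complex.instDenselyNormedField) (@NonUnitalCStarAlgebra.toNonUnitalNormedRing x1 x2) (@NonUnitalCStarAlgebra.toNormedSpace x1 x2) ⋯ ⋯) (@DoubleCentralizer.instCStarAlgebraComplex x1 x2) Nat (@Filter.atTop Nat Nat.instPreorder)) := inferInstance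
@[reducible] noncomputable def a29.{u1} {x1 : Type u1} [x2 : NonUnitalCStarAlgebra x1] : NonUnitalNonAssocRing (@Vale.Agent.P101.Bq (@DoubleCentralizer Complex x1 (@DenselyNormedField.toNontriviallyNormedField Complex Complex.instDenselyNormedField) (@NonUnitalCStarAlgebra.toNonUnitalNormedRing x1 x2) (@NonUnitalCStarAlgebra.toNormedSpace x1 x2) ⋯ ⋯) (@DoubleCentralizer.instCStarAlgebraComplex x1 x2) Nat (@Filter.atTop Nat Nat.instPreorder)) := inferInstance
@[reducible] noncomputable def a30.{u1} {x1 : Type u1} [x2 : NonUnitalCStarAlgebra x1] : Zero (@Vale.Agent.P101.Bq (@DoubleCentralizer Complex x1 (@DenselyNormedField.toNontriviallyNormedField Complex Complex.instDenselyNormedField) (@NonUnitalCStarAlgebra.toNonUnitalNormedRing x1 x2) (@NonUnitalCStarAlgebra.toNormedSpace x1 x2) ⋯ ⋯) (@DoubleCentralizer.instCStarAlgebraComplex x1 x2) Nat (@Filter.atTop Nat Nat.instPreorder)) := inferInstance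
@[reducible] def a31.{u1} {x1 : Type u1} [x2 : NonUnitalCStarAlgebra x1] : MulOne (x1 ≃⋆ₐ[ℂ] x1) := inferInstance
@[reducible] def a32.{u1} {x1 : Type u1} [x2 : NonUnitalCStarAlgebra x1] : MulOneClass (x1 ≃⋆ₐ[ℂ] x1) := inferInstance
@[reducible] noncomputable def a33.{u1} {x1 : Type u1} [x2 : NonUnitalCStarAlgebra x1] : Algebra ℂ (ℕ → DoubleCentralizer ℂ x1) := inferInstance
@[reducible] noncomputable def a34.{u1} {x1 : Type u1} [x2 : NonUnitalCStarAlgebra x1] {x3 : ℕ} : NonUnitalSemiring ((fun a => DoubleCentralizer ℂ x1) x3) := inferInstance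
@[reducible] noncomputable def a35.{u1} {x1 : Type u1} [x2 : NonUnitalCStarAlgebra x1] : Semiring (ℕ → DoubleCentralizer ℂ x1) := inferInstance
@[reducible] def a36.{u1} {x1 : Type u1} [x2 : NonUnitalCStarAlgebra x1] : Monoid (x1 ≃⋆ₐ[ℂ] x1) := inferInstance
theorem a37.{u1} {x1 : Type u1} [x2 : NonUnitalCStarAlgebra x1] : AddSubgroupClass (StarSubalgebra ℂ (ℕ → DoubleCentralizer ℂ x1)) (ℕ → DoubleCentralizer ℂ x1) := inferInstance
@[reducible] noncomputable def a38.{u1} {x1 : Type u1} [x2 : NonUnitalCStarAlgebra x1] : SubNegMonoid (@Vale.Agent.P101.Bq (@DoubleCentralizer Complex x1 (@DenselyNormedField.toNontriviallyNormedField Complex Complex.instDenselyNormedField) (@NonUnitalCStarAlgebra.toNonUnitalNormedRing x1 x2) (@NonUnitalCStarAlgebra.toNormedSpace x1 x2) ⋯ ⋯) (@DoubleCentralizer.instCStarAlgebraComplex x1 x2) Nat (@Filter.atTop Nat Nat.instPreorder)) := inferInstance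
@[reducible] noncomputable def a39.{u1} {x1 : Type u1} [x2 : NonUnitalCStarAlgebra x1] : Star (DoubleCentralizer ℂ x1) := inferInstance
@[reducible] noncomputable def a40.{u1} {x1 : Type u1} [x2 : NonUnitalCStarAlgebra x1] : Semiring (DoubleCentralizer ℂ x1) := inferInstance
theorem a41.{u1} {x1 : Type} {x2 : Type u1} [x3 : CStarAlgebra x2] [x4 : PartialOrder x2] [x5 : StarOrderedRing x2] [x6 : Fintype x1] : IsOrderedAddMonoid (CStarMatrix x1 x1 x2) := inferInstance
@[reducible] noncomputable def a42.{u1} {x1 : Type u1} [x2 : NonUnitalCStarAlgebra x1] {x3 : ℕ} : NonUnitalNonAssocSemiring ((fun a => DoubleCentralizer ℂ x1) x3) := inferInstance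
@[reducible] noncomputable def a43.{u1} {x1 : Type u1} [x2 : NonUnitalCStarAlgebra x1] {x3 : ℕ} : Distrib ((fun a => DoubleCentralizer ℂ x1) x3) := inferInstance
@[reducible] noncomputable def a44.{u1} {x1 : Type u1} [x2 : NonUnitalCStarAlgebra x1] {x3 : ℕ} : NonUnitalRing ((fun a => DoubleCentralizer ℂ x1) x3) := inferInstance
@[reducible] noncomputable def a45.{u1} {x1 : Type u1} [x2 : NonUnitalCStarAlgebra x1] : AddCommMagma (@Vale.Agent.P101.Bq (@DoubleCentralizer Complex x1 (@DenselyNormedField.toNontriviallyNormedField Complex Complex.instDenselyNormedField) (@NonUnitalCStarAlgebra.toNonUnitalNormedRing x1 x2) (@NonUnitalCStarAlgebra.toNormedSpace x1 x2) ⋯ ⋯) (@DoubleCentralizer.instCStarAlgebraComplex x1 x2) Nat (@Filter.atTop Nat Nat.instPreorder)) := inferInstance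
end AFast8f9136x16a
attribute [local instance] AFast8f9136x16a.a0 AFast8f9136x16a.a1 AFast8f9136x16a.a2
  AFast8f9136x16a.a3 AFast8f9136x16a.a4 AFast8f9136x16a.a5 AFast8f9136x16a.a6 AFast8f9136x16a.a7
  AFast8f9136x16a.a8 AFast8f9136x16a.a9 AFast8f9136x16a.a10 AFast8f9136x16a.a11
  AFast8f9136x16a.a12 AFast8f9136x16a.a13 AFast8f9136x16a.a14 AFast8f9136x16a.a15
  AFast8f9136x16a.a16 AFast8f9136x16a.a17 AFast8f9136x16a.a18 AFast8f9136x16a.a19
  AFast8f9136x16a.a20 AFast8f9136x16a.a21 AFast8f9136x16a.a22 AFast8f9136x16a.a23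
  AFast8f9136x16a.a24 AFast8f9136x16a.a25 AFast8f9136x16a.a26 AFast8f9136x16a.a27
  AFast8f9136x16a.a28 AFast8f9136x16a.a29 AFast8f9136x16a.a30 AFast8f9136x16a.a31
  AFast8f9136x16a.a32 AFast8f9136x16a.a33 AFast8f9136x16a.a34 AFast8f9136x16a.a35
  AFast8f9136x16a.a36 AFast8f9136x16a.a37 AFast8f9136x16a.a38 AFast8f9136x16a.a39
  AFast8f9136x16a.a40 AFast8f9136x16a.a41 AFast8f9136x16a.a42 AFast8f9136x16a.a43
  AFast8f9136x16a.a44 AFast8f9136x16a.a45
namespace AFast8f9136x16b
@[reducible] noncomputable def a0.{u1} {x1 : Type u1} [x2 : NonUnitalCStarAlgebra x1] : @StarAddMonoid (@Vale.Agent.P101.Bq (@DoubleCentralizer Complex x1 (@DenselyNormedField.toNontriviallyNormedField Complex Complex.instDenselyNormedField) (@NonUnitalCStarAlgebra.toNonUnitalNormedRing x1 x2) (@NonUnitalCStarAlgebra.toNormedSpace x1 x2) ⋯ ⋯) (@DoubleCentralizer.instCStarAlgebraComplex x1 x2) Nat (@Filter.atTop Nat Nat.instPreorder)) (@AddCommMonoid.toAddMonoid (@Vale.Agent.P101.Bq (@DoubleCentralizer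 Complex x1 (@DenselyNormedField.toNontriviallyNormedField Complex Complex.instDenselyNormedField) (@NonUnitalCStarAlgebra.toNonUnitalNormedRing x1 x2) (@NonUnitalCStarAlgebra.toNormedSpace x1 x2) ⋯ ⋯) (@DoubleCentralizer.instCStarAlgebraComplex x1 x2) Nat (@Filter.atTop Nat Nat.instPreorder)) (@NonUnitalNonAssocSemiring.toAddCommMonoid (@Vale.Agent.P101.Bq (@DoubleCentralizer Complex x1 (@DenselyNormedField.toNontriviallyNormedField Complex Complex.instDenselyNormedField) (@NonUnitalCStarAlgebra.toNonUnitalNormedRing x1 x2) (@NonUnitalCStarAlgebra.toNormedSpace x1 x2) ⋯ ⋯) (@DoubleCentralizer.instCStarAlgebraComplex x1 x2) Nat (@Filter.atTop Nat Nat.instPreorder)) (@RingCon.instNonUnitalNonAssocSemiringQuotient (↥(@Vale.Agent.P101.bddSeq (@DoubleCentralizer Complex x1 (@DenselyNormedField.toNontriviallyNormedField Complex Complex.instDenselyNormedField) (@NonUnitalCStarAlgebra.toNonUnitalNormedRing x1 x2) (@NonUnitalCStarAlgebra.toNormedSpace x1 x2) ⋯ ⋯) (@DoubleCentralizer.instCStarAlgebraComplex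 x1 x2) Nat)) (@NonAssocSemiring.toNonUnitalNonAssocSemiring (↥(@Vale.Agent.P101.bddSeq (@DoubleCentralizer Complex x1 (@DenselyNormedField.toNontriviallyNormedField Complex Complex.instDenselyNormedField) (@NonUnitalCStarAlgebra.toNonUnitalNormedRing x1 x2) (@NonUnitalCStarAlgebra.toNormedSpace x1 x2) ⋯ ⋯) (@DoubleCentralizer.instCStarAlgebraComplex x1 x2) Nat)) (@Semiring.toNonAssocSemiring (↥(@Vale.Agent.P101.bddSeq (@DoubleCentralizer Complex x1 (@DenselyNormedField.toNontriviallyNormedField Complex Complex.instDenselyNormedField) (@NonUnitalCStarAlgebra.toNonUnitalNormedRing x1 x2) (@NonUnitalCStarAlgebra.toNormedSpace x1 x2) ⋯ ⋯) (@DoubleCentralizer.instCStarAlgebraComplex x1 x2) Nat)) (@SubsemiringClass.toSemiring (@StarSubalgebra Complex (Nat → @DoubleCentralizer Complex x1 (@DenselyNormedField.toNontriviallyNormedField Complex Complex.instDenselyNormedField) (@NonUnitalCStarAlgebra.toNonUnitalNormedRing x1 x2) (@NonUnitalCStarAlgebra.toNormedSpace x1 x2)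 ⋯ ⋯) Complex.instCommSemiring Complex.instStarRing (@Pi.semiring Nat (fun a => @DoubleCentralizer Complex x1 (@DenselyNormedField.toNontriviallyNormedField Complex Complex.instDenselyNormedField) (@NonUnitalCStarAlgebra.toNonUnitalNormedRing x1 x2) (@NonUnitalCStarAlgebra.toNormedSpace x1 x2) ⋯ ⋯) fun i => @Ring.toSemiring (@DoubleCentralizer Complex x1 (@DenselyNormedField.toNontriviallyNormedField Complex Complex.instDenselyNormedField) (@NonUnitalCStarAlgebra.toNonUnitalNormedRing x1 x2) (@NonUnitalCStarAlgebra.toNormedSpace x1 x2) ⋯ ⋯) (@NormedRing.toRing (@DoubleCentralizer Complex x1 (@DenselyNormedField.toNontriviallyNormedField Complex Complex.instDenselyNormedField) (@NonUnitalCStarAlgebra.toNonUnitalNormedRing x1 x2) (@NonUnitalCStarAlgebra.toNormedSpace x1 x2) ⋯ ⋯) (@CStarAlgebra.toNormedRing (@DoubleCentralizer Complex x1 (@DenselyNormedField.toNontriviallyNormedField Complex Complex.instDenselyNormedField) (@NonUnitalCStarAlgebra.toNonUnitalNormedRing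 x1 x2) (@NonUnitalCStarAlgebra.toNormedSpace x1 x2) ⋯ ⋯) (@DoubleCentralizer.instCStarAlgebraComplex x1 x2)))) (@Pi.starRing' Nat (fun a => @DoubleCentralizer Complex x1 (@DenselyNormedField.toNontriviallyNormedField Complex Complex.instDenselyNormedField) (@NonUnitalCStarAlgebra.toNonUnitalNormedRing x1 x2) (@NonUnitalCStarAlgebra.toNormedSpace x1 x2) ⋯ ⋯) (fun i => @NonUnitalCStarAlgebra.toNonUnitalNormedRing (@DoubleCentralizer Complex x1 (@DenselyNormedField.toNontriviallyNormedField Complex Complex.instDenselyNormedField) (@NonUnitalCStarAlgebra.toNonUnitalNormedRing x1 x2) (@NonUnitalCStarAlgebra.toNormedSpace x1 x2) ⋯ ⋯) (@CStarAlgebra.toNonUnitalCStarAlgebra (@DoubleCentralizer Complex x1 (@DenselyNormedField.toNontriviallyNormedField Complex Complex.instDenselyNormedField) (@NonUnitalCStarAlgebra.toNonUnitalNormedRing x1 x2) (@NonUnitalCStarAlgebra.toNormedSpace x1 x2) ⋯ ⋯) (@DoubleCentralizer.instCStarAlgebraComplex x1 x2))) fun i => @CStarAlgebra.toStarRing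 (@DoubleCentralizer Complex x1 (@DenselyNormedField.toNontriviallyNormedField Complex Complex.instDenselyNormedField) (@NonUnitalCStarAlgebra.toNonUnitalNormedRing x1 x2) (@NonUnitalCStarAlgebra.toNormedSpace x1 x2) ⋯ ⋯) (@DoubleCentralizer.instCStarAlgebraComplex x1 x2)) (@Function.algebra Complex Nat (@DoubleCentralizer Complex x1 (@DenselyNormedField.toNontriviallyNormedField Complex Complex.instDenselyNormedField) (@NonUnitalCStarAlgebra.toNonUnitalNormedRing x1 x2) (@NonUnitalCStarAlgebra.toNormedSpace x1 x2) ⋯ ⋯) Complex.instCommSemiring (@Ring.toSemiring (@DoubleCentralizer Complex x1 (@DenselyNormedField.toNontriviallyNormedField Complex Complex.instDenselyNormedField) (@NonUnitalCStarAlgebra.toNonUnitalNormedRing x1 x2) (@NonUnitalCStarAlgebra.toNormedSpace x1 x2) ⋯ ⋯) (@NormedRing.toRing (@DoubleCentralizer Complex x1 (@DenselyNormedField.toNontriviallyNormedField Complex Complex.instDenselyNormedField) (@NonUnitalCStarAlgebra.toNonUnitalNormedRing x1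 x2) (@NonUnitalCStarAlgebra.toNormedSpace x1 x2) ⋯ ⋯) (@CStarAlgebra.toNormedRing (@DoubleCentralizer Complex x1 (@DenselyNormedField.toNontriviallyNormedField Complex Complex.instDenselyNormedField) (@NonUnitalCStarAlgebra.toNonUnitalNormedRing x1 x2) (@NonUnitalCStarAlgebra.toNormedSpace x1 x2) ⋯ ⋯) (@DoubleCentralizer.instCStarAlgebraComplex x1 x2)))) (@NormedAlgebra.toAlgebra Complex (@DoubleCentralizer Complex x1 (@DenselyNormedField.toNontriviallyNormedField Complex Complex.instDenselyNormedField) (@NonUnitalCStarAlgebra.toNonUnitalNormedRing x1 x2) (@NonUnitalCStarAlgebra.toNormedSpace x1 x2) ⋯ ⋯) Complex.instNormedField (@NormedRing.toSeminormedRing (@DoubleCentralizer Complex x1 (@DenselyNormedField.toNontriviallyNormedField Complex Complex.instDenselyNormedField) (@NonUnitalCStarAlgebra.toNonUnitalNormedRing x1 x2) (@NonUnitalCStarAlgebra.toNormedSpace x1 x2) ⋯ ⋯) (@CStarAlgebra.toNormedRing (@DoubleCentralizer Complex x1 (@DenselyNormedField.toNontriviallyNormedField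 Complex Complex.instDenselyNormedField) (@NonUnitalCStarAlgebra.toNonUnitalNormedRing x1 x2) (@NonUnitalCStarAlgebra.toNormedSpace x1 x2) ⋯ ⋯) (@DoubleCentralizer.instCStarAlgebraComplex x1 x2))) (@CStarAlgebra.toNormedAlgebra (@DoubleCentralizer Complex x1 (@DenselyNormedField.toNontriviallyNormedField Complex Complex.instDenselyNormedField) (@NonUnitalCStarAlgebra.toNonUnitalNormedRing x1 x2) (@NonUnitalCStarAlgebra.toNormedSpace x1 x2) ⋯ ⋯) (@DoubleCentralizer.instCStarAlgebraComplex x1 x2)))) ⋯) (@Vale.Agent.P101.bddSeq (@DoubleCentralizer Complex x1 (@DenselyNormedField.toNontriviallyNormedField Complex Complex.instDenselyNormedField) (@NonUnitalCStarAlgebra.toNonUnitalNormedRing x1 x2) (@NonUnitalCStarAlgebra.toNormedSpace x1 x2) ⋯ ⋯) (@DoubleCentralizer.instCStarAlgebraComplex x1 x2) Nat) (Nat → @DoubleCentralizer Complex x1 (@DenselyNormedField.toNontriviallyNormedField Complex Complex.instDenselyNormedField) (@NonUnitalCStarAlgebra.toNonUnitalNormedRing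 x1 x2) (@NonUnitalCStarAlgebra.toNormedSpace x1 x2) ⋯ ⋯) (@Pi.semiring Nat (fun a => @DoubleCentralizer Complex x1 (@DenselyNormedField.toNontriviallyNormedField Complex Complex.instDenselyNormedField) (@NonUnitalCStarAlgebra.toNonUnitalNormedRing x1 x2) (@NonUnitalCStarAlgebra.toNormedSpace x1 x2) ⋯ ⋯) fun i => @Ring.toSemiring (@DoubleCentralizer Complex x1 (@DenselyNormedField.toNontriviallyNormedField Complex Complex.instDenselyNormedField) (@NonUnitalCStarAlgebra.toNonUnitalNormedRing x1 x2) (@NonUnitalCStarAlgebra.toNormedSpace x1 x2) ⋯ ⋯) (@DoubleCentralizer.instRing Complex x1 (@DenselyNormedField.toNontriviallyNormedField Complex Complex.instDenselyNormedField) (@NonUnitalCStarAlgebra.toNonUnitalNormedRing x1 x2) (@NonUnitalCStarAlgebra.toNormedSpace x1 x2) ⋯ ⋯)) (@StarSubalgebra.setLike Complex (Nat → @DoubleCentralizer Complex x1 (@DenselyNormedField.toNontriviallyNormedField Complex Complex.instDenselyNormedField) (@NonUnitalCStarAlgebra.toNonUnitalNormedRing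 x1 x2) (@NonUnitalCStarAlgebra.toNormedSpace x1 x2) ⋯ ⋯) Complex.instCommSemiring Complex.instStarRing (@Pi.semiring Nat (fun a => @DoubleCentralizer Complex x1 (@DenselyNormedField.toNontriviallyNormedField Complex Complex.instDenselyNormedField) (@NonUnitalCStarAlgebra.toNonUnitalNormedRing x1 x2) (@NonUnitalCStarAlgebra.toNormedSpace x1 x2) ⋯ ⋯) fun i => @Ring.toSemiring (@DoubleCentralizer Complex x1 (@DenselyNormedField.toNontriviallyNormedField Complex Complex.instDenselyNormedField) (@NonUnitalCStarAlgebra.toNonUnitalNormedRing x1 x2) (@NonUnitalCStarAlgebra.toNormedSpace x1 x2) ⋯ ⋯) (@NormedRing.toRing (@DoubleCentralizer Complex x1 (@DenselyNormedField.toNontriviallyNormedField Complex Complex.instDenselyNormedField) (@NonUnitalCStarAlgebra.toNonUnitalNormedRing x1 x2) (@NonUnitalCStarAlgebra.toNormedSpace x1 x2) ⋯ ⋯) (@CStarAlgebra.toNormedRing (@DoubleCentralizer Complex x1 (@DenselyNormedField.toNontriviallyNormedField Complex Complex.instDenselyNormedField)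 (@NonUnitalCStarAlgebra.toNonUnitalNormedRing x1 x2) (@NonUnitalCStarAlgebra.toNormedSpace x1 x2) ⋯ ⋯) (@DoubleCentralizer.instCStarAlgebraComplex x1 x2)))) (@Pi.starRing' Nat (fun a => @DoubleCentralizer Complex x1 (@DenselyNormedField.toNontriviallyNormedField Complex Complex.instDenselyNormedField) (@NonUnitalCStarAlgebra.toNonUnitalNormedRing x1 x2) (@NonUnitalCStarAlgebra.toNormedSpace x1 x2) ⋯ ⋯) (fun i => @NonUnitalCStarAlgebra.toNonUnitalNormedRing (@DoubleCentralizer Complex x1 (@DenselyNormedField.toNontriviallyNormedField Complex Complex.instDenselyNormedField) (@NonUnitalCStarAlgebra.toNonUnitalNormedRing x1 x2) (@NonUnitalCStarAlgebra.toNormedSpace x1 x2) ⋯ ⋯) (@CStarAlgebra.toNonUnitalCStarAlgebra (@DoubleCentralizer Complex x1 (@DenselyNormedField.toNontriviallyNormedField Complex Complex.instDenselyNormedField) (@NonUnitalCStarAlgebra.toNonUnitalNormedRing x1 x2) (@NonUnitalCStarAlgebra.toNormedSpace x1 x2) ⋯ ⋯) (@DoubleCentralizer.instCStarAlgebraComplex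 x1 x2))) fun i => @CStarAlgebra.toStarRing (@DoubleCentralizer Complex x1 (@DenselyNormedField.toNontriviallyNormedField Complex Complex.instDenselyNormedField) (@NonUnitalCStarAlgebra.toNonUnitalNormedRing x1 x2) (@NonUnitalCStarAlgebra.toNormedSpace x1 x2) ⋯ ⋯) (@DoubleCentralizer.instCStarAlgebraComplex x1 x2)) (@Function.algebra Complex Nat (@DoubleCentralizer Complex x1 (@DenselyNormedField.toNontriviallyNormedField Complex Complex.instDenselyNormedField) (@NonUnitalCStarAlgebra.toNonUnitalNormedRing x1 x2) (@NonUnitalCStarAlgebra.toNormedSpace x1 x2) ⋯ ⋯) Complex.instCommSemiring (@Ring.toSemiring (@DoubleCentralizer Complex x1 (@DenselyNormedField.toNontriviallyNormedField Complex Complex.instDenselyNormedField) (@NonUnitalCStarAlgebra.toNonUnitalNormedRing x1 x2) (@NonUnitalCStarAlgebra.toNormedSpace x1 x2) ⋯ ⋯) (@NormedRing.toRing (@DoubleCentralizer Complex x1 (@DenselyNormedField.toNontriviallyNormedField Complex Complex.instDenselyNormedField) (@NonUnitalCStarAlgebra.toNonUnitalNormedRing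 x1 x2) (@NonUnitalCStarAlgebra.toNormedSpace x1 x2) ⋯ ⋯) (@CStarAlgebra.toNormedRing (@DoubleCentralizer Complex x1 (@DenselyNormedField.toNontriviallyNormedField Complex Complex.instDenselyNormedField) (@NonUnitalCStarAlgebra.toNonUnitalNormedRing x1 x2) (@NonUnitalCStarAlgebra.toNormedSpace x1 x2) ⋯ ⋯) (@DoubleCentralizer.instCStarAlgebraComplex x1 x2)))) (@NormedAlgebra.toAlgebra Complex (@DoubleCentralizer Complex x1 (@DenselyNormedField.toNontriviallyNormedField Complex Complex.instDenselyNormedField) (@NonUnitalCStarAlgebra.toNonUnitalNormedRing x1 x2) (@NonUnitalCStarAlgebra.toNormedSpace x1 x2) ⋯ ⋯) Complex.instNormedField (@NormedRing.toSeminormedRing (@DoubleCentralizer Complex x1 (@DenselyNormedField.toNontriviallyNormedField Complex Complex.instDenselyNormedField) (@NonUnitalCStarAlgebra.toNonUnitalNormedRing x1 x2) (@NonUnitalCStarAlgebra.toNormedSpace x1 x2) ⋯ ⋯) (@CStarAlgebra.toNormedRing (@DoubleCentralizer Complex x1 (@DenselyNormedField.toNontriviallyNormedField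 Complex Complex.instDenselyNormedField) (@NonUnitalCStarAlgebra.toNonUnitalNormedRing x1 x2) (@NonUnitalCStarAlgebra.toNormedSpace x1 x2) ⋯ ⋯) (@DoubleCentralizer.instCStarAlgebraComplex x1 x2))) (@CStarAlgebra.toNormedAlgebra (@DoubleCentralizer Complex x1 (@DenselyNormedField.toNontriviallyNormedField Complex Complex.instDenselyNormedField) (@NonUnitalCStarAlgebra.toNonUnitalNormedRing x1 x2) (@NonUnitalCStarAlgebra.toNormedSpace x1 x2) ⋯ ⋯) (@DoubleCentralizer.instCStarAlgebraComplex x1 x2)))) ⋯) ⋯))) (@Vale.Agent.P101.SeqQuot.nullConG (@DoubleCentralizer Complex x1 (@DenselyNormedField.toNontriviallyNormedField Complex Complex.instDenselyNormedField) (@NonUnitalCStarAlgebra.toNonUnitalNormedRing x1 x2) (@NonUnitalCStarAlgebra.toNormedSpace x1 x2) ⋯ ⋯) (@DoubleCentralizer.instCStarAlgebraComplex x1 x2) Nat (@Filter.atTop Nat Nat.instPreorder) (@Vale.Agent.P101.bddSeq (@DoubleCentralizer Complex x1 (@DenselyNormedField.toNontriviallyNormedField Complex Complex.instDenselyNormedField)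 (@NonUnitalCStarAlgebra.toNonUnitalNormedRing x1 x2) (@NonUnitalCStarAlgebra.toNormedSpace x1 x2) ⋯ ⋯) (@DoubleCentralizer.instCStarAlgebraComplex x1 x2) Nat) ⋯)))) := inferInstance
@[reducible] noncomputable def a1.{u1} {x1 : Type u1} [x2 : NonUnitalCStarAlgebra x1] : Star (@Vale.Agent.P101.Bq (@DoubleCentralizer Complex x1 (@DenselyNormedField.toNontriviallyNormedField Complex Complex.instDenselyNormedField) (@NonUnitalCStarAlgebra.toNonUnitalNormedRing x1 x2) (@NonUnitalCStarAlgebra.toNormedSpace x1 x2) ⋯ ⋯) (@DoubleCentralizer.instCStarAlgebraComplex x1 x2) Nat (@Filter.atTop Nat Nat.instPreorder)) := inferInstance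
@[reducible] noncomputable def a2.{u1} {x1 : Type u1} [x2 : NonUnitalCStarAlgebra x1] : InvolutiveStar (@Vale.Agent.P101.Bq (@DoubleCentralizer Complex x1 (@DenselyNormedField.toNontriviallyNormedField Complex Complex.instDenselyNormedField) (@NonUnitalCStarAlgebra.toNonUnitalNormedRing x1 x2) (@NonUnitalCStarAlgebra.toNormedSpace x1 x2) ⋯ ⋯) (@DoubleCentralizer.instCStarAlgebraComplex x1 x2) Nat (@Filter.atTop Nat Nat.instPreorder)) := inferInstance
@[reducible] noncomputable def a3.{u1} {x1 : Type u1} [x2 : NonUnitalCStarAlgebra x1] : @HasDistribNeg (@Vale.Agent.P101.Bq (@DoubleCentralizer Complex x1 (@DenselyNormedField.toNontriviallyNormedField Complex Complex.instDenselyNormedField) (@NonUnitalCStarAlgebra.toNonUnitalNormedRing x1 x2) (@NonUnitalCStarAlgebra.toNormedSpace x1 x2) ⋯ ⋯) (@DoubleCentralizer.instCStarAlgebraComplex x1 x2) Nat (@Filter.atTop Nat Nat.instPreorder)) (@Distrib.toMul (@Vale.Agent.P101.Bq (@DoubleCentralizer Complex x1 (@DenselyNormedField.toNontriviallyNormedField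 Complex Complex.instDenselyNormedField) (@NonUnitalCStarAlgebra.toNonUnitalNormedRing x1 x2) (@NonUnitalCStarAlgebra.toNormedSpace x1 x2) ⋯ ⋯) (@DoubleCentralizer.instCStarAlgebraComplex x1 x2) Nat (@Filter.atTop Nat Nat.instPreorder)) (@NonUnitalNonAssocSemiring.toDistrib (@Vale.Agent.P101.Bq (@DoubleCentralizer Complex x1 (@DenselyNormedField.toNontriviallyNormedField Complex Complex.instDenselyNormedField) (@NonUnitalCStarAlgebra.toNonUnitalNormedRing x1 x2) (@NonUnitalCStarAlgebra.toNormedSpace x1 x2) ⋯ ⋯) (@DoubleCentralizer.instCStarAlgebraComplex x1 x2) Nat (@Filter.atTop Nat Nat.instPreorder)) (@NonUnitalNonAssocRing.toNonUnitalNonAssocSemiring (@Vale.Agent.P101.Bq (@DoubleCentralizer Complex x1 (@DenselyNormedField.toNontriviallyNormedField Complex Complex.instDenselyNormedField) (@NonUnitalCStarAlgebra.toNonUnitalNormedRing x1 x2) (@NonUnitalCStarAlgebra.toNormedSpace x1 x2) ⋯ ⋯) (@DoubleCentralizer.instCStarAlgebraComplex x1 x2) Nat (@Filter.atTop Nat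 Nat.instPreorder)) (@NonAssocRing.toNonUnitalNonAssocRing (@Vale.Agent.P101.Bq (@DoubleCentralizer Complex x1 (@DenselyNormedField.toNontriviallyNormedField Complex Complex.instDenselyNormedField) (@NonUnitalCStarAlgebra.toNonUnitalNormedRing x1 x2) (@NonUnitalCStarAlgebra.toNormedSpace x1 x2) ⋯ ⋯) (@DoubleCentralizer.instCStarAlgebraComplex x1 x2) Nat (@Filter.atTop Nat Nat.instPreorder)) (@Ring.toNonAssocRing (@Vale.Agent.P101.Bq (@DoubleCentralizer Complex x1 (@DenselyNormedField.toNontriviallyNormedField Complex Complex.instDenselyNormedField) (@NonUnitalCStarAlgebra.toNonUnitalNormedRing x1 x2) (@NonUnitalCStarAlgebra.toNormedSpace x1 x2) ⋯ ⋯) (@DoubleCentralizer.instCStarAlgebraComplex x1 x2) Nat (@Filter.atTop Nat Nat.instPreorder)) (@RingCon.instRingQuotient (↥(@Vale.Agent.P101.bddSeq (@DoubleCentralizer Complex x1 (@DenselyNormedField.toNontriviallyNormedField Complex Complex.instDenselyNormedField) (@NonUnitalCStarAlgebra.toNonUnitalNormedRing x1 x2)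 (@NonUnitalCStarAlgebra.toNormedSpace x1 x2) ⋯ ⋯) (@DoubleCentralizer.instCStarAlgebraComplex x1 x2) Nat)) (@SubringClass.toRing (@StarSubalgebra Complex (Nat → @DoubleCentralizer Complex x1 (@DenselyNormedField.toNontriviallyNormedField Complex Complex.instDenselyNormedField) (@NonUnitalCStarAlgebra.toNonUnitalNormedRing x1 x2) (@NonUnitalCStarAlgebra.toNormedSpace x1 x2) ⋯ ⋯) Complex.instCommSemiring Complex.instStarRing (@Pi.semiring Nat (fun a => @DoubleCentralizer Complex x1 (@DenselyNormedField.toNontriviallyNormedField Complex Complex.instDenselyNormedField) (@NonUnitalCStarAlgebra.toNonUnitalNormedRing x1 x2) (@NonUnitalCStarAlgebra.toNormedSpace x1 x2) ⋯ ⋯) fun i => @Ring.toSemiring (@DoubleCentralizer Complex x1 (@DenselyNormedField.toNontriviallyNormedField Complex Complex.instDenselyNormedField) (@NonUnitalCStarAlgebra.toNonUnitalNormedRing x1 x2) (@NonUnitalCStarAlgebra.toNormedSpace x1 x2) ⋯ ⋯) (@NormedRing.toRing (@DoubleCentralizer Complex x1 (@DenselyNormedField.toNontriviallyNormedField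 Complex Complex.instDenselyNormedField) (@NonUnitalCStarAlgebra.toNonUnitalNormedRing x1 x2) (@NonUnitalCStarAlgebra.toNormedSpace x1 x2) ⋯ ⋯) (@CStarAlgebra.toNormedRing (@DoubleCentralizer Complex x1 (@DenselyNormedField.toNontriviallyNormedField Complex Complex.instDenselyNormedField) (@NonUnitalCStarAlgebra.toNonUnitalNormedRing x1 x2) (@NonUnitalCStarAlgebra.toNormedSpace x1 x2) ⋯ ⋯) (@DoubleCentralizer.instCStarAlgebraComplex x1 x2)))) (@Pi.starRing' Nat (fun a => @DoubleCentralizer Complex x1 (@DenselyNormedField.toNontriviallyNormedField Complex Complex.instDenselyNormedField) (@NonUnitalCStarAlgebra.toNonUnitalNormedRing x1 x2) (@NonUnitalCStarAlgebra.toNormedSpace x1 x2) ⋯ ⋯) (fun i => @NonUnitalCStarAlgebra.toNonUnitalNormedRing (@DoubleCentralizer Complex x1 (@DenselyNormedField.toNontriviallyNormedField Complex Complex.instDenselyNormedField) (@NonUnitalCStarAlgebra.toNonUnitalNormedRing x1 x2) (@NonUnitalCStarAlgebra.toNormedSpace x1 x2) ⋯ ⋯) (@CStarAlgebra.toNonUnitalCStarAlgebra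 (@DoubleCentralizer Complex x1 (@DenselyNormedField.toNontriviallyNormedField Complex Complex.instDenselyNormedField) (@NonUnitalCStarAlgebra.toNonUnitalNormedRing x1 x2) (@NonUnitalCStarAlgebra.toNormedSpace x1 x2) ⋯ ⋯) (@DoubleCentralizer.instCStarAlgebraComplex x1 x2))) fun i => @CStarAlgebra.toStarRing (@DoubleCentralizer Complex x1 (@DenselyNormedField.toNontriviallyNormedField Complex Complex.instDenselyNormedField) (@NonUnitalCStarAlgebra.toNonUnitalNormedRing x1 x2) (@NonUnitalCStarAlgebra.toNormedSpace x1 x2) ⋯ ⋯) (@DoubleCentralizer.instCStarAlgebraComplex x1 x2)) (@Function.algebra Complex Nat (@DoubleCentralizer Complex x1 (@DenselyNormedField.toNontriviallyNormedField Complex Complex.instDenselyNormedField) (@NonUnitalCStarAlgebra.toNonUnitalNormedRing x1 x2) (@NonUnitalCStarAlgebra.toNormedSpace x1 x2) ⋯ ⋯) Complex.instCommSemiring (@Ring.toSemiring (@DoubleCentralizer Complex x1 (@DenselyNormedField.toNontriviallyNormedField Complex Complex.instDenselyNormedField)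 (@NonUnitalCStarAlgebra.toNonUnitalNormedRing x1 x2) (@NonUnitalCStarAlgebra.toNormedSpace x1 x2) ⋯ ⋯) (@NormedRing.toRing (@DoubleCentralizer Complex x1 (@DenselyNormedField.toNontriviallyNormedField Complex Complex.instDenselyNormedField) (@NonUnitalCStarAlgebra.toNonUnitalNormedRing x1 x2) (@NonUnitalCStarAlgebra.toNormedSpace x1 x2) ⋯ ⋯) (@CStarAlgebra.toNormedRing (@DoubleCentralizer Complex x1 (@DenselyNormedField.toNontriviallyNormedField Complex Complex.instDenselyNormedField) (@NonUnitalCStarAlgebra.toNonUnitalNormedRing x1 x2) (@NonUnitalCStarAlgebra.toNormedSpace x1 x2) ⋯ ⋯) (@DoubleCentralizer.instCStarAlgebraComplex x1 x2)))) (@NormedAlgebra.toAlgebra Complex (@DoubleCentralizer Complex x1 (@DenselyNormedField.toNontriviallyNormedField Complex Complex.instDenselyNormedField) (@NonUnitalCStarAlgebra.toNonUnitalNormedRing x1 x2) (@NonUnitalCStarAlgebra.toNormedSpace x1 x2) ⋯ ⋯) Complex.instNormedField (@NormedRing.toSeminormedRing (@DoubleCentralizer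 Complex x1 (@DenselyNormedField.toNontriviallyNormedField Complex Complex.instDenselyNormedField) (@NonUnitalCStarAlgebra.toNonUnitalNormedRing x1 x2) (@NonUnitalCStarAlgebra.toNormedSpace x1 x2) ⋯ ⋯) (@CStarAlgebra.toNormedRing (@DoubleCentralizer Complex x1 (@DenselyNormedField.toNontriviallyNormedField Complex Complex.instDenselyNormedField) (@NonUnitalCStarAlgebra.toNonUnitalNormedRing x1 x2) (@NonUnitalCStarAlgebra.toNormedSpace x1 x2) ⋯ ⋯) (@DoubleCentralizer.instCStarAlgebraComplex x1 x2))) (@CStarAlgebra.toNormedAlgebra (@DoubleCentralizer Complex x1 (@DenselyNormedField.toNontriviallyNormedField Complex Complex.instDenselyNormedField) (@NonUnitalCStarAlgebra.toNonUnitalNormedRing x1 x2) (@NonUnitalCStarAlgebra.toNormedSpace x1 x2) ⋯ ⋯) (@DoubleCentralizer.instCStarAlgebraComplex x1 x2)))) ⋯) (@Vale.Agent.P101.bddSeq (@DoubleCentralizer Complex x1 (@DenselyNormedField.toNontriviallyNormedField Complex Complex.instDenselyNormedField) (@NonUnitalCStarAlgebra.toNonUnitalNormedRing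 x1 x2) (@NonUnitalCStarAlgebra.toNormedSpace x1 x2) ⋯ ⋯) (@DoubleCentralizer.instCStarAlgebraComplex x1 x2) Nat) (Nat → @DoubleCentralizer Complex x1 (@DenselyNormedField.toNontriviallyNormedField Complex Complex.instDenselyNormedField) (@NonUnitalCStarAlgebra.toNonUnitalNormedRing x1 x2) (@NonUnitalCStarAlgebra.toNormedSpace x1 x2) ⋯ ⋯) (@Pi.ring Nat (fun a => @DoubleCentralizer Complex x1 (@DenselyNormedField.toNontriviallyNormedField Complex Complex.instDenselyNormedField) (@NonUnitalCStarAlgebra.toNonUnitalNormedRing x1 x2) (@NonUnitalCStarAlgebra.toNormedSpace x1 x2) ⋯ ⋯) fun i => @NormedRing.toRing (@DoubleCentralizer Complex x1 (@DenselyNormedField.toNontriviallyNormedField Complex Complex.instDenselyNormedField) (@NonUnitalCStarAlgebra.toNonUnitalNormedRing x1 x2) (@NonUnitalCStarAlgebra.toNormedSpace x1 x2) ⋯ ⋯) (@CStarAlgebra.toNormedRing (@DoubleCentralizer Complex x1 (@DenselyNormedField.toNontriviallyNormedField Complex Complex.instDenselyNormedField)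 (@NonUnitalCStarAlgebra.toNonUnitalNormedRing x1 x2) (@NonUnitalCStarAlgebra.toNormedSpace x1 x2) ⋯ ⋯) (@DoubleCentralizer.instCStarAlgebraComplex x1 x2))) (@StarSubalgebra.setLike Complex (Nat → @DoubleCentralizer Complex x1 (@DenselyNormedField.toNontriviallyNormedField Complex Complex.instDenselyNormedField) (@NonUnitalCStarAlgebra.toNonUnitalNormedRing x1 x2) (@NonUnitalCStarAlgebra.toNormedSpace x1 x2) ⋯ ⋯) Complex.instCommSemiring Complex.instStarRing (@Pi.semiring Nat (fun a => @DoubleCentralizer Complex x1 (@DenselyNormedField.toNontriviallyNormedField Complex Complex.instDenselyNormedField) (@NonUnitalCStarAlgebra.toNonUnitalNormedRing x1 x2) (@NonUnitalCStarAlgebra.toNormedSpace x1 x2) ⋯ ⋯) fun i => @Ring.toSemiring (@DoubleCentralizer Complex x1 (@DenselyNormedField.toNontriviallyNormedField Complex Complex.instDenselyNormedField) (@NonUnitalCStarAlgebra.toNonUnitalNormedRing x1 x2) (@NonUnitalCStarAlgebra.toNormedSpace x1 x2) ⋯ ⋯) (@NormedRing.toRing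 (@DoubleCentralizer Complex x1 (@DenselyNormedField.toNontriviallyNormedField Complex Complex.instDenselyNormedField) (@NonUnitalCStarAlgebra.toNonUnitalNormedRing x1 x2) (@NonUnitalCStarAlgebra.toNormedSpace x1 x2) ⋯ ⋯) (@CStarAlgebra.toNormedRing (@DoubleCentralizer Complex x1 (@DenselyNormedField.toNontriviallyNormedField Complex Complex.instDenselyNormedField) (@NonUnitalCStarAlgebra.toNonUnitalNormedRing x1 x2) (@NonUnitalCStarAlgebra.toNormedSpace x1 x2) ⋯ ⋯) (@DoubleCentralizer.instCStarAlgebraComplex x1 x2)))) (@Pi.starRing' Nat (fun a => @DoubleCentralizer Complex x1 (@DenselyNormedField.toNontriviallyNormedField Complex Complex.instDenselyNormedField) (@NonUnitalCStarAlgebra.toNonUnitalNormedRing x1 x2) (@NonUnitalCStarAlgebra.toNormedSpace x1 x2) ⋯ ⋯) (fun i => @NonUnitalCStarAlgebra.toNonUnitalNormedRing (@DoubleCentralizer Complex x1 (@DenselyNormedField.toNontriviallyNormedField Complex Complex.instDenselyNormedField) (@NonUnitalCStarAlgebra.toNonUnitalNormedRing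 x1 x2) (@NonUnitalCStarAlgebra.toNormedSpace x1 x2) ⋯ ⋯) (@CStarAlgebra.toNonUnitalCStarAlgebra (@DoubleCentralizer Complex x1 (@DenselyNormedField.toNontriviallyNormedField Complex Complex.instDenselyNormedField) (@NonUnitalCStarAlgebra.toNonUnitalNormedRing x1 x2) (@NonUnitalCStarAlgebra.toNormedSpace x1 x2) ⋯ ⋯) (@DoubleCentralizer.instCStarAlgebraComplex x1 x2))) fun i => @CStarAlgebra.toStarRing (@DoubleCentralizer Complex x1 (@DenselyNormedField.toNontriviallyNormedField Complex Complex.instDenselyNormedField) (@NonUnitalCStarAlgebra.toNonUnitalNormedRing x1 x2) (@NonUnitalCStarAlgebra.toNormedSpace x1 x2) ⋯ ⋯) (@DoubleCentralizer.instCStarAlgebraComplex x1 x2)) (@Function.algebra Complex Nat (@DoubleCentralizer Complex x1 (@DenselyNormedField.toNontriviallyNormedField Complex Complex.instDenselyNormedField) (@NonUnitalCStarAlgebra.toNonUnitalNormedRing x1 x2) (@NonUnitalCStarAlgebra.toNormedSpace x1 x2) ⋯ ⋯) Complex.instCommSemiring (@Ring.toSemiring (@DoubleCentralizer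 Complex x1 (@DenselyNormedField.toNontriviallyNormedField Complex Complex.instDenselyNormedField) (@NonUnitalCStarAlgebra.toNonUnitalNormedRing x1 x2) (@NonUnitalCStarAlgebra.toNormedSpace x1 x2) ⋯ ⋯) (@NormedRing.toRing (@DoubleCentralizer Complex x1 (@DenselyNormedField.toNontriviallyNormedField Complex Complex.instDenselyNormedField) (@NonUnitalCStarAlgebra.toNonUnitalNormedRing x1 x2) (@NonUnitalCStarAlgebra.toNormedSpace x1 x2) ⋯ ⋯) (@CStarAlgebra.toNormedRing (@DoubleCentralizer Complex x1 (@DenselyNormedField.toNontriviallyNormedField Complex Complex.instDenselyNormedField) (@NonUnitalCStarAlgebra.toNonUnitalNormedRing x1 x2) (@NonUnitalCStarAlgebra.toNormedSpace x1 x2) ⋯ ⋯) (@DoubleCentralizer.instCStarAlgebraComplex x1 x2)))) (@NormedAlgebra.toAlgebra Complex (@DoubleCentralizer Complex x1 (@DenselyNormedField.toNontriviallyNormedField Complex Complex.instDenselyNormedField) (@NonUnitalCStarAlgebra.toNonUnitalNormedRing x1 x2) (@NonUnitalCStarAlgebra.toNormedSpace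 x1 x2) ⋯ ⋯) Complex.instNormedField (@NormedRing.toSeminormedRing (@DoubleCentralizer Complex x1 (@DenselyNormedField.toNontriviallyNormedField Complex Complex.instDenselyNormedField) (@NonUnitalCStarAlgebra.toNonUnitalNormedRing x1 x2) (@NonUnitalCStarAlgebra.toNormedSpace x1 x2) ⋯ ⋯) (@CStarAlgebra.toNormedRing (@DoubleCentralizer Complex x1 (@DenselyNormedField.toNontriviallyNormedField Complex Complex.instDenselyNormedField) (@NonUnitalCStarAlgebra.toNonUnitalNormedRing x1 x2) (@NonUnitalCStarAlgebra.toNormedSpace x1 x2) ⋯ ⋯) (@DoubleCentralizer.instCStarAlgebraComplex x1 x2))) (@CStarAlgebra.toNormedAlgebra (@DoubleCentralizer Complex x1 (@DenselyNormedField.toNontriviallyNormedField Complex Complex.instDenselyNormedField) (@NonUnitalCStarAlgebra.toNonUnitalNormedRing x1 x2) (@NonUnitalCStarAlgebra.toNormedSpace x1 x2) ⋯ ⋯) (@DoubleCentralizer.instCStarAlgebraComplex x1 x2)))) ⋯) ⋯) (@Vale.Agent.P101.SeqQuot.nullConG (@DoubleCentralizer Complex x1 (@DenselyNormedField.toNontriviallyNormedField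 Complex Complex.instDenselyNormedField) (@NonUnitalCStarAlgebra.toNonUnitalNormedRing x1 x2) (@NonUnitalCStarAlgebra.toNormedSpace x1 x2) ⋯ ⋯) (@DoubleCentralizer.instCStarAlgebraComplex x1 x2) Nat (@Filter.atTop Nat Nat.instPreorder) (@Vale.Agent.P101.bddSeq (@DoubleCentralizer Complex x1 (@DenselyNormedField.toNontriviallyNormedField Complex Complex.instDenselyNormedField) (@NonUnitalCStarAlgebra.toNonUnitalNormedRing x1 x2) (@NonUnitalCStarAlgebra.toNormedSpace x1 x2) ⋯ ⋯) (@DoubleCentralizer.instCStarAlgebraComplex x1 x2) Nat) ⋯))))))) := inferInstance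
theorem a4.{u1} {x1 : Type u1} [x2 : NonUnitalCStarAlgebra x1] : @SeparatelyContinuousMul (@Vale.Agent.P101.Bq (@DoubleCentralizer Complex x1 (@DenselyNormedField.toNontriviallyNormedField Complex Complex.instDenselyNormedField) (@NonUnitalCStarAlgebra.toNonUnitalNormedRing x1 x2) (@NonUnitalCStarAlgebra.toNormedSpace x1 x2) ⋯ ⋯) (@DoubleCentralizer.instCStarAlgebraComplex x1 x2) Nat (@Filter.atTop Nat Nat.instPreorder)) (@UniformSpace.toTopologicalSpace (@Vale.Agent.P101.Bq (@DoubleCentralizer Complex x1 (@DenselyNormedField.toNontriviallyNormedField Complex Complex.instDenselyNormedField) (@NonUnitalCStarAlgebra.toNonUnitalNormedRing x1 x2) (@NonUnitalCStarAlgebra.toNormedSpace x1 x2) ⋯ ⋯) (@DoubleCentralizer.instCStarAlgebraComplex x1 x2) Nat (@Filter.atTop Nat Nat.instPreorder)) (@PseudoMetricSpace.toUniformSpace (@Vale.Agent.P101.Bq (@DoubleCentralizer Complex x1 (@DenselyNormedField.toNontriviallyNormedField Complex Complex.instDenselyNormedField) (@NonUnitalCStarAlgebra.toNonUnitalNormedRing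 x1 x2) (@NonUnitalCStarAlgebra.toNormedSpace x1 x2) ⋯ ⋯) (@DoubleCentralizer.instCStarAlgebraComplex x1 x2) Nat (@Filter.atTop Nat Nat.instPreorder)) (@SeminormedRing.toPseudoMetricSpace (@Vale.Agent.P101.Bq (@DoubleCentralizer Complex x1 (@DenselyNormedField.toNontriviallyNormedField Complex Complex.instDenselyNormedField) (@NonUnitalCStarAlgebra.toNonUnitalNormedRing x1 x2) (@NonUnitalCStarAlgebra.toNormedSpace x1 x2) ⋯ ⋯) (@DoubleCentralizer.instCStarAlgebraComplex x1 x2) Nat (@Filter.atTop Nat Nat.instPreorder)) (@NormedRing.toSeminormedRing (@Vale.Agent.P101.Bq (@DoubleCentralizer Complex x1 (@DenselyNormedField.toNontriviallyNormedField Complex Complex.instDenselyNormedField) (@NonUnitalCStarAlgebra.toNonUnitalNormedRing x1 x2) (@NonUnitalCStarAlgebra.toNormedSpace x1 x2) ⋯ ⋯) (@DoubleCentralizer.instCStarAlgebraComplex x1 x2) Nat (@Filter.atTop Nat Nat.instPreorder)) (@CStarAlgebra.toNormedRing (@Vale.Agent.P101.Bq (@DoubleCentralizer Complex x1 (@DenselyNormedField.toNontriviallyNormedField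 Complex Complex.instDenselyNormedField) (@NonUnitalCStarAlgebra.toNonUnitalNormedRing x1 x2) (@NonUnitalCStarAlgebra.toNormedSpace x1 x2) ⋯ ⋯) (@DoubleCentralizer.instCStarAlgebraComplex x1 x2) Nat (@Filter.atTop Nat Nat.instPreorder)) (@Vale.Agent.P101.instCStarBq (@DoubleCentralizer Complex x1 (@DenselyNormedField.toNontriviallyNormedField Complex Complex.instDenselyNormedField) (@NonUnitalCStarAlgebra.toNonUnitalNormedRing x1 x2) (@NonUnitalCStarAlgebra.toNormedSpace x1 x2) ⋯ ⋯) (@DoubleCentralizer.instCStarAlgebraComplex x1 x2) Nat (@Filter.atTop Nat Nat.instPreorder))))))) (@Distrib.toMul (@Vale.Agent.P101.Bq (@DoubleCentralizer Complex x1 (@DenselyNormedField.toNontriviallyNormedField Complex Complex.instDenselyNormedField) (@NonUnitalCStarAlgebra.toNonUnitalNormedRing x1 x2) (@NonUnitalCStarAlgebra.toNormedSpace x1 x2) ⋯ ⋯) (@DoubleCentralizer.instCStarAlgebraComplex x1 x2) Nat (@Filter.atTop Nat Nat.instPreorder)) (@NonUnitalNonAssocSemiring.toDistrib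 (@Vale.Agent.P101.Bq (@DoubleCentralizer Complex x1 (@DenselyNormedField.toNontriviallyNormedField Complex Complex.instDenselyNormedField) (@NonUnitalCStarAlgebra.toNonUnitalNormedRing x1 x2) (@NonUnitalCStarAlgebra.toNormedSpace x1 x2) ⋯ ⋯) (@DoubleCentralizer.instCStarAlgebraComplex x1 x2) Nat (@Filter.atTop Nat Nat.instPreorder)) (@RingCon.instNonUnitalNonAssocSemiringQuotient (↥(@Vale.Agent.P101.bddSeq (@DoubleCentralizer Complex x1 (@DenselyNormedField.toNontriviallyNormedField Complex Complex.instDenselyNormedField) (@NonUnitalCStarAlgebra.toNonUnitalNormedRing x1 x2) (@NonUnitalCStarAlgebra.toNormedSpace x1 x2) ⋯ ⋯) (@DoubleCentralizer.instCStarAlgebraComplex x1 x2) Nat)) (@NonAssocSemiring.toNonUnitalNonAssocSemiring (↥(@Vale.Agent.P101.bddSeq (@DoubleCentralizer Complex x1 (@DenselyNormedField.toNontriviallyNormedField Complex Complex.instDenselyNormedField) (@NonUnitalCStarAlgebra.toNonUnitalNormedRing x1 x2) (@NonUnitalCStarAlgebra.toNormedSpace x1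 x2) ⋯ ⋯) (@DoubleCentralizer.instCStarAlgebraComplex x1 x2) Nat)) (@Semiring.toNonAssocSemiring (↥(@Vale.Agent.P101.bddSeq (@DoubleCentralizer Complex x1 (@DenselyNormedField.toNontriviallyNormedField Complex Complex.instDenselyNormedField) (@NonUnitalCStarAlgebra.toNonUnitalNormedRing x1 x2) (@NonUnitalCStarAlgebra.toNormedSpace x1 x2) ⋯ ⋯) (@DoubleCentralizer.instCStarAlgebraComplex x1 x2) Nat)) (@SubsemiringClass.toSemiring (@StarSubalgebra Complex (Nat → @DoubleCentralizer Complex x1 (@DenselyNormedField.toNontriviallyNormedField Complex Complex.instDenselyNormedField) (@NonUnitalCStarAlgebra.toNonUnitalNormedRing x1 x2) (@NonUnitalCStarAlgebra.toNormedSpace x1 x2) ⋯ ⋯) Complex.instCommSemiring Complex.instStarRing (@Pi.semiring Nat (fun a => @DoubleCentralizer Complex x1 (@DenselyNormedField.toNontriviallyNormedField Complex Complex.instDenselyNormedField) (@NonUnitalCStarAlgebra.toNonUnitalNormedRing x1 x2) (@NonUnitalCStarAlgebra.toNormedSpace x1 x2) ⋯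 ⋯) fun i => @Ring.toSemiring (@DoubleCentralizer Complex x1 (@DenselyNormedField.toNontriviallyNormedField Complex Complex.instDenselyNormedField) (@NonUnitalCStarAlgebra.toNonUnitalNormedRing x1 x2) (@NonUnitalCStarAlgebra.toNormedSpace x1 x2) ⋯ ⋯) (@NormedRing.toRing (@DoubleCentralizer Complex x1 (@DenselyNormedField.toNontriviallyNormedField Complex Complex.instDenselyNormedField) (@NonUnitalCStarAlgebra.toNonUnitalNormedRing x1 x2) (@NonUnitalCStarAlgebra.toNormedSpace x1 x2) ⋯ ⋯) (@CStarAlgebra.toNormedRing (@DoubleCentralizer Complex x1 (@DenselyNormedField.toNontriviallyNormedField Complex Complex.instDenselyNormedField) (@NonUnitalCStarAlgebra.toNonUnitalNormedRing x1 x2) (@NonUnitalCStarAlgebra.toNormedSpace x1 x2) ⋯ ⋯) (@DoubleCentralizer.instCStarAlgebraComplex x1 x2)))) (@Pi.starRing' Nat (fun a => @DoubleCentralizer Complex x1 (@DenselyNormedField.toNontriviallyNormedField Complex Complex.instDenselyNormedField) (@NonUnitalCStarAlgebra.toNonUnitalNormedRing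 x1 x2) (@NonUnitalCStarAlgebra.toNormedSpace x1 x2) ⋯ ⋯) (fun i => @NonUnitalCStarAlgebra.toNonUnitalNormedRing (@DoubleCentralizer Complex x1 (@DenselyNormedField.toNontriviallyNormedField Complex Complex.instDenselyNormedField) (@NonUnitalCStarAlgebra.toNonUnitalNormedRing x1 x2) (@NonUnitalCStarAlgebra.toNormedSpace x1 x2) ⋯ ⋯) (@CStarAlgebra.toNonUnitalCStarAlgebra (@DoubleCentralizer Complex x1 (@DenselyNormedField.toNontriviallyNormedField Complex Complex.instDenselyNormedField) (@NonUnitalCStarAlgebra.toNonUnitalNormedRing x1 x2) (@NonUnitalCStarAlgebra.toNormedSpace x1 x2) ⋯ ⋯) (@DoubleCentralizer.instCStarAlgebraComplex x1 x2))) fun i => @CStarAlgebra.toStarRing (@DoubleCentralizer Complex x1 (@DenselyNormedField.toNontriviallyNormedField Complex Complex.instDenselyNormedField) (@NonUnitalCStarAlgebra.toNonUnitalNormedRing x1 x2) (@NonUnitalCStarAlgebra.toNormedSpace x1 x2) ⋯ ⋯) (@DoubleCentralizer.instCStarAlgebraComplex x1 x2)) (@Function.algebra Complex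 Nat (@DoubleCentralizer Complex x1 (@DenselyNormedField.toNontriviallyNormedField Complex Complex.instDenselyNormedField) (@NonUnitalCStarAlgebra.toNonUnitalNormedRing x1 x2) (@NonUnitalCStarAlgebra.toNormedSpace x1 x2) ⋯ ⋯) Complex.instCommSemiring (@Ring.toSemiring (@DoubleCentralizer Complex x1 (@DenselyNormedField.toNontriviallyNormedField Complex Complex.instDenselyNormedField) (@NonUnitalCStarAlgebra.toNonUnitalNormedRing x1 x2) (@NonUnitalCStarAlgebra.toNormedSpace x1 x2) ⋯ ⋯) (@NormedRing.toRing (@DoubleCentralizer Complex x1 (@DenselyNormedField.toNontriviallyNormedField Complex Complex.instDenselyNormedField) (@NonUnitalCStarAlgebra.toNonUnitalNormedRing x1 x2) (@NonUnitalCStarAlgebra.toNormedSpace x1 x2) ⋯ ⋯) (@CStarAlgebra.toNormedRing (@DoubleCentralizer Complex x1 (@DenselyNormedField.toNontriviallyNormedField Complex Complex.instDenselyNormedField) (@NonUnitalCStarAlgebra.toNonUnitalNormedRing x1 x2) (@NonUnitalCStarAlgebra.toNormedSpace x1 x2)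 ⋯ ⋯) (@DoubleCentralizer.instCStarAlgebraComplex x1 x2)))) (@NormedAlgebra.toAlgebra Complex (@DoubleCentralizer Complex x1 (@DenselyNormedField.toNontriviallyNormedField Complex Complex.instDenselyNormedField) (@NonUnitalCStarAlgebra.toNonUnitalNormedRing x1 x2) (@NonUnitalCStarAlgebra.toNormedSpace x1 x2) ⋯ ⋯) Complex.instNormedField (@NormedRing.toSeminormedRing (@DoubleCentralizer Complex x1 (@DenselyNormedField.toNontriviallyNormedField Complex Complex.instDenselyNormedField) (@NonUnitalCStarAlgebra.toNonUnitalNormedRing x1 x2) (@NonUnitalCStarAlgebra.toNormedSpace x1 x2) ⋯ ⋯) (@CStarAlgebra.toNormedRing (@DoubleCentralizer Complex x1 (@DenselyNormedField.toNontriviallyNormedField Complex Complex.instDenselyNormedField) (@NonUnitalCStarAlgebra.toNonUnitalNormedRing x1 x2) (@NonUnitalCStarAlgebra.toNormedSpace x1 x2) ⋯ ⋯) (@DoubleCentralizer.instCStarAlgebraComplex x1 x2))) (@CStarAlgebra.toNormedAlgebra (@DoubleCentralizer Complex x1 (@DenselyNormedField.toNontriviallyNormedField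 Complex Complex.instDenselyNormedField) (@NonUnitalCStarAlgebra.toNonUnitalNormedRing x1 x2) (@NonUnitalCStarAlgebra.toNormedSpace x1 x2) ⋯ ⋯) (@DoubleCentralizer.instCStarAlgebraComplex x1 x2)))) ⋯) (@Vale.Agent.P101.bddSeq (@DoubleCentralizer Complex x1 (@DenselyNormedField.toNontriviallyNormedField Complex Complex.instDenselyNormedField) (@NonUnitalCStarAlgebra.toNonUnitalNormedRing x1 x2) (@NonUnitalCStarAlgebra.toNormedSpace x1 x2) ⋯ ⋯) (@DoubleCentralizer.instCStarAlgebraComplex x1 x2) Nat) (Nat → @DoubleCentralizer Complex x1 (@DenselyNormedField.toNontriviallyNormedField Complex Complex.instDenselyNormedField) (@NonUnitalCStarAlgebra.toNonUnitalNormedRing x1 x2) (@NonUnitalCStarAlgebra.toNormedSpace x1 x2) ⋯ ⋯) (@Pi.semiring Nat (fun a => @DoubleCentralizer Complex x1 (@DenselyNormedField.toNontriviallyNormedField Complex Complex.instDenselyNormedField) (@NonUnitalCStarAlgebra.toNonUnitalNormedRing x1 x2) (@NonUnitalCStarAlgebra.toNormedSpace x1 x2) ⋯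 ⋯) fun i => @Ring.toSemiring (@DoubleCentralizer Complex x1 (@DenselyNormedField.toNontriviallyNormedField Complex Complex.instDenselyNormedField) (@NonUnitalCStarAlgebra.toNonUnitalNormedRing x1 x2) (@NonUnitalCStarAlgebra.toNormedSpace x1 x2) ⋯ ⋯) (@DoubleCentralizer.instRing Complex x1 (@DenselyNormedField.toNontriviallyNormedField Complex Complex.instDenselyNormedField) (@NonUnitalCStarAlgebra.toNonUnitalNormedRing x1 x2) (@NonUnitalCStarAlgebra.toNormedSpace x1 x2) ⋯ ⋯)) (@StarSubalgebra.setLike Complex (Nat → @DoubleCentralizer Complex x1 (@DenselyNormedField.toNontriviallyNormedField Complex Complex.instDenselyNormedField) (@NonUnitalCStarAlgebra.toNonUnitalNormedRing x1 x2) (@NonUnitalCStarAlgebra.toNormedSpace x1 x2) ⋯ ⋯) Complex.instCommSemiring Complex.instStarRing (@Pi.semiring Nat (fun a => @DoubleCentralizer Complex x1 (@DenselyNormedField.toNontriviallyNormedField Complex Complex.instDenselyNormedField) (@NonUnitalCStarAlgebra.toNonUnitalNormedRing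 x1 x2) (@NonUnitalCStarAlgebra.toNormedSpace x1 x2) ⋯ ⋯) fun i => @Ring.toSemiring (@DoubleCentralizer Complex x1 (@DenselyNormedField.toNontriviallyNormedField Complex Complex.instDenselyNormedField) (@NonUnitalCStarAlgebra.toNonUnitalNormedRing x1 x2) (@NonUnitalCStarAlgebra.toNormedSpace x1 x2) ⋯ ⋯) (@NormedRing.toRing (@DoubleCentralizer Complex x1 (@DenselyNormedField.toNontriviallyNormedField Complex Complex.instDenselyNormedField) (@NonUnitalCStarAlgebra.toNonUnitalNormedRing x1 x2) (@NonUnitalCStarAlgebra.toNormedSpace x1 x2) ⋯ ⋯) (@CStarAlgebra.toNormedRing (@DoubleCentralizer Complex x1 (@DenselyNormedField.toNontriviallyNormedField Complex Complex.instDenselyNormedField) (@NonUnitalCStarAlgebra.toNonUnitalNormedRing x1 x2) (@NonUnitalCStarAlgebra.toNormedSpace x1 x2) ⋯ ⋯) (@DoubleCentralizer.instCStarAlgebraComplex x1 x2)))) (@Pi.starRing' Nat (fun a => @DoubleCentralizer Complex x1 (@DenselyNormedField.toNontriviallyNormedField Complex Complex.instDenselyNormedField)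 (@NonUnitalCStarAlgebra.toNonUnitalNormedRing x1 x2) (@NonUnitalCStarAlgebra.toNormedSpace x1 x2) ⋯ ⋯) (fun i => @NonUnitalCStarAlgebra.toNonUnitalNormedRing (@DoubleCentralizer Complex x1 (@DenselyNormedField.toNontriviallyNormedField Complex Complex.instDenselyNormedField) (@NonUnitalCStarAlgebra.toNonUnitalNormedRing x1 x2) (@NonUnitalCStarAlgebra.toNormedSpace x1 x2) ⋯ ⋯) (@CStarAlgebra.toNonUnitalCStarAlgebra (@DoubleCentralizer Complex x1 (@DenselyNormedField.toNontriviallyNormedField Complex Complex.instDenselyNormedField) (@NonUnitalCStarAlgebra.toNonUnitalNormedRing x1 x2) (@NonUnitalCStarAlgebra.toNormedSpace x1 x2) ⋯ ⋯) (@DoubleCentralizer.instCStarAlgebraComplex x1 x2))) fun i => @CStarAlgebra.toStarRing (@DoubleCentralizer Complex x1 (@DenselyNormedField.toNontriviallyNormedField Complex Complex.instDenselyNormedField) (@NonUnitalCStarAlgebra.toNonUnitalNormedRing x1 x2) (@NonUnitalCStarAlgebra.toNormedSpace x1 x2) ⋯ ⋯) (@DoubleCentralizer.instCStarAlgebraComplex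 x1 x2)) (@Function.algebra Complex Nat (@DoubleCentralizer Complex x1 (@DenselyNormedField.toNontriviallyNormedField Complex Complex.instDenselyNormedField) (@NonUnitalCStarAlgebra.toNonUnitalNormedRing x1 x2) (@NonUnitalCStarAlgebra.toNormedSpace x1 x2) ⋯ ⋯) Complex.instCommSemiring (@Ring.toSemiring (@DoubleCentralizer Complex x1 (@DenselyNormedField.toNontriviallyNormedField Complex Complex.instDenselyNormedField) (@NonUnitalCStarAlgebra.toNonUnitalNormedRing x1 x2) (@NonUnitalCStarAlgebra.toNormedSpace x1 x2) ⋯ ⋯) (@NormedRing.toRing (@DoubleCentralizer Complex x1 (@DenselyNormedField.toNontriviallyNormedField Complex Complex.instDenselyNormedField) (@NonUnitalCStarAlgebra.toNonUnitalNormedRing x1 x2) (@NonUnitalCStarAlgebra.toNormedSpace x1 x2) ⋯ ⋯) (@CStarAlgebra.toNormedRing (@DoubleCentralizer Complex x1 (@DenselyNormedField.toNontriviallyNormedField Complex Complex.instDenselyNormedField) (@NonUnitalCStarAlgebra.toNonUnitalNormedRing x1 x2) (@NonUnitalCStarAlgebra.toNormedSpace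 x1 x2) ⋯ ⋯) (@DoubleCentralizer.instCStarAlgebraComplex x1 x2)))) (@NormedAlgebra.toAlgebra Complex (@DoubleCentralizer Complex x1 (@DenselyNormedField.toNontriviallyNormedField Complex Complex.instDenselyNormedField) (@NonUnitalCStarAlgebra.toNonUnitalNormedRing x1 x2) (@NonUnitalCStarAlgebra.toNormedSpace x1 x2) ⋯ ⋯) Complex.instNormedField (@NormedRing.toSeminormedRing (@DoubleCentralizer Complex x1 (@DenselyNormedField.toNontriviallyNormedField Complex Complex.instDenselyNormedField) (@NonUnitalCStarAlgebra.toNonUnitalNormedRing x1 x2) (@NonUnitalCStarAlgebra.toNormedSpace x1 x2) ⋯ ⋯) (@CStarAlgebra.toNormedRing (@DoubleCentralizer Complex x1 (@DenselyNormedField.toNontriviallyNormedField Complex Complex.instDenselyNormedField) (@NonUnitalCStarAlgebra.toNonUnitalNormedRing x1 x2) (@NonUnitalCStarAlgebra.toNormedSpace x1 x2) ⋯ ⋯) (@DoubleCentralizer.instCStarAlgebraComplex x1 x2))) (@CStarAlgebra.toNormedAlgebra (@DoubleCentralizer Complex x1 (@DenselyNormedField.toNontriviallyNormedField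 Complex Complex.instDenselyNormedField) (@NonUnitalCStarAlgebra.toNonUnitalNormedRing x1 x2) (@NonUnitalCStarAlgebra.toNormedSpace x1 x2) ⋯ ⋯) (@DoubleCentralizer.instCStarAlgebraComplex x1 x2)))) ⋯) ⋯))) (@Vale.Agent.P101.SeqQuot.nullConG (@DoubleCentralizer Complex x1 (@DenselyNormedField.toNontriviallyNormedField Complex Complex.instDenselyNormedField) (@NonUnitalCStarAlgebra.toNonUnitalNormedRing x1 x2) (@NonUnitalCStarAlgebra.toNormedSpace x1 x2) ⋯ ⋯) (@DoubleCentralizer.instCStarAlgebraComplex x1 x2) Nat (@Filter.atTop Nat Nat.instPreorder) (@Vale.Agent.P101.bddSeq (@DoubleCentralizer Complex x1 (@DenselyNormedField.toNontriviallyNormedField Complex Complex.instDenselyNormedField) (@NonUnitalCStarAlgebra.toNonUnitalNormedRing x1 x2) (@NonUnitalCStarAlgebra.toNormedSpace x1 x2) ⋯ ⋯) (@DoubleCentralizer.instCStarAlgebraComplex x1 x2) Nat) ⋯)))) := inferInstance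
theorem a5.{u1} {x1 : Type u1} [x2 : NonUnitalCStarAlgebra x1] : @IsSemitopologicalSemiring (@Vale.Agent.P101.Bq (@DoubleCentralizer Complex x1 (@DenselyNormedField.toNontriviallyNormedField Complex Complex.instDenselyNormedField) (@NonUnitalCStarAlgebra.toNonUnitalNormedRing x1 x2) (@NonUnitalCStarAlgebra.toNormedSpace x1 x2) ⋯ ⋯) (@DoubleCentralizer.instCStarAlgebraComplex x1 x2) Nat (@Filter.atTop Nat Nat.instPreorder)) (@UniformSpace.toTopologicalSpace (@Vale.Agent.P101.Bq (@DoubleCentralizer Complex x1 (@DenselyNormedField.toNontriviallyNormedField Complex Complex.instDenselyNormedField) (@NonUnitalCStarAlgebra.toNonUnitalNormedRing x1 x2) (@NonUnitalCStarAlgebra.toNormedSpace x1 x2) ⋯ ⋯) (@DoubleCentralizer.instCStarAlgebraComplex x1 x2) Nat (@Filter.atTop Nat Nat.instPreorder)) (@PseudoMetricSpace.toUniformSpace (@Vale.Agent.P101.Bq (@DoubleCentralizer Complex x1 (@DenselyNormedField.toNontriviallyNormedField Complex Complex.instDenselyNormedField) (@NonUnitalCStarAlgebra.toNonUnitalNormedRing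 x1 x2) (@NonUnitalCStarAlgebra.toNormedSpace x1 x2) ⋯ ⋯) (@DoubleCentralizer.instCStarAlgebraComplex x1 x2) Nat (@Filter.atTop Nat Nat.instPreorder)) (@SeminormedRing.toPseudoMetricSpace (@Vale.Agent.P101.Bq (@DoubleCentralizer Complex x1 (@DenselyNormedField.toNontriviallyNormedField Complex Complex.instDenselyNormedField) (@NonUnitalCStarAlgebra.toNonUnitalNormedRing x1 x2) (@NonUnitalCStarAlgebra.toNormedSpace x1 x2) ⋯ ⋯) (@DoubleCentralizer.instCStarAlgebraComplex x1 x2) Nat (@Filter.atTop Nat Nat.instPreorder)) (@NormedRing.toSeminormedRing (@Vale.Agent.P101.Bq (@DoubleCentralizer Complex x1 (@DenselyNormedField.toNontriviallyNormedField Complex Complex.instDenselyNormedField) (@NonUnitalCStarAlgebra.toNonUnitalNormedRing x1 x2) (@NonUnitalCStarAlgebra.toNormedSpace x1 x2) ⋯ ⋯) (@DoubleCentralizer.instCStarAlgebraComplex x1 x2) Nat (@Filter.atTop Nat Nat.instPreorder)) (@CStarAlgebra.toNormedRing (@Vale.Agent.P101.Bq (@DoubleCentralizer Complex x1 (@DenselyNormedField.toNontriviallyNormedField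 Complex Complex.instDenselyNormedField) (@NonUnitalCStarAlgebra.toNonUnitalNormedRing x1 x2) (@NonUnitalCStarAlgebra.toNormedSpace x1 x2) ⋯ ⋯) (@DoubleCentralizer.instCStarAlgebraComplex x1 x2) Nat (@Filter.atTop Nat Nat.instPreorder)) (@Vale.Agent.P101.instCStarBq (@DoubleCentralizer Complex x1 (@DenselyNormedField.toNontriviallyNormedField Complex Complex.instDenselyNormedField) (@NonUnitalCStarAlgebra.toNonUnitalNormedRing x1 x2) (@NonUnitalCStarAlgebra.toNormedSpace x1 x2) ⋯ ⋯) (@DoubleCentralizer.instCStarAlgebraComplex x1 x2) Nat (@Filter.atTop Nat Nat.instPreorder))))))) (@NonUnitalNonAssocRing.toNonUnitalNonAssocSemiring (@Vale.Agent.P101.Bq (@DoubleCentralizer Complex x1 (@DenselyNormedField.toNontriviallyNormedField Complex Complex.instDenselyNormedField) (@NonUnitalCStarAlgebra.toNonUnitalNormedRing x1 x2) (@NonUnitalCStarAlgebra.toNormedSpace x1 x2) ⋯ ⋯) (@DoubleCentralizer.instCStarAlgebraComplex x1 x2) Nat (@Filter.atTop Nat Nat.instPreorder)) (@NonAssocRing.toNonUnitalNonAssocRing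 (@Vale.Agent.P101.Bq (@DoubleCentralizer Complex x1 (@DenselyNormedField.toNontriviallyNormedField Complex Complex.instDenselyNormedField) (@NonUnitalCStarAlgebra.toNonUnitalNormedRing x1 x2) (@NonUnitalCStarAlgebra.toNormedSpace x1 x2) ⋯ ⋯) (@DoubleCentralizer.instCStarAlgebraComplex x1 x2) Nat (@Filter.atTop Nat Nat.instPreorder)) (@Ring.toNonAssocRing (@Vale.Agent.P101.Bq (@DoubleCentralizer Complex x1 (@DenselyNormedField.toNontriviallyNormedField Complex Complex.instDenselyNormedField) (@NonUnitalCStarAlgebra.toNonUnitalNormedRing x1 x2) (@NonUnitalCStarAlgebra.toNormedSpace x1 x2) ⋯ ⋯) (@DoubleCentralizer.instCStarAlgebraComplex x1 x2) Nat (@Filter.atTop Nat Nat.instPreorder)) (@RingCon.instRingQuotient (↥(@Vale.Agent.P101.bddSeq (@DoubleCentralizer Complex x1 (@DenselyNormedField.toNontriviallyNormedField Complex Complex.instDenselyNormedField) (@NonUnitalCStarAlgebra.toNonUnitalNormedRing x1 x2) (@NonUnitalCStarAlgebra.toNormedSpace x1 x2) ⋯ ⋯) (@DoubleCentralizer.instCStarAlgebraComplex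 x1 x2) Nat)) (@SubringClass.toRing (@StarSubalgebra Complex (Nat → @DoubleCentralizer Complex x1 (@DenselyNormedField.toNontriviallyNormedField Complex Complex.instDenselyNormedField) (@NonUnitalCStarAlgebra.toNonUnitalNormedRing x1 x2) (@NonUnitalCStarAlgebra.toNormedSpace x1 x2) ⋯ ⋯) Complex.instCommSemiring Complex.instStarRing (@Pi.semiring Nat (fun a => @DoubleCentralizer Complex x1 (@DenselyNormedField.toNontriviallyNormedField Complex Complex.instDenselyNormedField) (@NonUnitalCStarAlgebra.toNonUnitalNormedRing x1 x2) (@NonUnitalCStarAlgebra.toNormedSpace x1 x2) ⋯ ⋯) fun i => @Ring.toSemiring (@DoubleCentralizer Complex x1 (@DenselyNormedField.toNontriviallyNormedField Complex Complex.instDenselyNormedField) (@NonUnitalCStarAlgebra.toNonUnitalNormedRing x1 x2) (@NonUnitalCStarAlgebra.toNormedSpace x1 x2) ⋯ ⋯) (@NormedRing.toRing (@DoubleCentralizer Complex x1 (@DenselyNormedField.toNontriviallyNormedField Complex Complex.instDenselyNormedField) (@NonUnitalCStarAlgebra.toNonUnitalNormedRing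 x1 x2) (@NonUnitalCStarAlgebra.toNormedSpace x1 x2) ⋯ ⋯) (@CStarAlgebra.toNormedRing (@DoubleCentralizer Complex x1 (@DenselyNormedField.toNontriviallyNormedField Complex Complex.instDenselyNormedField) (@NonUnitalCStarAlgebra.toNonUnitalNormedRing x1 x2) (@NonUnitalCStarAlgebra.toNormedSpace x1 x2) ⋯ ⋯) (@DoubleCentralizer.instCStarAlgebraComplex x1 x2)))) (@Pi.starRing' Nat (fun a => @DoubleCentralizer Complex x1 (@DenselyNormedField.toNontriviallyNormedField Complex Complex.instDenselyNormedField) (@NonUnitalCStarAlgebra.toNonUnitalNormedRing x1 x2) (@NonUnitalCStarAlgebra.toNormedSpace x1 x2) ⋯ ⋯) (fun i => @NonUnitalCStarAlgebra.toNonUnitalNormedRing (@DoubleCentralizer Complex x1 (@DenselyNormedField.toNontriviallyNormedField Complex Complex.instDenselyNormedField) (@NonUnitalCStarAlgebra.toNonUnitalNormedRing x1 x2) (@NonUnitalCStarAlgebra.toNormedSpace x1 x2) ⋯ ⋯) (@CStarAlgebra.toNonUnitalCStarAlgebra (@DoubleCentralizer Complex x1 (@DenselyNormedField.toNontriviallyNormedField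 Complex Complex.instDenselyNormedField) (@NonUnitalCStarAlgebra.toNonUnitalNormedRing x1 x2) (@NonUnitalCStarAlgebra.toNormedSpace x1 x2) ⋯ ⋯) (@DoubleCentralizer.instCStarAlgebraComplex x1 x2))) fun i => @CStarAlgebra.toStarRing (@DoubleCentralizer Complex x1 (@DenselyNormedField.toNontriviallyNormedField Complex Complex.instDenselyNormedField) (@NonUnitalCStarAlgebra.toNonUnitalNormedRing x1 x2) (@NonUnitalCStarAlgebra.toNormedSpace x1 x2) ⋯ ⋯) (@DoubleCentralizer.instCStarAlgebraComplex x1 x2)) (@Function.algebra Complex Nat (@DoubleCentralizer Complex x1 (@DenselyNormedField.toNontriviallyNormedField Complex Complex.instDenselyNormedField) (@NonUnitalCStarAlgebra.toNonUnitalNormedRing x1 x2) (@NonUnitalCStarAlgebra.toNormedSpace x1 x2) ⋯ ⋯) Complex.instCommSemiring (@Ring.toSemiring (@DoubleCentralizer Complex x1 (@DenselyNormedField.toNontriviallyNormedField Complex Complex.instDenselyNormedField) (@NonUnitalCStarAlgebra.toNonUnitalNormedRing x1 x2) (@NonUnitalCStarAlgebra.toNormedSpace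 x1 x2) ⋯ ⋯) (@NormedRing.toRing (@DoubleCentralizer Complex x1 (@DenselyNormedField.toNontriviallyNormedField Complex Complex.instDenselyNormedField) (@NonUnitalCStarAlgebra.toNonUnitalNormedRing x1 x2) (@NonUnitalCStarAlgebra.toNormedSpace x1 x2) ⋯ ⋯) (@CStarAlgebra.toNormedRing (@DoubleCentralizer Complex x1 (@DenselyNormedField.toNontriviallyNormedField Complex Complex.instDenselyNormedField) (@NonUnitalCStarAlgebra.toNonUnitalNormedRing x1 x2) (@NonUnitalCStarAlgebra.toNormedSpace x1 x2) ⋯ ⋯) (@DoubleCentralizer.instCStarAlgebraComplex x1 x2)))) (@NormedAlgebra.toAlgebra Complex (@DoubleCentralizer Complex x1 (@DenselyNormedField.toNontriviallyNormedField Complex Complex.instDenselyNormedField) (@NonUnitalCStarAlgebra.toNonUnitalNormedRing x1 x2) (@NonUnitalCStarAlgebra.toNormedSpace x1 x2) ⋯ ⋯) Complex.instNormedField (@NormedRing.toSeminormedRing (@DoubleCentralizer Complex x1 (@DenselyNormedField.toNontriviallyNormedField Complex Complex.instDenselyNormedField)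 (@NonUnitalCStarAlgebra.toNonUnitalNormedRing x1 x2) (@NonUnitalCStarAlgebra.toNormedSpace x1 x2) ⋯ ⋯) (@CStarAlgebra.toNormedRing (@DoubleCentralizer Complex x1 (@DenselyNormedField.toNontriviallyNormedField Complex Complex.instDenselyNormedField) (@NonUnitalCStarAlgebra.toNonUnitalNormedRing x1 x2) (@NonUnitalCStarAlgebra.toNormedSpace x1 x2) ⋯ ⋯) (@DoubleCentralizer.instCStarAlgebraComplex x1 x2))) (@CStarAlgebra.toNormedAlgebra (@DoubleCentralizer Complex x1 (@DenselyNormedField.toNontriviallyNormedField Complex Complex.instDenselyNormedField) (@NonUnitalCStarAlgebra.toNonUnitalNormedRing x1 x2) (@NonUnitalCStarAlgebra.toNormedSpace x1 x2) ⋯ ⋯) (@DoubleCentralizer.instCStarAlgebraComplex x1 x2)))) ⋯) (@Vale.Agent.P101.bddSeq (@DoubleCentralizer Complex x1 (@DenselyNormedField.toNontriviallyNormedField Complex Complex.instDenselyNormedField) (@NonUnitalCStarAlgebra.toNonUnitalNormedRing x1 x2) (@NonUnitalCStarAlgebra.toNormedSpace x1 x2) ⋯ ⋯) (@DoubleCentralizer.instCStarAlgebraComplex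 x1 x2) Nat) (Nat → @DoubleCentralizer Complex x1 (@DenselyNormedField.toNontriviallyNormedField Complex Complex.instDenselyNormedField) (@NonUnitalCStarAlgebra.toNonUnitalNormedRing x1 x2) (@NonUnitalCStarAlgebra.toNormedSpace x1 x2) ⋯ ⋯) (@Pi.ring Nat (fun a => @DoubleCentralizer Complex x1 (@DenselyNormedField.toNontriviallyNormedField Complex Complex.instDenselyNormedField) (@NonUnitalCStarAlgebra.toNonUnitalNormedRing x1 x2) (@NonUnitalCStarAlgebra.toNormedSpace x1 x2) ⋯ ⋯) fun i => @NormedRing.toRing (@DoubleCentralizer Complex x1 (@DenselyNormedField.toNontriviallyNormedField Complex Complex.instDenselyNormedField) (@NonUnitalCStarAlgebra.toNonUnitalNormedRing x1 x2) (@NonUnitalCStarAlgebra.toNormedSpace x1 x2) ⋯ ⋯) (@CStarAlgebra.toNormedRing (@DoubleCentralizer Complex x1 (@DenselyNormedField.toNontriviallyNormedField Complex Complex.instDenselyNormedField) (@NonUnitalCStarAlgebra.toNonUnitalNormedRing x1 x2) (@NonUnitalCStarAlgebra.toNormedSpace x1 x2)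 ⋯ ⋯) (@DoubleCentralizer.instCStarAlgebraComplex x1 x2))) (@StarSubalgebra.setLike Complex (Nat → @DoubleCentralizer Complex x1 (@DenselyNormedField.toNontriviallyNormedField Complex Complex.instDenselyNormedField) (@NonUnitalCStarAlgebra.toNonUnitalNormedRing x1 x2) (@NonUnitalCStarAlgebra.toNormedSpace x1 x2) ⋯ ⋯) Complex.instCommSemiring Complex.instStarRing (@Pi.semiring Nat (fun a => @DoubleCentralizer Complex x1 (@DenselyNormedField.toNontriviallyNormedField Complex Complex.instDenselyNormedField) (@NonUnitalCStarAlgebra.toNonUnitalNormedRing x1 x2) (@NonUnitalCStarAlgebra.toNormedSpace x1 x2) ⋯ ⋯) fun i => @Ring.toSemiring (@DoubleCentralizer Complex x1 (@DenselyNormedField.toNontriviallyNormedField Complex Complex.instDenselyNormedField) (@NonUnitalCStarAlgebra.toNonUnitalNormedRing x1 x2) (@NonUnitalCStarAlgebra.toNormedSpace x1 x2) ⋯ ⋯) (@NormedRing.toRing (@DoubleCentralizer Complex x1 (@DenselyNormedField.toNontriviallyNormedField Complex Complex.instDenselyNormedField)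 (@NonUnitalCStarAlgebra.toNonUnitalNormedRing x1 x2) (@NonUnitalCStarAlgebra.toNormedSpace x1 x2) ⋯ ⋯) (@CStarAlgebra.toNormedRing (@DoubleCentralizer Complex x1 (@DenselyNormedField.toNontriviallyNormedField Complex Complex.instDenselyNormedField) (@NonUnitalCStarAlgebra.toNonUnitalNormedRing x1 x2) (@NonUnitalCStarAlgebra.toNormedSpace x1 x2) ⋯ ⋯) (@DoubleCentralizer.instCStarAlgebraComplex x1 x2)))) (@Pi.starRing' Nat (fun a => @DoubleCentralizer Complex x1 (@DenselyNormedField.toNontriviallyNormedField Complex Complex.instDenselyNormedField) (@NonUnitalCStarAlgebra.toNonUnitalNormedRing x1 x2) (@NonUnitalCStarAlgebra.toNormedSpace x1 x2) ⋯ ⋯) (fun i => @NonUnitalCStarAlgebra.toNonUnitalNormedRing (@DoubleCentralizer Complex x1 (@DenselyNormedField.toNontriviallyNormedField Complex Complex.instDenselyNormedField) (@NonUnitalCStarAlgebra.toNonUnitalNormedRing x1 x2) (@NonUnitalCStarAlgebra.toNormedSpace x1 x2) ⋯ ⋯) (@CStarAlgebra.toNonUnitalCStarAlgebra (@DoubleCentralizer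 Complex x1 (@DenselyNormedField.toNontriviallyNormedField Complex Complex.instDenselyNormedField) (@NonUnitalCStarAlgebra.toNonUnitalNormedRing x1 x2) (@NonUnitalCStarAlgebra.toNormedSpace x1 x2) ⋯ ⋯) (@DoubleCentralizer.instCStarAlgebraComplex x1 x2))) fun i => @CStarAlgebra.toStarRing (@DoubleCentralizer Complex x1 (@DenselyNormedField.toNontriviallyNormedField Complex Complex.instDenselyNormedField) (@NonUnitalCStarAlgebra.toNonUnitalNormedRing x1 x2) (@NonUnitalCStarAlgebra.toNormedSpace x1 x2) ⋯ ⋯) (@DoubleCentralizer.instCStarAlgebraComplex x1 x2)) (@Function.algebra Complex Nat (@DoubleCentralizer Complex x1 (@DenselyNormedField.toNontriviallyNormedField Complex Complex.instDenselyNormedField) (@NonUnitalCStarAlgebra.toNonUnitalNormedRing x1 x2) (@NonUnitalCStarAlgebra.toNormedSpace x1 x2) ⋯ ⋯) Complex.instCommSemiring (@Ring.toSemiring (@DoubleCentralizer Complex x1 (@DenselyNormedField.toNontriviallyNormedField Complex Complex.instDenselyNormedField)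 (@NonUnitalCStarAlgebra.toNonUnitalNormedRing x1 x2) (@NonUnitalCStarAlgebra.toNormedSpace x1 x2) ⋯ ⋯) (@NormedRing.toRing (@DoubleCentralizer Complex x1 (@DenselyNormedField.toNontriviallyNormedField Complex Complex.instDenselyNormedField) (@NonUnitalCStarAlgebra.toNonUnitalNormedRing x1 x2) (@NonUnitalCStarAlgebra.toNormedSpace x1 x2) ⋯ ⋯) (@CStarAlgebra.toNormedRing (@DoubleCentralizer Complex x1 (@DenselyNormedField.toNontriviallyNormedField Complex Complex.instDenselyNormedField) (@NonUnitalCStarAlgebra.toNonUnitalNormedRing x1 x2) (@NonUnitalCStarAlgebra.toNormedSpace x1 x2) ⋯ ⋯) (@DoubleCentralizer.instCStarAlgebraComplex x1 x2)))) (@NormedAlgebra.toAlgebra Complex (@DoubleCentralizer Complex x1 (@DenselyNormedField.toNontriviallyNormedField Complex Complex.instDenselyNormedField) (@NonUnitalCStarAlgebra.toNonUnitalNormedRing x1 x2) (@NonUnitalCStarAlgebra.toNormedSpace x1 x2) ⋯ ⋯) Complex.instNormedField (@NormedRing.toSeminormedRing (@DoubleCentralizer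 Complex x1 (@DenselyNormedField.toNontriviallyNormedField Complex Complex.instDenselyNormedField) (@NonUnitalCStarAlgebra.toNonUnitalNormedRing x1 x2) (@NonUnitalCStarAlgebra.toNormedSpace x1 x2) ⋯ ⋯) (@CStarAlgebra.toNormedRing (@DoubleCentralizer Complex x1 (@DenselyNormedField.toNontriviallyNormedField Complex Complex.instDenselyNormedField) (@NonUnitalCStarAlgebra.toNonUnitalNormedRing x1 x2) (@NonUnitalCStarAlgebra.toNormedSpace x1 x2) ⋯ ⋯) (@DoubleCentralizer.instCStarAlgebraComplex x1 x2))) (@CStarAlgebra.toNormedAlgebra (@DoubleCentralizer Complex x1 (@DenselyNormedField.toNontriviallyNormedField Complex Complex.instDenselyNormedField) (@NonUnitalCStarAlgebra.toNonUnitalNormedRing x1 x2) (@NonUnitalCStarAlgebra.toNormedSpace x1 x2) ⋯ ⋯) (@DoubleCentralizer.instCStarAlgebraComplex x1 x2)))) ⋯) ⋯) (@Vale.Agent.P101.SeqQuot.nullConG (@DoubleCentralizer Complex x1 (@DenselyNormedField.toNontriviallyNormedField Complex Complex.instDenselyNormedField) (@NonUnitalCStarAlgebra.toNonUnitalNormedRing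 x1 x2) (@NonUnitalCStarAlgebra.toNormedSpace x1 x2) ⋯ ⋯) (@DoubleCentralizer.instCStarAlgebraComplex x1 x2) Nat (@Filter.atTop Nat Nat.instPreorder) (@Vale.Agent.P101.bddSeq (@DoubleCentralizer Complex x1 (@DenselyNormedField.toNontriviallyNormedField Complex Complex.instDenselyNormedField) (@NonUnitalCStarAlgebra.toNonUnitalNormedRing x1 x2) (@NonUnitalCStarAlgebra.toNormedSpace x1 x2) ⋯ ⋯) (@DoubleCentralizer.instCStarAlgebraComplex x1 x2) Nat) ⋯))))) := inferInstance
@[reducible] noncomputable def a6.{u1} {x1 : Type u1} [x2 : NonUnitalCStarAlgebra x1] : SMul ℂ (DoubleCentralizer ℂ x1) := inferInstance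
@[reducible] noncomputable def a7.{u1} {x1 : Type u1} [x2 : NonUnitalCStarAlgebra x1] : @StarMul (@Vale.Agent.P101.Bq (@DoubleCentralizer Complex x1 (@DenselyNormedField.toNontriviallyNormedField Complex Complex.instDenselyNormedField) (@NonUnitalCStarAlgebra.toNonUnitalNormedRing x1 x2) (@NonUnitalCStarAlgebra.toNormedSpace x1 x2) ⋯ ⋯) (@DoubleCentralizer.instCStarAlgebraComplex x1 x2) Nat (@Filter.atTop Nat Nat.instPreorder)) (@Distrib.toMul (@Vale.Agent.P101.Bq (@DoubleCentralizer Complex x1 (@DenselyNormedField.toNontriviallyNormedField Complex Complex.instDenselyNormedField) (@NonUnitalCStarAlgebra.toNonUnitalNormedRing x1 x2) (@NonUnitalCStarAlgebra.toNormedSpace x1 x2) ⋯ ⋯) (@DoubleCentralizer.instCStarAlgebraComplex x1 x2) Nat (@Filter.atTop Nat Nat.instPreorder)) (@NonUnitalNonAssocSemiring.toDistrib (@Vale.Agent.P101.Bq (@DoubleCentralizer Complex x1 (@DenselyNormedField.toNontriviallyNormedField Complex Complex.instDenselyNormedField) (@NonUnitalCStarAlgebra.toNonUnitalNormedRing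 x1 x2) (@NonUnitalCStarAlgebra.toNormedSpace x1 x2) ⋯ ⋯) (@DoubleCentralizer.instCStarAlgebraComplex x1 x2) Nat (@Filter.atTop Nat Nat.instPreorder)) (@RingCon.instNonUnitalNonAssocSemiringQuotient (↥(@Vale.Agent.P101.bddSeq (@DoubleCentralizer Complex x1 (@DenselyNormedField.toNontriviallyNormedField Complex Complex.instDenselyNormedField) (@NonUnitalCStarAlgebra.toNonUnitalNormedRing x1 x2) (@NonUnitalCStarAlgebra.toNormedSpace x1 x2) ⋯ ⋯) (@DoubleCentralizer.instCStarAlgebraComplex x1 x2) Nat)) (@NonAssocSemiring.toNonUnitalNonAssocSemiring (↥(@Vale.Agent.P101.bddSeq (@DoubleCentralizer Complex x1 (@DenselyNormedField.toNontriviallyNormedField Complex Complex.instDenselyNormedField) (@NonUnitalCStarAlgebra.toNonUnitalNormedRing x1 x2) (@NonUnitalCStarAlgebra.toNormedSpace x1 x2) ⋯ ⋯) (@DoubleCentralizer.instCStarAlgebraComplex x1 x2) Nat)) (@Semiring.toNonAssocSemiring (↥(@Vale.Agent.P101.bddSeq (@DoubleCentralizer Complex x1 (@DenselyNormedField.toNontriviallyNormedField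 Complex Complex.instDenselyNormedField) (@NonUnitalCStarAlgebra.toNonUnitalNormedRing x1 x2) (@NonUnitalCStarAlgebra.toNormedSpace x1 x2) ⋯ ⋯) (@DoubleCentralizer.instCStarAlgebraComplex x1 x2) Nat)) (@Ring.toSemiring (↥(@Vale.Agent.P101.bddSeq (@DoubleCentralizer Complex x1 (@DenselyNormedField.toNontriviallyNormedField Complex Complex.instDenselyNormedField) (@NonUnitalCStarAlgebra.toNonUnitalNormedRing x1 x2) (@NonUnitalCStarAlgebra.toNormedSpace x1 x2) ⋯ ⋯) (@DoubleCentralizer.instCStarAlgebraComplex x1 x2) Nat)) (@SubringClass.toRing (@StarSubalgebra Complex (Nat → @DoubleCentralizer Complex x1 (@DenselyNormedField.toNontriviallyNormedField Complex Complex.instDenselyNormedField) (@NonUnitalCStarAlgebra.toNonUnitalNormedRing x1 x2) (@NonUnitalCStarAlgebra.toNormedSpace x1 x2) ⋯ ⋯) Complex.instCommSemiring Complex.instStarRing (@Pi.semiring Nat (fun a => @DoubleCentralizer Complex x1 (@DenselyNormedField.toNontriviallyNormedField Complex Complex.instDenselyNormedField)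 (@NonUnitalCStarAlgebra.toNonUnitalNormedRing x1 x2) (@NonUnitalCStarAlgebra.toNormedSpace x1 x2) ⋯ ⋯) fun i => @Ring.toSemiring (@DoubleCentralizer Complex x1 (@DenselyNormedField.toNontriviallyNormedField Complex Complex.instDenselyNormedField) (@NonUnitalCStarAlgebra.toNonUnitalNormedRing x1 x2) (@NonUnitalCStarAlgebra.toNormedSpace x1 x2) ⋯ ⋯) (@NormedRing.toRing (@DoubleCentralizer Complex x1 (@DenselyNormedField.toNontriviallyNormedField Complex Complex.instDenselyNormedField) (@NonUnitalCStarAlgebra.toNonUnitalNormedRing x1 x2) (@NonUnitalCStarAlgebra.toNormedSpace x1 x2) ⋯ ⋯) (@CStarAlgebra.toNormedRing (@DoubleCentralizer Complex x1 (@DenselyNormedField.toNontriviallyNormedField Complex Complex.instDenselyNormedField) (@NonUnitalCStarAlgebra.toNonUnitalNormedRing x1 x2) (@NonUnitalCStarAlgebra.toNormedSpace x1 x2) ⋯ ⋯) (@DoubleCentralizer.instCStarAlgebraComplex x1 x2)))) (@Pi.starRing' Nat (fun a => @DoubleCentralizer Complex x1 (@DenselyNormedField.toNontriviallyNormedField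 Complex Complex.instDenselyNormedField) (@NonUnitalCStarAlgebra.toNonUnitalNormedRing x1 x2) (@NonUnitalCStarAlgebra.toNormedSpace x1 x2) ⋯ ⋯) (fun i => @NonUnitalCStarAlgebra.toNonUnitalNormedRing (@DoubleCentralizer Complex x1 (@DenselyNormedField.toNontriviallyNormedField Complex Complex.instDenselyNormedField) (@NonUnitalCStarAlgebra.toNonUnitalNormedRing x1 x2) (@NonUnitalCStarAlgebra.toNormedSpace x1 x2) ⋯ ⋯) (@CStarAlgebra.toNonUnitalCStarAlgebra (@DoubleCentralizer Complex x1 (@DenselyNormedField.toNontriviallyNormedField Complex Complex.instDenselyNormedField) (@NonUnitalCStarAlgebra.toNonUnitalNormedRing x1 x2) (@NonUnitalCStarAlgebra.toNormedSpace x1 x2) ⋯ ⋯) (@DoubleCentralizer.instCStarAlgebraComplex x1 x2))) fun i => @CStarAlgebra.toStarRing (@DoubleCentralizer Complex x1 (@DenselyNormedField.toNontriviallyNormedField Complex Complex.instDenselyNormedField) (@NonUnitalCStarAlgebra.toNonUnitalNormedRing x1 x2) (@NonUnitalCStarAlgebra.toNormedSpace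 x1 x2) ⋯ ⋯) (@DoubleCentralizer.instCStarAlgebraComplex x1 x2)) (@Function.algebra Complex Nat (@DoubleCentralizer Complex x1 (@DenselyNormedField.toNontriviallyNormedField Complex Complex.instDenselyNormedField) (@NonUnitalCStarAlgebra.toNonUnitalNormedRing x1 x2) (@NonUnitalCStarAlgebra.toNormedSpace x1 x2) ⋯ ⋯) Complex.instCommSemiring (@Ring.toSemiring (@DoubleCentralizer Complex x1 (@DenselyNormedField.toNontriviallyNormedField Complex Complex.instDenselyNormedField) (@NonUnitalCStarAlgebra.toNonUnitalNormedRing x1 x2) (@NonUnitalCStarAlgebra.toNormedSpace x1 x2) ⋯ ⋯) (@NormedRing.toRing (@DoubleCentralizer Complex x1 (@DenselyNormedField.toNontriviallyNormedField Complex Complex.instDenselyNormedField) (@NonUnitalCStarAlgebra.toNonUnitalNormedRing x1 x2) (@NonUnitalCStarAlgebra.toNormedSpace x1 x2) ⋯ ⋯) (@CStarAlgebra.toNormedRing (@DoubleCentralizer Complex x1 (@DenselyNormedField.toNontriviallyNormedField Complex Complex.instDenselyNormedField) (@NonUnitalCStarAlgebra.toNonUnitalNormedRing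 x1 x2) (@NonUnitalCStarAlgebra.toNormedSpace x1 x2) ⋯ ⋯) (@DoubleCentralizer.instCStarAlgebraComplex x1 x2)))) (@NormedAlgebra.toAlgebra Complex (@DoubleCentralizer Complex x1 (@DenselyNormedField.toNontriviallyNormedField Complex Complex.instDenselyNormedField) (@NonUnitalCStarAlgebra.toNonUnitalNormedRing x1 x2) (@NonUnitalCStarAlgebra.toNormedSpace x1 x2) ⋯ ⋯) Complex.instNormedField (@NormedRing.toSeminormedRing (@DoubleCentralizer Complex x1 (@DenselyNormedField.toNontriviallyNormedField Complex Complex.instDenselyNormedField) (@NonUnitalCStarAlgebra.toNonUnitalNormedRing x1 x2) (@NonUnitalCStarAlgebra.toNormedSpace x1 x2) ⋯ ⋯) (@CStarAlgebra.toNormedRing (@DoubleCentralizer Complex x1 (@DenselyNormedField.toNontriviallyNormedField Complex Complex.instDenselyNormedField) (@NonUnitalCStarAlgebra.toNonUnitalNormedRing x1 x2) (@NonUnitalCStarAlgebra.toNormedSpace x1 x2) ⋯ ⋯) (@DoubleCentralizer.instCStarAlgebraComplex x1 x2))) (@CStarAlgebra.toNormedAlgebra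 (@DoubleCentralizer Complex x1 (@DenselyNormedField.toNontriviallyNormedField Complex Complex.instDenselyNormedField) (@NonUnitalCStarAlgebra.toNonUnitalNormedRing x1 x2) (@NonUnitalCStarAlgebra.toNormedSpace x1 x2) ⋯ ⋯) (@DoubleCentralizer.instCStarAlgebraComplex x1 x2)))) ⋯) (@Vale.Agent.P101.bddSeq (@DoubleCentralizer Complex x1 (@DenselyNormedField.toNontriviallyNormedField Complex Complex.instDenselyNormedField) (@NonUnitalCStarAlgebra.toNonUnitalNormedRing x1 x2) (@NonUnitalCStarAlgebra.toNormedSpace x1 x2) ⋯ ⋯) (@DoubleCentralizer.instCStarAlgebraComplex x1 x2) Nat) (Nat → @DoubleCentralizer Complex x1 (@DenselyNormedField.toNontriviallyNormedField Complex Complex.instDenselyNormedField) (@NonUnitalCStarAlgebra.toNonUnitalNormedRing x1 x2) (@NonUnitalCStarAlgebra.toNormedSpace x1 x2) ⋯ ⋯) (@Pi.ring Nat (fun a => @DoubleCentralizer Complex x1 (@DenselyNormedField.toNontriviallyNormedField Complex Complex.instDenselyNormedField) (@NonUnitalCStarAlgebra.toNonUnitalNormedRing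 x1 x2) (@NonUnitalCStarAlgebra.toNormedSpace x1 x2) ⋯ ⋯) fun i => @NormedRing.toRing (@DoubleCentralizer Complex x1 (@DenselyNormedField.toNontriviallyNormedField Complex Complex.instDenselyNormedField) (@NonUnitalCStarAlgebra.toNonUnitalNormedRing x1 x2) (@NonUnitalCStarAlgebra.toNormedSpace x1 x2) ⋯ ⋯) (@CStarAlgebra.toNormedRing (@DoubleCentralizer Complex x1 (@DenselyNormedField.toNontriviallyNormedField Complex Complex.instDenselyNormedField) (@NonUnitalCStarAlgebra.toNonUnitalNormedRing x1 x2) (@NonUnitalCStarAlgebra.toNormedSpace x1 x2) ⋯ ⋯) (@DoubleCentralizer.instCStarAlgebraComplex x1 x2))) (@StarSubalgebra.setLike Complex (Nat → @DoubleCentralizer Complex x1 (@DenselyNormedField.toNontriviallyNormedField Complex Complex.instDenselyNormedField) (@NonUnitalCStarAlgebra.toNonUnitalNormedRing x1 x2) (@NonUnitalCStarAlgebra.toNormedSpace x1 x2) ⋯ ⋯) Complex.instCommSemiring Complex.instStarRing (@Pi.semiring Nat (fun a => @DoubleCentralizer Complex x1 (@DenselyNormedField.toNontriviallyNormedField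 Complex Complex.instDenselyNormedField) (@NonUnitalCStarAlgebra.toNonUnitalNormedRing x1 x2) (@NonUnitalCStarAlgebra.toNormedSpace x1 x2) ⋯ ⋯) fun i => @Ring.toSemiring (@DoubleCentralizer Complex x1 (@DenselyNormedField.toNontriviallyNormedField Complex Complex.instDenselyNormedField) (@NonUnitalCStarAlgebra.toNonUnitalNormedRing x1 x2) (@NonUnitalCStarAlgebra.toNormedSpace x1 x2) ⋯ ⋯) (@NormedRing.toRing (@DoubleCentralizer Complex x1 (@DenselyNormedField.toNontriviallyNormedField Complex Complex.instDenselyNormedField) (@NonUnitalCStarAlgebra.toNonUnitalNormedRing x1 x2) (@NonUnitalCStarAlgebra.toNormedSpace x1 x2) ⋯ ⋯) (@CStarAlgebra.toNormedRing (@DoubleCentralizer Complex x1 (@DenselyNormedField.toNontriviallyNormedField Complex Complex.instDenselyNormedField) (@NonUnitalCStarAlgebra.toNonUnitalNormedRing x1 x2) (@NonUnitalCStarAlgebra.toNormedSpace x1 x2) ⋯ ⋯) (@DoubleCentralizer.instCStarAlgebraComplex x1 x2)))) (@Pi.starRing' Nat (fun a => @DoubleCentralizer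 Complex x1 (@DenselyNormedField.toNontriviallyNormedField Complex Complex.instDenselyNormedField) (@NonUnitalCStarAlgebra.toNonUnitalNormedRing x1 x2) (@NonUnitalCStarAlgebra.toNormedSpace x1 x2) ⋯ ⋯) (fun i => @NonUnitalCStarAlgebra.toNonUnitalNormedRing (@DoubleCentralizer Complex x1 (@DenselyNormedField.toNontriviallyNormedField Complex Complex.instDenselyNormedField) (@NonUnitalCStarAlgebra.toNonUnitalNormedRing x1 x2) (@NonUnitalCStarAlgebra.toNormedSpace x1 x2) ⋯ ⋯) (@CStarAlgebra.toNonUnitalCStarAlgebra (@DoubleCentralizer Complex x1 (@DenselyNormedField.toNontriviallyNormedField Complex Complex.instDenselyNormedField) (@NonUnitalCStarAlgebra.toNonUnitalNormedRing x1 x2) (@NonUnitalCStarAlgebra.toNormedSpace x1 x2) ⋯ ⋯) (@DoubleCentralizer.instCStarAlgebraComplex x1 x2))) fun i => @CStarAlgebra.toStarRing (@DoubleCentralizer Complex x1 (@DenselyNormedField.toNontriviallyNormedField Complex Complex.instDenselyNormedField) (@NonUnitalCStarAlgebra.toNonUnitalNormedRing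 x1 x2) (@NonUnitalCStarAlgebra.toNormedSpace x1 x2) ⋯ ⋯) (@DoubleCentralizer.instCStarAlgebraComplex x1 x2)) (@Function.algebra Complex Nat (@DoubleCentralizer Complex x1 (@DenselyNormedField.toNontriviallyNormedField Complex Complex.instDenselyNormedField) (@NonUnitalCStarAlgebra.toNonUnitalNormedRing x1 x2) (@NonUnitalCStarAlgebra.toNormedSpace x1 x2) ⋯ ⋯) Complex.instCommSemiring (@Ring.toSemiring (@DoubleCentralizer Complex x1 (@DenselyNormedField.toNontriviallyNormedField Complex Complex.instDenselyNormedField) (@NonUnitalCStarAlgebra.toNonUnitalNormedRing x1 x2) (@NonUnitalCStarAlgebra.toNormedSpace x1 x2) ⋯ ⋯) (@NormedRing.toRing (@DoubleCentralizer Complex x1 (@DenselyNormedField.toNontriviallyNormedField Complex Complex.instDenselyNormedField) (@NonUnitalCStarAlgebra.toNonUnitalNormedRing x1 x2) (@NonUnitalCStarAlgebra.toNormedSpace x1 x2) ⋯ ⋯) (@CStarAlgebra.toNormedRing (@DoubleCentralizer Complex x1 (@DenselyNormedField.toNontriviallyNormedField Complex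 Complex.instDenselyNormedField) (@NonUnitalCStarAlgebra.toNonUnitalNormedRing x1 x2) (@NonUnitalCStarAlgebra.toNormedSpace x1 x2) ⋯ ⋯) (@DoubleCentralizer.instCStarAlgebraComplex x1 x2)))) (@NormedAlgebra.toAlgebra Complex (@DoubleCentralizer Complex x1 (@DenselyNormedField.toNontriviallyNormedField Complex Complex.instDenselyNormedField) (@NonUnitalCStarAlgebra.toNonUnitalNormedRing x1 x2) (@NonUnitalCStarAlgebra.toNormedSpace x1 x2) ⋯ ⋯) Complex.instNormedField (@NormedRing.toSeminormedRing (@DoubleCentralizer Complex x1 (@DenselyNormedField.toNontriviallyNormedField Complex Complex.instDenselyNormedField) (@NonUnitalCStarAlgebra.toNonUnitalNormedRing x1 x2) (@NonUnitalCStarAlgebra.toNormedSpace x1 x2) ⋯ ⋯) (@CStarAlgebra.toNormedRing (@DoubleCentralizer Complex x1 (@DenselyNormedField.toNontriviallyNormedField Complex Complex.instDenselyNormedField) (@NonUnitalCStarAlgebra.toNonUnitalNormedRing x1 x2) (@NonUnitalCStarAlgebra.toNormedSpace x1 x2) ⋯ ⋯) (@DoubleCentralizer.instCStarAlgebraComplex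 x1 x2))) (@CStarAlgebra.toNormedAlgebra (@DoubleCentralizer Complex x1 (@DenselyNormedField.toNontriviallyNormedField Complex Complex.instDenselyNormedField) (@NonUnitalCStarAlgebra.toNonUnitalNormedRing x1 x2) (@NonUnitalCStarAlgebra.toNormedSpace x1 x2) ⋯ ⋯) (@DoubleCentralizer.instCStarAlgebraComplex x1 x2)))) ⋯) ⋯)))) (@Vale.Agent.P101.SeqQuot.nullConG (@DoubleCentralizer Complex x1 (@DenselyNormedField.toNontriviallyNormedField Complex Complex.instDenselyNormedField) (@NonUnitalCStarAlgebra.toNonUnitalNormedRing x1 x2) (@NonUnitalCStarAlgebra.toNormedSpace x1 x2) ⋯ ⋯) (@DoubleCentralizer.instCStarAlgebraComplex x1 x2) Nat (@Filter.atTop Nat Nat.instPreorder) (@Vale.Agent.P101.bddSeq (@DoubleCentralizer Complex x1 (@DenselyNormedField.toNontriviallyNormedField Complex Complex.instDenselyNormedField) (@NonUnitalCStarAlgebra.toNonUnitalNormedRing x1 x2) (@NonUnitalCStarAlgebra.toNormedSpace x1 x2) ⋯ ⋯) (@DoubleCentralizer.instCStarAlgebraComplex x1 x2) Nat)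 ⋯)))) := inferInstance
@[reducible] noncomputable def a8.{u1} {x1 : Type u1} [x2 : NonUnitalCStarAlgebra x1] : SMul Complex (@Vale.Agent.P101.Bq (@DoubleCentralizer Complex x1 (@DenselyNormedField.toNontriviallyNormedField Complex Complex.instDenselyNormedField) (@NonUnitalCStarAlgebra.toNonUnitalNormedRing x1 x2) (@NonUnitalCStarAlgebra.toNormedSpace x1 x2) ⋯ ⋯) (@DoubleCentralizer.instCStarAlgebraComplex x1 x2) Nat (@Filter.atTop Nat Nat.instPreorder)) := inferInstance
theorem a9.{u1, u2} {x1 : Type u1} {x2 : Type u2} [x3 : Ring x1] [x4 : Ring x2] [x5 : Algebra ℂ x1] [x6 : Algebra ℂ x2] [x7 : StarRing x1] [x8 : StarRing x2] : NonUnitalStarRingHomClass (x1 ≃⋆ₐ[ℂ] x2) x1 x2 := inferInstance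
theorem a10.{u1} {x1 : Type u1} [x2 : NonUnitalCStarAlgebra x1] : StarHomClass (DoubleCentralizer ℂ x1 ≃⋆ₐ[ℂ] DoubleCentralizer ℂ x1) (DoubleCentralizer ℂ x1) (DoubleCentralizer ℂ x1) := inferInstance
theorem a11.{u1} {x1 : Type u1} [x2 : NonUnitalCStarAlgebra x1] : @IsTopologicalRing (@Vale.Agent.P101.Bq (@DoubleCentralizer Complex x1 (@DenselyNormedField.toNontriviallyNormedField Complex Complex.instDenselyNormedField) (@NonUnitalCStarAlgebra.toNonUnitalNormedRing x1 x2) (@NonUnitalCStarAlgebra.toNormedSpace x1 x2) ⋯ ⋯) (@DoubleCentralizer.instCStarAlgebraComplex x1 x2) Nat (@Filter.atTop Nat Nat.instPreorder)) (@UniformSpace.toTopologicalSpace (@Vale.Agent.P101.Bq (@DoubleCentralizer Complex x1 (@DenselyNormedField.toNontriviallyNormedField Complex Complex.instDenselyNormedField) (@NonUnitalCStarAlgebra.toNonUnitalNormedRing x1 x2) (@NonUnitalCStarAlgebra.toNormedSpace x1 x2) ⋯ ⋯) (@DoubleCentralizer.instCStarAlgebraComplex x1 x2) Nat (@Filter.atTop Nat Nat.instPreorder))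 (@PseudoMetricSpace.toUniformSpace (@Vale.Agent.P101.Bq (@DoubleCentralizer Complex x1 (@DenselyNormedField.toNontriviallyNormedField Complex Complex.instDenselyNormedField) (@NonUnitalCStarAlgebra.toNonUnitalNormedRing x1 x2) (@NonUnitalCStarAlgebra.toNormedSpace x1 x2) ⋯ ⋯) (@DoubleCentralizer.instCStarAlgebraComplex x1 x2) Nat (@Filter.atTop Nat Nat.instPreorder)) (@NonUnitalSeminormedRing.toPseudoMetricSpace (@Vale.Agent.P101.Bq (@DoubleCentralizer Complex x1 (@DenselyNormedField.toNontriviallyNormedField Complex Complex.instDenselyNormedField) (@NonUnitalCStarAlgebra.toNonUnitalNormedRing x1 x2) (@NonUnitalCStarAlgebra.toNormedSpace x1 x2) ⋯ ⋯) (@DoubleCentralizer.instCStarAlgebraComplex x1 x2) Nat (@Filter.atTop Nat Nat.instPreorder)) (@NonUnitalNormedRing.toNonUnitalSeminormedRing (@Vale.Agent.P101.Bq (@DoubleCentralizer Complex x1 (@DenselyNormedField.toNontriviallyNormedField Complex Complex.instDenselyNormedField) (@NonUnitalCStarAlgebra.toNonUnitalNormedRing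 x1 x2) (@NonUnitalCStarAlgebra.toNormedSpace x1 x2) ⋯ ⋯) (@DoubleCentralizer.instCStarAlgebraComplex x1 x2) Nat (@Filter.atTop Nat Nat.instPreorder)) (@NonUnitalCStarAlgebra.toNonUnitalNormedRing (@Vale.Agent.P101.Bq (@DoubleCentralizer Complex x1 (@DenselyNormedField.toNontriviallyNormedField Complex Complex.instDenselyNormedField) (@NonUnitalCStarAlgebra.toNonUnitalNormedRing x1 x2) (@NonUnitalCStarAlgebra.toNormedSpace x1 x2) ⋯ ⋯) (@DoubleCentralizer.instCStarAlgebraComplex x1 x2) Nat (@Filter.atTop Nat Nat.instPreorder)) (@CStarAlgebra.toNonUnitalCStarAlgebra (@Vale.Agent.P101.Bq (@DoubleCentralizer Complex x1 (@DenselyNormedField.toNontriviallyNormedField Complex Complex.instDenselyNormedField) (@NonUnitalCStarAlgebra.toNonUnitalNormedRing x1 x2) (@NonUnitalCStarAlgebra.toNormedSpace x1 x2) ⋯ ⋯) (@DoubleCentralizer.instCStarAlgebraComplex x1 x2) Nat (@Filter.atTop Nat Nat.instPreorder)) (@Vale.Agent.P101.instCStarBq (@DoubleCentralizer Complex x1 (@DenselyNormedField.toNontriviallyNormedField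 Complex Complex.instDenselyNormedField) (@NonUnitalCStarAlgebra.toNonUnitalNormedRing x1 x2) (@NonUnitalCStarAlgebra.toNormedSpace x1 x2) ⋯ ⋯) (@DoubleCentralizer.instCStarAlgebraComplex x1 x2) Nat (@Filter.atTop Nat Nat.instPreorder)))))))) (@NonUnitalRing.toNonUnitalNonAssocRing (@Vale.Agent.P101.Bq (@DoubleCentralizer Complex x1 (@DenselyNormedField.toNontriviallyNormedField Complex Complex.instDenselyNormedField) (@NonUnitalCStarAlgebra.toNonUnitalNormedRing x1 x2) (@NonUnitalCStarAlgebra.toNormedSpace x1 x2) ⋯ ⋯) (@DoubleCentralizer.instCStarAlgebraComplex x1 x2) Nat (@Filter.atTop Nat Nat.instPreorder)) (@NonUnitalSeminormedRing.toNonUnitalRing (@Vale.Agent.P101.Bq (@DoubleCentralizer Complex x1 (@DenselyNormedField.toNontriviallyNormedField Complex Complex.instDenselyNormedField) (@NonUnitalCStarAlgebra.toNonUnitalNormedRing x1 x2) (@NonUnitalCStarAlgebra.toNormedSpace x1 x2) ⋯ ⋯) (@DoubleCentralizer.instCStarAlgebraComplex x1 x2) Nat (@Filter.atTop Nat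 Nat.instPreorder)) (@NonUnitalNormedRing.toNonUnitalSeminormedRing (@Vale.Agent.P101.Bq (@DoubleCentralizer Complex x1 (@DenselyNormedField.toNontriviallyNormedField Complex Complex.instDenselyNormedField) (@NonUnitalCStarAlgebra.toNonUnitalNormedRing x1 x2) (@NonUnitalCStarAlgebra.toNormedSpace x1 x2) ⋯ ⋯) (@DoubleCentralizer.instCStarAlgebraComplex x1 x2) Nat (@Filter.atTop Nat Nat.instPreorder)) (@NonUnitalCStarAlgebra.toNonUnitalNormedRing (@Vale.Agent.P101.Bq (@DoubleCentralizer Complex x1 (@DenselyNormedField.toNontriviallyNormedField Complex Complex.instDenselyNormedField) (@NonUnitalCStarAlgebra.toNonUnitalNormedRing x1 x2) (@NonUnitalCStarAlgebra.toNormedSpace x1 x2) ⋯ ⋯) (@DoubleCentralizer.instCStarAlgebraComplex x1 x2) Nat (@Filter.atTop Nat Nat.instPreorder)) (@CStarAlgebra.toNonUnitalCStarAlgebra (@Vale.Agent.P101.Bq (@DoubleCentralizer Complex x1 (@DenselyNormedField.toNontriviallyNormedField Complex Complex.instDenselyNormedField) (@NonUnitalCStarAlgebra.toNonUnitalNormedRing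 x1 x2) (@NonUnitalCStarAlgebra.toNormedSpace x1 x2) ⋯ ⋯) (@DoubleCentralizer.instCStarAlgebraComplex x1 x2) Nat (@Filter.atTop Nat Nat.instPreorder)) (@Vale.Agent.P101.instCStarBq (@DoubleCentralizer Complex x1 (@DenselyNormedField.toNontriviallyNormedField Complex Complex.instDenselyNormedField) (@NonUnitalCStarAlgebra.toNonUnitalNormedRing x1 x2) (@NonUnitalCStarAlgebra.toNormedSpace x1 x2) ⋯ ⋯) (@DoubleCentralizer.instCStarAlgebraComplex x1 x2) Nat (@Filter.atTop Nat Nat.instPreorder))))))) := inferInstance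
theorem a12.{u1} {x1 : Type u1} [x2 : NonUnitalCStarAlgebra x1] : IsScalarTower ℂ ↥(Vale.Agent.P101.bddSeq (DoubleCentralizer ℂ x1) ℕ) ↥(Vale.Agent.P101.bddSeq (DoubleCentralizer ℂ x1) ℕ) := inferInstance
@[reducible] noncomputable def a13.{u1} {x1 : Type u1} [x2 : NonUnitalCStarAlgebra x1] : SemigroupWithZero ↥(Vale.Agent.P101.bddSeq (DoubleCentralizer ℂ x1) ℕ) := inferInstance
@[reducible] noncomputable def a14.{u1} {x1 : Type u1} [x2 : NonUnitalCStarAlgebra x1] : NonUnitalSemiring ↥(Vale.Agent.P101.bddSeq (DoubleCentralizer ℂ x1) ℕ) := inferInstance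
@[reducible] noncomputable def a15.{u1} {x1 : Type u1} [x2 : NonUnitalCStarAlgebra x1] : Sub ↥(Vale.Agent.P101.bddSeq (DoubleCentralizer ℂ x1) ℕ) := inferInstance
@[reducible] noncomputable def a16.{u1} {x1 : Type u1} [x2 : NonUnitalCStarAlgebra x1] : AddCommSemigroup (@Vale.Agent.P101.Bq (@DoubleCentralizer Complex x1 (@DenselyNormedField.toNontriviallyNormedField Complex Complex.instDenselyNormedField) (@NonUnitalCStarAlgebra.toNonUnitalNormedRing x1 x2) (@NonUnitalCStarAlgebra.toNormedSpace x1 x2) ⋯ ⋯) (@DoubleCentralizer.instCStarAlgebraComplex x1 x2) Nat (@Filter.atTop Nat Nat.instPreorder)) := inferInstance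
end AFast8f9136x16b
attribute [local instance] AFast8f9136x16b.a0 AFast8f9136x16b.a1 AFast8f9136x16b.a2
  AFast8f9136x16b.a3 AFast8f9136x16b.a4 AFast8f9136x16b.a5 AFast8f9136x16b.a6 AFast8f9136x16b.a7
  AFast8f9136x16b.a8 AFast8f9136x16b.a9 AFast8f9136x16b.a10 AFast8f9136x16b.a11
  AFast8f9136x16b.a12 AFast8f9136x16b.a13 AFast8f9136x16b.a14 AFast8f9136x16b.a15
  AFast8f9136x16b.a16
section

/-! The classes of `w, s, t`. -/

open Filter Topology
open scoped MultiplierAlgebra

namespace Vale.Agent.P095R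

universe u w

open Vale.Agent.P101 Vale.Agent.P101.SeqQuot Vale.Agent.P095.ZS Vale.Agent.P133

variable {A : Type u} [NonUnitalCStarAlgebra A]

theorem tendsto_dense {a : ℕ → A} (ha : DenseRange a) (φ : ℕ → A → ℝ) {K : ℝ} (hK : 0 ≤ K)
    (hlip : ∀ n b b', φ n b ≤ φ n b' + K * ‖b - b'‖) (h0 : ∀ n b, 0 ≤ φ n b)
    (h : ∀ j, Tendsto (fun n => φ n (a j)) atTop (𝓝 0)) (b : A) :
    Tendsto (fun n => φ n b) atTop (𝓝 0) := by
  rw [Metric.tendsto_atTop]
  intro ε hε
  obtain ⟨j, hj⟩ := ha.exists_dist_lt b (ε := ε / (2 * (K + 1))) (by positivity)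
  obtain ⟨N, hN⟩ := Metric.tendsto_atTop.1 (h j) (ε / 2) (by positivity)
  refine ⟨N, fun n hn => ?_⟩
  have h1 := hN n hn
  rw [Real.dist_eq, sub_zero, abs_of_nonneg (h0 _ _)] at h1 ⊢
  rw [dist_eq_norm] at hj
  have h2 := hlip n b (a j)
  have h3 : K * ‖b - a j‖ ≤ (K + 1) * (ε / (2 * (K + 1))) :=
    mul_le_mul (by linarith only []) hj.le (norm_nonneg _) (by positivity)
  have h4 : (K + 1) * (ε / (2 * (K + 1))) = ε / 2 := by field_simp
  linarith only [h1, h2, h3, h4]

theorem tendsto_of_le_inv {f : ℕ → ℝ} {j : ℕ} (h0 : ∀ n, 0 ≤ f n)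
    (h : ∀ n, j ≤ n → f n ≤ 1 / ((n : ℝ) + 1)) : Tendsto f atTop (𝓝 0) := by
  refine squeeze_zero' (Eventually.of_forall h0) ?_ tendsto_one_div_add_atTop_nhds_zero_nat
  filter_upwards [eventually_ge_atTop j] with n hn
  exact h n hn

section main

variable {G : Type w} [Group G] (α : G →* (A ≃⋆ₐ[ℂ] A))

/-- the action on bounded sequences of multipliers modulo null sequences -/
noncomputable def thm (g : G) : Bq 𝓜(ℂ, A) (atTop : Filter ℕ) →⋆ₐ[ℂ] Bq 𝓜(ℂ, A) (atTop : Filter ℕ) :=
  bqMap atTop ((multAct α g : 𝓜(ℂ, A) ≃⋆ₐ[ℂ] 𝓜(ℂ, A)) : 𝓜(ℂ, A) →⋆ₐ[ℂ] 𝓜(ℂ, A))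

/-- constants -/
noncomputable def kap (a : A) : Bq 𝓜(ℂ, A) (atTop : Filter ℕ) :=
  Bq.constHom atTop (a : 𝓜(ℂ, A))

theorem kap_star (a : A) : kap (star a) = star (kap a) := by
  unfold kap
  rw [coe_star', map_star]

theorem thm_kap (g : G) (a : A) : thm α g (kap a) = kap (α g a) := by
  unfold thm kap
  rw [← multAct_coe]
  rfl

theorem thm_continuous (g : G) : Continuous (thm α g) :=
  AddMonoidHomClass.continuous_of_bound (thm α g) 1
    (by simpa only [one_mul] using! NonUnitalStarAlgHom.norm_apply_le (thm α g))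

/-- the relative commutant of the constants, fixed by the action up to annihilators -/
noncomputable def C0 : StarSubalgebra ℂ (Bq 𝓜(ℂ, A) (atTop : Filter ℕ)) where
  carrier := {z | (∀ a : A, kap a * z = z * kap a) ∧
    ∀ (g : G) (a : A), kap a * (thm α g z - z) = 0}
  mul_mem' := by
    rintro x y ⟨hx, hx'⟩ ⟨hy, hy'⟩
    refine ⟨fun a => ?_, fun g a => ?_⟩
    · rw [← mul_assoc, hx a, mul_assoc, hy a, mul_assoc]
    · have e : kap a * (thm α g (x * y) - x * y) =
          kap a * (thm α g x - x) * thm α g y + kap a * x * (thm α g y - y) := by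
        rw [map_mul]; noncomm_ring
      rw [e, hx' g a, zero_mul, zero_add, hx a, mul_assoc, hy' g a, mul_zero]
  add_mem' := by
    rintro x y ⟨hx, hx'⟩ ⟨hy, hy'⟩
    refine ⟨fun a => ?_, fun g a => ?_⟩
    · rw [mul_add, add_mul, hx a, hy a]
    · have e : kap a * (thm α g (x + y) - (x + y)) =
          kap a * (thm α g x - x) + kap a * (thm α g y - y) := by
        rw [map_add]; noncomm_ring
      rw [e, hx' g a, hy' g a, add_zero]
  algebraMap_mem' := by
    intro r
    refine ⟨fun a => (Algebra.commutes r (kap a)).symm, fun g a => ?_⟩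
    rw [AlgHomClass.commutes (thm α g) r, sub_self, mul_zero]
  star_mem' := by
    rintro x ⟨hx, hx'⟩
    refine ⟨fun a => ?_, fun g a => ?_⟩
    · have h1 := congrArg star (hx (star a))
      rw [star_mul, star_mul, kap_star, star_star] at h1
      exact h1.symm
    · have h1 : thm α g x * kap (star a) = kap (star a) * thm α g x := by
        have h2 := congrArg (thm α g) (hx ((α g).symm (star a)))
        rw [map_mul, map_mul, thm_kap, StarAlgEquiv.apply_symm_apply] at h2
        exact h2.symm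
      have h3 : (thm α g x - x) * kap (star a) = 0 := by
        rw [sub_mul, h1, ← hx (star a), ← mul_sub, hx' g (star a)]
      have h4 := congrArg star h3
      rw [star_mul, star_zero, kap_star, star_star, star_sub, ← map_star] at h4
      exact h4

theorem mem_C0 {z : Bq 𝓜(ℂ, A) (atTop : Filter ℕ)} : z ∈ C0 α ↔
    (∀ a : A, kap a * z = z * kap a) ∧ ∀ (g : G) (a : A), kap a * (thm α g z - z) = 0 := Iff.rfl

theorem isClosed_C0 : IsClosed (C0 α : Set (Bq 𝓜(ℂ, A) (atTop : Filter ℕ))) := by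
  have : (C0 α : Set (Bq 𝓜(ℂ, A) (atTop : Filter ℕ))) =
      (⋂ a : A, {z | kap a * z = z * kap a}) ∩
        ⋂ (g : G) (a : A), {z | kap a * (thm α g z - z) = 0} := by
    ext z
    simp only [Set.mem_iInter, Set.mem_inter_iff]
    exact mem_C0 α
  rw [this]
  refine (isClosed_iInter fun a => isClosed_eq (by fun_prop) (by fun_prop)).inter
    (isClosed_iInter fun g => isClosed_iInter fun a => isClosed_eq ?_ continuous_const)
  exact continuous_const.mul ((thm_continuous α g).sub continuous_id)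

/-- classes in `C0` from sequences -/
theorem mk_mem_C0 (y : bddSeq 𝓜(ℂ, A) ℕ)
    (h1 : ∀ b : A, Tendsto (fun n => ‖(b : 𝓜(ℂ, A)) * (y : ℕ → 𝓜(ℂ, A)) n -
      (y : ℕ → 𝓜(ℂ, A)) n * (b : 𝓜(ℂ, A))‖) atTop (𝓝 0))
    (h2 : ∀ (g : G) (b : A), Tendsto (fun n => ‖(b : 𝓜(ℂ, A)) *
      (multAct α g ((y : ℕ → 𝓜(ℂ, A)) n) - (y : ℕ → 𝓜(ℂ, A)) n)‖) atTop (𝓝 0)) :
    Bq.mk atTop y ∈ C0 α := by
  refine (mem_C0 α).2 ⟨fun a => ?_, fun g a => ?_⟩
  · exact (Bq.mk_eq_iff atTop (Bq.const (a : 𝓜(ℂ, A)) * y) (y * Bq.const (a : 𝓜(ℂ, A)))).2 (h1 a)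
  · have hb : ∃ C : ℝ, ∀ k, ‖multAct α g ((y : ℕ → 𝓜(ℂ, A)) k)‖ ≤ C :=
      y.2.imp fun C hC k => (norm_multAct_le α g _).trans (hC k)
    refine (Bq.mk_eq_iff atTop (Bq.const (a : 𝓜(ℂ, A)) *
      ((⟨fun k => multAct α g ((y : ℕ → 𝓜(ℂ, A)) k), hb⟩ : bddSeq 𝓜(ℂ, A) ℕ) - y)) 0).2 ?_
    refine (h2 g a).congr fun n => ?_
    show _ = ‖_ - (0 : 𝓜(ℂ, A))‖
    rw [sub_zero]
    rfl

theorem kap_mul_mk_eq_zero (y : bddSeq 𝓜(ℂ, A) ℕ) (b : A)
    (h : Tendsto (fun n => ‖(b : 𝓜(ℂ, A)) * (y : ℕ → 𝓜(ℂ, A)) n‖) atTop (𝓝 0)) :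
    kap b * Bq.mk atTop y = 0 := by
  refine (Bq.mk_eq_iff atTop (Bq.const (b : 𝓜(ℂ, A)) * y) 0).2 ?_
  refine h.congr fun n => ?_
  show _ = ‖_ - (0 : 𝓜(ℂ, A))‖
  rw [sub_zero]
  rfl

theorem tendsto_of_kap_mul_mk {y : bddSeq 𝓜(ℂ, A) ℕ} {b : A}
    (h : kap b * Bq.mk atTop y = 0) :
    Tendsto (fun n => ‖(b : 𝓜(ℂ, A)) * (y : ℕ → 𝓜(ℂ, A)) n‖) atTop (𝓝 0) := by
  have h1 := (Bq.mk_eq_iff atTop (Bq.const (b : 𝓜(ℂ, A)) * y) 0).1 h
  refine h1.congr fun n => ?_
  show ‖_ - (0 : 𝓜(ℂ, A))‖ = _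
  rw [sub_zero]
  rfl

end main

end Vale.Agent.P095R
end
namespace AFast8f9136x628b
@[reducible] noncomputable def a0.{u1, u2} {x1 : Type u1} [x2 : NonUnitalCStarAlgebra x1] {x3 : Type u2} [x4 : Group x3] {x5 : x3 →* x1 ≃⋆ₐ[ℂ] x1} : AddCommMonoid ↥(Vale.Agent.P095R.C0 x5) := inferInstance
@[reducible] noncomputable def a1.{u1, u2} {x1 : Type u1} [x2 : NonUnitalCStarAlgebra x1] {x3 : Type u2} [x4 : Group x3] {x5 : x3 →* x1 ≃⋆ₐ[ℂ] x1} : Distrib ↥(Vale.Agent.P095R.C0 x5) := inferInstance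
@[reducible] noncomputable def a2.{u1, u2} {x1 : Type u1} [x2 : NonUnitalCStarAlgebra x1] {x3 : Type u2} [x4 : Group x3] {x5 : x3 →* x1 ≃⋆ₐ[ℂ] x1} : Semiring ↥(Vale.Agent.P095R.C0 x5) := inferInstance
@[reducible] noncomputable def a3.{u1, u2} {x1 : Type u1} [x2 : NonUnitalCStarAlgebra x1] {x3 : Type u2} [x4 : Group x3] {x5 : x3 →* x1 ≃⋆ₐ[ℂ] x1} : Ring ↥(Vale.Agent.P095R.C0 x5) := inferInstance
@[reducible] noncomputable def a4.{u1, u2} {x1 : Type u1} [x2 : NonUnitalCStarAlgebra x1] {x3 : Type u2} [x4 : Group x3] {x5 : x3 →* x1 ≃⋆ₐ[ℂ] x1} : Add ↥(Vale.Agent.P095R.C0 x5) := inferInstance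
@[reducible] noncomputable def a5.{u1, u2} {x1 : Type u1} [x2 : NonUnitalCStarAlgebra x1] {x3 : Type u2} [x4 : Group x3] {x5 : x3 →* x1 ≃⋆ₐ[ℂ] x1} : Mul ↥(Vale.Agent.P095R.C0 x5) := inferInstance
@[reducible] noncomputable def a6.{u1, u2} {x1 : Type u1} [x2 : NonUnitalCStarAlgebra x1] {x3 : Type u2} [x4 : Group x3] {x5 : x3 →* x1 ≃⋆ₐ[ℂ] x1} : NonUnitalNonAssocSemiring ↥(Vale.Agent.P095R.C0 x5) := inferInstance
@[reducible] noncomputable def a7.{u1, u2} {x1 : Type u1} [x2 : NonUnitalCStarAlgebra x1] {x3 : Type u2} [x4 : Group x3] {x5 : x3 →* x1 ≃⋆ₐ[ℂ] x1} : NonUnitalNormedRing ↥(Vale.Agent.P095R.C0 x5) := inferInstance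
@[reducible] noncomputable def a8.{u1, u2} {x1 : Type u1} [x2 : NonUnitalCStarAlgebra x1] {x3 : Type u2} [x4 : Group x3] {x5 : x3 →* x1 ≃⋆ₐ[ℂ] x1} : NonUnitalSeminormedRing ↥(Vale.Agent.P095R.C0 x5) := inferInstance
@[reducible] noncomputable def a9.{u1, u2} {x1 : Type u1} [x2 : NonUnitalCStarAlgebra x1] {x3 : Type u2} [x4 : Group x3] {x5 : x3 →* x1 ≃⋆ₐ[ℂ] x1} : Sub ↥(Vale.Agent.P095R.C0 x5) := inferInstance
@[reducible] noncomputable def a10.{u1, u2} {x1 : Type u1} [x2 : NonUnitalCStarAlgebra x1] {x3 : Type u2} [x4 : Group x3] {x5 : x3 →* x1 ≃⋆ₐ[ℂ] x1} : NonUnitalNonAssocRing ↥(Vale.Agent.P095R.C0 x5) := inferInstance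
@[reducible] noncomputable def a11.{u1, u2} {x1 : Type u1} [x2 : NonUnitalCStarAlgebra x1] {x3 : Type u2} [x4 : Group x3] {x5 : x3 →* x1 ≃⋆ₐ[ℂ] x1} : NonAssocRing ↥(Vale.Agent.P095R.C0 x5) := inferInstance
@[reducible] noncomputable def a12.{u1, u2} {x1 : Type u1} [x2 : NonUnitalCStarAlgebra x1] {x3 : Type u2} [x4 : Group x3] {x5 : x3 →* x1 ≃⋆ₐ[ℂ] x1} : Star ↥(Vale.Agent.P095R.C0 x5) := inferInstance
@[reducible] noncomputable def a13.{u1, u2} {x1 : Type u1} [x2 : NonUnitalCStarAlgebra x1] {x3 : Type u2} [x4 : Group x3] {x5 : x3 →* x1 ≃⋆ₐ[ℂ] x1} : AddZero ↥(Vale.Agent.P095R.C0 x5) := inferInstance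
@[reducible] noncomputable def a14.{u1, u2} {x1 : Type u1} [x2 : NonUnitalCStarAlgebra x1] {x3 : Type u2} [x4 : Group x3] {x5 : x3 →* x1 ≃⋆ₐ[ℂ] x1} : AddMonoid ↥(Vale.Agent.P095R.C0 x5) := inferInstance
@[reducible] noncomputable def a15.{u1, u2} {x1 : Type u1} [x2 : NonUnitalCStarAlgebra x1] {x3 : Type u2} [x4 : Group x3] {x5 : x3 →* x1 ≃⋆ₐ[ℂ] x1} : AddZeroClass ↥(Vale.Agent.P095R.C0 x5) := inferInstance
@[reducible] noncomputable def a16.{u1, u2} {x1 : Type u1} [x2 : NonUnitalCStarAlgebra x1] {x3 : Type u2} [x4 : Group x3] {x5 : x3 →* x1 ≃⋆ₐ[ℂ] x1} : Zero ↥(Vale.Agent.P095R.C0 x5) := inferInstance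
@[reducible] noncomputable def a17.{u1, u2} {x1 : Type u1} [x2 : NonUnitalCStarAlgebra x1] {x3 : Type u2} [x4 : Group x3] {x5 : x3 →* x1 ≃⋆ₐ[ℂ] x1} : One ↥(Vale.Agent.P095R.C0 x5) := inferInstance
@[reducible] noncomputable def a18.{u1, u2} {x1 : Type u1} [x2 : NonUnitalCStarAlgebra x1] {x3 : Type u2} [x4 : Group x3] {x5 : x3 →* x1 ≃⋆ₐ[ℂ] x1} : NormedRing ↥(Vale.Agent.P095R.C0 x5) := inferInstance
@[reducible] noncomputable def a19.{u1, u2} {x1 : Type u1} [x2 : NonUnitalCStarAlgebra x1] {x3 : Type u2} [x4 : Group x3] {x5 : x3 →* x1 ≃⋆ₐ[ℂ] x1} : InvolutiveStar ↥(Vale.Agent.P095R.C0 x5) := inferInstance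
@[reducible] noncomputable def a20.{u1, u2} {x1 : Type u1} [x2 : NonUnitalCStarAlgebra x1] {x3 : Type u2} [x4 : Group x3] {x5 : x3 →* x1 ≃⋆ₐ[ℂ] x1} : SeminormedRing ↥(Vale.Agent.P095R.C0 x5) := inferInstance
end AFast8f9136x628b
attribute [local instance] AFast8f9136x628b.a0 AFast8f9136x628b.a1 AFast8f9136x628b.a2
  AFast8f9136x628b.a3 AFast8f9136x628b.a4 AFast8f9136x628b.a5 AFast8f9136x628b.a6
  AFast8f9136x628b.a7 AFast8f9136x628b.a8 AFast8f9136x628b.a9 AFast8f9136x628b.a10
  AFast8f9136x628b.a11 AFast8f9136x628b.a12 AFast8f9136x628b.a13 AFast8f9136x628b.a14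
  AFast8f9136x628b.a15 AFast8f9136x628b.a16 AFast8f9136x628b.a17 AFast8f9136x628b.a18
  AFast8f9136x628b.a19 AFast8f9136x628b.a20

section

/-! From `w, s, t` to almost central families without characters. -/

open Filter Topology
open scoped MultiplierAlgebra

namespace Vale.Agent.P095R

universe u w

open Vale.Agent.P101 Vale.Agent.P101.SeqQuot Vale.Agent.P095.ZS Vale.Agent.P133

variable {A : Type u} [NonUnitalCStarAlgebra A]

theorem seq_mem_C0 {G : Type w} [Group G] (α : G →* (A ≃⋆ₐ[ℂ] A)) {a : ℕ → A}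
    (ha : DenseRange a) {g : ℕ → G} (hg : Function.Surjective g) (y : ℕ → 𝓜(ℂ, A))
    (hb : ∀ n, ‖y n‖ ≤ 2)
    (h1 : ∀ n, ∀ j ≤ n, ‖y n * (a j : 𝓜(ℂ, A)) - (a j : 𝓜(ℂ, A)) * y n‖ ≤ 1 / ((n : ℝ) + 1))
    (h2 : ∀ n, ∀ k ≤ n, ∀ j ≤ n,
      ‖(a j : 𝓜(ℂ, A)) * (multAct α (g k) (y n) - y n)‖ ≤ 1 / ((n : ℝ) + 1)) :
    Bq.mk atTop (⟨y, ⟨2, hb⟩⟩ : bddSeq 𝓜(ℂ, A) ℕ) ∈ C0 α := by
  refine mk_mem_C0 α _ ?_ ?_
  · refine tendsto_dense ha (fun n b => ‖(b : 𝓜(ℂ, A)) * y n - y n * (b : 𝓜(ℂ, A))‖)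
      (K := 4) (by norm_num) (fun n b b' => ?_) (fun n b => norm_nonneg _) (fun j => ?_)
    · have e : (b : 𝓜(ℂ, A)) * y n - y n * (b : 𝓜(ℂ, A)) =
          ((b' : 𝓜(ℂ, A)) * y n - y n * (b' : 𝓜(ℂ, A))) +
          (((b - b' : A) : 𝓜(ℂ, A)) * y n - y n * ((b - b' : A) : 𝓜(ℂ, A))) := by
        rw [coe_sub']; noncomm_ring
      change ‖(b : 𝓜(ℂ, A)) * y n - y n * (b : 𝓜(ℂ, A))‖ ≤
        ‖(b' : 𝓜(ℂ, A)) * y n - y n * (b' : 𝓜(ℂ, A))‖ + 4 * ‖b - b'‖
      rw [e]
      refine (norm_add_le _ _).trans (add_le_add le_rfl ((norm_sub_le _ _).trans ?_))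
      have n1 := norm_mul_le ((b - b' : A) : 𝓜(ℂ, A)) (y n)
      have n2 := norm_mul_le (y n) ((b - b' : A) : 𝓜(ℂ, A))
      rw [norm_coe_mult] at n1 n2
      have n3 := mul_le_mul_of_nonneg_left (hb n) (norm_nonneg (b - b'))
      linarith
    · refine tendsto_of_le_inv (j := j) (fun n => norm_nonneg _) (fun n hn => ?_)
      rw [norm_sub_rev]
      exact h1 n j hn
  · intro g' b
    obtain ⟨k, rfl⟩ := hg g'
    refine tendsto_dense ha (fun n b => ‖(b : 𝓜(ℂ, A)) * (multAct α (g k) (y n) - y n)‖)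
      (K := 4) (by norm_num) (fun n b b' => ?_) (fun n b => norm_nonneg _) (fun j => ?_) b
    · have e : (b : 𝓜(ℂ, A)) * (multAct α (g k) (y n) - y n) =
          (b' : 𝓜(ℂ, A)) * (multAct α (g k) (y n) - y n) +
          ((b - b' : A) : 𝓜(ℂ, A)) * (multAct α (g k) (y n) - y n) := by
        rw [coe_sub']; noncomm_ring
      change ‖(b : 𝓜(ℂ, A)) * (multAct α (g k) (y n) - y n)‖ ≤
        ‖(b' : 𝓜(ℂ, A)) * (multAct α (g k) (y n) - y n)‖ + 4 * ‖b - b'‖
      rw [e]
      refine (norm_add_le _ _).trans (add_le_add le_rfl ((norm_mul_le _ _).trans ?_))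
      rw [norm_coe_mult]
      have n1 := norm_sub_le (multAct α (g k) (y n)) (y n)
      have n2 := norm_multAct_le α (g k) (y n)
      have n3 : ‖multAct α (g k) (y n) - y n‖ ≤ 4 := by linarith only [n1, n2, hb n]
      nlinarith only [mul_le_mul_of_nonneg_left n3 (norm_nonneg (b - b'))]
    · refine tendsto_of_le_inv (j := max j k) (fun n => norm_nonneg _) (fun n hn => ?_)
      exact h2 n k ((le_max_right _ _).trans hn) j ((le_max_left _ _).trans hn)

theorem kap_mul_mk_of_le {a : ℕ → A} (ha : DenseRange a) (y : bddSeq 𝓜(ℂ, A) ℕ)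
    (h : ∀ n, ∀ j ≤ n, ‖(a j : 𝓜(ℂ, A)) * (y : ℕ → 𝓜(ℂ, A)) n‖ ≤ 1 / ((n : ℝ) + 1)) (b : A) :
    kap b * Bq.mk atTop y = 0 := by
  refine kap_mul_mk_eq_zero y b ?_
  obtain ⟨K, hK⟩ := y.2
  have hK0 : 0 ≤ K := (norm_nonneg _).trans (hK 0)
  refine tendsto_dense ha (fun n b => ‖(b : 𝓜(ℂ, A)) * (y : ℕ → 𝓜(ℂ, A)) n‖) hK0
    (fun n b b' => ?_) (fun n b => norm_nonneg _) (fun j => ?_) b
  · have e : (b : 𝓜(ℂ, A)) * (y : ℕ → 𝓜(ℂ, A)) n = (b' : 𝓜(ℂ, A)) * (y : ℕ → 𝓜(ℂ, A)) n +
        ((b - b' : A) : 𝓜(ℂ, A)) * (y : ℕ → 𝓜(ℂ, A)) n := by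
      rw [coe_sub']; noncomm_ring
    change ‖(b : 𝓜(ℂ, A)) * (y : ℕ → 𝓜(ℂ, A)) n‖ ≤
      ‖(b' : 𝓜(ℂ, A)) * (y : ℕ → 𝓜(ℂ, A)) n‖ + K * ‖b - b'‖
    rw [e]
    refine (norm_add_le _ _).trans (add_le_add le_rfl ((norm_mul_le _ _).trans ?_))
    rw [norm_coe_mult, mul_comm]
    exact mul_le_mul_of_nonneg_right (hK n) (norm_nonneg _)
  · exact tendsto_of_le_inv (j := j) (fun n => norm_nonneg _) (fun n hn => h n j hn)

/-- numerical contradiction -/
theorem no_char_values {z σ τ : ℂ}
    (h1 : star σ * σ = (1 / 2 : ℂ) * (star (z * z) * (z * z) +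
      (1 - star z * z - z * star z) * (1 - star z * z - z * star z)))
    (h2 : star τ * τ = (1 / 2 : ℂ) * (star (z * z) * (z * z) +
      (1 - star z * z - z * star z) * (1 - star z * z - z * star z)))
    (h3 : star σ * τ = 0) : False := by
  have hz : star z * z = ((Complex.normSq z : ℝ) : ℂ) := Complex.normSq_eq_conj_mul_self.symm
  have hz' : z * star z = ((Complex.normSq z : ℝ) : ℂ) := by rw [mul_comm]; exact hz
  have hzz : star (z * z) * (z * z) = ((Complex.normSq z ^ 2 : ℝ) : ℂ) := by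
    rw [star_mul]
    calc star z * star z * (z * z) = (star z * z) * (star z * z) := by ring
      _ = _ := by rw [hz]; push_cast; ring
  have hD : (1 / 2 : ℂ) * (star (z * z) * (z * z) +
      (1 - star z * z - z * star z) * (1 - star z * z - z * star z)) =
      (((1 / 2) * (Complex.normSq z ^ 2 + (1 - 2 * Complex.normSq z) ^ 2) : ℝ) : ℂ) := by
    rw [hzz, hz, hz']
    push_cast
    ring
  have hpos : 0 < (1 / 2) * (Complex.normSq z ^ 2 + (1 - 2 * Complex.normSq z) ^ 2) := by
    nlinarith only []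
  have hne : (((1 / 2) * (Complex.normSq z ^ 2 + (1 - 2 * Complex.normSq z) ^ 2) : ℝ) : ℂ) ≠ 0 := by
    exact_mod_cast hpos.ne'
  rcases mul_eq_zero.1 h3 with h | h
  · rw [h, zero_mul, hD] at h1
    exact hne h1.symm
  · rw [h, mul_zero, hD] at h2
    exact hne h2.symm

/-- the relative commutant is a C*-algebra -/
noncomputable abbrev cstarC0 {G : Type w} [Group G] (α : G →* (A ≃⋆ₐ[ℂ] A)) : CStarAlgebra (C0 α) :=
  StarSubalgebra.cstarAlgebra _ (h_closed := isClosed_C0 α)

attribute [local instance] cstarC0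

/-- the annihilator of the constants -/
noncomputable def NN {G : Type w} [Group G] (α : G →* (A ≃⋆ₐ[ℂ] A)) : CIdeal (C0 α) :=
    { toSub :=
        { carrier := {x | ∀ b : A, kap b * (x : Bq 𝓜(ℂ, A) (atTop : Filter ℕ)) = 0}
          add_mem' := by
            intro x y hx hy b
            have e : ((x + y : C0 α) : Bq 𝓜(ℂ, A) (atTop : Filter ℕ)) = x + y := rfl
            rw [e, mul_add, hx b, hy b, add_zero]
          zero_mem' := by
            intro b
            have e : ((0 : C0 α) : Bq 𝓜(ℂ, A) (atTop : Filter ℕ)) = 0 := rfl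
            rw [e, mul_zero]
          smul_mem' := by
            intro c x hx b
            have e : ((c • x : C0 α) : Bq 𝓜(ℂ, A) (atTop : Filter ℕ)) = c • x := rfl
            rw [e, mul_smul_comm, hx b, smul_zero] }
      mul_left' := by
        intro y x hx b
        have e : ((y * x : C0 α) : Bq 𝓜(ℂ, A) (atTop : Filter ℕ)) = y * x := rfl
        show kap b * ((y * x : C0 α) : Bq 𝓜(ℂ, A) (atTop : Filter ℕ)) = 0
        rw [e, ← mul_assoc, ((mem_C0 α).1 y.2).1 b, mul_assoc, hx b, mul_zero]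
      mul_right' := by
        intro y x hx b
        have e : ((x * y : C0 α) : Bq 𝓜(ℂ, A) (atTop : Filter ℕ)) = x * y := rfl
        show kap b * ((x * y : C0 α) : Bq 𝓜(ℂ, A) (atTop : Filter ℕ)) = 0
        rw [e, ← mul_assoc, hx b, zero_mul]
      star_mem' := by
        intro x hx b
        have e : ((star x : C0 α) : Bq 𝓜(ℂ, A) (atTop : Filter ℕ)) = star (x : Bq 𝓜(ℂ, A) atTop) :=
          rfl
        show kap b * ((star x : C0 α) : Bq 𝓜(ℂ, A) (atTop : Filter ℕ)) = 0
        have h1 := hx (star b)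
        rw [((mem_C0 α).1 x.2).1] at h1
        have h2 := congrArg star h1
        rw [star_mul, kap_star, star_star, star_zero] at h2
        rw [e]
        exact h2
      closed' := by
        have : {x : C0 α | ∀ b : A, kap b * (x : Bq 𝓜(ℂ, A) (atTop : Filter ℕ)) = 0} =
            ⋂ b : A, {x : C0 α | kap b * (x : Bq 𝓜(ℂ, A) (atTop : Filter ℕ)) = 0} := by
          ext x; simp
        show IsClosed {x : C0 α | ∀ b : A, kap b * (x : Bq 𝓜(ℂ, A) (atTop : Filter ℕ)) = 0}
        rw [this]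
        exact isClosed_iInter fun b =>
          isClosed_eq (by fun_prop) continuous_const }

theorem mem_NN {G : Type w} [Group G] (α : G →* (A ≃⋆ₐ[ℂ] A)) (x : C0 α) :
    x ∈ NN α ↔ ∀ b : A, kap b * (x : Bq 𝓜(ℂ, A) (atTop : Filter ℕ)) = 0 := Iff.rfl

theorem no_char_of_rel {C : Type u} [CStarAlgebra C] (N : CIdeal C) (W S T : C)
    (m1 : star S * S - (1 / 2 : ℂ) • (star (W * W) * (W * W) +
      (1 - star W * W - W * star W) * (1 - star W * W - W * star W)) ∈ N)
    (m2 : star T * T - (1 / 2 : ℂ) • (star (W * W) * (W * W) +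
      (1 - star W * W - W * star W) * (1 - star W * W - W * star W)) ∈ N)
    (m3 : star S * T ∈ N) (χ : C →⋆ₐ[ℂ] ℂ) : ∃ y ∈ N, χ y ≠ 0 := by
  by_contra hcon
  push Not at hcon
  have c1 := hcon _ m1
  have c2 := hcon _ m2
  have c3 := hcon _ m3
  have hDχ : χ ((1 / 2 : ℂ) • (star (W * W) * (W * W) +
      (1 - star W * W - W * star W) * (1 - star W * W - W * star W))) =
      (1 / 2 : ℂ) * (star (χ W * χ W) * (χ W * χ W) +
      (1 - star (χ W) * χ W - χ W * star (χ W)) * (1 - star (χ W) * χ W - χ W * star (χ W))) := by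
    rw [map_smul, map_add, map_mul, map_mul, map_star, map_mul, map_mul, map_sub, map_sub,
      map_one, map_mul, map_mul, map_star, smul_eq_mul]
  rw [map_sub, map_mul, map_star, hDχ, sub_eq_zero] at c1 c2
  rw [map_mul, map_star] at c3
  exact no_char_values c1 c2 c3

theorem exists_approx {G : Type w} [Group G] (α : G →* (A ≃⋆ₐ[ℂ] A)) {m : ℕ}
    (x : Fin 4 → Fin m → C0 α) (y : C0 α)
    (hy : ∀ b : A, kap b * (y : Bq 𝓜(ℂ, A) (atTop : Filter ℕ)) = 0)
    (hsum : (∑ i, x 0 i * (x 1 i * x 2 i - x 2 i * x 1 i) * x 3 i) + y = 1) :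
    NoCharLocalM α := by
  choose X hX using fun q i => Bq.mk_surjective (B := 𝓜(ℂ, A)) (atTop : Filter ℕ)
    ((x q i : C0 α) : Bq 𝓜(ℂ, A) (atTop : Filter ℕ))
  choose Cb hCb using fun q i => (X q i).2
  refine ⟨m, ∑ p : Fin 4 × Fin m, |Cb p.1 p.2|, fun F S ε hε => ?_⟩
  have hbound : ∀ q i n, ‖((X q i : bddSeq 𝓜(ℂ, A) ℕ) : ℕ → 𝓜(ℂ, A)) n‖ ≤
      ∑ p : Fin 4 × Fin m, |Cb p.1 p.2| := by
    intro q i n
    refine (hCb q i n).trans ((le_abs_self _).trans ?_)
    exact Finset.single_le_sum (f := fun p : Fin 4 × Fin m => |Cb p.1 p.2|)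
      (fun p _ => abs_nonneg _) (Finset.mem_univ (q, i))
  have ev1 : ∀ᶠ n in atTop, ∀ q i, ∀ b ∈ F,
      ‖((X q i : bddSeq 𝓜(ℂ, A) ℕ) : ℕ → 𝓜(ℂ, A)) n * (b : 𝓜(ℂ, A)) -
        (b : 𝓜(ℂ, A)) * ((X q i : bddSeq 𝓜(ℂ, A) ℕ) : ℕ → 𝓜(ℂ, A)) n‖ ≤ ε := by
    rw [eventually_all]
    intro q
    rw [eventually_all]
    intro i
    rw [eventually_all_finset]
    intro b _
    have h1 := ((mem_C0 α).1 (x q i).2).1 b
    rw [← hX q i] at h1
    have h2 := (Bq.mk_eq_iff atTop (Bq.const (b : 𝓜(ℂ, A)) * X q i)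
      (X q i * Bq.const (b : 𝓜(ℂ, A)))).1 h1
    filter_upwards [h2.eventually (ge_mem_nhds hε)] with n hn
    rw [norm_sub_rev]
    exact hn
  have ev2 : ∀ᶠ n in atTop, ∀ q i, ∀ g ∈ S, ∀ b ∈ F,
      ‖(b : 𝓜(ℂ, A)) * (multAct α g (((X q i : bddSeq 𝓜(ℂ, A) ℕ) : ℕ → 𝓜(ℂ, A)) n) -
        ((X q i : bddSeq 𝓜(ℂ, A) ℕ) : ℕ → 𝓜(ℂ, A)) n)‖ ≤ ε := by
    rw [eventually_all]
    intro q
    rw [eventually_all]
    intro i
    rw [eventually_all_finset]
    intro g _
    rw [eventually_all_finset]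
    intro b _
    have h1 := ((mem_C0 α).1 (x q i).2).2 g b
    rw [← hX q i] at h1
    have hb : ∃ C : ℝ, ∀ k, ‖multAct α g (((X q i : bddSeq 𝓜(ℂ, A) ℕ) : ℕ → 𝓜(ℂ, A)) k)‖ ≤ C :=
      (X q i).2.imp fun C hC k => (norm_multAct_le α g _).trans (hC k)
    have h2 := tendsto_of_kap_mul_mk
      (y := (⟨fun k => multAct α g (((X q i : bddSeq 𝓜(ℂ, A) ℕ) : ℕ → 𝓜(ℂ, A)) k), hb⟩ :
        bddSeq 𝓜(ℂ, A) ℕ) - X q i) (b := b) h1
    filter_upwards [h2.eventually (ge_mem_nhds hε)] with n hn
    exact hn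
  have ev3 : ∀ᶠ n in atTop, ∀ b ∈ F, ‖(b : 𝓜(ℂ, A)) *
      ((∑ i, ((X 0 i : bddSeq 𝓜(ℂ, A) ℕ) : ℕ → 𝓜(ℂ, A)) n *
        (((X 1 i : bddSeq 𝓜(ℂ, A) ℕ) : ℕ → 𝓜(ℂ, A)) n *
          ((X 2 i : bddSeq 𝓜(ℂ, A) ℕ) : ℕ → 𝓜(ℂ, A)) n -
        ((X 2 i : bddSeq 𝓜(ℂ, A) ℕ) : ℕ → 𝓜(ℂ, A)) n *
          ((X 1 i : bddSeq 𝓜(ℂ, A) ℕ) : ℕ → 𝓜(ℂ, A)) n) *
        ((X 3 i : bddSeq 𝓜(ℂ, A) ℕ) : ℕ → 𝓜(ℂ, A)) n) - 1)‖ ≤ ε := by
    rw [eventually_all_finset]
    intro b _
    set Y : bddSeq 𝓜(ℂ, A) ℕ := (∑ i, X 0 i * (X 1 i * X 2 i - X 2 i * X 1 i) * X 3 i) - 1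
      with hY
    have hmkY : Bq.mk atTop Y = -(y : Bq 𝓜(ℂ, A) (atTop : Filter ℕ)) := by
      have h1 : ((∑ i, x 0 i * (x 1 i * x 2 i - x 2 i * x 1 i) * x 3 i : C0 α) :
          Bq 𝓜(ℂ, A) (atTop : Filter ℕ)) =
          ∑ i, (x 0 i : Bq 𝓜(ℂ, A) (atTop : Filter ℕ)) * ((x 1 i : Bq 𝓜(ℂ, A) (atTop : Filter ℕ)) *
            (x 2 i : Bq 𝓜(ℂ, A) (atTop : Filter ℕ)) - (x 2 i : Bq 𝓜(ℂ, A) (atTop : Filter ℕ)) *
            (x 1 i : Bq 𝓜(ℂ, A) (atTop : Filter ℕ))) * (x 3 i : Bq 𝓜(ℂ, A) (atTop : Filter ℕ)) :=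
        map_sum (C0 α).subtype _ _
      have h2 : Bq.mk atTop Y = (∑ i, Bq.mk atTop (X 0 i * (X 1 i * X 2 i - X 2 i * X 1 i) *
          X 3 i)) - 1 := by
        rw [hY, Bq.mk_sub, Bq.mk_one]
        congr 1
        exact map_sum (nullConG (atTop : Filter ℕ) (bddSeq 𝓜(ℂ, A) ℕ)
          (isSeqAlg_bddSeq 𝓜(ℂ, A) (atTop : Filter ℕ))).mk' _ _
      have h3 : ∀ i, Bq.mk atTop (X 0 i * (X 1 i * X 2 i - X 2 i * X 1 i) * X 3 i) =
          (x 0 i : Bq 𝓜(ℂ, A) (atTop : Filter ℕ)) * ((x 1 i : Bq 𝓜(ℂ, A) (atTop : Filter ℕ)) *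
            (x 2 i : Bq 𝓜(ℂ, A) (atTop : Filter ℕ)) - (x 2 i : Bq 𝓜(ℂ, A) (atTop : Filter ℕ)) *
            (x 1 i : Bq 𝓜(ℂ, A) (atTop : Filter ℕ))) *
              (x 3 i : Bq 𝓜(ℂ, A) (atTop : Filter ℕ)) := by
        intro i
        rw [← hX 0 i, ← hX 1 i, ← hX 2 i, ← hX 3 i]
        rfl
      have h4 : ((∑ i, x 0 i * (x 1 i * x 2 i - x 2 i * x 1 i) * x 3 i : C0 α) :
          Bq 𝓜(ℂ, A) (atTop : Filter ℕ)) + (y : Bq 𝓜(ℂ, A) (atTop : Filter ℕ)) = 1 :=
        congrArg Subtype.val hsum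
      rw [h2]
      simp only [h3]
      rw [← h1, ← h4]
      abel
    have hk : kap b * Bq.mk atTop Y = 0 := by
      rw [hmkY, mul_neg, hy b, neg_zero]
    have h2 := tendsto_of_kap_mul_mk hk
    filter_upwards [h2.eventually (ge_mem_nhds hε)] with n hn
    have hYn : (Y : ℕ → 𝓜(ℂ, A)) n = (∑ i, ((X 0 i : bddSeq 𝓜(ℂ, A) ℕ) : ℕ → 𝓜(ℂ, A)) n *
        (((X 1 i : bddSeq 𝓜(ℂ, A) ℕ) : ℕ → 𝓜(ℂ, A)) n *
          ((X 2 i : bddSeq 𝓜(ℂ, A) ℕ) : ℕ → 𝓜(ℂ, A)) n -
        ((X 2 i : bddSeq 𝓜(ℂ, A) ℕ) : ℕ → 𝓜(ℂ, A)) n *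
          ((X 1 i : bddSeq 𝓜(ℂ, A) ℕ) : ℕ → 𝓜(ℂ, A)) n) *
        ((X 3 i : bddSeq 𝓜(ℂ, A) ℕ) : ℕ → 𝓜(ℂ, A)) n) - 1 := by
      rw [hY]
      change ((∑ i, X 0 i * (X 1 i * X 2 i - X 2 i * X 1 i) * X 3 i : bddSeq 𝓜(ℂ, A) ℕ) :
        ℕ → 𝓜(ℂ, A)) n - 1 = _
      congr 1
      simp only [AddSubmonoidClass.coe_finsetSum, Finset.sum_apply]
      rfl
    rw [← hYn]
    exact hn
  obtain ⟨n, ⟨hn1, hn2⟩, hn3⟩ := ((ev1.and ev2).and ev3).exists
  exact ⟨fun q i => ((X q i : bddSeq 𝓜(ℂ, A) ℕ) : ℕ → 𝓜(ℂ, A)) n,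
    fun q i => hbound q i n, hn1, hn2, hn3⟩

theorem noCharLocalM_of_wst [TopologicalSpace.SeparableSpace A] {G : Type w} [Group G]
    [Countable G] (α : G →* (A ≃⋆ₐ[ℂ] A)) (h : WSTLocalN α) : NoCharLocalM α := by
  classical
  have hne : Nonempty A := ⟨0⟩
  obtain ⟨a, ha⟩ := TopologicalSpace.exists_dense_seq A
  obtain ⟨g, hg⟩ := exists_surjective_nat G
  have hmem : ∀ n j : ℕ, j ≤ n → a j ∈ (Finset.range (n + 1)).image a := fun n j hj =>
    Finset.mem_image.2 ⟨j, Finset.mem_range.2 (by omega), rfl⟩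
  have hmem' : ∀ n j : ℕ, j ≤ n → g j ∈ (Finset.range (n + 1)).image g := fun n j hj =>
    Finset.mem_image.2 ⟨j, Finset.mem_range.2 (by omega), rfl⟩
  choose w s t hn hc hi hd using fun n : ℕ =>
    h ((Finset.range (n + 1)).image a) ((Finset.range (n + 1)).image g) (1 / ((n : ℝ) + 1))
      (by positivity)
  set w' : bddSeq 𝓜(ℂ, A) ℕ := ⟨w, ⟨2, fun n => (hn n).1⟩⟩ with hw'
  set s' : bddSeq 𝓜(ℂ, A) ℕ := ⟨s, ⟨2, fun n => (hn n).2.1⟩⟩ with hs'
  set t' : bddSeq 𝓜(ℂ, A) ℕ := ⟨t, ⟨2, fun n => (hn n).2.2⟩⟩ with ht'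
  have hwC : Bq.mk atTop w' ∈ C0 α := seq_mem_C0 α ha hg w (fun n => (hn n).1)
    (fun n j hj => (hc n (a j) (hmem n j hj)).1)
    (fun n k hk j hj => (hi n (g k) (hmem' n k hk) (a j) (hmem n j hj)).1)
  have hsC : Bq.mk atTop s' ∈ C0 α := seq_mem_C0 α ha hg s (fun n => (hn n).2.1)
    (fun n j hj => (hc n (a j) (hmem n j hj)).2.1)
    (fun n k hk j hj => (hi n (g k) (hmem' n k hk) (a j) (hmem n j hj)).2.1)
  have htC : Bq.mk atTop t' ∈ C0 α := seq_mem_C0 α ha hg t (fun n => (hn n).2.2)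
    (fun n j hj => (hc n (a j) (hmem n j hj)).2.2)
    (fun n k hk j hj => (hi n (g k) (hmem' n k hk) (a j) (hmem n j hj)).2.2)
  set W : C0 α := ⟨_, hwC⟩ with hW
  set S : C0 α := ⟨_, hsC⟩ with hS
  set T : C0 α := ⟨_, htC⟩ with hT
  have m1 : star S * S - (1 / 2 : ℂ) • (star (W * W) * (W * W) +
      (1 - star W * W - W * star W) * (1 - star W * W - W * star W)) ∈ NN α := by
    rw [mem_NN]
    intro b
    exact kap_mul_mk_of_le ha (star s' * s' - (1 / 2 : ℂ) • (star (w' * w') * (w' * w') +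
      (1 - star w' * w' - w' * star w') * (1 - star w' * w' - w' * star w')))
      (fun n j hj => (hd n (a j) (hmem n j hj)).1) b
  have m2 : star T * T - (1 / 2 : ℂ) • (star (W * W) * (W * W) +
      (1 - star W * W - W * star W) * (1 - star W * W - W * star W)) ∈ NN α := by
    rw [mem_NN]
    intro b
    exact kap_mul_mk_of_le ha (star t' * t' - (1 / 2 : ℂ) • (star (w' * w') * (w' * w') +
      (1 - star w' * w' - w' * star w') * (1 - star w' * w' - w' * star w')))
      (fun n j hj => (hd n (a j) (hmem n j hj)).2.1) b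
  have m3 : star S * T ∈ NN α := by
    rw [mem_NN]
    intro b
    exact kap_mul_mk_of_le ha (star s' * t') (fun n j hj => (hd n (a j) (hmem n j hj)).2.2) b
  obtain ⟨m, x, y, hy, hsum⟩ := exists_witness (NN α) (no_char_of_rel (NN α) W S T m1 m2 m3)
  exact exists_approx α x y ((mem_NN α y).1 hy) hsum

theorem noCharLocalN_of_wst [TopologicalSpace.SeparableSpace A] {G : Type w} [Group G]
    [Countable G] (α : G →* (A ≃⋆ₐ[ℂ] A)) (h : WSTLocalN α) : NoCharLocalN α :=
  noCharLocalN_of_mult α (noCharLocalM_of_wst α h)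

end Vale.Agent.P095R
end
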