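import Vale.Agent.P095.MathlibUsed
import Vale.Agent.P095.Bdl.B1
import Vale.Agent.P095.Bdl.B15
import Vale.Agent.P095.Bdl.B16
import Vale.Agent.P095.Bdl.B6
import Vale.Agent.P095.Bdl.B12
import Vale.Agent.P095.Bdl.B10
import Vale.Agent.P095.Bdl.B17
import Vale.Agent.P095.Bdl.B20
import Vale.Agent.P095.Bdl.B14
import Vale.Agent.P095.Bdl.B13
import Vale.Agent.P095.Bdl.B11
import Vale.Agent.P095.Bdl.B8
import Vale.Agent.P095.Bdl.B18
import Vale.Agent.P095.Bdl.B3
import Vale.Agent.P095R.NStmt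
import Vale.Agent.P095K.GStmt

set_option linter.all false

namespace AFastea29b2x18a
@[reducible] noncomputable def a0.{u1} {x1 : Type} {x2 : Type u1} [x3 : CStarAlgebra x2] : Semiring ↥(Vale.Agent.P101.bddSeq x2 x1) := inferInstance
@[reducible] noncomputable def a1.{u1} {x1 : Type} {x2 : Type u1} [x3 : CStarAlgebra x2] : Ring ↥(Vale.Agent.P101.bddSeq x2 x1) := inferInstance
theorem a2.{u1} {x1 : Type} {x2 : Type u1} [x3 : CStarAlgebra x2] : SubringClass (StarSubalgebra ℂ (x1 → x2)) (x1 → x2) := inferInstance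
@[reducible] noncomputable def a3.{u1} {x1 : Type} {x2 : Type u1} [x3 : CStarAlgebra x2] : NonUnitalNonAssocSemiring ↥(Vale.Agent.P101.bddSeq x2 x1) := inferInstance
@[reducible] noncomputable def a4.{u1} {x1 : Type u1} [x2 : CStarAlgebra x1] {x3 : Type} {x4 : Ultrafilter x3} : AddCommMonoid (@Vale.Agent.P101.Bq x1 x2 x3 (@Ultrafilter.toFilter x3 x4)) := inferInstance
@[reducible] noncomputable def a5.{u1} {x1 : Type} {x2 : Type u1} [x3 : CStarAlgebra x2] : Distrib ↥(Vale.Agent.P101.bddSeq x2 x1) := inferInstance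
@[reducible] noncomputable def a6.{u1} {x1 : Type} {x2 : Type u1} [x3 : CStarAlgebra x2] : NonAssocSemiring ↥(Vale.Agent.P101.bddSeq x2 x1) := inferInstance
@[reducible] noncomputable def a7.{u1} {x1 : Type} {x2 : Type u1} [x3 : CStarAlgebra x2] : Mul ↥(Vale.Agent.P101.bddSeq x2 x1) := inferInstance
@[reducible] noncomputable def a8.{u1} {x1 : Type} {x2 : Type u1} [x3 : CStarAlgebra x2] : SetLike (StarSubalgebra ℂ (x1 → x2)) (x1 → x2) := inferInstance
@[reducible] noncomputable def a9.{u1} {x1 : Type} {x2 : Type u1} [x3 : CStarAlgebra x2] : Add ↥(Vale.Agent.P101.bddSeq x2 x1) := inferInstance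
@[reducible] def a10.{u1} {x1 : Type u1} [x2 : NonUnitalCStarAlgebra x1] : Algebra ℂ (Unitization ℂ x1) := inferInstance
@[reducible] noncomputable def a11.{u1} {x1 : Type} {x2 : Type u1} [x3 : CStarAlgebra x2] {x4 : Vale.Agent.P133.CIdeal x2} {x5 : Filter x1} : Semiring ↥(Vale.Agent.P095N.relSeq x4 x5) := inferInstance
@[reducible] noncomputable def a12.{u1} {x1 : Type u1} {x2 : Type u1} [x3 : CStarAlgebra x1] [x4 : NonUnitalCStarAlgebra x2] : Module ℂ (x1 →ₗ[ℂ] x2) := inferInstance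
theorem a13.{u1} {x1 : Type u1} [x2 : CStarAlgebra x1] : AddSubgroupClass (StarSubalgebra ℂ (ℕ → x1)) (ℕ → x1) := inferInstance
@[reducible] noncomputable def a14.{u1} {x1 : Type} {x2 : Type u1} [x3 : CStarAlgebra x2] {x4 : Vale.Agent.P133.CIdeal x2} {x5 : Filter x1} : Ring ↥(Vale.Agent.P095N.relSeq x4 x5) := inferInstance
@[reducible] noncomputable def a15.{u1} {x1 : Type} {x2 : Type u1} [x3 : CStarAlgebra x2] : AddCommMonoid ↥(Vale.Agent.P101.bddSeq x2 x1) := inferInstance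
@[reducible] noncomputable def a16.{u1} {x1 : Type u1} [x2 : CStarAlgebra x1] : Semiring ↥(Vale.Agent.P095.BSeq x1) := inferInstance
@[reducible] noncomputable def a17.{u1} {x1 : Type u1} [x2 : CStarAlgebra x1] : NonAssocSemiring ↥(Vale.Agent.P095.BSeq x1) := inferInstance
theorem a18.{u1} {x1 : Type} {x2 : Type u1} [x3 : CStarAlgebra x2] {x4 : Vale.Agent.P133.CIdeal x2} {x5 : Filter x1} : NonUnitalAlgHomClass (↥(Vale.Agent.P095N.relSeq x4 x5) →⋆ₐ[ℂ] Vale.Agent.P095N.FR x4 x5) ℂ (↥(Vale.Agent.P095N.relSeq x4 x5)) (Vale.Agent.P095N.FR x4 x5) := inferInstance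
@[reducible] noncomputable def a19.{u1} {x1 : Type u1} [x2 : CStarAlgebra x1] : Ring ↥(Vale.Agent.P095.BSeq x1) := inferInstance
@[reducible] noncomputable def a20.{u1} {x1 : Type u1} [x2 : CStarAlgebra x1] : Mul ↥(Vale.Agent.P095.BSeq x1) := inferInstance
@[reducible] noncomputable def a21.{u1} {x1 : Type u1} [x2 : CStarAlgebra x1] : Distrib ↥(Vale.Agent.P095.BSeq x1) := inferInstance
@[reducible] def a22.{u1} {x1 : Type u1} [x2 : NonUnitalCStarAlgebra x1] : Mul (Unitization ℂ x1) := inferInstance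
@[reducible] def a23.{u1} {x1 : Type u1} [x2 : NonUnitalCStarAlgebra x1] : Semiring (Unitization ℂ x1) := inferInstance
@[reducible] noncomputable def a24.{u1} {x1 : Type} {x2 : Type u1} [x3 : CStarAlgebra x2] {x4 : Vale.Agent.P133.CIdeal x2} {x5 : Filter x1} : Distrib ↥(Vale.Agent.P095N.relSeq x4 x5) := inferInstance
theorem a25.{u1} {x1 : Type} {x2 : Type u1} [x3 : CStarAlgebra x2] : StarModule ℂ (x1 → x2) := inferInstance
theorem a26 : CovariantClass ℝ ℝ (Function.swap fun x1 x2 => x1 + x2) fun x1 x2 => x1 ≤ x2 := inferInstance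
@[reducible] def a27.{u1} {x1 : Type u1} [x2 : NonUnitalCStarAlgebra x1] : Module ℂ (Unitization ℂ x1) := inferInstance
@[reducible] noncomputable def a28.{u1} {x1 : Type u1} [x2 : CStarAlgebra x1] : Sub ↥(Vale.Agent.P095.BSeq x1) := inferInstance
@[reducible] noncomputable def a29.{u1} {x1 : Type u1} [x2 : CStarAlgebra x1] : Add ↥(Vale.Agent.P095.BSeq x1) := inferInstance
@[reducible] noncomputable def a30.{u1} {x1 : Type u1} [x2 : CStarAlgebra x1] : AddCommMonoid ↥(Vale.Agent.P095.BSeq x1) := inferInstance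
@[reducible] def a31.{u1} {x1 : Type u1} [x2 : NonUnitalCStarAlgebra x1] : Ring (Unitization ℂ x1) := inferInstance
theorem a32.{u1} {x1 : Type} {x2 : Type u1} [x3 : CStarAlgebra x2] : SubsemiringClass (StarSubalgebra ℂ (x1 → x2)) (x1 → x2) := inferInstance
@[reducible] noncomputable def a33.{u1} {x1 : Type u1} [x2 : CStarAlgebra x1] : AddGroupWithOne ↥(Vale.Agent.P095.BSeq x1) := inferInstance
theorem a34.{u1} {x1 : Type u1} [x2 : CStarAlgebra x1] : AddMonoidHomClass (x1 →ₗ[ℂ] ℂ) x1 ℂ := inferInstance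
@[reducible] noncomputable def a35.{u1} {x1 : Type} {x2 : Type u1} [x3 : CStarAlgebra x2] {x4 : Vale.Agent.P133.CIdeal x2} {x5 : Filter x1} : Mul ↥(Vale.Agent.P095N.relSeq x4 x5) := inferInstance
theorem a36.{u1} {x1 : Type u1} [x2 : CStarAlgebra x1] : SubringClass (StarSubalgebra ℂ (ℕ → x1)) (ℕ → x1) := inferInstance
@[reducible] noncomputable def a37.{u1} {x1 : Type u1} [x2 : CStarAlgebra x1] : Star ↥(Vale.Agent.P095.BSeq x1) := inferInstance
theorem a38.{u1} {x1 : Type u1} [x2 : CStarAlgebra x1] : DistribMulActionSemiHomClass (x1 →ₗ[ℂ] ℂ) (⇑(RingHom.id ℂ)) x1 ℂ := inferInstance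
@[reducible] noncomputable def a39.{u1} {x1 : Type} {x2 : Type u1} [x3 : CStarAlgebra x2] {x4 : Vale.Agent.P133.CIdeal x2} {x5 : Filter x1} : Star ↥(Vale.Agent.P095N.relSeq x4 x5) := inferInstance
@[reducible] noncomputable def a40.{u1} {x1 : Type u1} [x2 : CStarAlgebra x1] : AddGroup ↥(Vale.Agent.P095.BSeq x1) := inferInstance
@[reducible] def a41.{u1} {x1 : Type u1} [x2 : CStarAlgebra x1] : MulOne (x1 ≃⋆ₐ[ℂ] x1) := inferInstance
@[reducible] def a42.{u1} {x1 : Type} {x2 : Type u1} {x3 : x1} [x4 : CStarAlgebra x2] : StarMul ((fun a => x2) x3) := inferInstance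
@[reducible] def a43.{u1} {x1 : Type u1} [x2 : CStarAlgebra x1] : MulOneClass (x1 ≃⋆ₐ[ℂ] x1) := inferInstance
theorem a44.{u1} {x1 : Type} {x2 : Type u1} [x3 : CStarAlgebra x2] {x4 : Vale.Agent.P133.CIdeal x2} {x5 : Filter x1} : MulHomClass (↥(Vale.Agent.P095N.relSeq x4 x5) →⋆ₐ[ℂ] Vale.Agent.P095N.FR x4 x5) (↥(Vale.Agent.P095N.relSeq x4 x5)) (Vale.Agent.P095N.FR x4 x5) := inferInstance
@[reducible] noncomputable def a45.{u1} {x1 : Type} {x2 : Type u1} [x3 : CStarAlgebra x2] : Semigroup ↥(Vale.Agent.P101.bddSeq x2 x1) := inferInstance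
@[reducible] noncomputable def a46.{u1} {x1 : Type u1} [x2 : CStarAlgebra x1] : MulOneClass ↥(Vale.Agent.P095.BSeq x1) := inferInstance
@[reducible] noncomputable def a47.{u1} {x1 : Type u1} [x2 : CStarAlgebra x1] : MulZeroOneClass ↥(Vale.Agent.P095.BSeq x1) := inferInstance
@[reducible] noncomputable def a48.{u1} {x1 : Type u1} [x2 : NonUnitalCStarAlgebra x1] : NormedRing (Unitization ℂ x1) := inferInstance
@[reducible] noncomputable def a49.{u1} {x1 : Type} {x2 : Type u1} [x3 : CStarAlgebra x2] : Algebra ℂ ↥(Vale.Agent.P101.bddSeq x2 x1) := inferInstance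
@[reducible] noncomputable def a50.{u1} {x1 : Type u1} [x2 : CStarAlgebra x1] : SetLike (StarSubalgebra ℂ (ℕ → x1)) (ℕ → x1) := inferInstance
theorem a51 : AddRightReflectLE ℝ := inferInstance
@[reducible] noncomputable def a52.{u1} {x1 : Type u1} [x2 : CStarAlgebra x1] : AddZeroClass ↥(Vale.Agent.P095.BSeq x1) := inferInstance
theorem a53.{u1} {x1 : Type u1} [x2 : CStarAlgebra x1] : StarModule ℂ ↥(Vale.Agent.P095.BSeq x1) := inferInstance
@[reducible] noncomputable def a54.{u1} {x1 : Type u1} [x2 : CStarAlgebra x1] : AddMonoid ↥(Vale.Agent.P095.BSeq x1) := inferInstance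
@[reducible] noncomputable def a55.{u1} {x1 : Type u1} [x2 : CStarAlgebra x1] : AddMonoidWithOne ↥(Vale.Agent.P095.BSeq x1) := inferInstance
@[reducible] def a56.{u1} {x1 : Type u1} [x2 : NonUnitalCStarAlgebra x1] : SMul ℂ (Unitization ℂ x1) := inferInstance
@[reducible] def a57.{u1} {x1 : Type u1} [x2 : CStarAlgebra x1] : Monoid (x1 ≃⋆ₐ[ℂ] x1) := inferInstance
theorem a58 : PosMulReflectLT ℝ := inferInstance
@[reducible] def a59.{u1} {x1 : Type u1} [x2 : NonUnitalCStarAlgebra x1] : StarRing (Unitization ℂ x1) := inferInstance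
@[reducible] noncomputable def a60.{u1} {x1 : Type} {x2 : Type u1} [x3 : CStarAlgebra x2] {x4 : Vale.Agent.P133.CIdeal x2} {x5 : Filter x1} : NonAssocSemiring ↥(Vale.Agent.P095N.relSeq x4 x5) := inferInstance
theorem a61 : AddLeftMono ℝ := inferInstance
theorem a62.{u1} {x1 : Type u1} [x2 : CStarAlgebra x1] : StarMemClass (StarSubalgebra ℂ (ℕ → x1)) (ℕ → x1) := inferInstance
@[reducible] noncomputable def a63.{u1} {x1 : Type u1} [x2 : CStarAlgebra x1] : StarRing ↥(Vale.Agent.P095.BSeq x1) := inferInstance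
@[reducible] noncomputable def a64.{u1} {x1 : Type u1} [x2 : CStarAlgebra x1] : Algebra ℂ ↥(Vale.Agent.P095.BSeq x1) := inferInstance
@[reducible] def a65.{u1} {x1 : Type u1} [x2 : NonUnitalCStarAlgebra x1] : Distrib (Unitization ℂ x1) := inferInstance
theorem a66.{u1, u2} {x1 : Type u1} {x2 : Type u2} [x3 : Ring x1] [x4 : Ring x2] [x5 : Algebra ℂ x1] [x6 : Algebra ℂ x2] [x7 : StarRing x1] [x8 : StarRing x2] : AddMonoidHomClass (x1 ≃⋆ₐ[ℂ] x2) x1 x2 := inferInstance
theorem a67.{u1} {x1 : Type} {x2 : Type u1} [x3 : CStarAlgebra x2] : StarMemClass (StarSubalgebra ℂ (x1 → x2)) (x1 → x2) := inferInstance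
theorem a68.{u1, u2} {x1 : Type u1} {x2 : Type u2} [x3 : Ring x1] [x4 : Ring x2] [x5 : Algebra ℂ x1] [x6 : Algebra ℂ x2] [x7 : StarRing x1] [x8 : StarRing x2] : DistribMulActionSemiHomClass (x1 ≃⋆ₐ[ℂ] x2) (⇑(MonoidHom.id ℂ)) x1 x2 := inferInstance
@[reducible] def a69.{u1} {x1 : Type} {x2 : Type u1} {x3 : x1} [x4 : CStarAlgebra x2] : InvolutiveStar ((fun a => x2) x3) := inferInstance
theorem a70 : CharZero ℝ := inferInstance
theorem a71.{u1, u2} {x1 : Type u1} {x2 : Type u2} [x3 : Ring x1] [x4 : Ring x2] [x5 : Algebra ℂ x1] [x6 : Algebra ℂ x2] [x7 : StarRing x1] [x8 : StarRing x2] : MulHomClass (x1 ≃⋆ₐ[ℂ] x2) x1 x2 := inferInstance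
@[reducible] noncomputable def a72.{u1} {x1 : Type} {x2 : Type u1} [x3 : CStarAlgebra x2] {x4 : Vale.Agent.P133.CIdeal x2} {x5 : Filter x1} : Algebra ℂ ↥(Vale.Agent.P095N.relSeq x4 x5) := inferInstance
@[reducible] noncomputable def a73.{u1} {x1 : Type u1} [x2 : CStarAlgebra x1] {x3 : Vale.Agent.P133.CIdeal x1} {x4 : Type} {x5 : Filter x4} : Module ℂ (Vale.Agent.P095N.FR x3 x5) := inferInstance
@[reducible] noncomputable def a74.{u1} {x1 : Type u1} [x2 : CStarAlgebra x1] {x3 : Vale.Agent.P133.CIdeal x1} {x4 : Type} {x5 : Filter x4} : Star (Vale.Agent.P095N.FR x3 x5) := inferInstance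
theorem a75.{u1, u2} {x1 : Type u1} {x2 : Type u2} [x3 : Ring x1] [x4 : Ring x2] [x5 : Algebra ℂ x1] [x6 : Algebra ℂ x2] [x7 : StarRing x1] [x8 : StarRing x2] : NonUnitalAlgHomClass (x1 ≃⋆ₐ[ℂ] x2) ℂ x1 x2 := inferInstance
@[reducible] noncomputable def a76.{u1} {x1 : Type u1} [x2 : CStarAlgebra x1] {x3 : Vale.Agent.P133.CIdeal x1} {x4 : Type} {x5 : Filter x4} : InvolutiveStar (Vale.Agent.P095N.FR x3 x5) := inferInstance
@[reducible] def a77.{u1} {x1 : Type u1} [x2 : NonUnitalCStarAlgebra x1] : AddCommMonoid (Unitization ℂ x1) := inferInstance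
@[reducible] noncomputable def a78.{u1} {x1 : Type u1} [x2 : CStarAlgebra x1] {x3 : Vale.Agent.P133.CIdeal x1} {x4 : Type} {x5 : Filter x4} : StarAddMonoid (Vale.Agent.P095N.FR x3 x5) := inferInstance
theorem a79 : IsRightCancelAdd ℝ := inferInstance
theorem a80 : AddRightStrictMono ℝ := inferInstance
theorem a81.{u1} {x1 : Type u1} [x2 : CStarAlgebra x1] : StarModule ℂ (ℕ → x1) := inferInstance
@[reducible] def a82.{u1} {x1 : Type u1} {x2 : ℕ} [x3 : CStarAlgebra x1] : StarMul ((fun a => x1) x2) := inferInstance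
@[reducible] def a83.{u1} {x1 : Type u1} [x2 : NonUnitalCStarAlgebra x1] : Star (Unitization ℂ x1) := inferInstance
end AFastea29b2x18a
attribute [local instance] AFastea29b2x18a.a0 AFastea29b2x18a.a1 AFastea29b2x18a.a2
  AFastea29b2x18a.a3 AFastea29b2x18a.a4 AFastea29b2x18a.a5 AFastea29b2x18a.a6 AFastea29b2x18a.a7
  AFastea29b2x18a.a8 AFastea29b2x18a.a9 AFastea29b2x18a.a10 AFastea29b2x18a.a11
  AFastea29b2x18a.a12 AFastea29b2x18a.a13 AFastea29b2x18a.a14 AFastea29b2x18a.a15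
  AFastea29b2x18a.a16 AFastea29b2x18a.a17 AFastea29b2x18a.a18 AFastea29b2x18a.a19
  AFastea29b2x18a.a20 AFastea29b2x18a.a21 AFastea29b2x18a.a22 AFastea29b2x18a.a23
  AFastea29b2x18a.a24 AFastea29b2x18a.a25 AFastea29b2x18a.a26 AFastea29b2x18a.a27
  AFastea29b2x18a.a28 AFastea29b2x18a.a29 AFastea29b2x18a.a30 AFastea29b2x18a.a31
  AFastea29b2x18a.a32 AFastea29b2x18a.a33 AFastea29b2x18a.a34 AFastea29b2x18a.a35
  AFastea29b2x18a.a36 AFastea29b2x18a.a37 AFastea29b2x18a.a38 AFastea29b2x18a.a39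
  AFastea29b2x18a.a40 AFastea29b2x18a.a41 AFastea29b2x18a.a42 AFastea29b2x18a.a43
  AFastea29b2x18a.a44 AFastea29b2x18a.a45 AFastea29b2x18a.a46 AFastea29b2x18a.a47
  AFastea29b2x18a.a48 AFastea29b2x18a.a49 AFastea29b2x18a.a50 AFastea29b2x18a.a51
  AFastea29b2x18a.a52 AFastea29b2x18a.a53 AFastea29b2x18a.a54 AFastea29b2x18a.a55
  AFastea29b2x18a.a56 AFastea29b2x18a.a57 AFastea29b2x18a.a58 AFastea29b2x18a.a59
  AFastea29b2x18a.a60 AFastea29b2x18a.a61 AFastea29b2x18a.a62 AFastea29b2x18a.a63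
  AFastea29b2x18a.a64 AFastea29b2x18a.a65 AFastea29b2x18a.a66 AFastea29b2x18a.a67
  AFastea29b2x18a.a68 AFastea29b2x18a.a69 AFastea29b2x18a.a70 AFastea29b2x18a.a71
  AFastea29b2x18a.a72 AFastea29b2x18a.a73 AFastea29b2x18a.a74 AFastea29b2x18a.a75
  AFastea29b2x18a.a76 AFastea29b2x18a.a77 AFastea29b2x18a.a78 AFastea29b2x18a.a79
  AFastea29b2x18a.a80 AFastea29b2x18a.a81 AFastea29b2x18a.a82 AFastea29b2x18a.a83
namespace AFastea29b2x18b
@[reducible] noncomputable def a0.{u1} {x1 : Type u1} [x2 : CStarAlgebra x1] {x3 : Type} {x4 : Ultrafilter x3} : @StarAddMonoid (@Vale.Agent.P101.Bq x1 x2 x3 (@Ultrafilter.toFilter x3 x4)) (@AddCommMonoid.toAddMonoid (@Vale.Agent.P101.Bq x1 x2 x3 (@Ultrafilter.toFilter x3 x4)) (@NonUnitalNonAssocSemiring.toAddCommMonoid (@Vale.Agent.P101.Bq x1 x2 x3 (@Ultrafilter.toFilter x3 x4)) (@RingCon.instNonUnitalNonAssocSemiringQuotient (↥(@Vale.Agent.P101.bddSeq x1 x2 x3)) (@NonAssocSemiring.toNonUnitalNonAssocSemiring (↥(@Vale.Agent.P101.bddSeq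 x1 x2 x3)) (@Semiring.toNonAssocSemiring (↥(@Vale.Agent.P101.bddSeq x1 x2 x3)) (@SubsemiringClass.toSemiring (@StarSubalgebra Complex (x3 → x1) Complex.instCommSemiring Complex.instStarRing (@Pi.semiring x3 (fun a => x1) fun i => @Ring.toSemiring x1 (@NormedRing.toRing x1 (@CStarAlgebra.toNormedRing x1 x2))) (@Pi.starRing' x3 (fun a => x1) (fun i => @NonUnitalCStarAlgebra.toNonUnitalNormedRing x1 (@CStarAlgebra.toNonUnitalCStarAlgebra x1 x2)) fun i => @CStarAlgebra.toStarRing x1 x2) (@Function.algebra Complex x3 x1 Complex.instCommSemiring (@Ring.toSemiring x1 (@NormedRing.toRing x1 (@CStarAlgebra.toNormedRing x1 x2))) (@NormedAlgebra.toAlgebra Complex x1 Complex.instNormedField (@NormedRing.toSeminormedRing x1 (@CStarAlgebra.toNormedRing x1 x2)) (@CStarAlgebra.toNormedAlgebra x1 x2))) ⋯) (@Vale.Agent.P101.bddSeq x1 x2 x3) (x3 → x1) (@Pi.semiring x3 (fun a => x1) fun i => @Ring.toSemiring x1 (@NormedRing.toRing x1 (@CStarAlgebra.toNormedRing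 x1 x2))) (@StarSubalgebra.setLike Complex (x3 → x1) Complex.instCommSemiring Complex.instStarRing (@Pi.semiring x3 (fun a => x1) fun i => @Ring.toSemiring x1 (@NormedRing.toRing x1 (@CStarAlgebra.toNormedRing x1 x2))) (@Pi.starRing' x3 (fun a => x1) (fun i => @NonUnitalCStarAlgebra.toNonUnitalNormedRing x1 (@CStarAlgebra.toNonUnitalCStarAlgebra x1 x2)) fun i => @CStarAlgebra.toStarRing x1 x2) (@Function.algebra Complex x3 x1 Complex.instCommSemiring (@Ring.toSemiring x1 (@NormedRing.toRing x1 (@CStarAlgebra.toNormedRing x1 x2))) (@NormedAlgebra.toAlgebra Complex x1 Complex.instNormedField (@NormedRing.toSeminormedRing x1 (@CStarAlgebra.toNormedRing x1 x2)) (@CStarAlgebra.toNormedAlgebra x1 x2))) ⋯) ⋯))) (@Vale.Agent.P101.SeqQuot.nullConG x1 x2 x3 (@Ultrafilter.toFilter x3 x4) (@Vale.Agent.P101.bddSeq x1 x2 x3) ⋯)))) := inferInstance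
@[reducible] noncomputable def a1.{u1} {x1 : Type u1} [x2 : CStarAlgebra x1] {x3 : Type} {x4 : Ultrafilter x3} : Star (@Vale.Agent.P101.Bq x1 x2 x3 (@Ultrafilter.toFilter x3 x4)) := inferInstance
@[reducible] noncomputable def a2.{u1} {x1 : Type u1} [x2 : CStarAlgebra x1] {x3 : Type} {x4 : Ultrafilter x3} : InvolutiveStar (@Vale.Agent.P101.Bq x1 x2 x3 (@Ultrafilter.toFilter x3 x4)) := inferInstance
theorem a3.{u1, u2} {x1 : Type u1} {x2 : Type u2} [x3 : Ring x1] [x4 : Ring x2] [x5 : Algebra ℂ x1] [x6 : Algebra ℂ x2] [x7 : StarRing x1] [x8 : StarRing x2] : NonUnitalStarRingHomClass (x1 ≃⋆ₐ[ℂ] x2) x1 x2 := inferInstance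
@[reducible] noncomputable def a4.{u1} {x1 : Type} {x2 : Type u1} [x3 : CStarAlgebra x2] {x4 : Vale.Agent.P133.CIdeal x2} {x5 : Filter x1} : Module ℂ ↥(Vale.Agent.P095N.relSeq x4 x5) := inferInstance
theorem a5.{u1} {x1 : Type} {x2 : Type u1} [x3 : CStarAlgebra x2] {x4 : Vale.Agent.P133.CIdeal x2} {x5 : Filter x1} : MulActionSemiHomClass (↥(Vale.Agent.P095N.relSeq x4 x5) →⋆ₐ[ℂ] Vale.Agent.P095N.FR x4 x5) (⇑(RingHom.id ℂ)) (↥(Vale.Agent.P095N.relSeq x4 x5)) (Vale.Agent.P095N.FR x4 x5) := inferInstance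
theorem a6.{u1} {x1 : Type} {x2 : Type u1} [x3 : CStarAlgebra x2] {x4 : Vale.Agent.P133.CIdeal x2} {x5 : Filter x1} : AddHomClass (↥(Vale.Agent.P095N.relSeq x4 x5) →⋆ₐ[ℂ] Vale.Agent.P095N.FR x4 x5) (↥(Vale.Agent.P095N.relSeq x4 x5)) (Vale.Agent.P095N.FR x4 x5) := inferInstance
theorem a7.{u1} {x1 : Type} {x2 : Type u1} [x3 : CStarAlgebra x2] {x4 : Vale.Agent.P133.CIdeal x2} {x5 : Filter x1} : LinearMapClass (↥(Vale.Agent.P095N.relSeq x4 x5) →⋆ₐ[ℂ] Vale.Agent.P095N.FR x4 x5) ℂ (↥(Vale.Agent.P095N.relSeq x4 x5)) (Vale.Agent.P095N.FR x4 x5) := inferInstance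
@[reducible] noncomputable def a8.{u1} {x1 : Type} {x2 : Type u1} [x3 : CStarAlgebra x2] : SemigroupWithZero ↥(Vale.Agent.P101.bddSeq x2 x1) := inferInstance
@[reducible] noncomputable def a9.{u1} {x1 : Type} {x2 : Type u1} [x3 : CStarAlgebra x2] : NonUnitalSemiring ↥(Vale.Agent.P101.bddSeq x2 x1) := inferInstance
@[reducible] noncomputable def a10.{u1} {x1 : Type u1} [x2 : CStarAlgebra x1] : Module ℂ ↥(Vale.Agent.P095.BSeq x1) := inferInstance
theorem a11.{u1, u2} {x1 : Type u1} {x2 : Type u2} [x3 : Ring x1] [x4 : Ring x2] [x5 : Algebra ℂ x1] [x6 : Algebra ℂ x2] [x7 : StarRing x1] [x8 : StarRing x2] : StarHomClass (x1 ≃⋆ₐ[ℂ] x2) x1 x2 := inferInstance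
@[reducible] noncomputable def a12.{u1, u2} {x1 : Type u1} [x2 : CStarAlgebra x1] {x3 : Type u2} {x4 : Ultrafilter x3} : @StarAddMonoid (@Vale.Agent.P101.Bq x1 x2 x3 (@Ultrafilter.toFilter x3 x4)) (@AddCommMonoid.toAddMonoid (@Vale.Agent.P101.Bq x1 x2 x3 (@Ultrafilter.toFilter x3 x4)) (@NonUnitalNonAssocSemiring.toAddCommMonoid (@Vale.Agent.P101.Bq x1 x2 x3 (@Ultrafilter.toFilter x3 x4)) (@RingCon.instNonUnitalNonAssocSemiringQuotient (↥(@Vale.Agent.P101.bddSeq x1 x2 x3)) (@NonAssocSemiring.toNonUnitalNonAssocSemiring (↥(@Vale.Agent.P101.bddSeq x1 x2 x3)) (@Semiring.toNonAssocSemiring (↥(@Vale.Agent.P101.bddSeq x1 x2 x3)) (@SubsemiringClass.toSemiring (@StarSubalgebra Complex (x3 → x1) Complex.instCommSemiring Complex.instStarRing (@Pi.semiring x3 (fun a => x1) fun i => @Ring.toSemiring x1 (@NormedRing.toRing x1 (@CStarAlgebra.toNormedRing x1 x2))) (@Pi.starRing' x3 (fun a => x1) (fun i => @NonUnitalCStarAlgebra.toNonUnitalNormedRing x1 (@CStarAlgebra.toNonUnitalCStarAlgebra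 x1 x2)) fun i => @CStarAlgebra.toStarRing x1 x2) (@Function.algebra Complex x3 x1 Complex.instCommSemiring (@Ring.toSemiring x1 (@NormedRing.toRing x1 (@CStarAlgebra.toNormedRing x1 x2))) (@NormedAlgebra.toAlgebra Complex x1 Complex.instNormedField (@NormedRing.toSeminormedRing x1 (@CStarAlgebra.toNormedRing x1 x2)) (@CStarAlgebra.toNormedAlgebra x1 x2))) ⋯) (@Vale.Agent.P101.bddSeq x1 x2 x3) (x3 → x1) (@Pi.semiring x3 (fun a => x1) fun i => @Ring.toSemiring x1 (@NormedRing.toRing x1 (@CStarAlgebra.toNormedRing x1 x2))) (@StarSubalgebra.setLike Complex (x3 → x1) Complex.instCommSemiring Complex.instStarRing (@Pi.semiring x3 (fun a => x1) fun i => @Ring.toSemiring x1 (@NormedRing.toRing x1 (@CStarAlgebra.toNormedRing x1 x2))) (@Pi.starRing' x3 (fun a => x1) (fun i => @NonUnitalCStarAlgebra.toNonUnitalNormedRing x1 (@CStarAlgebra.toNonUnitalCStarAlgebra x1 x2)) fun i => @CStarAlgebra.toStarRing x1 x2) (@Function.algebra Complex x3 x1 Complex.instCommSemiring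 (@Ring.toSemiring x1 (@NormedRing.toRing x1 (@CStarAlgebra.toNormedRing x1 x2))) (@NormedAlgebra.toAlgebra Complex x1 Complex.instNormedField (@NormedRing.toSeminormedRing x1 (@CStarAlgebra.toNormedRing x1 x2)) (@CStarAlgebra.toNormedAlgebra x1 x2))) ⋯) ⋯))) (@Vale.Agent.P101.SeqQuot.nullConG x1 x2 x3 (@Ultrafilter.toFilter x3 x4) (@Vale.Agent.P101.bddSeq x1 x2 x3) ⋯)))) := inferInstance
end AFastea29b2x18b
attribute [local instance] AFastea29b2x18b.a0 AFastea29b2x18b.a1 AFastea29b2x18b.a2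
  AFastea29b2x18b.a3 AFastea29b2x18b.a4 AFastea29b2x18b.a5 AFastea29b2x18b.a6 AFastea29b2x18b.a7
  AFastea29b2x18b.a8 AFastea29b2x18b.a9 AFastea29b2x18b.a10 AFastea29b2x18b.a11
  AFastea29b2x18b.a12
section

/-! The C*-structure on `Fcs A μ` is the instance `instCStarFcs` of `SeqQuot.lean`. -/
end

section

namespace Vale.Agent.P095

/-- Uniform property Gamma passes to equivariant uniform property Gamma for every action of an
amenable group. -/
theorem equivariant_gamma {A G : Type*} [CStarAlgebra A] [Group G] (hG : IsAmenable G)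
    (hΓ : UniformGamma A) (α : G →* (A ≃⋆ₐ[ℂ] A)) : EquivariantUniformGamma α :=
  gamma_of_single α (step2 α hG (step1 α hΓ))

end Vale.Agent.P095
end

section

/-! Local form of the absence of characters for the relative central sequence algebra. -/

set_option linter.unusedSectionVars false

open Filter Topology

namespace Vale.Agent.P095N

open Vale.Agent.P101 Vale.Agent.P133

universe u v w

variable {M : Type u} [CStarAlgebra M]

/-- Local form of: the central sequence algebra of `I` has no characters. -/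
def NoCharLocI (I : CIdeal M) : Prop :=
  ∃ (m : ℕ) (R : ℝ), ∀ (F : Finset M) (ε : ℝ), (∀ x ∈ F, x ∈ I) → 0 < ε →
    ∃ a b c d : Fin m → M,
      (∀ i, ‖a i‖ ≤ R ∧ ‖b i‖ ≤ R ∧ ‖c i‖ ≤ R ∧ ‖d i‖ ≤ R) ∧
      (∀ i, ∀ x ∈ F, ‖a i * x - x * a i‖ ≤ ε ∧ ‖b i * x - x * b i‖ ≤ ε ∧
        ‖c i * x - x * c i‖ ≤ ε ∧ ‖d i * x - x * d i‖ ≤ ε) ∧
      ∀ x ∈ F, ‖(∑ i, c i * (a i * b i - b i * a i) * d i) * x - x‖ ≤ ε

variable {I : CIdeal M}

theorem tendsto_of_le_div (f : ℕ → ℝ) (hf : ∀ n, 0 ≤ f n) (m : ℕ)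
    (h : ∀ n, m ≤ n → f n ≤ 1 / ((n : ℝ) + 1)) : Tendsto f atTop (𝓝 0) := by
  refine squeeze_zero' (Eventually.of_forall hf) ?_
    (tendsto_one_div_add_atTop_nhds_zero_nat (𝕜 := ℝ))
  filter_upwards [eventually_ge_atTop m] with n hn
  exact h n hn

/-- a sequence of elements commuting better and better with a dense sequence -/
theorem mem_relSeq_of_dense {d : ℕ → M} (hdd : ∀ b ∈ I, ∀ ε : ℝ, 0 < ε → ∃ n, ‖b - d n‖ < ε)
    {x : ℕ → M} {C : ℝ} (hC : ∀ n, ‖x n‖ ≤ C)
    (h : ∀ n : ℕ, ∀ m ≤ n, ‖x n * d m - d m * x n‖ ≤ 1 / ((n : ℝ) + 1)) :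
    x ∈ relSeq I (atTop : Filter ℕ) :=
  ⟨⟨C, hC⟩, fun b hb => tendsto_comm_of_sep hC (hdd b hb) fun m =>
    tendsto_of_le_div _ (fun n => norm_nonneg _) m fun n hn => h n m hn⟩

theorem isEmpty_char_FR (hsep : SepI I) (h : NoCharLocI I) :
    IsEmpty (FR I (atTop : Filter ℕ) →⋆ₐ[ℂ] ℂ) := by
  classical
  refine ⟨fun χ => ?_⟩
  obtain ⟨e, he, hee⟩ := hsep
  obtain ⟨m, R, h⟩ := h
  choose a b c d hn hc hs using fun n : ℕ => h ((Finset.range (n + 1)).image e) (1 / ((n : ℝ) + 1))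
    (fun x hx => by
      obtain ⟨k, -, rfl⟩ := Finset.mem_image.1 hx
      exact he k) (by (clear * -; positivity))
  have hmemF : ∀ n k : ℕ, k ≤ n → e k ∈ (Finset.range (n + 1)).image e := fun n k hk =>
    Finset.mem_image.2 ⟨k, Finset.mem_range.2 (by omega), rfl⟩
  let A : Fin m → relSeq I (atTop : Filter ℕ) := fun i => ⟨fun n => a n i,
    mem_relSeq_of_dense hee (fun n => (hn n i).1) fun n k hk => (hc n i _ (hmemF n k hk)).1⟩
  let B : Fin m → relSeq I (atTop : Filter ℕ) := fun i => ⟨fun n => b n i,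
    mem_relSeq_of_dense hee (fun n => (hn n i).2.1) fun n k hk => (hc n i _ (hmemF n k hk)).2.1⟩
  let C : Fin m → relSeq I (atTop : Filter ℕ) := fun i => ⟨fun n => c n i,
    mem_relSeq_of_dense hee (fun n => (hn n i).2.2.1) fun n k hk =>
      (hc n i _ (hmemF n k hk)).2.2.1⟩
  let D : Fin m → relSeq I (atTop : Filter ℕ) := fun i => ⟨fun n => d n i,
    mem_relSeq_of_dense hee (fun n => (hn n i).2.2.2) fun n k hk =>
      (hc n i _ (hmemF n k hk)).2.2.2⟩
  have h1 : FR.mk I (atTop : Filter ℕ) (∑ i, C i * (A i * B i - B i * A i) * D i) = 1 := by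
    rw [← map_one (FR.mk I (atTop : Filter ℕ)), FR.mk_eq_iff]
    intro x hx
    obtain ⟨K, hK⟩ := relSeq_bdd (∑ i, C i * (A i * B i - B i * A i) * D i - 1)
    refine tendsto_null_of_sep (C := K) hK (hee x hx) fun k => ?_
    refine tendsto_of_le_div _ (fun n => norm_nonneg _) k fun n hkn => ?_
    refine le_trans (le_of_eq ?_) (hs n _ (hmemF n k hkn))
    have e1 : ((∑ i, C i * (A i * B i - B i * A i) * D i : relSeq I (atTop : Filter ℕ)) :
        ℕ → M) n = ∑ i, c n i * (a n i * b n i - b n i * a n i) * d n i := by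
      have e2 : ((∑ i, C i * (A i * B i - B i * A i) * D i : relSeq I (atTop : Filter ℕ)) :
        ℕ → M) = ∑ i, (C i : ℕ → M) * ((A i : ℕ → M) * (B i : ℕ → M) -
          (B i : ℕ → M) * (A i : ℕ → M)) * (D i : ℕ → M) := by simp only [AddSubmonoidClass.coe_finsetSum, MulMemClass.coe_mul, AddSubgroupClass.coe_sub]
      rw [e2, Finset.sum_apply]
      rfl
    show ‖(((∑ i, C i * (A i * B i - B i * A i) * D i : relSeq I (atTop : Filter ℕ)) :
        ℕ → M) n - 1) * e k‖ = _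
    rw [e1, sub_mul, one_mul]
  have h2 : χ (FR.mk I (atTop : Filter ℕ) (∑ i, C i * (A i * B i - B i * A i) * D i)) = 0 := by
    rw [map_sum, map_sum]
    refine Finset.sum_eq_zero fun i _ => ?_
    simp only [map_mul, map_sub]
    rw [mul_comm (χ (FR.mk I _ (B i))), sub_self, mul_zero, zero_mul]
  rw [h1, map_one] at h2
  exact one_ne_zero h2

end Vale.Agent.P095N
end

section

/-! If `A` absorbs the Jiang-Su algebra, then the central sequence algebra of `A` has no
characters: local form, for nonunital `A`. -/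

open Filter Topology
open scoped TensorProduct MultiplierAlgebra

namespace Vale.Agent.P095K

open Vale.Agent.P101 Vale.Agent.P095 Vale.Agent.P095R Vale.Agent.P095J Vale.Agent.P133

universe u v w

/-- Local form of: the central sequence algebra of `B` has no characters. -/
def NoCharLocB (B : Type u) [NonUnitalCStarAlgebra B] : Prop :=
  ∃ (m : ℕ) (R : ℝ), ∀ (F : Finset B) (ε : ℝ), 0 < ε →
    ∃ a b c d : Fin m → B,
      (∀ i, ‖a i‖ ≤ R ∧ ‖b i‖ ≤ R ∧ ‖c i‖ ≤ R ∧ ‖d i‖ ≤ R) ∧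
      (∀ i, ∀ x ∈ F, ‖a i * x - x * a i‖ ≤ ε ∧ ‖b i * x - x * b i‖ ≤ ε ∧
        ‖c i * x - x * c i‖ ≤ ε ∧ ‖d i * x - x * d i‖ ≤ ε) ∧
      ∀ x ∈ F, ‖(∑ i, c i * (a i * b i - b i * a i) * d i) * x - x‖ ≤ ε

section closure

variable {B : Type u} [NonUnitalCStarAlgebra B] {κ : Type v} {L : Filter κ}

theorem tendsto_comm_dense {E : Type w} (g : E → B) (hg : DenseRange g) (y : κ → B) (C : ℝ)
    (hC0 : 0 ≤ C) (hC : ∀ᶠ p in L, ‖y p‖ ≤ C)
    (h : ∀ s, Tendsto (fun p => ‖y p * g s - g s * y p‖) L (𝓝 0)) (x : B) :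
    Tendsto (fun p => ‖y p * x - x * y p‖) L (𝓝 0) := by
  rw [Metric.tendsto_nhds]
  intro ε hε
  obtain ⟨s, hs⟩ := Metric.denseRange_iff.1 hg x (ε / (2 * (2 * C + 1))) (by positivity)
  rw [dist_eq_norm] at hs
  filter_upwards [(Metric.tendsto_nhds.mp (h s)) (ε / 2) (by (clear * - hε; positivity)), hC] with p h1 hCp
  rw [dist_zero_right, norm_norm] at h1 ⊢
  have e : y p * x - x * y p = (y p * g s - g s * y p) +
      (y p * (x - g s) - (x - g s) * y p) := by rw [mul_sub, sub_mul]; abel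
  have h2 : ‖y p * (x - g s) - (x - g s) * y p‖ ≤ 2 * C * (ε / (2 * (2 * C + 1))) := by
    refine (norm_sub_le _ _).trans ?_
    have h3 : ‖y p * (x - g s)‖ ≤ C * (ε / (2 * (2 * C + 1))) :=
      (norm_mul_le _ _).trans (mul_le_mul hCp hs.le (norm_nonneg _) hC0)
    have h4 : ‖(x - g s) * y p‖ ≤ (ε / (2 * (2 * C + 1))) * C :=
      (norm_mul_le _ _).trans (mul_le_mul hs.le hCp (norm_nonneg _) (by (clear * - hε hC0; positivity)))
    linarith only [h3, h4]
  have h5 : 2 * C * (ε / (2 * (2 * C + 1))) < ε / 2 := by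
    rw [← sub_pos]
    have : ε / 2 - 2 * C * (ε / (2 * (2 * C + 1))) = ε / (2 * (2 * C + 1)) := by
      field_simp; ring
    rw [this]; positivity
  rw [e]
  exact (norm_add_le _ _).trans_lt (by linarith)

theorem tendsto_unit_dense {E : Type w} (g : E → B) (hg : DenseRange g) (y : κ → B) (C : ℝ)
    (hC0 : 0 ≤ C) (hC : ∀ᶠ p in L, ‖y p‖ ≤ C)
    (h : ∀ s, Tendsto (fun p => ‖y p * g s - g s‖) L (𝓝 0)) (x : B) :
    Tendsto (fun p => ‖y p * x - x‖) L (𝓝 0) := by
  rw [Metric.tendsto_nhds]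
  intro ε hε
  obtain ⟨s, hs⟩ := Metric.denseRange_iff.1 hg x (ε / (2 * (C + 2))) (by positivity)
  rw [dist_eq_norm] at hs
  filter_upwards [(Metric.tendsto_nhds.mp (h s)) (ε / 2) (by positivity), hC] with p h1 hCp
  rw [dist_zero_right, norm_norm] at h1 ⊢
  have e : y p * x - x = (y p * g s - g s) + (y p * (x - g s) - (x - g s)) := by
    rw [mul_sub]; abel
  have h2 : ‖y p * (x - g s) - (x - g s)‖ ≤ (C + 1) * (ε / (2 * (C + 2))) := by
    refine (norm_sub_le _ _).trans ?_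
    have h3 : ‖y p * (x - g s)‖ ≤ C * (ε / (2 * (C + 2))) :=
      (norm_mul_le _ _).trans (mul_le_mul hCp hs.le (norm_nonneg _) hC0)
    linarith only [hs, h3]
  have h5 : (C + 1) * (ε / (2 * (C + 2))) < ε / 2 := by
    rw [← sub_pos]
    have : ε / 2 - (C + 1) * (ε / (2 * (C + 2))) = ε / (2 * (C + 2)) := by
      field_simp; ring
    rw [this]; positivity
  rw [e]
  exact (norm_add_le _ _).trans_lt (by linarith only [h1, h2, h5])

end closure

section tensor

variable {A Z B : Type u} [NonUnitalCStarAlgebra A] [CStarAlgebra Z] [NonUnitalCStarAlgebra B]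
  {T : A →ₗ[ℂ] Z →ₗ[ℂ] B} (hT : IsTensorCompletionN T)

include hT

theorem norm_T_one_le (a : A) : ‖T a 1‖ ≤ ‖a‖ := by
  let f : A →⋆ₙₐ[ℂ] B :=
    { toFun := fun a => T a 1
      map_smul' := fun c x => by
        show T (c • x) 1 = c • T x 1
        rw [map_smul]; rfl
      map_zero' := by rw [map_zero]; rfl
      map_add' := fun x y => by rw [map_add]; rfl
      map_mul' := fun x y => by
        have h := hT.map_mul x y 1 1
        rwa [mul_one] at h
      map_star' := fun x => by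
        have h := hT.map_star x 1
        rwa [star_one] at h }
  exact NonUnitalStarAlgHom.norm_apply_le f a

theorem norm_T_le (a : A) (z : Z) : ‖T a z‖ ≤ ‖a‖ * ‖z‖ := by
  have h := norm_right_le T hT z (a ⊗ₜ 1)
  rw [LinearMap.lTensor_tmul, TensorProduct.lift.tmul, TensorProduct.lift.tmul,
    LinearMap.mulLeft_apply, mul_one] at h
  calc ‖T a z‖ ≤ ‖z‖ * ‖T a 1‖ := h
    _ ≤ ‖z‖ * ‖a‖ := mul_le_mul_of_nonneg_left (norm_T_one_le hT a) (norm_nonneg _)
    _ = ‖a‖ * ‖z‖ := mul_comm _ _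

/-- The main local statement. -/
theorem noCharLocB_of_tensor (hZ : IsJiangSuAlgebra Z) (hS : IsStronglySelfAbsorbing Z) :
    NoCharLocB B := by
  classical
  let _ : PartialOrder A := CStarAlgebra.spectralOrder A
  have _ : StarOrderedRing A := CStarAlgebra.spectralOrderedRing A
  have _ : TopologicalSpace.SeparableSpace Z := separable_dimDrop_closure hZ.isJiangSu
  obtain ⟨ψ, hψ⟩ := exists_maps hS
  obtain ⟨m, l, x, r, hx, hsum⟩ := (step1 (isEmpty_char_jiangSu hZ)).exists_sum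
  choose a b _ha hab using hx
  set U : Filter A := CStarAlgebra.approximateUnit A with hU
  have hUi : U.IsIncreasingApproximateUnit := CStarAlgebra.increasingApproximateUnit A
  have _ : NeBot U := hUi.neBot
  set L : Filter (ℕ × A) := (atTop : Filter ℕ) ×ˢ U with hL
  have hfst : Tendsto Prod.fst L (atTop : Filter ℕ) := tendsto_fst
  have hsnd : Tendsto Prod.snd L U := tendsto_snd
  have hn1 : ∀ᶠ p in L, ‖p.2‖ ≤ 1 := hsnd.eventually hUi.eventually_norm
  have hnψ : ∀ n z, ‖ψ n z‖ ≤ ‖z‖ := fun n z => NonUnitalStarAlgHom.norm_apply_le (ψ n) z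
  let Y : Z → ℕ × A → B := fun z p => T p.2 (ψ p.1 z)
  have hY : ∀ z, ∀ᶠ p in L, ‖Y z p‖ ≤ ‖z‖ := by
    intro z
    filter_upwards [hn1] with p hp
    refine (norm_T_le hT _ _).trans ?_
    calc ‖p.2‖ * ‖ψ p.1 z‖ ≤ 1 * ‖z‖ := mul_le_mul hp (hnψ _ _) (norm_nonneg _) zero_le_one
      _ = ‖z‖ := one_mul _
  -- commutators
  have hcomm : ∀ z, ∀ y : B, Tendsto (fun p => ‖Y z p * y - y * Y z p‖) L (𝓝 0) := by
    intro z
    refine tendsto_comm_dense (TensorProduct.lift T) hT.dense (Y z) ‖z‖ (norm_nonneg _) (hY z) ?_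
    intro s
    induction s using TensorProduct.induction_on with
    | zero => simp only [map_zero, mul_zero, zero_mul, sub_self, norm_zero, tendsto_const_nhds_iff]
    | add s t hs ht =>
      have h2 := hs.add ht
      rw [add_zero] at h2
      refine squeeze_zero (fun p => norm_nonneg _) (fun p => ?_) h2
      rw [map_add]
      refine le_trans (le_of_eq ?_) (norm_add_le _ _)
      congr 1
      rw [mul_add, add_mul]; abel
    | tmul a' z' =>
      have h1 : Tendsto (fun p : ℕ × A => ‖a'‖ * ‖ψ p.1 z * z' - z' * ψ p.1 z‖) L (𝓝 0) := by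
        have := ((hψ z z').comp hfst).const_mul ‖a'‖
        rw [mul_zero] at this
        exact this
      have h2 : Tendsto (fun p : ℕ × A => ‖p.2 * a' - a' * p.2‖ * (‖z'‖ * ‖z‖)) L (𝓝 0) := by
        have h3 : Tendsto (fun e : A => e * a' - a' * e) U (𝓝 0) := by
          have := (hUi.tendsto_mul_right a').sub (hUi.tendsto_mul_left a')
          rwa [sub_self] at this
        have h4 := ((h3.norm).comp hsnd).mul_const (‖z'‖ * ‖z‖)
        rw [norm_zero, zero_mul] at h4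
        exact h4
      have h3 := h1.add h2
      rw [add_zero] at h3
      refine squeeze_zero' (Eventually.of_forall fun p => norm_nonneg _) ?_ h3
      filter_upwards [hn1] with p hp
      rw [TensorProduct.lift.tmul]
      have e : Y z p * T a' z' - T a' z' * Y z p =
          T (p.2 * a') (ψ p.1 z * z' - z' * ψ p.1 z) + T (p.2 * a' - a' * p.2) (z' * ψ p.1 z) := by
        show T p.2 (ψ p.1 z) * T a' z' - T a' z' * T p.2 (ψ p.1 z) = _
        rw [← hT.map_mul, ← hT.map_mul, map_sub, map_sub, LinearMap.sub_apply]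
        abel
      rw [e]
      refine (norm_add_le _ _).trans (add_le_add ?_ ?_)
      · refine (norm_T_le hT _ _).trans (mul_le_mul_of_nonneg_right ?_ (norm_nonneg _))
        refine (norm_mul_le _ _).trans ?_
        calc ‖p.2‖ * ‖a'‖ ≤ 1 * ‖a'‖ := mul_le_mul_of_nonneg_right hp (norm_nonneg _)
          _ = ‖a'‖ := one_mul _
      · refine (norm_T_le hT _ _).trans (mul_le_mul_of_nonneg_left ?_ (norm_nonneg _))
        exact (norm_mul_le _ _).trans (mul_le_mul_of_nonneg_left (hnψ _ _) (norm_nonneg _))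
  -- the sum
  have hprod : ∀ p : ℕ × A, ∑ i, Y (l i) p * (Y (a i) p * Y (b i) p - Y (b i) p * Y (a i) p) *
      Y (r i) p = T (p.2 * (p.2 * p.2) * p.2) 1 := by
    intro p
    have e1 : ∀ i, Y (l i) p * (Y (a i) p * Y (b i) p - Y (b i) p * Y (a i) p) * Y (r i) p =
        T (p.2 * (p.2 * p.2) * p.2) (ψ p.1 (l i * x i * r i)) := by
      intro i
      show T p.2 (ψ p.1 (l i)) * (T p.2 (ψ p.1 (a i)) * T p.2 (ψ p.1 (b i)) -
        T p.2 (ψ p.1 (b i)) * T p.2 (ψ p.1 (a i))) * T p.2 (ψ p.1 (r i)) = _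
      have hψe : ψ p.1 (l i * x i * r i) = ψ p.1 (l i) *
          (ψ p.1 (a i) * ψ p.1 (b i) - ψ p.1 (b i) * ψ p.1 (a i)) * ψ p.1 (r i) := by
        rw [hab]
        simp only [map_mul, map_sub]
      rw [hψe, ← hT.map_mul, ← hT.map_mul, ← map_sub, ← hT.map_mul, ← hT.map_mul]
    rw [Finset.sum_congr rfl fun i _ => e1 i, ← map_sum, ← map_sum, hsum, map_one]
  have hunit : ∀ y : B, Tendsto (fun p : ℕ × A => ‖T (p.2 * (p.2 * p.2) * p.2) 1 * y - y‖) L
      (𝓝 0) := by
    refine tendsto_unit_dense (TensorProduct.lift T) hT.dense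
      (fun p : ℕ × A => T (p.2 * (p.2 * p.2) * p.2) 1) 1 zero_le_one ?_ ?_
    · filter_upwards [hn1] with p hp
      refine (norm_T_one_le hT _).trans ?_
      have h2 : ‖p.2 * p.2‖ ≤ 1 := (norm_mul_le _ _).trans (mul_le_one₀ hp (norm_nonneg _) hp)
      have h3 : ‖p.2 * (p.2 * p.2)‖ ≤ 1 :=
        (norm_mul_le _ _).trans (mul_le_one₀ hp (norm_nonneg _) h2)
      exact (norm_mul_le _ _).trans (mul_le_one₀ h3 (norm_nonneg _) hp)
    · intro s
      induction s using TensorProduct.induction_on with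
      | zero => simp only [map_zero, mul_zero, sub_self, norm_zero, tendsto_const_nhds_iff]
      | add s t hs ht =>
        have h2 := hs.add ht
        rw [add_zero] at h2
        refine squeeze_zero (fun p => norm_nonneg _) (fun p => ?_) h2
        rw [map_add]
        refine le_trans (le_of_eq ?_) (norm_add_le _ _)
        congr 1
        rw [mul_add]; abel
      | tmul a' z' =>
        have h3 : Tendsto (fun e : A => ‖e * a' - a'‖) U (𝓝 0) := by
          have := (hUi.tendsto_mul_right a').sub_const a'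
          rw [sub_self] at this
          simpa only [norm_zero] using this.norm
        have h4 : Tendsto (fun p : ℕ × A => 4 * ‖p.2 * a' - a'‖ * ‖z'‖) L (𝓝 0) := by
          have := ((h3.comp hsnd).const_mul 4).mul_const ‖z'‖
          rw [mul_zero, zero_mul] at this
          exact this
        refine squeeze_zero' (Eventually.of_forall fun p => norm_nonneg _) ?_ h4
        filter_upwards [hn1] with p hp
        rw [TensorProduct.lift.tmul, ← hT.map_mul, one_mul]
        have e0 : T (p.2 * (p.2 * p.2) * p.2 * a') z' - T a' z' =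
            T (p.2 * (p.2 * p.2) * p.2 * a' - a') z' := by
          rw [map_sub, LinearMap.sub_apply]
        rw [e0]
        refine (norm_T_le hT _ _).trans (mul_le_mul_of_nonneg_right ?_ (norm_nonneg _))
        set e := p.2
        have e2 : e * (e * e) * e * a' - a' = e * (e * (e * (e * a' - a'))) +
            e * (e * (e * a' - a')) + e * (e * a' - a') + (e * a' - a') := by
          simp only [mul_sub, mul_assoc]; abel
        rw [e2]
        have n1 : ‖e * (e * a' - a')‖ ≤ ‖e * a' - a'‖ := by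
          refine (norm_mul_le _ _).trans ?_
          calc ‖e‖ * ‖e * a' - a'‖ ≤ 1 * ‖e * a' - a'‖ :=
                mul_le_mul_of_nonneg_right hp (norm_nonneg _)
            _ = _ := one_mul _
        have n2 : ‖e * (e * (e * a' - a'))‖ ≤ ‖e * a' - a'‖ := by
          refine (norm_mul_le _ _).trans ?_
          calc ‖e‖ * ‖e * (e * a' - a')‖ ≤ 1 * ‖e * (e * a' - a')‖ :=
                mul_le_mul_of_nonneg_right hp (norm_nonneg _)
            _ ≤ _ := by rw [one_mul]; exact n1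
        have n3 : ‖e * (e * (e * (e * a' - a')))‖ ≤ ‖e * a' - a'‖ := by
          refine (norm_mul_le _ _).trans ?_
          calc ‖e‖ * ‖e * (e * (e * a' - a'))‖ ≤ 1 * ‖e * (e * (e * a' - a'))‖ :=
                mul_le_mul_of_nonneg_right hp (norm_nonneg _)
            _ ≤ _ := by rw [one_mul]; exact n2
        have m1 := norm_add_le (e * (e * (e * (e * a' - a'))) + e * (e * (e * a' - a')) +
          e * (e * a' - a')) (e * a' - a')
        have m2 := norm_add_le (e * (e * (e * (e * a' - a'))) + e * (e * (e * a' - a')))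
          (e * (e * a' - a'))
        have m3 := norm_add_le (e * (e * (e * (e * a' - a')))) (e * (e * (e * a' - a')))
        linarith only [n1, n2, n3, m1, m2, m3]
  refine ⟨m, 1 + ∑ i, (‖a i‖ + ‖b i‖ + ‖l i‖ + ‖r i‖), fun F ε hε => ?_⟩
  have h0 : ∀ i, 0 ≤ ‖a i‖ + ‖b i‖ + ‖l i‖ + ‖r i‖ := fun i => by (clear * -; positivity)
  have hle : ∀ i, ‖a i‖ + ‖b i‖ + ‖l i‖ + ‖r i‖ ≤ 1 + ∑ i, (‖a i‖ + ‖b i‖ + ‖l i‖ + ‖r i‖) := by
    intro i
    have := Finset.single_le_sum (f := fun i => ‖a i‖ + ‖b i‖ + ‖l i‖ + ‖r i‖)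
      (fun i _ => h0 i) (Finset.mem_univ i)
    have h2 : ‖a i‖ + ‖b i‖ + ‖l i‖ + ‖r i‖ ≤ ∑ i, (‖a i‖ + ‖b i‖ + ‖l i‖ + ‖r i‖) := this
    linarith only [this]
  have hev : ∀ z, ∀ᶠ p in L, ‖Y z p‖ ≤ ‖z‖ ∧ ∀ y ∈ F, ‖Y z p * y - y * Y z p‖ < ε := by
    intro z
    exact (hY z).and ((Finset.eventually_all F).2 fun y _ =>
      (hcomm z y).eventually (gt_mem_nhds hε))
  have hev2 : ∀ (f : Fin m → Z), ∀ᶠ p in L, ∀ i, ‖Y (f i) p‖ ≤ ‖f i‖ ∧
      ∀ y ∈ F, ‖Y (f i) p * y - y * Y (f i) p‖ < ε := fun f =>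
    Filter.eventually_all.2 fun i => hev (f i)
  have hev3 : ∀ᶠ p in L, ∀ y ∈ F, ‖T (p.2 * (p.2 * p.2) * p.2) 1 * y - y‖ < ε :=
    (Finset.eventually_all F).2 fun y _ => (hunit y).eventually (gt_mem_nhds hε)
  obtain ⟨p, ⟨⟨⟨⟨pa, pb⟩, pl⟩, pr⟩, pu⟩⟩ :=
    (((((hev2 a).and (hev2 b)).and (hev2 l)).and (hev2 r)).and hev3).exists
  refine ⟨fun i => Y (a i) p, fun i => Y (b i) p, fun i => Y (l i) p, fun i => Y (r i) p,
    fun i => ?_, fun i y hy => ⟨((pa i).2 y hy).le, ((pb i).2 y hy).le, ((pl i).2 y hy).le,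
      ((pr i).2 y hy).le⟩, fun y hy => ?_⟩
  · have := hle i
    have h1 := norm_nonneg (a i)
    have h2 := norm_nonneg (b i)
    have h3 := norm_nonneg (l i)
    have h4 := norm_nonneg (r i)
    exact ⟨(pa i).1.trans (by linarith only [this, h2, h3, h4]), (pb i).1.trans (by linarith only [this, h1, h3, h4]), (pl i).1.trans (by linarith only [this, h1, h2, h4]),
      (pr i).1.trans (by linarith only [this, h1, h2, h3])⟩
  · rw [hprod p]
    exact (pu y hy).le

end tensor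

section transfer

variable {B : Type u} [NonUnitalCStarAlgebra B] {M : Type v} [CStarAlgebra M] {I : CIdeal M}

theorem noCharLocI_of_hom (h : NoCharLocB B) (κ : B →⋆ₙₐ[ℂ] M) (hκ : ∀ x ∈ I, ∃ b, κ b = x) :
    Vale.Agent.P095N.NoCharLocI I := by
  classical
  obtain ⟨m, R, h⟩ := h
  refine ⟨m, R, fun F ε hF hε => ?_⟩
  have hn : ∀ b, ‖κ b‖ ≤ ‖b‖ := fun b => NonUnitalStarAlgHom.norm_apply_le κ b
  choose g hg using fun x : {x // x ∈ F} => hκ x (hF x x.2)
  obtain ⟨a, b, c, d, h1, h2, h3⟩ := h (Finset.univ.image g) ε hε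
  have hmem : ∀ x (hx : x ∈ F), g ⟨x, hx⟩ ∈ Finset.univ.image g := fun x hx =>
    Finset.mem_image_of_mem _ (Finset.mem_univ _)
  have hc : ∀ y : B, (∀ z ∈ Finset.univ.image g, ‖y * z - z * y‖ ≤ ε) → ∀ x ∈ F,
      ‖κ y * x - x * κ y‖ ≤ ε := by
    intro y hy x hx
    have e : κ y * x - x * κ y = κ (y * g ⟨x, hx⟩ - g ⟨x, hx⟩ * y) := by
      rw [map_sub, map_mul, map_mul, hg]
    rw [e]
    exact (hn _).trans (hy _ (hmem x hx))
  refine ⟨fun i => κ (a i), fun i => κ (b i), fun i => κ (c i), fun i => κ (d i), fun i =>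
    ⟨(hn _).trans (h1 i).1, (hn _).trans (h1 i).2.1, (hn _).trans (h1 i).2.2.1,
      (hn _).trans (h1 i).2.2.2⟩, fun i x hx => ⟨hc _ (fun z hz => (h2 i z hz).1) x hx,
      hc _ (fun z hz => (h2 i z hz).2.1) x hx, hc _ (fun z hz => (h2 i z hz).2.2.1) x hx,
      hc _ (fun z hz => (h2 i z hz).2.2.2) x hx⟩, fun x hx => ?_⟩
  have e : (∑ i, κ (c i) * (κ (a i) * κ (b i) - κ (b i) * κ (a i)) * κ (d i)) * x - x =
      κ ((∑ i, c i * (a i * b i - b i * a i) * d i) * g ⟨x, hx⟩ - g ⟨x, hx⟩) := by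
    rw [map_sub, map_mul, map_sum, hg]
    simp only [map_mul, map_sub]
  rw [e]
  exact (hn _).trans (h3 _ (hmem x hx))

end transfer

end Vale.Agent.P095K
end

section

/-! Simple nuclear C*-algebras whose central sequence algebra has no characters have comparison
for elements that are small in trace. -/

open Filter Topology

namespace Vale.Agent.P095C

open Vale.Agent Vale.Agent.P095

universe u

end Vale.Agent.P095C
end

section

/-! Characters of the fixed point algebra vanish on 2-norm null sequences; assembly. -/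

open Filter Topology

namespace Vale.Agent.P095J

open Vale.Agent.P101 Vale.Agent.P101.SeqQuot Vale.Agent.P095

universe u v w

variable {A : Type u} [CStarAlgebra A] {G : Type w} [Group G] (α : G →* (A ≃⋆ₐ[ℂ] A))

end Vale.Agent.P095J
end

section

/-! Bridge between the different forms of the hypotheses. -/

set_option linter.unusedSectionVars false

open Filter Topology
open scoped CStarAlgebra ComplexOrder

namespace Vale.Agent.P095

universe u v w

section
variable {A : Type u} [CStarAlgebra A] [PartialOrder A] [StarOrderedRing A]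

theorem Bridge.map_nonneg {D : Type u} {B : Type v} [CStarAlgebra D] [PartialOrder D]
    [StarOrderedRing D] [CStarAlgebra B] [PartialOrder B] [StarOrderedRing B]
    (f : D →ₗ[ℂ] B) (hf : P083.IsCP f) (k : ℕ) (M : CStarMatrix (Fin k) (Fin k) D)
    (hM : 0 ≤ M) : 0 ≤ M.map f := by
  obtain ⟨X, hX⟩ := exists_star_mul_self_eq hM
  obtain ⟨Y, hY⟩ := hf k (CStarMatrix.ofMatrixStarAlgEquiv.symm X)
  have h : M.map f = star (CStarMatrix.ofMatrixStarAlgEquiv Y) *
      CStarMatrix.ofMatrixStarAlgEquiv Y := by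
    ext i j
    rw [CStarMatrix.map_apply, hX]
    exact hY i j
  rw [h]
  exact star_mul_self_nonneg _

theorem Bridge.isCP_comp {A B C : Type*} [Ring A] [StarRing A] [Algebra ℂ A] [Ring B] [StarRing B]
    [Algebra ℂ B] [Ring C] [StarRing C] [Algebra ℂ C] (f : A →ₗ[ℂ] B) (hf : P083.IsCP f)
    (e : B ≃⋆ₐ[ℂ] C) : P083.IsCP (e.toAlgEquiv.toLinearMap ∘ₗ f) := by
  intro n X
  obtain ⟨Y, hY⟩ := hf n X
  refine ⟨Matrix.of fun i j => e (Y i j), fun i j => ?_⟩
  have h1 := congrArg e (hY i j)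
  refine h1.trans ?_
  rw [Matrix.mul_apply, Matrix.mul_apply, map_sum]
  refine Finset.sum_congr rfl fun l _ => ?_
  rw [map_mul, Matrix.conjTranspose_apply, Matrix.conjTranspose_apply, map_star]
  rfl

theorem Bridge.isCP_comp' {A B C : Type*} [Ring A] [StarRing A] [Algebra ℂ A] [Ring B] [StarRing B]
    [Algebra ℂ B] [Ring C] [StarRing C] [Algebra ℂ C] (f : B →ₗ[ℂ] C) (hf : P083.IsCP f)
    (e : A ≃⋆ₐ[ℂ] B) : P083.IsCP (f ∘ₗ e.toAlgEquiv.toLinearMap) := by
  intro n X
  obtain ⟨Y, hY⟩ := hf n (Matrix.of fun i j => e (X i j))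
  refine ⟨Y, fun i j => ?_⟩
  rw [← hY]
  refine congrArg f ?_
  change e _ = _
  rw [Matrix.mul_apply, Matrix.mul_apply, map_sum]
  refine Finset.sum_congr rfl fun l _ => ?_
  rw [map_mul, Matrix.conjTranspose_apply, Matrix.conjTranspose_apply, map_star]
  rfl

/-- nuclearity by unital completely positive maps gives the approximation property above -/
theorem cpap_of_isNuclear (hN : P083.IsNuclear A) : CPAP A := by
  intro F ε hε
  obtain ⟨k, φ, ψ, hφ, hψ, -, -, h⟩ := hN F ε hε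
  have e : Matrix (Fin k) (Fin k) ℂ ≃⋆ₐ[ℂ] CStarMatrix (Fin k) (Fin k) ℂ :=
    CStarMatrix.ofMatrixStarAlgEquiv
  refine ⟨k, { toLinearMap := e.toAlgEquiv.toLinearMap ∘ₗ φ
               map_cstarMatrix_nonneg' := Bridge.map_nonneg _ (Bridge.isCP_comp φ hφ e) },
    { toLinearMap := ψ ∘ₗ e.symm.toAlgEquiv.toLinearMap
      map_cstarMatrix_nonneg' := Bridge.map_nonneg _ (Bridge.isCP_comp' ψ hψ e.symm) },
    fun a ha => ?_⟩
  have h1 : ψ (e.symm (e (φ a))) = ψ (φ a) := by rw [StarAlgEquiv.symm_apply_apply]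
  change ‖ψ (e.symm (e (φ a))) - a‖ ≤ ε
  rw [h1]
  exact (h a ha).le

variable {G : Type w} [Group G] (α : G →* (A ≃⋆ₐ[ℂ] A))

end

end Vale.Agent.P095
end

section

/-! Many orthogonal central elements from two orthogonal central elements. -/

set_option linter.unusedSectionVars false

open Filter Topology

namespace Vale.Agent.P095M

open Vale.Agent.P133 (CIdeal)
open Vale.Agent.P095 Vale.Agent.P095N

universe u v w

section
variable {A : Type u} [CStarAlgebra A] [PartialOrder A] [StarOrderedRing A]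

/-- Two almost orthogonal almost central elements. -/
def TwoOrthR (I : CIdeal A) (b : A) : Prop :=
  ∀ (F : Finset A) (δ : ℝ), (∀ x ∈ F, x ∈ I) → 0 < δ → ∃ y y' : A,
    AlmCentR b F δ y ∧ AlmCentR b F δ y' ∧ ∀ a ∈ F, ‖y * y' * a‖ ≤ δ

/-- the relative size of `t y t` -/
theorem norm_conj_lower {t y b : A} (hb1 : ‖b‖ ≤ 1) (hbsa : star b = b) (htsa : star t = t)
    (ht1 : ‖t‖ ≤ 1) (hy1 : ‖y‖ ≤ 1) {δ κ : ℝ}
    (hy : ‖star (t * b) * (t * b)‖ ^ 2 - κ ≤
      ‖star (t * b) * (t * b) * y * (star (t * b) * (t * b))‖)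
    (hc : ‖y * (t * b) - t * b * y‖ ≤ δ) :
    ‖t * b‖ ^ 4 - κ - δ ≤ ‖t * y * t * b‖ := by
  set c : A := t * b with hcd
  have hc1 : ‖c‖ ≤ 1 := by
    calc ‖c‖ ≤ 1 * 1 := (norm_mul_le _ _).trans (mul_le_mul ht1 hb1 (norm_nonneg _) zero_le_one)
      _ = 1 := one_mul 1
  have hcc1 : ‖star c * c‖ ≤ 1 := by
    rw [CStarRing.norm_star_mul_self]
    nlinarith only [hc1, norm_nonneg c]
  have h1 : ‖b * (t * y * t * b)‖ ≤ ‖t * y * t * b‖ := norm_mul_le_one_left hb1 le_rfl
  have e1 : b * (t * y * t * b) = star c * (y * c - c * y) + star c * c * y := by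
    rw [hcd, star_mul, hbsa, htsa]; noncomm_ring
  have h2 : ‖star c * c * y‖ ≤ ‖b * (t * y * t * b)‖ + δ := by
    have e2 : star c * c * y = b * (t * y * t * b) - star c * (y * c - c * y) := by
      rw [e1]; abel
    rw [e2]
    refine (norm_sub_le _ _).trans (add_le_add_right ?_ _)
    have hsc1 : ‖star c‖ ≤ 1 := by rw [norm_star]; exact hc1
    exact norm_mul_le_one_left hsc1 hc
  have h3 : ‖star c * c * y * (star c * c)‖ ≤ ‖star c * c * y‖ :=
    norm_mul_le_one_right hcc1 le_rfl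
  have h4 : ‖star c * c‖ ^ 2 = ‖c‖ ^ 4 := by
    rw [CStarRing.norm_star_mul_self]; ring
  linarith only [hy, h1, h2, h3, h4]

theorem norm_conj_commutator_le {t y a : A} (ht1 : ‖t‖ ≤ 1) (hy1 : ‖y‖ ≤ 1) {ε δ : ℝ}
    (h1 : ‖t * a - a * t‖ ≤ ε) (h2 : ‖y * a - a * y‖ ≤ δ) :
    ‖t * y * t * a - a * (t * y * t)‖ ≤ 2 * ε + δ := by
  have e1 : t * y * t * a - a * (t * y * t) = t * y * (t * a - a * t) + t * (y * a - a * y) * t +
      (t * a - a * t) * (y * t) := by noncomm_ring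
  rw [e1]
  have n1 := norm_mul_le_one_left (norm_mul_le_one_left ht1 hy1) h1
  have n2 := norm_mul_le_one_right ht1 (norm_mul_le_one_left ht1 h2)
  have n3 := norm_mul_le_one_right (norm_mul_le_one_left hy1 ht1) h1
  refine (norm_add_le _ _).trans ?_
  have := norm_add_le (t * y * (t * a - a * t)) (t * (y * a - a * y) * t)
  linarith

theorem orth_step {I : CIdeal A} (hA : SimpleI I) {b : A} (hbI : b ∈ I) (hb0 : 0 ≤ b)
    (hb1 : ‖b‖ ≤ 1) (h2 : TwoOrthR I b) {m : ℕ}
    (h : ∀ (F : Finset A) (ε : ℝ), 0 < ε → ∃ t : (Fin m → Bool) → A,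
      (∀ k, t k ∈ I ∧ AlmC I b F ε (t k)) ∧ ∀ k l, k ≠ l → ‖t k * t l‖ ≤ ε)
    (F : Finset A) (ε : ℝ) (hε : 0 < ε) : ∃ t : (Fin (m + 1) → Bool) → A,
      (∀ k, t k ∈ I ∧ AlmC I b F ε (t k)) ∧ ∀ k l, k ≠ l → ‖t k * t l‖ ≤ ε := by
  classical
  set ε' : ℝ := min 1 (ε / 16) with hε'd
  have hε'0 : 0 < ε' := by positivity
  have hε'1 : ε' ≤ 1 := min_le_left _ _
  have hε'ε : ε' ≤ ε / 16 := min_le_right _ _
  obtain ⟨t, ht, htt⟩ := h F ε' hε'0
  have hbsa : star b = b := (IsSelfAdjoint.of_nonneg hb0).star_eq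
  -- the norm lemma for `c* c`, `c = t b`
  have hcI : ∀ k, t k * b ∈ I := fun k => P133.CIdeal.left_mem I _ hbI
  choose F1 δ1 hδ1 H1 using fun k => norm_lemma_rel hA b hbI hb1
    (star (t k * b) * (t k * b)) (P133.CIdeal.left_mem I _ (hcI k))
    (star_mul_self_nonneg _) ε' hε'0
  have hne : (Finset.univ.image δ1 ∪ {ε'}).Nonempty := ⟨ε', by simp only [Finset.union_singleton, Finset.mem_insert, Finset.mem_image, Finset.mem_univ, true_and, true_or]⟩
  set δ : ℝ := (Finset.univ.image δ1 ∪ {ε'}).min' hne with hδd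
  have hδ0 : 0 < δ := by
    rw [hδd, Finset.lt_min'_iff]
    intro y hy
    rcases Finset.mem_union.1 hy with hy | hy
    · obtain ⟨k, _, rfl⟩ := Finset.mem_image.1 hy
      exact hδ1 k
    · rw [Finset.mem_singleton.1 hy]; exact hε'0
  have hδk : ∀ k, δ ≤ δ1 k := fun k => Finset.min'_le _ _
    (Finset.mem_union_left _ (Finset.mem_image_of_mem _ (Finset.mem_univ k)))
  have hδε : δ ≤ ε' := Finset.min'_le _ _ (Finset.mem_union_right _ (Finset.mem_singleton_self _))
  let T : Finset A := (((F ∪ Finset.univ.biUnion F1) ∪ Finset.univ.image fun k => t k * b) ∪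
    Finset.univ.image fun k => t k * t k) ∪ Finset.univ.image fun k => t k * t k * t k
  obtain ⟨y, y', hy, hy', hyy⟩ := h2 (T.filter fun x => x ∈ I) δ
    (fun x hx => (Finset.mem_filter.1 hx).2) hδ0
  have hTF : ∀ x ∈ F, x ∈ T := fun x hx => Finset.mem_union_left _ (Finset.mem_union_left _
    (Finset.mem_union_left _ (Finset.mem_union_left _ hx)))
  have hTF1 : ∀ k, ∀ x ∈ F1 k, x ∈ T := fun k x hx => Finset.mem_union_left _
    (Finset.mem_union_left _ (Finset.mem_union_left _ (Finset.mem_union_right _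
      (Finset.mem_biUnion.2 ⟨k, Finset.mem_univ _, hx⟩))))
  have hTc : ∀ k, t k * b ∈ T := fun k => Finset.mem_union_left _ (Finset.mem_union_left _
    (Finset.mem_union_right _ (Finset.mem_image_of_mem _ (Finset.mem_univ k))))
  have hTt2 : ∀ k, t k * t k ∈ T := fun k => Finset.mem_union_left _
    (Finset.mem_union_right _ (Finset.mem_image_of_mem (fun k => t k * t k) (Finset.mem_univ k)))
  have hTt3 : ∀ k, t k * t k * t k ∈ T := fun k => Finset.mem_union_right _
    (Finset.mem_image_of_mem (fun k => t k * t k * t k) (Finset.mem_univ k))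
  let Y : Bool → A := fun σ => bif σ then y else y'
  have hY : ∀ σ, AlmCentR b (T.filter fun x => x ∈ I) δ (Y σ) := by
    intro σ
    cases σ
    · exact hy'
    · exact hy
  have hYc : ∀ σ, ∀ x ∈ T, x ∈ I → ‖Y σ * x - x * Y σ‖ ≤ δ := fun σ x hx hxI =>
    (hY σ).2.2.2 x (Finset.mem_filter.2 ⟨hx, hxI⟩)
  have htI : ∀ k, t k ∈ I := fun k => (ht k).1
  have ht0 : ∀ k, 0 ≤ t k := fun k => (ht k).2.1
  have ht1 : ∀ k, ‖t k‖ ≤ 1 := fun k => (ht k).2.2.1
  have htb : ∀ k, 1 - ε' ≤ ‖t k * b‖ := fun k => (ht k).2.2.2.1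
  have htF : ∀ k, ∀ a ∈ F, a ∈ I → ‖t k * a - a * t k‖ ≤ ε' := fun k => (ht k).2.2.2.2
  have htsa : ∀ k, star (t k) = t k := fun k => (IsSelfAdjoint.of_nonneg (ht0 k)).star_eq
  have hY0 : ∀ σ, 0 ≤ Y σ := fun σ => (hY σ).1
  have hY1 : ∀ σ, ‖Y σ‖ ≤ 1 := fun σ => (hY σ).2.1
  have hYsa : ∀ σ, star (Y σ) = Y σ := fun σ => (IsSelfAdjoint.of_nonneg (hY0 σ)).star_eq
  -- orthogonality for the same `k`
  have horth : ∀ k, ∀ σ τ : Bool, σ ≠ τ → ‖t k * Y σ * t k * (t k * Y τ * t k)‖ ≤ 2 * δ := by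
    intro k σ τ hστ
    have hyy' : ‖y * y' * (t k * t k * t k)‖ ≤ δ := hyy _ (Finset.mem_filter.2
      ⟨hTt3 k, P133.CIdeal.left_mem I _ (htI k)⟩)
    have hk1 : ∀ σ τ : Bool, ‖Y σ * Y τ * (t k * t k * t k)‖ ≤ δ →
        ‖t k * Y σ * t k * (t k * Y τ * t k)‖ ≤ 2 * δ := by
      intro σ τ hle
      have e1 : t k * Y σ * t k * (t k * Y τ * t k) =
          t k * (Y σ * Y τ * (t k * t k * t k)) -
          t k * Y σ * (Y τ * (t k * t k) - t k * t k * Y τ) * t k := by noncomm_ring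
      rw [e1]
      have n1 := norm_mul_le_one_left (ht1 k) hle
      have n2 := norm_mul_le_one_right (ht1 k) (norm_mul_le_one_left
        (norm_mul_le_one_left (ht1 k) (hY1 σ)) (hYc τ _ (hTt2 k)
          (P133.CIdeal.left_mem I _ (htI k))))
      refine (norm_sub_le _ _).trans ?_
      linarith only [n1, n2]
    have hst : star (t k * Y true * t k * (t k * Y false * t k)) =
        t k * Y false * t k * (t k * Y true * t k) := by
      simp only [star_mul, htsa, hYsa]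
      noncomm_ring
    cases σ <;> cases τ
    · exact absurd rfl hστ
    · rw [← hst, norm_star]
      exact hk1 true false hyy'
    · exact hk1 true false hyy'
    · exact absurd rfl hστ
  refine ⟨fun k => t (Fin.tail k) * Y (k 0) * t (Fin.tail k), fun k => ⟨?_, ?_, ?_, ?_, ?_⟩, ?_⟩
  · exact P133.CIdeal.left_mem I _ (htI _)
  · have := star_left_conjugate_nonneg (hY0 (k 0)) (t (Fin.tail k))
    rwa [htsa] at this
  · exact norm_mul_le_one_left (norm_mul_le_one_left (ht1 _) (hY1 _)) (ht1 _)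
  · have hAl : AlmC I b (F1 (Fin.tail k)) (δ1 (Fin.tail k)) (Y (k 0)) :=
      ⟨hY0 _, hY1 _, by linarith only [(hY (k 0)).2.2.1, hδk (Fin.tail k)], fun a ha haI =>
        (hYc (k 0) a (hTF1 _ a ha) haI).trans (hδk _)⟩
    have h3 := norm_conj_lower hb1 hbsa (htsa (Fin.tail k)) (ht1 _) (hY1 (k 0))
      (H1 (Fin.tail k) (Y (k 0)) hAl) (hYc (k 0) _ (hTc _) (hcI _))
    have h4 : 1 - 4 * ε' ≤ ‖t (Fin.tail k) * b‖ ^ 4 := by
      have h5 : (1 - ε') ^ 4 ≤ ‖t (Fin.tail k) * b‖ ^ 4 :=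
        pow_le_pow_left₀ (by linarith only [hε'1]) (htb _) 4
      have h6 : 1 - 4 * ε' ≤ (1 - ε') ^ 4 := by
        have := one_add_mul_le_pow (a := -ε') (by linarith only [hε'1]) 4
        have e : (1 + -ε') = 1 - ε' := by ring
        rw [e] at this
        push_cast at this
        linarith only [this]
      linarith only [h5, h6]
    linarith
  · intro a ha haI
    refine (norm_conj_commutator_le (ht1 _) (hY1 _) (htF _ a ha haI)
      (hYc (k 0) a (hTF a ha) haI)).trans ?_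
    linarith only [hε'0, hε'ε, hδε]
  · intro k l hkl
    by_cases htl : Fin.tail k = Fin.tail l
    · have h0 : k 0 ≠ l 0 := by
        intro h0
        apply hkl
        rw [← Fin.cons_self_tail k, ← Fin.cons_self_tail l, h0, htl]
      have h5 := horth (Fin.tail k) (k 0) (l 0) h0
      change ‖t (Fin.tail k) * Y (k 0) * t (Fin.tail k) *
        (t (Fin.tail l) * Y (l 0) * t (Fin.tail l))‖ ≤ ε
      rw [← htl]
      linarith only [hε'0, hε'ε, hδε, h5]
    · have e1 : t (Fin.tail k) * Y (k 0) * t (Fin.tail k) *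
          (t (Fin.tail l) * Y (l 0) * t (Fin.tail l)) =
          t (Fin.tail k) * Y (k 0) * (t (Fin.tail k) * t (Fin.tail l)) *
          (Y (l 0) * t (Fin.tail l)) := by noncomm_ring
      rw [e1]
      refine (norm_mul_le_one_right (norm_mul_le_one_left (hY1 _) (ht1 _))
        (norm_mul_le_one_left (norm_mul_le_one_left (ht1 _) (hY1 _)) (htt _ _ htl))).trans ?_
      linarith only [hε'0, hε'ε]

/-- Many orthogonal central elements. -/
theorem centOrthR_of_two {I : CIdeal A} (hA : SimpleI I) {b : A} (hbI : b ∈ I) (hb0 : 0 ≤ b)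
    (hb1 : ‖b‖ = 1) (h2 : TwoOrthR I b) : CentOrthR I b := by
  classical
  have key : ∀ m : ℕ, ∀ (F : Finset A) (ε : ℝ), 0 < ε → ∃ t : (Fin m → Bool) → A,
      (∀ k, t k ∈ I ∧ AlmC I b F ε (t k)) ∧ ∀ k l, k ≠ l → ‖t k * t l‖ ≤ ε := by
    intro m
    induction m with
    | zero =>
      intro F ε hε
      obtain ⟨u, huI, hu0, hu1, huF⟩ := exists_unit_rel I (insert b F) (ε / 2) (by positivity)
      refine ⟨fun _ => u, fun _ => ⟨huI, hu0, hu1, ?_, ?_⟩, fun k l hkl =>
        absurd (Subsingleton.elim k l) hkl⟩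
      · have h1 := (huF b (Finset.mem_insert_self _ _) hbI).2
        have h3 := norm_sub_norm_le b (u * b)
        rw [norm_sub_rev, hb1] at h3
        linarith only [hε, h1, h3]
      · intro a ha haI
        obtain ⟨h1, h3⟩ := huF a (Finset.mem_insert_of_mem ha) haI
        have e1 : u * a - a * u = (u * a - a) - (a * u - a) := by abel
        rw [e1]
        refine (norm_sub_le _ _).trans ?_
        linarith only [h1, h3]
    | succ m ih => exact orth_step hA hbI hb0 hb1.le h2 ih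
  intro N F ε hε
  obtain ⟨t, ht, htt⟩ := key N F ε hε
  have hcard : Fintype.card (Fin N) ≤ Fintype.card (Fin N → Bool) := by
    simp only [Fintype.card_fin, Fintype.card_pi, Fintype.card_bool, Finset.prod_const, Finset.card_univ, Nat.lt_two_pow_self.le]
  obtain ⟨emb⟩ : Nonempty (Fin N ↪ (Fin N → Bool)) := Function.Embedding.nonempty_of_card_le hcard
  exact ⟨fun k => t (emb k), fun k => (ht _).2, fun k l hkl => htt _ _ fun h =>
    hkl (emb.injective h)⟩

end

end Vale.Agent.P095M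
end

section

/-! The unitization of a nuclear C*-algebra is nuclear; the ideal `A` in the unitization. -/

set_option linter.unusedSectionVars false

open Filter Topology
open scoped CStarAlgebra ComplexOrder

namespace Vale.Agent.P095M

open Vale.Agent.P133 (CIdeal)
open Vale.Agent.P095 Vale.Agent.P095N

universe u v w

section
variable (A : Type u) [NonUnitalCStarAlgebra A]

/-- the canonical character of the unitization -/
noncomputable def chU : Unitization ℂ A →⋆ₐ[ℂ] ℂ :=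
  { Unitization.fstHom ℂ A with
    map_star' := fun x => Unitization.fst_star x }

theorem chU_apply (x : Unitization ℂ A) : chU A x = x.fst := rfl

theorem continuous_chU : Continuous (chU A) := by
  refine AddMonoidHomClass.continuous_of_bound (chU A) 1 fun x => ?_
  rw [one_mul]
  exact NonUnitalStarAlgHom.norm_apply_le (chU A) x

/-- the ideal `A` in its unitization -/
noncomputable def inrIdeal : CIdeal (Unitization ℂ A) where
  toSub := LinearMap.ker (chU A : Unitization ℂ A →ₐ[ℂ] ℂ).toLinearMap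
  mul_left' a x hx := by
    have hx' : chU A x = 0 := hx
    show chU A (a * x) = 0
    rw [map_mul, hx', mul_zero]
  mul_right' a x hx := by
    have hx' : chU A x = 0 := hx
    show chU A (x * a) = 0
    rw [map_mul, hx', zero_mul]
  star_mem' x hx := by
    have hx' : chU A x = 0 := hx
    show chU A (star x) = 0
    rw [map_star, hx', star_zero]
  closed' := isClosed_singleton.preimage (continuous_chU A)

variable {A}

theorem mem_inrIdeal {x : Unitization ℂ A} : x ∈ inrIdeal A ↔ x.fst = 0 := Iff.rfl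

theorem inr_mem (a : A) : (a : Unitization ℂ A) ∈ inrIdeal A := by
  rw [mem_inrIdeal]; exact Unitization.fst_inr ℂ a

theorem eq_inr_of_mem {x : Unitization ℂ A} (h : x ∈ inrIdeal A) :
    x = (x.snd : Unitization ℂ A) := by
  refine Unitization.ext ?_ ?_
  · rw [Unitization.fst_inr]; exact h
  · rw [Unitization.snd_inr]

theorem mem_inrIdeal_iff {x : Unitization ℂ A} :
    x ∈ inrIdeal A ↔ ∃ a : A, x = (a : Unitization ℂ A) :=
  ⟨fun h => ⟨x.snd, eq_inr_of_mem h⟩, fun ⟨a, ha⟩ => ha ▸ inr_mem a⟩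

theorem decomp (x : Unitization ℂ A) :
    x = x.fst • (1 : Unitization ℂ A) + (x.snd : Unitization ℂ A) := by
  refine Unitization.ext ?_ ?_ <;> simp

/-- the second component as a linear map -/
def sndL (A : Type u) [NonUnitalCStarAlgebra A] : Unitization ℂ A →ₗ[ℂ] A where
  toFun := fun x => x.snd
  map_add' _ _ := rfl
  map_smul' _ _ := rfl

/-- the inclusion as a linear map -/
def inrL (A : Type u) [NonUnitalCStarAlgebra A] : A →ₗ[ℂ] Unitization ℂ A where
  toFun a := (a : Unitization ℂ A)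
  map_add' := Unitization.inr_add ℂ
  map_smul' := fun c a => Unitization.inr_smul ℂ c a

theorem inrL_apply (a : A) : inrL A a = (a : Unitization ℂ A) := rfl

theorem inr_sum {ι : Type*} (s : Finset ι) (f : ι → A) :
    ((∑ l ∈ s, f l : A) : Unitization ℂ A) = ∑ l ∈ s, (f l : Unitization ℂ A) :=
  map_sum (inrL A) f s

/-- compression to the ideal -/
noncomputable def cutMap (u : A) : Unitization ℂ A →ₗ[ℂ] A :=
  sndL A ∘ₗ conjMap (u : Unitization ℂ A) (u : Unitization ℂ A)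

theorem inr_cutMap (u : A) (m : Unitization ℂ A) :
    ((cutMap u m : A) : Unitization ℂ A) = u * m * u := by
  have h : (u : Unitization ℂ A) * m * u ∈ inrIdeal A :=
    P133.CIdeal.left_mem _ _ (inr_mem u)
  exact (eq_inr_of_mem h).symm

theorem isCPN_cutMap {u : A} (hu : star u = u) : IsCPN (cutMap u) := by
  intro n X
  refine ⟨Matrix.of fun l j => (X l j * (u : Unitization ℂ A)).snd, fun i j => ?_⟩
  have key : ∀ l j, (((X l j * (u : Unitization ℂ A)).snd : A) : Unitization ℂ A) =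
      X l j * (u : Unitization ℂ A) := fun l j =>
    (eq_inr_of_mem (P133.CIdeal.left_mem _ _ (inr_mem u))).symm
  have hu' : star (u : Unitization ℂ A) = u := by rw [← Unitization.inr_star, hu]
  apply Unitization.inr_injective (R := ℂ)
  change ((cutMap u ((X.conjTranspose * X) i j) : A) : Unitization ℂ A) = _
  rw [inr_cutMap, Matrix.mul_apply, Matrix.mul_apply, Finset.mul_sum, Finset.sum_mul, inr_sum]
  refine Finset.sum_congr rfl fun l _ => ?_
  rw [Unitization.inr_mul, Matrix.conjTranspose_apply, Matrix.conjTranspose_apply,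
    Unitization.inr_star]
  simp only [Matrix.of_apply, key, star_mul, hu']
  noncomm_ring

theorem isCPN_inr : IsCPN (inrL A) := by
  intro n X
  refine ⟨Matrix.of fun a b => (X a b : Unitization ℂ A), fun i j => ?_⟩
  rw [inrL_apply, Matrix.mul_apply, Matrix.mul_apply, inr_sum]
  refine Finset.sum_congr rfl fun l _ => ?_
  rw [Unitization.inr_mul, Matrix.conjTranspose_apply, Matrix.conjTranspose_apply,
    Unitization.inr_star]
  rfl

end

/-- diagonal sums of completely positive maps -/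
theorem isCPN_diagonal {A : Type u} {B : Type v} [Ring A] [StarRing A] [Algebra ℂ A] [Ring B]
    [StarRing B] [Algebra ℂ B] {m : ℕ} (f : Fin m → (A →ₗ[ℂ] B)) (hf : ∀ c, IsCPN (f c)) :
    IsCPN (B := Matrix (Fin m) (Fin m) B)
      (Matrix.diagonalLinearMap (Fin m) ℂ B ∘ₗ LinearMap.pi f) := by
  intro n X
  choose Y hY using fun c => hf c n X
  refine ⟨Matrix.of fun l j => Matrix.diagonal fun c => Y c l j, fun i j => ?_⟩
  have h1 : (Matrix.diagonalLinearMap (Fin m) ℂ B ∘ₗ LinearMap.pi f)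
      ((X.conjTranspose * X) i j) =
      Matrix.diagonal fun c => ∑ l, star (Y c l i) * Y c l j := by
    change Matrix.diagonal _ = _
    congr 1
    funext c
    change f c ((X.conjTranspose * X) i j) = _
    rw [hY, Matrix.mul_apply]
    rfl
  rw [h1, Matrix.mul_apply]
  simp only [Matrix.conjTranspose_apply, Matrix.of_apply]
  ext a b
  rw [Matrix.sum_apply]
  simp only [Matrix.star_eq_conjTranspose, Matrix.diagonal_conjTranspose,
    Matrix.diagonal_mul_diagonal, Matrix.diagonal_apply]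
  split_ifs
  · rfl
  · simp only [Finset.sum_const_zero]

/-- star isomorphisms are completely positive -/
theorem isCPN_equiv {B : Type v} {C : Type w} [Ring B] [StarRing B] [Algebra ℂ B]
    [Ring C] [StarRing C] [Algebra ℂ C] (e : B ≃⋆ₐ[ℂ] C) :
    IsCPN e.toAlgEquiv.toLinearMap := by
  intro n X
  refine ⟨Matrix.of fun a b => e (X a b), fun i j => ?_⟩
  change e _ = _
  rw [Matrix.mul_apply, Matrix.mul_apply, map_sum]
  refine Finset.sum_congr rfl fun l _ => ?_
  rw [map_mul, Matrix.conjTranspose_apply, Matrix.conjTranspose_apply, map_star]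
  rfl

/-- matrices of matrices -/
noncomputable def compStar (p q : ℕ) : Matrix (Fin p) (Fin p) (Matrix (Fin q) (Fin q) ℂ) ≃⋆ₐ[ℂ]
    Matrix (Fin (p * q)) (Fin (p * q)) ℂ :=
  { (Matrix.compAlgEquiv (Fin p) (Fin q) ℂ ℂ).trans
      (Matrix.reindexAlgEquiv ℂ ℂ finProdFinEquiv) with
    map_star' := fun x => by
      ext i j
      rfl
    map_smul' := fun c x => by
      ext i j
      rfl }

section
variable {A : Type u} [NonUnitalCStarAlgebra A]

theorem IsNuclearN.exists_succ (h : IsNuclearN A) (F : Finset A) (ε : ℝ) (hε : 0 < ε) :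
    ∃ (k : ℕ) (φ : A →ₗ[ℂ] Matrix (Fin (k + 1)) (Fin (k + 1)) ℂ)
      (ψ : Matrix (Fin (k + 1)) (Fin (k + 1)) ℂ →ₗ[ℂ] A), IsCPN φ ∧ IsCPN ψ ∧
      ∀ a ∈ F, ‖ψ (φ a) - a‖ < ε := by
  obtain ⟨k, φ, ψ, hφ, hψ, happ⟩ := h F ε hε
  rcases k with _ | k
  · refine ⟨0, 0, 0, isCPN_zero, isCPN_zero, fun a ha => ?_⟩
    have h1 := happ a ha
    have h2 : φ a = 0 := Subsingleton.elim _ _
    rw [h2, map_zero] at h1
    simpa only [Nat.reduceAdd, LinearMap.zero_apply, zero_sub, norm_neg, gt_iff_lt] using h1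
  · exact ⟨k, φ, ψ, hφ, hψ, happ⟩

theorem cpw_unitization (h : IsNuclearN A) : CPW (Unitization ℂ A) := by
  classical
  let _ : PartialOrder (Unitization ℂ A) := CStarAlgebra.spectralOrder _
  have _ : StarOrderedRing (Unitization ℂ A) := CStarAlgebra.spectralOrderedRing _
  intro F ε hε
  obtain ⟨u, huI, hu0, hu1, huF⟩ := exists_unit_rel (inrIdeal A)
    (F.image fun d => ((d.snd : A) : Unitization ℂ A)) (ε / 4) (by positivity)
  obtain ⟨v, rfl⟩ := mem_inrIdeal_iff.1 huI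
  have hvsa' : star (v : Unitization ℂ A) = v := (IsSelfAdjoint.of_nonneg hu0).star_eq
  have hvsa : star v = v := by
    apply Unitization.inr_injective (R := ℂ)
    rw [Unitization.inr_star]
    exact hvsa'
  -- the square root of `1 - u²`
  have hvv : (v : Unitization ℂ A) * v ≤ 1 := by
    have h1 : 0 ≤ (v : Unitization ℂ A) * v := by
      have := star_mul_self_nonneg (v : Unitization ℂ A)
      rwa [hvsa'] at this
    refine (CStarAlgebra.norm_le_one_iff_of_nonneg _ h1).1 ?_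
    calc ‖(v : Unitization ℂ A) * v‖ ≤ 1 * 1 := (norm_mul_le _ _).trans
          (mul_le_mul hu1 hu1 (norm_nonneg _) zero_le_one)
      _ = 1 := one_mul 1
  obtain ⟨w, hw⟩ := exists_star_mul_self_eq (sub_nonneg.2 hvv)
  obtain ⟨k, φ, ψ, hφ, hψ, happ⟩ := h.exists_succ (F.image (cutMap v)) (ε / 2) (by positivity)
  let f : Fin 2 → (Unitization ℂ A →ₗ[ℂ] Matrix (Fin (k + 1)) (Fin (k + 1)) ℂ) :=
    ![φ ∘ₗ cutMap v, (LinearMap.toSpanSingleton ℂ _ (star 1 * 1)) ∘ₗ
      (chU A : Unitization ℂ A →ₐ[ℂ] ℂ).toLinearMap]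
  have hf : ∀ c, IsCPN (f c) := by
    intro c
    fin_cases c
    · exact hφ.comp (isCPN_cutMap hvsa)
    · exact (isCPN_smul 1).comp (isCPN_hom (chU A))
  let α : Unitization ℂ A →ₗ[ℂ] Matrix (Fin 2) (Fin 2) (Matrix (Fin (k + 1)) (Fin (k + 1)) ℂ) :=
    Matrix.diagonalLinearMap (Fin 2) ℂ _ ∘ₗ LinearMap.pi f
  have hα : IsCPN α := isCPN_diagonal f hf
  let β : Matrix (Fin 2) (Fin 2) (Matrix (Fin (k + 1)) (Fin (k + 1)) ℂ) →ₗ[ℂ] Unitization ℂ A :=
    (inrL A ∘ₗ ψ) ∘ₗ Matrix.entryLinearMap ℂ _ 0 0 +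
      LinearMap.toSpanSingleton ℂ _ (star w * w) ∘ₗ (Matrix.entryLinearMap ℂ ℂ 0 0 ∘ₗ
        Matrix.entryLinearMap ℂ _ 1 1)
  have hβ : IsCPN β := by
    refine IsCPN.add (gramAdd_cstar _) ?_ ?_
    · exact (isCPN_inr.comp hψ).comp (isCPN_entry (gramAdd_matrix _) 0)
    · exact (isCPN_smul w).comp ((isCPN_entry (gramAdd_cstar ℂ) 0).comp
        (isCPN_entry (gramAdd_matrix _) 1))
  let e := compStar 2 (k + 1)
  refine ⟨2 * (k + 1), (e : _ ≃⋆ₐ[ℂ] _).toAlgEquiv.toLinearMap ∘ₗ α,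
    β ∘ₗ (e.symm : _ ≃⋆ₐ[ℂ] _).toAlgEquiv.toLinearMap, ?_, ?_, fun d hd => ?_⟩
  · exact IsCPN.comp (isCPN_equiv e) hα
  · exact IsCPN.comp hβ (isCPN_equiv e.symm)
  · have h1 : (β ∘ₗ (e.symm : _ ≃⋆ₐ[ℂ] _).toAlgEquiv.toLinearMap)
        (((e : _ ≃⋆ₐ[ℂ] _).toAlgEquiv.toLinearMap ∘ₗ α) d) = β (α d) := by
      change β (e.symm (e (α d))) = _
      rw [StarAlgEquiv.symm_apply_apply]
    rw [h1]
    have h2 : β (α d) = ((ψ (φ (cutMap v d)) : A) : Unitization ℂ A) +
        d.fst • (1 - (v : Unitization ℂ A) * v) := by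
      rw [hw]
      change ((ψ ((α d) 0 0) : A) : Unitization ℂ A) + (((α d) 1 1) 0 0) • (star w * w) = _
      have h3 : (α d) 0 0 = φ (cutMap v d) := by
        change Matrix.diagonal (fun c => f c d) 0 0 = _
        rw [Matrix.diagonal_apply_eq]
        rfl
      have h4 : (α d) 1 1 = d.fst • (1 : Matrix (Fin (k + 1)) (Fin (k + 1)) ℂ) := by
        change Matrix.diagonal (fun c => f c d) 1 1 = _
        rw [Matrix.diagonal_apply_eq]
        change (chU A d) • (star (1 : Matrix (Fin (k + 1)) (Fin (k + 1)) ℂ) * 1) = _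
        rw [star_one, one_mul, chU_apply]
      rw [h3, h4, Matrix.smul_apply, Matrix.one_apply_eq, smul_eq_mul, mul_one]
    rw [h2]
    have hcut : ((cutMap v d : A) : Unitization ℂ A) = v * d * v := inr_cutMap v d
    have hdec := decomp d
    set a : Unitization ℂ A := ((d.snd : A) : Unitization ℂ A) with ha
    have haI : a ∈ inrIdeal A := inr_mem _
    obtain ⟨n1, n2⟩ := huF a (Finset.mem_image_of_mem _ hd) haI
    have e1 : ((ψ (φ (cutMap v d)) : A) : Unitization ℂ A) +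
        d.fst • (1 - (v : Unitization ℂ A) * v) - d =
        (((ψ (φ (cutMap v d)) - cutMap v d : A)) : Unitization ℂ A) +
          ((v : Unitization ℂ A) * a * v - a) := by
      rw [Unitization.inr_sub, hcut]
      have e2 : (v : Unitization ℂ A) * d * v = d.fst • ((v : Unitization ℂ A) * v) +
          v * a * v := by
        conv_lhs => rw [hdec]
        rw [mul_add, add_mul, mul_smul_comm, mul_one, smul_mul_assoc]
      have e3 : d = d.fst • (1 : Unitization ℂ A) + a := hdec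
      rw [e2, smul_sub]
      conv_lhs => rw [show ∀ x y : Unitization ℂ A, x + y - d = x + y -
        (d.fst • (1 : Unitization ℂ A) + a) from fun x y => by rw [← e3]]
      abel
    rw [e1]
    have m1 : ‖((ψ (φ (cutMap v d)) - cutMap v d : A) : Unitization ℂ A)‖ ≤ ε / 2 := by
      rw [Unitization.norm_inr]
      exact (happ _ (Finset.mem_image_of_mem _ hd)).le
    have m2 := norm_conj_unit_le hu1 n1 n2
    refine (norm_add_le _ _).trans ?_
    linarith only [m1, m2]

/-- The unitization of a nuclear C*-algebra is nuclear. -/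
theorem isNuclear_unitization (h : IsNuclearN A) : P083.IsNuclear (Unitization ℂ A) :=
  isNuclear_of_cpw (chU A) (cpw_unitization h)

end

end Vale.Agent.P095M
end

section

/-! Limits of functionals which are tracial on the hereditary subalgebra of `u ∈ I` induce tracial
functionals on the relative central sequence algebra. -/

set_option linter.unusedSectionVars false

open Filter Topology

namespace Vale.Agent.P095N

open Vale.Agent.P101 Vale.Agent.P101.SeqQuot Vale.Agent.P133 Vale.Agent.P095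

universe u v w

section basic

variable {M : Type u} [CStarAlgebra M] {u : M} {τ : M →ₗ[ℂ] ℂ}

theorem LocTr.one_im (h : LocTr u τ) : (τ 1).im = 0 := by simpa only [star_one, mul_one] using h.im_eq 1

theorem LocTr.map_star (h : LocTr u τ) (x : M) : τ (star x) = star (τ x) := by
  have h1 := h.im_eq (x + 1)
  have h2 := h.im_eq (x + Complex.I • (1 : M))
  have h0 := h.im_eq x
  have h3 := h.one_im
  have e1 : star (x + 1) * (x + 1) = star x * x + star x + x + 1 := by
    rw [star_add, star_one]; noncomm_ring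
  have e2 : star (x + Complex.I • (1 : M)) * (x + Complex.I • (1 : M)) =
      star x * x + Complex.I • star x - Complex.I • x + 1 := by
    rw [star_add, star_smul, star_one]
    simp only [add_mul, mul_add, mul_smul_comm, mul_one, RCLike.star_def, Complex.conj_I,
      neg_smul]
    simp only [neg_mul, smul_mul_assoc, one_mul, smul_add, smul_neg, smul_smul,
      Complex.I_mul_I, neg_smul, one_smul, neg_neg]
    abel
  rw [e1] at h1
  rw [e2] at h2
  simp only [map_add, map_sub, map_smul, Complex.add_im, Complex.sub_im,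
    smul_eq_mul, Complex.mul_im, Complex.I_re, Complex.I_im, zero_mul, one_mul,
    zero_add, h0, h3] at h1 h2
  apply Complex.ext
  · rw [RCLike.star_def, Complex.conj_re]; linarith
  · rw [RCLike.star_def, Complex.conj_im]; linarith only [h1]

theorem LocTr.sq_le (h : LocTr u τ) (x : M) :
    (τ (star x * x)).re ≤ ‖x‖ ^ 2 * (τ 1).re := by
  obtain ⟨b, hb⟩ := clamp_norm_sq x
  have h2 := h.re_nonneg b
  rw [← hb, map_sub, map_smul, smul_eq_mul, Complex.sub_re, Complex.re_ofReal_mul] at h2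
  linarith

/-- Positive functionals with `τ 1 ≤ 1` are contractive. -/
theorem LocTr.norm_le (h : LocTr u τ) (x : M) : ‖τ x‖ ≤ ‖x‖ := by
  have hcs : ‖τ x‖ ^ 2 ≤ (τ (star x * x)).re := by
    have h1 := h.re_nonneg (x - (τ x) • (1 : M))
    have e1 : star (x - (τ x) • (1 : M)) * (x - (τ x) • (1 : M)) =
        star x * x - (τ x) • star x - (star (τ x)) • x + (star (τ x) * τ x) • (1 : M) := by
      rw [star_sub, star_smul, star_one]
      simp only [sub_mul, mul_sub, smul_mul_assoc, mul_smul_comm, one_mul, mul_one]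
      rw [smul_sub, smul_smul, mul_comm (τ x)]
      abel
    rw [e1] at h1
    simp only [map_add, map_sub, map_smul, h.map_star, smul_eq_mul] at h1
    have e2 : star (τ x) * τ x = ((‖τ x‖ ^ 2 : ℝ) : ℂ) := by
      rw [mul_comm, RCLike.star_def, Complex.mul_conj, Complex.normSq_eq_norm_sq]
    have e3 : τ x * star (τ x) = ((‖τ x‖ ^ 2 : ℝ) : ℂ) := by rw [mul_comm, e2]
    rw [e3, e2] at h1
    simp only [Complex.add_re, Complex.sub_re, Complex.re_ofReal_mul, Complex.ofReal_re] at h1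
    have h2 := h.one_le
    have h3 : ‖τ x‖ ^ 2 * (τ 1).re ≤ ‖τ x‖ ^ 2 * 1 := mul_le_mul_of_nonneg_left h2 (sq_nonneg _)
    linarith
  have h2 := h.sq_le x
  have h3 : ‖x‖ ^ 2 * (τ 1).re ≤ ‖x‖ ^ 2 * 1 :=
    mul_le_mul_of_nonneg_left h.one_le (sq_nonneg _)
  have h4 : ‖τ x‖ ^ 2 ≤ ‖x‖ ^ 2 := by linarith only [hcs, h2, h3]
  exact (pow_le_pow_iff_left₀ (norm_nonneg _) (norm_nonneg _) two_ne_zero).1 h4

end basic

section limit

variable {M : Type u} [CStarAlgebra M] {ι : Type v}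

theorem exists_lim_loc0 (U : Ultrafilter ι) {u : M} (τ : ι → M →ₗ[ℂ] ℂ)
    (hτ : ∀ i, LocTr u (τ i)) (x : bddSeq M ι) :
    ∃ c : ℂ, Tendsto (fun i => τ i ((x : ι → M) i)) U (𝓝 c) := by
  obtain ⟨C, hC⟩ := x.2
  have h1 : ∀ i, τ i ((x : ι → M) i) ∈ Metric.closedBall (0 : ℂ) C := by
    intro i
    rw [mem_closedBall_zero_iff]
    exact ((hτ i).norm_le _).trans (hC i)
  obtain ⟨c, _, hc⟩ := (isCompact_closedBall (0 : ℂ) C).ultrafilter_le_nhds
    (U.map (fun i => τ i ((x : ι → M) i))) (by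
      rw [le_principal_iff]
      rw [Ultrafilter.coe_map, Filter.mem_map]
      exact Filter.Eventually.of_forall
        (p := fun i => τ i ((x : ι → M) i) ∈ Metric.closedBall (0 : ℂ) C) h1)
  exact ⟨c, hc⟩

/-- The limit functional. -/
theorem exists_lim_loc (U : Ultrafilter ι) {u : M} (τ : ι → M →ₗ[ℂ] ℂ)
    (hτ : ∀ i, LocTr u (τ i)) :
    ∃ T : Bq M (U : Filter ι) →ₗ[ℂ] ℂ, LocTr (Bq.constHom (U : Filter ι) u) T ∧
      ∀ x : bddSeq M ι, Tendsto (fun i => τ i ((x : ι → M) i)) U (𝓝 (T (Bq.mk U x))) := by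
  choose L hL using fun x : bddSeq M ι => exists_lim_loc0 U τ hτ x
  let r : Bq M (U : Filter ι) → bddSeq M ι := Function.surjInv (Bq.mk_surjective (U : Filter ι))
  have hr : ∀ q, Bq.mk (U : Filter ι) (r q) = q :=
    Function.surjInv_eq (Bq.mk_surjective (U : Filter ι))
  have hLe : ∀ x y : bddSeq M ι, Bq.mk (U : Filter ι) x = Bq.mk (U : Filter ι) y → L x = L y := by
    intro x y hxy
    rw [Bq.mk_eq_iff] at hxy
    have h1 : Tendsto (fun i => τ i ((x : ι → M) i) - τ i ((y : ι → M) i)) U (𝓝 (L x - L y)) :=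
      (hL x).sub (hL y)
    have h2 : Tendsto (fun i => τ i ((x : ι → M) i) - τ i ((y : ι → M) i)) U (𝓝 0) := by
      refine squeeze_zero_norm (fun i => ?_) hxy
      rw [← map_sub]
      exact (hτ i).norm_le _
    exact sub_eq_zero.1 (tendsto_nhds_unique h1 h2)
  have key : ∀ x : bddSeq M ι,
      Tendsto (fun i => τ i ((x : ι → M) i)) U (𝓝 (L (r (Bq.mk (U : Filter ι) x)))) := by
    intro x
    rw [hLe (r (Bq.mk (U : Filter ι) x)) x (hr _)]
    exact hL x
  let T : Bq M (U : Filter ι) →ₗ[ℂ] ℂ :=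
    { toFun := fun q => L (r q)
      map_add' := by
        intro p q
        obtain ⟨x, rfl⟩ := Bq.mk_surjective _ p
        obtain ⟨y, rfl⟩ := Bq.mk_surjective _ q
        refine tendsto_nhds_unique (key (x + y)) (((key x).add (key y)).congr fun i => ?_)
        rw [← map_add]
        rfl
      map_smul' := by
        intro c q
        obtain ⟨x, rfl⟩ := Bq.mk_surjective _ q
        refine tendsto_nhds_unique (key (c • x)) (((key x).const_mul c).congr fun i => ?_)
        rw [← smul_eq_mul, ← map_smul]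
        rfl }
  have hT : ∀ x : bddSeq M ι,
      Tendsto (fun i => τ i ((x : ι → M) i)) U (𝓝 (T (Bq.mk (U : Filter ι) x))) := key
  refine ⟨T, ⟨?_, ?_, ?_, ?_⟩, hT⟩
  · intro q
    obtain ⟨x, rfl⟩ := Bq.mk_surjective _ q
    have h1 := (Complex.continuous_im.tendsto _).comp (hT (star x * x))
    refine tendsto_nhds_unique h1 (tendsto_const_nhds.congr fun i => ?_)
    exact ((hτ i).im_eq ((x : ι → M) i)).symm
  · intro q
    obtain ⟨x, rfl⟩ := Bq.mk_surjective _ q
    have h1 := (Complex.continuous_re.tendsto _).comp (hT (star x * x))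
    exact ge_of_tendsto h1 (Eventually.of_forall fun i => (hτ i).re_nonneg ((x : ι → M) i))
  · have h1 := (Complex.continuous_re.tendsto _).comp (hT 1)
    exact le_of_tendsto h1 (Eventually.of_forall fun i => (hτ i).one_le)
  · intro p q
    obtain ⟨x, rfl⟩ := Bq.mk_surjective _ p
    obtain ⟨y, rfl⟩ := Bq.mk_surjective _ q
    let c : bddSeq M ι := Bq.const u
    refine tendsto_nhds_unique (hT ((c * x * c) * (c * y * c)))
      ((hT ((c * y * c) * (c * x * c))).congr fun i => ?_)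
    exact ((hτ i).tr _ _).symm

end limit

section induced

/-- the regularised quotient `t / sqrt (t ^ 2 + δ)` -/
noncomputable def regf (δ t : ℝ) : ℝ := t / Real.sqrt (t ^ 2 + δ)

theorem continuous_regf {δ : ℝ} (hδ : 0 < δ) : Continuous (regf δ) := by
  unfold regf
  refine continuous_id.div (by fun_prop) fun t => ?_
  exact (Real.sqrt_pos.2 (by positivity)).ne'

theorem continuous_invf {δ : ℝ} (hδ : 0 < δ) :
    Continuous (fun t : ℝ => 1 / Real.sqrt (t ^ 2 + δ)) := by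
  refine continuous_const.div (by fun_prop) fun t => ?_
  exact (Real.sqrt_pos.2 (by positivity)).ne'

theorem regf_bound {δ : ℝ} (hδ : 0 < δ) (t : ℝ) :
    |t * t * (regf δ t * regf δ t) - t * t| ≤ δ := by
  have h1 : regf δ t * regf δ t = t * t / (t ^ 2 + δ) := by
    unfold regf
    rw [div_mul_div_comm, Real.mul_self_sqrt (by positivity)]
  rw [h1]
  have h2 : t * t * (t * t / (t ^ 2 + δ)) - t * t = -(t ^ 2 * δ / (t ^ 2 + δ)) := by
    field_simp
    ring
  rw [h2, abs_neg, abs_of_nonneg (by (clear * - hδ; positivity)), div_le_iff₀ (by positivity)]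
  nlinarith only [hδ]

variable {N : Type u} [CStarAlgebra N]

/-- A functional which is tracial on the hereditary subalgebra of the selfadjoint `c` is tracial on
the elements `c * c * q`, where `q` commutes with the functional calculus of `c`. -/
theorem LocTr.comm_of_commute {c : N} (hc : IsSelfAdjoint c) {L : N →ₗ[ℂ] ℂ} (h : LocTr c L)
    {q r : N} (hq : ∀ f : ℝ → ℝ, Continuous f → f 0 = 0 → q * cfc f c = cfc f c * q)
    (hr : ∀ f : ℝ → ℝ, Continuous f → f 0 = 0 → r * cfc f c = cfc f c * r) :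
    L (c * c * (q * r)) = L (c * c * (r * q)) := by
  have hcid : cfc (fun t : ℝ => t) c = c := cfc_id' ℝ c
  have hqc : q * c = c * q := by
    have := hq (fun t => t) continuous_id rfl
    rwa [hcid] at this
  have hrc : r * c = c * r := by
    have := hr (fun t => t) continuous_id rfl
    rwa [hcid] at this
  rw [← sub_eq_zero, ← map_sub, ← norm_le_zero_iff]
  refine le_of_forall_pos_le_add fun ε hε => ?_
  rw [zero_add]
  set z : N := q * r - r * q with hz
  have e0 : c * c * (q * r) - c * c * (r * q) = c * c * z := by rw [hz]; noncomm_ring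
  rw [e0]
  set δ : ℝ := ε / (‖z‖ + 1) with hδ
  have hδ0 : 0 < δ := by positivity
  let k : N := cfc (fun t : ℝ => 1 / Real.sqrt (t ^ 2 + δ)) c
  let d : N := cfc (regf δ) c
  have hd : c * k = d := by
    have e : c * k = cfc (fun t : ℝ => t) c * cfc (fun t : ℝ => 1 / Real.sqrt (t ^ 2 + δ)) c := by
      rw [hcid]
    rw [e, ← cfc_mul (fun t : ℝ => t) _ _ (by fun_prop) (continuous_invf hδ0).continuousOn]
    refine cfc_congr fun t _ => ?_
    show t * (1 / Real.sqrt (t ^ 2 + δ)) = regf δ t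
    unfold regf
    rw [mul_one_div]
  have hkc : k * c = c * k := by
    have h1 := (cfc_commute_cfc (fun t : ℝ => 1 / Real.sqrt (t ^ 2 + δ)) (fun t : ℝ => t) c).eq
    rw [hcid] at h1
    exact h1
  have hd' : k * c = d := hkc.trans hd
  have hqd : q * d = d * q := hq _ (continuous_regf hδ0) (by unfold regf; simp)
  have hrd : r * d = d * r := hr _ (continuous_regf hδ0) (by unfold regf; simp)
  have hdc : d * c = c * d := by rw [← hd, mul_assoc, hkc]
  have e1 : (c * (k * q) * c) * (c * (r * k) * c) = d * d * (c * c) * (q * r) := by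
    calc (c * (k * q) * c) * (c * (r * k) * c)
        = (c * k) * q * c * (c * r) * (k * c) := by noncomm_ring
      _ = d * q * c * (r * c) * d := by rw [hd, hd', hrc]
      _ = d * (q * c) * r * (c * d) := by noncomm_ring
      _ = d * (c * q) * r * (d * c) := by rw [hqc, hdc]
      _ = d * c * q * (r * d) * c := by noncomm_ring
      _ = d * c * q * (d * r) * c := by rw [hrd]
      _ = d * c * (q * d) * (r * c) := by noncomm_ring
      _ = d * c * (d * q) * (c * r) := by rw [hqd, hrc]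
      _ = d * (c * d) * (q * c) * r := by noncomm_ring
      _ = d * (d * c) * (c * q) * r := by rw [← hdc, hqc]
      _ = d * d * (c * c) * (q * r) := by noncomm_ring
  have e2 : (c * (r * k) * c) * (c * (k * q) * c) = d * d * (c * c) * (r * q) := by
    calc (c * (r * k) * c) * (c * (k * q) * c)
        = (c * r) * (k * c) * (c * k) * (q * c) := by noncomm_ring
      _ = (r * c) * d * d * (q * c) := by rw [hd, hd', hrc]
      _ = r * (c * d) * d * (q * c) := by noncomm_ring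
      _ = r * (d * c) * d * (c * q) := by rw [hdc, hqc]
      _ = (r * d) * (c * d) * c * q := by noncomm_ring
      _ = (d * r) * (d * c) * c * q := by rw [hrd, hdc]
      _ = d * (r * d) * (c * c) * q := by noncomm_ring
      _ = d * (d * r) * (c * c) * q := by rw [hrd]
      _ = d * d * (r * c) * c * q := by noncomm_ring
      _ = d * d * (c * r) * c * q := by rw [hrc]
      _ = d * d * c * (r * c) * q := by noncomm_ring
      _ = d * d * c * (c * r) * q := by rw [hrc]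
      _ = d * d * (c * c) * (r * q) := by noncomm_ring
  have h3 := h.tr (k * q) (r * k)
  rw [e1, e2] at h3
  have h4 : L (d * d * (c * c) * z) = 0 := by
    have : d * d * (c * c) * z = d * d * (c * c) * (q * r) - d * d * (c * c) * (r * q) := by
      rw [hz]; noncomm_ring
    rw [this, map_sub, h3, sub_self]
  have h5 : ‖d * d * (c * c) - c * c‖ ≤ δ := by
    have e3 : d * d * (c * c) - c * c =
        cfc (fun t : ℝ => t * t * (regf δ t * regf δ t) - t * t) c := by
      rw [cfc_sub (fun t : ℝ => t * t * (regf δ t * regf δ t)) (fun t => t * t) c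
        (((by fun_prop : Continuous fun t : ℝ => t * t).mul
          ((continuous_regf hδ0).mul (continuous_regf hδ0))).continuousOn)
        (by fun_prop)]
      rw [cfc_mul (fun t : ℝ => t * t) (fun t => regf δ t * regf δ t) c (by fun_prop)
        ((continuous_regf hδ0).mul (continuous_regf hδ0)).continuousOn]
      rw [cfc_mul (regf δ) (regf δ) c (continuous_regf hδ0).continuousOn
        (continuous_regf hδ0).continuousOn]
      rw [cfc_mul (fun t : ℝ => t) (fun t => t) c (by fun_prop) (by fun_prop), hcid]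
      have e4 : d * d * (c * c) = c * c * (d * d) := by
        calc d * d * (c * c) = d * (d * c) * c := by noncomm_ring
          _ = d * (c * d) * c := by rw [hdc]
          _ = (d * c) * (d * c) := by noncomm_ring
          _ = (c * d) * (c * d) := by rw [hdc]
          _ = c * (d * c) * d := by noncomm_ring
          _ = c * (c * d) * d := by rw [hdc]
          _ = _ := by noncomm_ring
      rw [e4]
    rw [e3]
    exact norm_cfc_le hδ0.le fun t _ => by rw [Real.norm_eq_abs]; exact regf_bound hδ0 t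
  have h6 : L (c * c * z) = -L ((d * d * (c * c) - c * c) * z) := by
    rw [sub_mul, map_sub, h4]; ring
  rw [h6, norm_neg]
  refine (h.norm_le _).trans ((norm_mul_le _ _).trans ?_)
  calc ‖d * d * (c * c) - c * c‖ * ‖z‖ ≤ δ * ‖z‖ := mul_le_mul_of_nonneg_right h5 (norm_nonneg _)
    _ ≤ δ * (‖z‖ + 1) := by nlinarith only [hδ0]
    _ = ε := by rw [hδ]; (clear * - hε; field_simp)

/-- The same for elements commuting with the image of an ideal. -/
theorem LocTr.comm_of_ideal {M : Type u} [CStarAlgebra M] {I : CIdeal M} (κ : M →⋆ₐ[ℂ] N)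
    {c : M} (hc : IsSelfAdjoint c) (hcI : c ∈ I) {L : N →ₗ[ℂ] ℂ} (h : LocTr (κ c) L)
    {q r : N} (hq : ∀ b ∈ I, q * κ b = κ b * q) (hr : ∀ b ∈ I, r * κ b = κ b * r) :
    L (κ c * κ c * (q * r)) = L (κ c * κ c * (r * q)) := by
  have hcf : ∀ f : ℝ → ℝ, Continuous f → cfc f (κ c) = κ (cfc f c) := fun f hf =>
    (map_cfc' κ hf hc).symm
  refine h.comm_of_commute (hc.map κ) (fun f hf hf0 => ?_) (fun f hf hf0 => ?_)
  · rw [hcf f hf]
    exact hq _ (K.cfc_mem_ideal I hf hf0 hc hcI)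
  · rw [hcf f hf]
    exact hr _ (K.cfc_mem_ideal I hf hf0 hc hcI)

end induced

section induced2

variable {M : Type u} [CStarAlgebra M] {I : CIdeal M} {ι : Type} {μ : Filter ι}

/-- restriction of a representative to a finer ultrafilter -/
noncomputable def toU (U : Ultrafilter ι) (x : relSeq I μ) : Bq M (U : Filter ι) :=
  Bq.mk (U : Filter ι) (relSeq.toBdd x)

theorem toU_comm {U : Ultrafilter ι} (hU : (U : Filter ι) ≤ μ) (x : relSeq I μ) {b : M}
    (hb : b ∈ I) : toU U x * Bq.constHom (U : Filter ι) b =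
      Bq.constHom (U : Filter ι) b * toU U x :=
  (Bq.mk_eq_iff (U : Filter ι) (relSeq.toBdd x * Bq.const b) (Bq.const b * relSeq.toBdd x)).2
    ((relSeq_comm x hb).mono_left hU)

theorem toU_null {U : Ultrafilter ι} (hU : (U : Filter ι) ≤ μ) (x y : relSeq I μ)
    (h : FR.mk I μ x = FR.mk I μ y) {b : M} (hb : b ∈ I) :
    toU U x * Bq.constHom (U : Filter ι) b = toU U y * Bq.constHom (U : Filter ι) b := by
  refine (Bq.mk_eq_iff (U : Filter ι) (relSeq.toBdd x * Bq.const b)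
    (relSeq.toBdd y * Bq.const b)).2 ?_
  refine (((FR.mk_eq_iff x y).1 h b hb).mono_left hU).congr fun i => ?_
  show ‖((x : ι → M) i - (y : ι → M) i) * b‖ = ‖(x : ι → M) i * b - (y : ι → M) i * b‖
  rw [sub_mul]

theorem toU_mul (U : Ultrafilter ι) (x y : relSeq I μ) : toU U (x * y) = toU U x * toU U y := rfl

theorem toU_star (U : Ultrafilter ι) (x : relSeq I μ) : toU U (star x) = star (toU U x) := rfl

theorem toU_one (U : Ultrafilter ι) : toU U (1 : relSeq I μ) = 1 := rfl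

variable {U : Ultrafilter ι} (hU : (U : Filter ι) ≤ μ) {u : M} (hu : IsSelfAdjoint u)
  (huI : u ∈ I) {L : Bq M (U : Filter ι) →ₗ[ℂ] ℂ}
  (hL : LocTr (Bq.constHom (U : Filter ι) u) L)

/-- The induced functional. -/
noncomputable def indF : FR I μ →ₗ[ℂ] ℂ where
  toFun q := L (Bq.constHom (U : Filter ι) u * Bq.constHom (U : Filter ι) u * toU U (FR.rep q))
  map_add' := by
    intro p q
    rw [← map_add, ← mul_add]
    congr 1
    have h1 : FR.mk I μ (FR.rep (p + q)) = FR.mk I μ (FR.rep p + FR.rep q) := by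
      rw [FR.mk_rep, map_add, FR.mk_rep, FR.mk_rep]
    have h2 := toU_null hU _ _ h1 huI
    rw [mul_assoc, ← toU_comm hU _ huI, h2, toU_comm hU _ huI, ← mul_assoc]
    rfl
  map_smul' := by
    intro c q
    rw [RingHom.id_apply, ← map_smul, ← mul_smul_comm]
    congr 1
    have h1 : FR.mk I μ (FR.rep (c • q)) = FR.mk I μ (c • FR.rep q) := by
      rw [FR.mk_rep, map_smul, FR.mk_rep]
    have h2 := toU_null hU _ _ h1 huI
    rw [mul_assoc, ← toU_comm hU _ huI, h2, toU_comm hU _ huI, ← mul_assoc]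
    rfl

theorem indF_mk (x : relSeq I μ) : indF hU huI (L := L) (FR.mk I μ x) =
    L (Bq.constHom (U : Filter ι) u * Bq.constHom (U : Filter ι) u * toU U x) := by
  show L _ = L _
  congr 1
  have h1 : FR.mk I μ (FR.rep (FR.mk I μ x)) = FR.mk I μ x := FR.mk_rep _
  have h2 := toU_null hU _ _ h1 huI
  rw [mul_assoc, ← toU_comm hU _ huI, h2, toU_comm hU _ huI, ← mul_assoc]

include hu in
theorem star_c : star (Bq.constHom (U : Filter ι) u) = Bq.constHom (U : Filter ι) u := by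
  rw [← map_star, hu.star_eq]

include hu in
theorem indF_star_mul (x : relSeq I μ) : indF hU huI (L := L) (FR.mk I μ (star x * x)) =
    L (star (toU U x * Bq.constHom (U : Filter ι) u) * (toU U x * Bq.constHom (U : Filter ι) u)) := by
  rw [indF_mk]
  congr 1
  rw [star_mul, star_c hu, toU_mul, toU_star]
  set c := Bq.constHom (U : Filter ι) u
  have h1 : toU U x * c = c * toU U x := toU_comm hU x huI
  have h2 : star (toU U x) * c = c * star (toU U x) := toU_comm hU (star x) huI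
  calc c * c * (star (toU U x) * toU U x) = c * (c * star (toU U x)) * toU U x := by
        simp only [mul_assoc]
    _ = c * (star (toU U x) * c) * toU U x := by rw [h2]
    _ = c * star (toU U x) * (c * toU U x) := by simp only [mul_assoc]
    _ = c * star (toU U x) * (toU U x * c) := by rw [h1]

include hu hL in
theorem indF_tr (p q : FR I μ) : indF hU huI (L := L) (p * q) = indF hU huI (L := L) (q * p) := by
  obtain ⟨x, rfl⟩ := FR.mk_surjective p
  obtain ⟨y, rfl⟩ := FR.mk_surjective q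
  rw [← map_mul, ← map_mul, indF_mk, indF_mk, toU_mul, toU_mul]
  exact hL.comm_of_ideal (Bq.constHom (U : Filter ι)) hu huI (fun b hb => toU_comm hU x hb)
    (fun b hb => toU_comm hU y hb)

include hu hL in
theorem indF_im (q : FR I μ) : (indF hU huI (L := L) (star q * q)).im = 0 := by
  obtain ⟨x, rfl⟩ := FR.mk_surjective q
  rw [← map_star, ← map_mul, indF_star_mul hU hu huI]
  exact hL.im_eq _

include hu hL in
theorem indF_re (q : FR I μ) : 0 ≤ (indF hU huI (L := L) (star q * q)).re := by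
  obtain ⟨x, rfl⟩ := FR.mk_surjective q
  rw [← map_star, ← map_mul, indF_star_mul hU hu huI]
  exact hL.re_nonneg _

include hu hL in
theorem indF_one : (indF hU huI (L := L) (1 : FR I μ)).im = 0 ∧
    0 ≤ (indF hU huI (L := L) (1 : FR I μ)).re ∧
    (indF hU huI (L := L) (1 : FR I μ)).re ≤ ‖u‖ ^ 2 := by
  have h1 := indF_im hU hu huI hL 1
  have h2 := indF_re hU hu huI hL 1
  rw [star_one, one_mul] at h1 h2
  refine ⟨h1, h2, ?_⟩
  have h3 : (1 : FR I μ) = FR.mk I μ (star (1 : relSeq I μ) * 1) := by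
    rw [star_one, one_mul, map_one]
  rw [h3, indF_star_mul hU hu huI, toU_one, one_mul]
  refine (hL.sq_le _).trans ?_
  have h4 : ‖Bq.constHom (U : Filter ι) u‖ ≤ ‖u‖ := NonUnitalStarAlgHom.norm_apply_le _ _
  have h5 : ‖Bq.constHom (U : Filter ι) u‖ ^ 2 ≤ ‖u‖ ^ 2 :=
    pow_le_pow_left₀ (norm_nonneg _) h4 2
  calc ‖Bq.constHom (U : Filter ι) u‖ ^ 2 * (L 1).re ≤ ‖Bq.constHom (U : Filter ι) u‖ ^ 2 * 1 :=
        mul_le_mul_of_nonneg_left hL.one_le (sq_nonneg _)
    _ ≤ ‖u‖ ^ 2 := by rw [mul_one]; exact h5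

include hu hL in
theorem indF_le (y : FR I μ) {ε : ℝ} (hy : TwoNormLE y ε) :
    (indF hU huI (L := L) (star y * y)).re ≤ ‖u‖ ^ 2 * ε ^ 2 := by
  set T := indF hU huI (L := L) with hT
  obtain ⟨h1, h2, h3⟩ := indF_one hU hu huI hL
  rcases h2.eq_or_lt with h0 | h0
  · obtain ⟨b, hb⟩ := clamp_norm_sq y
    have h4 := indF_re hU hu huI hL b
    rw [← hb, map_sub, map_smul, smul_eq_mul, Complex.sub_re, Complex.re_ofReal_mul] at h4
    have h5 : (T 1).re = 0 := h0.symm
    rw [h5, mul_zero] at h4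
    have h6 : (0 : ℝ) ≤ ‖u‖ ^ 2 * ε ^ 2 := by (clear * -; positivity)
    linarith only [h4, h6]
  · set r : ℝ := (T 1).re with hr
    have hone : T 1 = (r : ℂ) := Complex.ext (by simp only [hr, Complex.ofReal_re]) (by rw [h1]; simp)
    have hr0 : (r : ℂ) ≠ 0 := by exact_mod_cast h0.ne'
    have hre : ∀ z : ℂ, (((r⁻¹ : ℝ) : ℂ) * z).re = r⁻¹ * z.re := fun z => Complex.re_ofReal_mul _ _
    have him : ∀ z : ℂ, (((r⁻¹ : ℝ) : ℂ) * z).im = r⁻¹ * z.im := fun z => Complex.im_ofReal_mul _ _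
    have htr : IsTracialState (((r⁻¹ : ℝ) : ℂ) • T) := by
      refine ⟨?_, fun a => ?_, fun a => ?_, fun a b => ?_⟩
      · rw [LinearMap.smul_apply, hone, smul_eq_mul, Complex.ofReal_inv, inv_mul_cancel₀ hr0]
      · rw [LinearMap.smul_apply, smul_eq_mul, him, indF_im hU hu huI hL, mul_zero]
      · rw [LinearMap.smul_apply, smul_eq_mul, hre]
        exact mul_nonneg (inv_nonneg.2 h0.le) (indF_re hU hu huI hL a)
      · rw [LinearMap.smul_apply, LinearMap.smul_apply, indF_tr hU hu huI hL]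
    have h4 := hy _ htr
    rw [LinearMap.smul_apply, smul_eq_mul, hre, inv_mul_le_iff₀ h0] at h4
    exact h4.trans (mul_le_mul_of_nonneg_right h3 (sq_nonneg _))

end induced2

section final

variable {M : Type u} [CStarAlgebra M] {I : CIdeal M} {ι : Type} {μ : Filter ι}

theorem locTr_zero (u : M) : LocTr u (0 : M →ₗ[ℂ] ℂ) :=
  ⟨fun _ => by simp only [LinearMap.zero_apply, Complex.zero_im], fun _ => by simp only [LinearMap.zero_apply, Complex.zero_re, Std.le_refl], by simp only [LinearMap.zero_apply, Complex.zero_re, zero_le_one], fun _ _ => by simp⟩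

/-- Tracial smallness in the relative central sequence algebra implies asymptotic smallness. -/
theorem eventually_small [NeBot μ] {u : M} (hu : IsSelfAdjoint u) (huI : u ∈ I)
    (y z : relSeq I μ) {ε η : ℝ} (hy : TwoNormLE (FR.mk I μ y) ε)
    (hz : TwoNormLE (FR.mk I μ z) ε) (hη : ‖u‖ ^ 2 * ε ^ 2 < η) :
    ∀ᶠ i in μ, Small u ((1 / 2 : ℂ) • (star ((y : ι → M) i) * (y : ι → M) i +
      star ((z : ι → M) i) * (z : ι → M) i)) η := by
  classical
  by_contra hcon
  rw [not_eventually] at hcon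
  set d : ι → M := fun i => (1 / 2 : ℂ) • (star ((y : ι → M) i) * (y : ι → M) i +
      star ((z : ι → M) i) * (z : ι → M) i) with hd
  have hcon' : ∃ᶠ i in μ, ¬ Small u (d i) η := hcon
  set S : Set ι := {i | ¬ Small u (d i) η} with hS
  have hne : NeBot (μ ⊓ 𝓟 S) := Filter.frequently_mem_iff_neBot.1 hcon'
  let U : Ultrafilter ι := Ultrafilter.of (μ ⊓ 𝓟 S)
  have hUle : (U : Filter ι) ≤ μ ⊓ 𝓟 S := Ultrafilter.of_le _
  have hUμ : (U : Filter ι) ≤ μ := hUle.trans inf_le_left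
  have hUS : S ∈ U := hUle.trans inf_le_right (mem_principal_self S)
  have hex : ∀ i, ∃ τ : M →ₗ[ℂ] ℂ, LocTr u τ ∧ (i ∈ S → η ≤ (τ (u * d i * u)).re) := by
    intro i
    by_cases hi : i ∈ S
    · have hi' : ¬ Small u (d i) η := hi
      unfold Small at hi'
      push Not at hi'
      obtain ⟨τ, h1, h2⟩ := hi'
      exact ⟨τ, h1, fun _ => h2.le⟩
    · exact ⟨0, locTr_zero u, fun h => absurd h hi⟩
  choose τ hτ hτc using hex
  obtain ⟨L, hL, hLl⟩ := exists_lim_loc U τ hτ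
  let D : relSeq I μ := (1 / 2 : ℂ) • (star y * y + star z * z)
  have h1 := (Complex.continuous_re.tendsto _).comp
    (hLl (Bq.const u * relSeq.toBdd D * Bq.const u))
  have h2 : η ≤ (L (Bq.mk U (Bq.const u * relSeq.toBdd D * Bq.const u))).re := by
    refine ge_of_tendsto h1 ?_
    filter_upwards [hUS] with i hi
    exact hτc i hi
  have h3 : Bq.mk (U : Filter ι) (Bq.const u * relSeq.toBdd D * Bq.const u) =
      Bq.constHom (U : Filter ι) u * Bq.constHom (U : Filter ι) u * toU U D := by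
    have : Bq.mk (U : Filter ι) (Bq.const u * relSeq.toBdd D * Bq.const u) =
      Bq.constHom (U : Filter ι) u * toU U D * Bq.constHom (U : Filter ι) u := rfl
    rw [this, mul_assoc, toU_comm hUμ D huI, ← mul_assoc]
  rw [h3, ← indF_mk hUμ huI] at h2
  have h4 : FR.mk I μ D = (1 / 2 : ℂ) • (star (FR.mk I μ y) * FR.mk I μ y +
      star (FR.mk I μ z) * FR.mk I μ z) := by
    show FR.mk I μ ((1 / 2 : ℂ) • (star y * y + star z * z)) = _
    rw [map_smul, map_add, map_mul, map_mul, map_star, map_star]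
  have h5 := indF_le hUμ hu huI hL _ hy
  have h6 := indF_le hUμ hu huI hL _ hz
  rw [h4, map_smul, map_add, smul_eq_mul] at h2
  have h7 : ((1 / 2 : ℂ) * (indF hUμ huI (L := L) (star (FR.mk I μ y) * FR.mk I μ y) +
      indF hUμ huI (L := L) (star (FR.mk I μ z) * FR.mk I μ z))).re =
      (1 / 2) * ((indF hUμ huI (L := L) (star (FR.mk I μ y) * FR.mk I μ y)).re +
      (indF hUμ huI (L := L) (star (FR.mk I μ z) * FR.mk I μ z)).re) := by
    have : (1 / 2 : ℂ) = ((1 / 2 : ℝ) : ℂ) := by push_cast; rfl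
    rw [this, Complex.re_ofReal_mul, Complex.add_re]
  rw [h7] at h2
  linarith only [hη, h2, h5, h6]

end final

end Vale.Agent.P095N
end

section

set_option linter.unusedSectionVars false
set_option linter.unusedVariables false
set_option linter.unusedSimpArgs false

namespace Vale.Agent.P095

open Filter Topology ComplexConjugate

section
variable {A : Type*} [CStarAlgebra A] {G : Type*} [Group G] (α : G →* (A ≃⋆ₐ[ℂ] A))
variable {L : Finset G} {v : ℕ → BSeq A} {R J : ℕ}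

/-- the facts about the constructed pair at a limit trace -/
def PairFacts (μ C κ δ : ℝ) (K : Finset G) (F : Finset A) (p v : BSeq A) (t : LimTr A) : Prop :=
  t.c p * t.c p = t.c p ∧ star (t.c p) = t.c p ∧ t.c v * t.c v = 0 ∧
  star (t.c v) * t.c v + t.c v * star (t.c v) = 1 ∧
  (∀ a ∈ F, t.c p * t.c (cst A a) = t.c (cst A a) * t.c p ∧
    t.c v * t.c (cst A a) = t.c (cst A a) * t.c v ∧
    t.q (t.c (cst A a) * t.c p) = μ * t.q (t.c (cst A a))) ∧
  ∀ g ∈ K, nrm t.q (t.c p * t.c (actB (α g) p) - t.c (actB (α g) p) * t.c p) ≤ δ ∧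
    nrm t.q (t.c (actB (α g) v) * t.c p - t.c p * t.c (actB (α g) v)) ≤ δ ∧
    ∀ a ∈ F, nrm t.q ((t.c (actB (α g) v) - t.c v) * t.c (cst A a)) ^ 2 ≤
      C * nrm t.q ((t.c (actB (α g) p) - t.c p) * t.c (cst A a)) ^ 2 +
        κ * nrm t.q (t.c (cst A a)) ^ 2

theorem pair_at (t : LimTr A) {K : Finset G} {F : Finset A} {P : ℕ → Subalgebra ℂ (Qt t.isTracial)}
    (s : MatSys t.q R P (VT α t L v R)) (hP0 : ∀ a ∈ F, t.c (cst A a) ∈ P 0)
    (h1 : (1 : G) ∈ L) (hKL : K ⊆ L) {lam : ℝ} (hl0 : 0 < lam) (hl1 : lam ≤ 1) (hJ : 1 ≤ J)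
    (hR : 1 ≤ R) {M : ℕ} {Qp : Fin M → Polynomial ℝ}
    (hQ : ∀ i, ∀ x ∈ Set.Icc (-1 : ℝ) 1, |(Qp i).eval x| ≤ 2) {ε1 δ : ℝ} (hε1 : 0 ≤ ε1)
    (hδ : ∀ i, 6 * Real.sqrt ε1 + commConst (Qp i) * Real.sqrt (100 / Real.sqrt R) ≤ δ)
    (hδ' : ∀ i, 2 * Real.sqrt ε1 + vConst (Qp i) / Real.sqrt R ≤ δ) (hδ0 : 0 ≤ δ)
    {i : Fin J → Fin M} {Φ : Fin J → Finset (Fin R → Bool)} {c : Fin J → ℝ} {c0 : ℝ}
    (hc : ∀ j, |c j| ≤ 2 / J)
    (hΦ : ∀ j, (∑ ω, ((if ω ∈ Φ j then (1 : ℝ) else 0) -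
          (Qp (i j)).eval (Real.sin (lam * signSum ω))) ^ 2) / 2 ^ R ≤ ε1)
    (hsee : ∀ ω, |Real.sin (lam * signSum ω) -
          (c0 + ∑ j, c j * (if ω ∈ Φ j then (1 : ℝ) else 0))| ≤ 4 / J)
    {z : Bool × Fin J → BSeq A}
    (hz : IsPart α K (XZ α L F v R Φ h1 ∪ (fun b => star b * b) '' XZ α L F v R Φ h1) z)
    {ζ : Fin R → BSeq A}
    (hζ : IsPart α K (XY α L F v R z (pq Φ (VB α L v R) z ⟨1, h1⟩) h1 ∪
      (fun b => star b * b) '' XY α L F v R z (pq Φ (VB α L v R) z ⟨1, h1⟩) h1) ζ) :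
    PairFacts α ((∑ j, ((Φ j).card : ℝ) / 2 ^ R) / J) (24 / lam ^ 2)
      (384 / (lam * J) ^ 2 + 6 * lam ^ 4) δ K F (pq Φ (VB α L v R) z ⟨1, h1⟩)
      (vq (VB α L v R) ζ ⟨1, h1⟩) t := by
  have pz := part0_at α t hz
  have pζ := part0_at α t hζ
  have z4 := (hz.2.2 t).2.2.2.1
  have z5 := (hz.2.2 t).2.2.2.2.1
  have z6 := (hz.2.2 t).2.2.2.2.2
  have y4 := (hζ.2.2 t).2.2.2.1
  have y6 := (hζ.2.2 t).2.2.2.2.2
  have hmul : ∀ x y : BSeq A, t.c (x * y) = t.c x * t.c y := fun x y => map_mul t.c x y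
  have hpc := pq_at α (v := v) (R := R) (L := L) t Φ z ⟨1, h1⟩
  have hvc := vq_at α (v := v) (R := R) (L := L) t ζ ⟨1, h1⟩
  set zt : Bool × Fin J → Qt t.isTracial := fun k => t.c (z k) with hzt
  set ζt : Fin R → Qt t.isTracial := fun k => t.c (ζ k) with hζt
  have hzV : CommAll zt (VT α t L v R) := fun j k =>
    z4 j (VB α L v R k) (Or.inl (Or.inr (Or.inl ⟨k, rfl⟩)))
  have hζV : CommAll ζt (VT α t L v R) := fun j k =>
    y4 j (VB α L v R k) (Or.inl (Or.inr (Or.inl ⟨k, rfl⟩)))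
  have hpa : ∀ g : G, ∀ hg : g ∈ K, t.c (actB (α g) (pq Φ (VB α L v R) z ⟨1, h1⟩)) =
      pq Φ (VT α t L v R) zt ⟨g, hKL hg⟩ := fun g hg =>
    pq_act α t Φ z h1 ⟨g, hKL hg⟩ (fun k => z6 k g hg)
  have hva : ∀ g : G, ∀ hg : g ∈ K, t.c (actB (α g) (vq (VB α L v R) ζ ⟨1, h1⟩)) =
      vq (VT α t L v R) ζt ⟨g, hKL hg⟩ := fun g hg =>
    vq_act α t ζ h1 ⟨g, hKL hg⟩ (fun k => y6 k g hg)
  have hVa : ∀ a ∈ F, ∀ (r : Fin R) (i : {g // g ∈ L}), VT α t L v R (r, i) * t.c (cst A a) =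
      t.c (cst A a) * VT α t L v R (r, i) := fun a ha r i =>
    s.vcomm r i _ (s.mono (Nat.zero_le _) (hP0 a ha))
  have hVsa : ∀ a ∈ F, ∀ (r : Fin R) (i : {g // g ∈ L}), star (VT α t L v R (r, i)) *
      t.c (cst A a) = t.c (cst A a) * star (VT α t L v R (r, i)) := fun a ha r i =>
    s.vscomm r i _ (s.mono (Nat.zero_le _) (hP0 a ha))
  have hbz : ∀ (i : {g // g ∈ L}) k l, zt l * bt Φ (VT α t L v R) k i =
      bt Φ (VT α t L v R) k i * zt l := by
    intro i k l
    rw [← bt_at]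
    exact z4 l _ (Or.inl (Or.inr (Or.inr (Or.inl ⟨k, i, rfl⟩))))
  have hcomm : ∀ (k : Bool × Fin J) (i : {g // g ∈ L}),
      nrm t.q (bt Φ (VT α t L v R) k ⟨1, h1⟩ * bt Φ (VT α t L v R) k i -
        bt Φ (VT α t L v R) k i * bt Φ (VT α t L v R) k ⟨1, h1⟩) ≤ δ := by
    intro k l
    refine le_trans ?_ (hδ (i k.2))
    exact comm_ind_bound_lam t.q_tracial hR lam hl0.le hl1 (s.commProj k.1 ⟨1, h1⟩)
      (s.commProj k.1 l) (fun a b hab => s.cross k.1 k.1 _ _ hab) (s.law_one t.q_tracial _ _)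
      (s.law_one t.q_tracial _ _) (Qp (i k.2)) (hQ _) (Φ k.2) ε1 hε1 (hΦ k.2)
  have hcommv : ∀ (k : Bool × Fin J) (r : Fin R) (l : {g // g ∈ L}),
      nrm t.q (VT α t L v R (r, l) * bt Φ (VT α t L v R) k ⟨1, h1⟩ -
        bt Φ (VT α t L v R) k ⟨1, h1⟩ * VT α t L v R (r, l)) ≤ δ := by
    intro k r l
    refine le_trans ?_ (hδ' (i k.2))
    refine comm_v_bound t.q_tracial hR lam hl0.le hl1 (s.commProj k.1 ⟨1, h1⟩) r ?_ ?_ ?_
      (s.law_one t.q_tracial _ _) (Qp (i k.2)) (Φ k.2) ε1 hε1 (hΦ k.2)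
    · intro j hj
      have h2 := s.comm_ne hj ⟨1, h1⟩ l
      exact (hp_comm k.1 h2.1 h2.2).symm
    · intro y
      exact nrm_V_mul_le t.q_tracial (s.vone _) y
    · intro y
      rw [← nrm_star t.q_tracial, star_mul, ← nrm_star t.q_tracial y]
      apply nrm_V_mul_le t.q_tracial
      rw [star_star, add_comm]
      exact s.vone _
  refine ⟨?_, ?_, ?_, ?_, ?_, ?_⟩
  · rw [hpc]; exact pq_idem s Φ pz hzV _
  · rw [hpc]; exact pq_star s Φ pz hzV _
  · rw [hvc]; exact vq_sq s pζ hζV _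
  · rw [hvc]; exact vq_one s pζ hζV _
  · intro a ha
    refine ⟨?_, ?_, ?_⟩
    · rw [hpc]
      exact pq_comm (fun r => hVa a ha r _) (fun r => hVsa a ha r _) Φ
        (fun k => z4 k _ (Or.inl (Or.inl ⟨a, ha, rfl⟩)))
    · rw [hvc]
      exact vq_comm (fun r => hVa a ha r _) (fun k => y4 k _ (Or.inl (Or.inl ⟨a, ha, rfl⟩)))
    · rw [hpc]
      refine pq_law t.q_tracial s hJ Φ ⟨1, h1⟩ (hP0 a ha) (fun k => hbz _ k k) (fun k => ?_)
      have h2 := z5 k (cst A a * bt Φ (VB α L v R) k ⟨1, h1⟩)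
        (Or.inl (Or.inr (Or.inr (Or.inr (Or.inl ⟨a, ha, k, rfl⟩)))))
      rw [← t.q_c, ← t.q_c, hmul, hmul, bt_at] at h2
      exact h2
  · intro g hg
    refine ⟨?_, ?_, ?_⟩
    · rw [hpc, hpa g hg]
      refine pq_pq t.q_tracial hJ Φ pz hbz _ _ ?_ hδ0 (fun k => hcomm k _)
      have := ind0_at α t hz (z := fun k => bt Φ (VB α L v R) k ⟨1, h1⟩ *
        bt Φ (VB α L v R) k ⟨g, hKL hg⟩ - bt Φ (VB α L v R) k ⟨g, hKL hg⟩ *
        bt Φ (VB α L v R) k ⟨1, h1⟩)
        (fun k => Or.inr (Or.inr (Or.inr (Or.inr (Or.inr (Or.inl ⟨k, ⟨g, hKL hg⟩, rfl⟩))))))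
      simp only [map_sub, hmul, bt_at] at this
      exact this
    · rw [hpc, hva g hg]
      refine vq_pq t.q_tracial hJ hR Φ pz hzV pζ _ _ ?_ ?_ ?_ hδ0 (fun k r => hcommv k r _)
      · intro r
        have := y4 r (pq Φ (VB α L v R) z ⟨1, h1⟩) (Or.inl (Or.inr (Or.inr (Or.inl rfl))))
        rw [hpc] at this
        exact this
      · intro r
        have := ind0_at α t hz (z := fun k => VB α L v R (r, ⟨g, hKL hg⟩) *
          bt Φ (VB α L v R) k ⟨1, h1⟩ - bt Φ (VB α L v R) k ⟨1, h1⟩ *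
          VB α L v R (r, ⟨g, hKL hg⟩))
          (fun k => Or.inr (Or.inr (Or.inr (Or.inr (Or.inr (Or.inr ⟨k, _, rfl⟩))))))
        simp only [map_sub, hmul, bt_at] at this
        exact this
      · have := ind0_at α t hζ (z := fun r => VB α L v R (r, ⟨g, hKL hg⟩) *
          pq Φ (VB α L v R) z ⟨1, h1⟩ - pq Φ (VB α L v R) z ⟨1, h1⟩ *
          VB α L v R (r, ⟨g, hKL hg⟩))
          (fun r => Or.inr (Or.inr (Or.inr (Or.inr ⟨_, rfl⟩))))
        simp only [map_sub, hmul, hpc] at this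
        exact this
    · intro a ha
      rw [hpc, hvc, hpa g hg, hva g hg]
      refine det_final t.q_tracial s hR ⟨g, hKL hg⟩ ⟨1, h1⟩ _ (hP0 a ha) hl0 hJ Φ c c0 hc hsee
        pz ?_ pζ ?_
      · have := ind0_at α t hz (z := fun k => (bt Φ (VB α L v R) k ⟨g, hKL hg⟩ -
          bt Φ (VB α L v R) k ⟨1, h1⟩) * cst A a)
          (fun k => Or.inr (Or.inr (Or.inr (Or.inr (Or.inl ⟨a, ha, k, ⟨g, hKL hg⟩, rfl⟩)))))
        simp only [map_sub, hmul, bt_at] at this
        exact this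
      · have := ind0_at α t hζ (z := fun r => (VB α L v R (r, ⟨g, hKL hg⟩) -
          VB α L v R (r, ⟨1, h1⟩)) * cst A a)
          (fun r => Or.inr (Or.inr (Or.inr (Or.inl ⟨a, ha, r, ⟨g, hKL hg⟩, rfl⟩))))
        simp only [map_sub, hmul] at this
        exact this

end

end Vale.Agent.P095
end

section

set_option linter.unusedSectionVars false
set_option linter.unusedVariables false
set_option linter.unusedSimpArgs false

namespace Vale.Agent.P095

open Filter Topology ComplexConjugate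

section
variable {A : Type*} [CStarAlgebra A] {G : Type*} [Group G] (α : G →* (A ≃⋆ₐ[ℂ] A))

/-- changing the pair without changing its classes -/
theorem PairFacts.congr {μ C κ δ : ℝ} {K : Finset G} {F : Finset A} {p v p' v' : BSeq A}
    {t : LimTr A} (h : PairFacts α μ C κ δ K F p v t) (hp : ∀ t : LimTr A, nrm t.val (p' - p) = 0)
    (hv : ∀ t : LimTr A, nrm t.val (v' - v) = 0) : PairFacts α μ C κ δ K F p' v' t := by
  have e1 : t.c p' = t.c p := t.c_eq (hp t)
  have e2 : t.c v' = t.c v := t.c_eq (hv t)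
  have e3 : ∀ g, t.c (actB (α g) p') = t.c (actB (α g) p) := by
    intro g
    apply t.c_eq
    rw [← map_sub, ← t.comp_nrm]
    exact hp _
  have e4 : ∀ g, t.c (actB (α g) v') = t.c (actB (α g) v) := by
    intro g
    apply t.c_eq
    rw [← map_sub, ← t.comp_nrm]
    exact hv _
  unfold PairFacts
  simp only [e1, e2, e3, e4]
  exact h

theorem goodPair_of_facts {μ C κ δ ε : ℝ} (hδ : 0 ≤ δ) (hδε : δ < ε) {K : Finset G}
    {F : Finset A} {p v : BSeq A} (hC : 0 ≤ C) (hκ : 0 ≤ κ)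
    (h : ∀ t : LimTr A, PairFacts α μ C κ δ K F p v t)
    (hp1 : ∀ n, star (p.1 n) = p.1 n) (hp2 : ∀ n, ‖p.1 n‖ ≤ 1) (hv : ∀ n, ‖v.1 n‖ ≤ 1) :
    ∃ p' v' : A, GoodPair α μ C κ K F ε p' v' := by
  classical
  have hε : 0 < ε := lt_of_le_of_lt hδ hδε
  have hmul : ∀ (t : LimTr A) (x y : BSeq A), t.c (x * y) = t.c x * t.c y :=
    fun t x y => map_mul t.c x y
  have T1 : ∀ᶠ n in atTop, ∀ τ : A →ₗ[ℂ] ℂ, IsTracialState τ →
      nrm τ ((p * p - p).1 n) ≤ ε := by
    apply transfer_nrm _ hε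
    intro t
    rw [t.nrm_eq]
    rw [hmul, (h t).1]
  have T2 : ∀ᶠ n in atTop, ∀ τ : A →ₗ[ℂ] ℂ, IsTracialState τ →
      nrm τ ((v * v).1 n) ≤ ε := by
    apply transfer_nrm _ hε
    intro t
    rw [← t.nrm_c, hmul, (h t).2.2.1, nrm_zero]
  have T3 : ∀ᶠ n in atTop, ∀ τ : A →ₗ[ℂ] ℂ, IsTracialState τ →
      nrm τ ((star v * v + v * star v - 1).1 n) ≤ ε := by
    apply transfer_nrm _ hε
    intro t
    rw [← t.nrm_c, map_sub, map_add, hmul, hmul, t.c_star, (h t).2.2.2.1, map_one, sub_self,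
      nrm_zero]
  have T4 : ∀ a ∈ F, ∀ᶠ n in atTop, ∀ τ : A →ₗ[ℂ] ℂ, IsTracialState τ →
      nrm τ ((p * cst A a - cst A a * p).1 n) ≤ ε := by
    intro a ha
    apply transfer_nrm _ hε
    intro t
    rw [t.nrm_eq]
    rw [hmul, hmul, ((h t).2.2.2.2.1 a ha).1]
  have T5 : ∀ a ∈ F, ∀ᶠ n in atTop, ∀ τ : A →ₗ[ℂ] ℂ, IsTracialState τ →
      nrm τ ((v * cst A a - cst A a * v).1 n) ≤ ε := by
    intro a ha
    apply transfer_nrm _ hε
    intro t
    rw [t.nrm_eq]
    rw [hmul, hmul, ((h t).2.2.2.2.1 a ha).2.1]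
  have T6 : ∀ a ∈ F, ∀ᶠ n in atTop, ∀ τ : A →ₗ[ℂ] ℂ, IsTracialState τ →
      ‖τ ((cst A a * p - (μ : ℂ) • cst A a).1 n)‖ ≤ ε := by
    intro a ha
    apply transfer_val _ hε
    intro t
    rw [map_sub, map_smul, ← t.q_c, ← t.q_c, hmul, ((h t).2.2.2.2.1 a ha).2.2, smul_eq_mul,
      sub_self, norm_zero]
  have T7 : ∀ g ∈ K, ∀ᶠ n in atTop, ∀ τ : A →ₗ[ℂ] ℂ, IsTracialState τ →
      nrm τ ((p * actB (α g) p - actB (α g) p * p).1 n) ≤ ε := by
    intro g hg
    apply transfer_nrm _ hδε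
    intro t
    rw [← t.nrm_c, map_sub, hmul, hmul]
    exact ((h t).2.2.2.2.2 g hg).1
  have T8 : ∀ g ∈ K, ∀ᶠ n in atTop, ∀ τ : A →ₗ[ℂ] ℂ, IsTracialState τ →
      nrm τ ((actB (α g) v * p - p * actB (α g) v).1 n) ≤ ε := by
    intro g hg
    apply transfer_nrm _ hδε
    intro t
    rw [← t.nrm_c, map_sub, hmul, hmul]
    exact ((h t).2.2.2.2.2 g hg).2.1
  have T9 : ∀ g ∈ K, ∀ a ∈ F, ∀ᶠ n in atTop, ∀ τ : A →ₗ[ℂ] ℂ, IsTracialState τ →
      nrm τ (((actB (α g) v - v) * cst A a).1 n) ^ 2 ≤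
        C * nrm τ (((actB (α g) p - p) * cst A a).1 n) ^ 2 + κ * nrm τ ((cst A a).1 n) ^ 2 +
          ε := by
    intro g hg a ha
    apply transfer (fun n τ => nrm τ (((actB (α g) v - v) * cst A a).1 n) ^ 2 ≤
        C * nrm τ (((actB (α g) p - p) * cst A a).1 n) ^ 2 + κ * nrm τ ((cst A a).1 n) ^ 2 +
          ε)
    intro t
    have l1 := (t.tendsto_nrm ((actB (α g) v - v) * cst A a)).pow 2
    have l2 := ((((t.tendsto_nrm ((actB (α g) p - p) * cst A a)).pow 2).const_mul C).add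
      (((t.tendsto_nrm (cst A a)).pow 2).const_mul κ)).add_const ε
    have h3 := ((h t).2.2.2.2.2 g hg).2.2 a ha
    have h4 : nrm t.val ((actB (α g) v - v) * cst A a) ^ 2 <
        C * nrm t.val ((actB (α g) p - p) * cst A a) ^ 2 + κ * nrm t.val (cst A a) ^ 2 + ε := by
      rw [← t.nrm_c, ← t.nrm_c, ← t.nrm_c (cst A a), hmul, hmul, map_sub, map_sub]
      linarith
    exact (l1.eventually_lt l2 h4).mono (fun n hn => hn.le)
  obtain ⟨n, hn⟩ := ((((((((T1.and T2).and T3).and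
    ((Filter.eventually_all_finset F).mpr T4)).and
    ((Filter.eventually_all_finset F).mpr T5)).and
    ((Filter.eventually_all_finset F).mpr T6)).and
    ((Filter.eventually_all_finset K).mpr T7)).and
    ((Filter.eventually_all_finset K).mpr T8)).and
    ((Filter.eventually_all_finset K).mpr (fun g hg =>
      (Filter.eventually_all_finset F).mpr (T9 g hg)))).exists
  obtain ⟨⟨⟨⟨⟨⟨⟨⟨n1, n2⟩, n3⟩, n4⟩, n5⟩, n6⟩, n7⟩, n8⟩, n9⟩ := hn
  refine ⟨p.1 n, v.1 n, hp1 n, hp2 n, hv n, fun τ hτ => ⟨n1 τ hτ, n2 τ hτ, n3 τ hτ,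
    fun a ha => ⟨n4 a ha τ hτ, n5 a ha τ hτ, ?_⟩, fun g hg => ⟨n7 g hg τ hτ, n8 g hg τ hτ,
      fun a ha => n9 g hg a ha τ hτ⟩⟩⟩
  have := n6 a ha τ hτ
  have h15 : τ ((cst A a * p - (μ : ℂ) • cst A a).1 n) = τ (a * p.1 n) - μ * τ a := by
    show τ (a * p.1 n - (μ : ℂ) • a) = _
    rw [map_sub, map_smul, smul_eq_mul]
  rwa [h15] at this

theorem pair1 (hM : UniformMcDuff A) (hΓ : EquivariantUniformGamma α) (K : Finset G)
    {lam : ℝ} (hl0 : 0 < lam) (hl1 : lam ≤ 1) {J : ℕ} (hJ : 1 ≤ J) (F : Finset A) (ε : ℝ)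
    (hε : 0 < ε) : ∃ μ : ℝ, μ ∈ Set.Icc (1 / 2 : ℝ) 1 ∧ ∃ p v,
      GoodPair α μ (24 / lam ^ 2) (384 / (lam * J) ^ 2 + 6 * lam ^ 4) K F ε p v := by
  classical
  haveI : Nonempty (Fin J) := ⟨⟨0, hJ⟩⟩
  have hε1 : (0 : ℝ) < (ε / 24) ^ 2 := by positivity
  obtain ⟨M, Qp, hQ, hwin⟩ := cube_grid lam hl0 J hJ ((ε / 24) ^ 2) hε1
  have hs1 : Real.sqrt ((ε / 24) ^ 2) = ε / 24 := Real.sqrt_sq (by positivity)
  obtain ⟨R, hR1, hRa, hRb⟩ : ∃ R : ℕ, 1 ≤ R ∧
      (∀ i, commConst (Qp i) * Real.sqrt (100 / Real.sqrt R) ≤ ε / 4) ∧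
      (∀ i, vConst (Qp i) / Real.sqrt R ≤ ε / 4) := by
    have h2 : Tendsto (fun R : ℕ => Real.sqrt (R : ℝ)) atTop atTop :=
      Real.tendsto_sqrt_atTop.comp tendsto_natCast_atTop_atTop
    have h1 : Tendsto (fun R : ℕ => Real.sqrt (100 / Real.sqrt R)) atTop (𝓝 0) := by
      have h3 : Tendsto (fun R : ℕ => 100 / Real.sqrt (R : ℝ)) atTop (𝓝 0) :=
        tendsto_const_nhds.div_atTop h2
      have h4 := (Real.continuous_sqrt.tendsto 0).comp h3
      rw [Real.sqrt_zero] at h4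
      exact h4
    have h3 : ∀ i, ∀ᶠ R : ℕ in atTop, commConst (Qp i) * Real.sqrt (100 / Real.sqrt R) ≤
        ε / 4 := by
      intro i
      have h3 := h1.const_mul (commConst (Qp i))
      rw [mul_zero] at h3
      exact h3.eventually (eventually_le_nhds (by positivity))
    have h4 : ∀ i, ∀ᶠ R : ℕ in atTop, vConst (Qp i) / Real.sqrt R ≤ ε / 4 := by
      intro i
      have h5 : Tendsto (fun R : ℕ => vConst (Qp i) / Real.sqrt (R : ℝ)) atTop (𝓝 0) :=
        tendsto_const_nhds.div_atTop h2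
      exact h5.eventually (eventually_le_nhds (by positivity))
    obtain ⟨R, hR⟩ := (((Filter.eventually_all.mpr h3).and (Filter.eventually_all.mpr h4)).and
      (eventually_ge_atTop 1)).exists
    exact ⟨R, hR.2, hR.1.1, hR.1.2⟩
  haveI : Nonempty (Fin R) := ⟨⟨0, hR1⟩⟩
  obtain ⟨i, Φ, c, c0, hc, hΦ2, hΦ, hsee⟩ := hwin R hR1
  have hJr : (0 : ℝ) < J := by exact_mod_cast hJ
  have hμ : (∑ j, ((Φ j).card : ℝ) / 2 ^ R) / J ∈ Set.Icc (1 / 2 : ℝ) 1 := by
    constructor
    · rw [le_div_iff₀ hJr]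
      calc (1 / 2 : ℝ) * J = ∑ _j : Fin J, (1 / 2 : ℝ) := by
            rw [Finset.sum_const, Finset.card_univ, Fintype.card_fin, nsmul_eq_mul]; ring
        _ ≤ _ := Finset.sum_le_sum (fun j _ => hΦ2 j)
    · rw [div_le_iff₀ hJr]
      calc (∑ j, ((Φ j).card : ℝ) / 2 ^ R) ≤ ∑ _j : Fin J, (1 : ℝ) := by
            apply Finset.sum_le_sum
            intro j _
            rw [div_le_one (by positivity)]
            have h1 : (Φ j).card ≤ 2 ^ R := by
              have := Finset.card_le_univ (Φ j)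
              rwa [Fintype.card_fun, Fintype.card_bool, Fintype.card_fin] at this
            exact_mod_cast h1
        _ = 1 * J := by
            rw [Finset.sum_const, Finset.card_univ, Fintype.card_fin, nsmul_eq_mul]; ring
  refine ⟨_, hμ, ?_⟩
  set L : Finset G := insert 1 K with hL
  have h1 : (1 : G) ∈ L := Finset.mem_insert_self _ _
  have hKL : K ⊆ L := Finset.subset_insert _ _
  obtain ⟨v, hv1, hv2⟩ := exists_matSys α hM L (cst A '' (F : Set A))
    ((Finset.countable_toSet F).image _) R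
  have hXc := XZ_countable α L F v R Φ h1
  obtain ⟨z, hz⟩ := exists_part α hΓ (Bool × Fin J) K _ (hXc.union (hXc.image _))
  have hYc := XY_countable α L F v R z (pq Φ (VB α L v R) z ⟨1, h1⟩) h1
  obtain ⟨ζ, hζ⟩ := exists_part α hΓ (Fin R) K _ (hYc.union (hYc.image _))
  have hfacts : ∀ t : LimTr A, PairFacts α ((∑ j, ((Φ j).card : ℝ) / 2 ^ R) / J) (24 / lam ^ 2)
      (384 / (lam * J) ^ 2 + 6 * lam ^ 4) (ε / 2) K F (pq Φ (VB α L v R) z ⟨1, h1⟩)
      (vq (VB α L v R) ζ ⟨1, h1⟩) t := by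
    intro t
    obtain ⟨P, hP0, s⟩ := hv2 t
    refine pair_at α t s (fun a ha => hP0 _ ⟨a, ha, rfl⟩) h1 hKL hl0 hl1 hJ hR1 hQ hε1.le ?_ ?_
      (by positivity) hc hΦ hsee hz hζ
    · intro j
      rw [hs1]
      have := hRa j
      linarith only [this]
    · intro j
      rw [hs1]
      have := hRb j
      linarith
  -- contraction
  have hcontr : ∀ (t : LimTr A) (b : BSeq A), nrm t.val (vq (VB α L v R) ζ ⟨1, h1⟩ * b) ≤
      nrm t.val b := by
    intro t b
    rw [← t.nrm_c, ← t.nrm_c b, map_mul]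
    exact nrm_V_mul_le t.q_tracial (hfacts t).2.2.2.1 _
  obtain ⟨v', hv'1, hv'2⟩ := clampC _ hcontr
  obtain ⟨p', hp'1, hp'2⟩ := clampB (pq Φ (VB α L v R) z ⟨1, h1⟩)
    (fun t => t.nrm_eq (by rw [map_mul]; exact (hfacts t).1))
    (fun t => t.nrm_eq (by rw [t.c_star]; exact (hfacts t).2.1))
  exact goodPair_of_facts α (by positivity : (0 : ℝ) ≤ ε / 2) (by linarith only [hε]) (by positivity)
    (by positivity) (fun t => (hfacts t).congr α hp'2 hv'2) (fun n => (hp'1 n).2.2)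
    (fun n => (hp'1 n).2.1) hv'1

end

end Vale.Agent.P095
end

section

set_option linter.unusedSectionVars false
set_option linter.unusedVariables false
set_option linter.unusedSimpArgs false

namespace Vale.Agent.P095

open Filter Topology ComplexConjugate

section
variable {A : Type*} [CStarAlgebra A] {G : Type*} [Group G] (α : G →* (A ≃⋆ₐ[ℂ] A))

theorem GoodPair.mono {μ C κ κ' : ℝ} {K : Finset G} {F : Finset A} {ε : ℝ} {p v : A}
    (h : GoodPair α μ C κ K F ε p v) (hκ : κ ≤ κ') : GoodPair α μ C κ' K F ε p v := by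
  refine ⟨h.1, h.2.1, h.2.2.1, fun τ hτ => ?_⟩
  obtain ⟨h1, h2, h3, h4, h5⟩ := h.2.2.2 τ hτ
  refine ⟨h1, h2, h3, h4, fun g hg => ⟨(h5 g hg).1, (h5 g hg).2.1, fun a ha => ?_⟩⟩
  refine ((h5 g hg).2.2 a ha).trans ?_
  have : κ * nrm τ a ^ 2 ≤ κ' * nrm τ a ^ 2 := mul_le_mul_of_nonneg_right hκ (sq_nonneg _)
  linarith

theorem pair2 (hM : UniformMcDuff A) (hΓ : EquivariantUniformGamma α) (K : Finset G) {κ : ℝ}
    (hκ : 0 < κ) : ∃ C : ℝ, 0 ≤ C ∧ ∀ (F : Finset A) (ε : ℝ), 0 < ε →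
      ∃ μ ∈ Set.Icc (1 / 2 : ℝ) 1, ∃ p v, GoodPair α μ C κ K F ε p v := by
  obtain ⟨lam, hl0, hl1, hl⟩ : ∃ lam : ℝ, 0 < lam ∧ lam ≤ 1 ∧ 6 * lam ^ 4 ≤ κ / 2 := by
    have h1 : Tendsto (fun x : ℝ => 6 * x ^ 4) (𝓝[>] 0) (𝓝 0) := by
      have : Tendsto (fun x : ℝ => 6 * x ^ 4) (𝓝 0) (𝓝 (6 * 0 ^ 4)) :=
        (by fun_prop : Continuous (fun x : ℝ => 6 * x ^ 4)).tendsto 0
      rw [show (6 : ℝ) * 0 ^ 4 = 0 by norm_num] at this
      exact this.mono_left nhdsWithin_le_nhds
    have h2 : ∀ᶠ x : ℝ in 𝓝[>] 0, 6 * x ^ 4 ≤ κ / 2 :=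
      h1.eventually (eventually_le_nhds (by positivity))
    have h3 : ∀ᶠ x : ℝ in 𝓝[>] 0, x ≤ 1 :=
      (eventually_le_nhds (by norm_num : (0 : ℝ) < 1)).filter_mono nhdsWithin_le_nhds
    have h4 : ∀ᶠ x : ℝ in 𝓝[>] 0, 0 < x := eventually_mem_nhdsWithin
    obtain ⟨x, hx⟩ := ((h2.and h3).and h4).exists
    exact ⟨x, hx.2, hx.1.2, hx.1.1⟩
  obtain ⟨J, hJ1, hJ⟩ : ∃ J : ℕ, 1 ≤ J ∧ 384 / (lam * J) ^ 2 ≤ κ / 2 := by
    have h1 : Tendsto (fun J : ℕ => 384 / (lam * (J : ℝ)) ^ 2) atTop (𝓝 0) := by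
      have h2 : Tendsto (fun J : ℕ => lam * (J : ℝ)) atTop atTop :=
        tendsto_natCast_atTop_atTop.const_mul_atTop hl0
      have h3 : Tendsto (fun J : ℕ => (lam * (J : ℝ)) ^ 2) atTop atTop :=
        (tendsto_pow_atTop (by norm_num)).comp h2
      exact tendsto_const_nhds.div_atTop h3
    have h2 := h1.eventually (eventually_le_nhds (by positivity : (0 : ℝ) < κ / 2))
    obtain ⟨J, hJ⟩ := (h2.and (eventually_ge_atTop 1)).exists
    exact ⟨J, hJ.2, hJ.1⟩
  refine ⟨24 / lam ^ 2, by positivity, fun F ε hε => ?_⟩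
  obtain ⟨μ, hμ, p, v, h⟩ := pair1 α hM hΓ K hl0 hl1 hJ1 F ε hε
  exact ⟨μ, hμ, p, v, h.mono α (by linarith only [hl, hJ])⟩

theorem pair3 (hM : UniformMcDuff A) (hΓ : EquivariantUniformGamma α) (K : Finset G) (κ : ℝ)
    (hκ : 0 < κ) : ∃ μ C : ℝ, 1 / 2 ≤ μ ∧ μ ≤ 1 ∧ 0 ≤ C ∧
      ∀ (F : Finset A) (ε : ℝ), 0 < ε → ∃ p v, GoodPair α μ C κ K F ε p v := by
  classical
  obtain ⟨Cc, hCc, h0⟩ := pair2 α hM hΓ K hκ
  have h0' : ∀ w : Finset A × ℕ, ∃ μ : ℝ, μ ∈ Set.Icc (1 / 2 : ℝ) 1 ∧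
      ∃ p v, GoodPair α μ Cc κ K w.1 (1 / ((w.2 : ℝ) + 1)) p v := fun w => by
    obtain ⟨μ, hμ, p, v, h⟩ := h0 w.1 (1 / ((w.2 : ℝ) + 1)) (by positivity)
    exact ⟨μ, hμ, p, v, h⟩
  choose m hm p v hp using h0'
  let U : Ultrafilter (Finset A × ℕ) := Ultrafilter.of atTop
  have hU : (U : Filter (Finset A × ℕ)) ≤ atTop := Ultrafilter.of_le _
  obtain ⟨μ, hμ, hlim⟩ := (isCompact_Icc : IsCompact (Set.Icc (1 / 2 : ℝ) 1)).ultrafilter_le_nhds
    (U.map m) (by
      rw [le_principal_iff, Ultrafilter.coe_map, Filter.mem_map]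
      exact Filter.Eventually.of_forall (p := fun w => m w ∈ Set.Icc (1 / 2 : ℝ) 1) hm)
  have hlim' : Tendsto m U (𝓝 μ) := hlim
  refine ⟨μ, Cc, hμ.1, hμ.2, hCc, fun F ε hε => ?_⟩
  set C : ℝ := 1 + ∑ a ∈ F, ‖a‖ with hC
  have hCa : ∀ a ∈ F, ‖a‖ ≤ C := by
    intro a ha
    have := Finset.single_le_sum (f := fun a : A => ‖a‖) (fun _ _ => by (clear * -; positivity)) ha
    linarith only [this]
  have hC0 : 0 < C := by
    have : 0 ≤ ∑ a ∈ F, ‖a‖ := Finset.sum_nonneg (fun _ _ => by positivity)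
    linarith only [this]
  obtain ⟨N, hN⟩ := exists_nat_gt (2 / ε)
  have e1 : ∀ᶠ w in (U : Filter (Finset A × ℕ)), (F, N) ≤ w :=
    hU (eventually_ge_atTop (F, N))
  have e2 : ∀ᶠ w in (U : Filter (Finset A × ℕ)), |m w - μ| < ε / (2 * C) := by
    have := hlim'.eventually (Metric.ball_mem_nhds μ (by (clear * - hε; positivity) : 0 < ε / (2 * C)))
    refine this.mono (fun w hw => ?_)
    rwa [Real.dist_eq] at hw
  obtain ⟨w, hw1, hw2⟩ := (e1.and e2).exists
  obtain ⟨h1, h2, h2', h3⟩ := hp w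
  have hb : 1 / ((w.2 : ℝ) + 1) ≤ ε / 2 := by
    have hN2 : (N : ℝ) ≤ w.2 := by exact_mod_cast hw1.2
    rw [div_le_iff₀ (by (clear * -; positivity))]
    rw [div_lt_iff₀ hε] at hN
    nlinarith only [hN, hN2]
  refine ⟨p w, v w, h1, h2, h2', fun τ hτ => ?_⟩
  obtain ⟨g1, g2, g3, g4, g5⟩ := h3 τ hτ
  refine ⟨by linarith only [hε, hb, g1], by linarith only [hε, hb, g2], by linarith only [hε, hb, g3], fun a ha => ⟨?_, ?_, ?_⟩, fun g hg =>
    ⟨(g5 g hg).1.trans (by linarith only [hε, hb]), (g5 g hg).2.1.trans (by linarith only [hε, hb]), fun a ha =>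
      ((g5 g hg).2.2 a (hw1.1 ha)).trans (by linarith only [hε, hb])⟩⟩
  · exact (g4 a (hw1.1 ha)).1.trans (by linarith only [hε, hb])
  · exact (g4 a (hw1.1 ha)).2.1.trans (by linarith only [hε, hb])
  · have g4 := (g4 a (hw1.1 ha)).2.2
    have g5 : τ (a * p w) - μ * τ a = (τ (a * p w) - m w * τ a) + ((m w - μ : ℝ) : ℂ) * τ a := by
      push_cast; ring
    rw [g5]
    refine (norm_add_le _ _).trans ?_
    rw [norm_mul, Complex.norm_real, Real.norm_eq_abs]
    have g6 : ‖τ a‖ ≤ C := (hτ.norm_le a).trans (hCa a ha)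
    have g7 : |m w - μ| * ‖τ a‖ ≤ ε / (2 * C) * C :=
      mul_le_mul hw2.le g6 (norm_nonneg _) (by (clear * - hε; positivity))
    have g8 : ε / (2 * C) * C = ε / 2 := by field_simp
    linarith only [hb, g4, g7, g8]

/-- **Equivariant McDuff**: amenable group actions on uniformly McDuff algebras with
property Gamma for the action. -/
theorem mcduff_main' (hG : IsAmenable G) (hM : UniformMcDuff A)
    (hΓ : EquivariantUniformGamma α) : EquivariantUniformMcDuff α :=
  mcduff_of_trial α (trial_of_pairs α hG hΓ (pair3 α hM hΓ))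

/-- **Equivariant McDuff**, version with the nonequivariant property Gamma. -/
theorem mcduff_main (hG : IsAmenable G) (hM : UniformMcDuff A) (hA : UniformGamma A) :
    EquivariantUniformMcDuff α :=
  mcduff_main' α hG hM (equivariant_gamma hG hA α)

end

end Vale.Agent.P095
end

section

/-! The relative form of the equivariant McDuff property. -/

set_option linter.unusedSectionVars false

open Filter Topology

namespace Vale.Agent.P095N

open Vale.Agent.P101 Vale.Agent.P133 Vale.Agent.P095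

universe u w

variable {M : Type u} [CStarAlgebra M] {I : CIdeal M}

theorem defectN_eq (w : M) : defectN w = (1 / 2 : ℂ) • (star (w * w) * (w * w) +
    star (star w * w + w * star w - 1) * (star w * w + w * star w - 1)) := by
  unfold defectN
  congr 2
  rw [star_sub, star_add, star_mul, star_mul, star_star, star_one]
  noncomm_ring

/-- The action on the relative central sequence algebra has the equivariant McDuff property. -/
theorem exists_mcduff_FR (hsep : SepI I) {ι : Type} {μ : Filter ι} [NeBot μ]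
    (h : IsEmpty (FR I μ →⋆ₐ[ℂ] ℂ)) {G : Type w} [Group G] (β : G →* (M ≃⋆ₐ[ℂ] M))
    (hβ : InvI I β) (hG : IsAmenable G) :
    EquivariantUniformMcDuff (FR.actE β hβ (atTop : Filter ℕ)) :=
  have hc := commGlue hsep h
  mcduff_main _ hG (uniformMcDuff_of_commGlue hc) (uniformGamma_of_commGlue hc)

theorem exists_w_FR (hsep : SepI I) {ι : Type} {μ : Filter ι} [NeBot μ]
    (h : IsEmpty (FR I μ →⋆ₐ[ℂ] ℂ)) {G : Type w} [Group G] (β : G →* (M ≃⋆ₐ[ℂ] M))
    (hβ : InvI I β) (hG : IsAmenable G) (S : Finset G) (ε : ℝ) (hε : 0 < ε) :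
    ∃ w : FR I (atTop : Filter ℕ), ‖w‖ ≤ 1 ∧
      (∀ g ∈ S, ‖FR.actE β hβ (atTop : Filter ℕ) g w - w‖ ≤ ε) ∧ TwoNormLE (w * w) ε ∧
      TwoNormLE (star w * w + w * star w - 1) ε := by
  let _ : PartialOrder (FR I (atTop : Filter ℕ)) := CStarAlgebra.spectralOrder _
  have _ : StarOrderedRing (FR I (atTop : Filter ℕ)) := CStarAlgebra.spectralOrderedRing _
  obtain ⟨w, h1, -, h2, h3, h4⟩ := lift_mcduff (FR.actE β hβ (atTop : Filter ℕ))
    (exists_mcduff_FR hsep h β hβ hG) ∅ S ε hε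
  exact ⟨w, h1, h2, h3, h4⟩

/-- The relative lift property. -/
theorem liftR [PartialOrder M] [StarOrderedRing M] (hsep : SepI I) {ι : Type} {μ : Filter ι}
    [NeBot μ] (h : IsEmpty (FR I μ →⋆ₐ[ℂ] ℂ)) {G : Type w} [Group G] (β : G →* (M ≃⋆ₐ[ℂ] M))
    (hβ : InvI I β) (hG : IsAmenable G) : P095K.LiftR I β := by
  intro F U S ε hF hU hε
  set C : ℝ := 1 + ∑ a ∈ F, ‖a‖ + ∑ u ∈ U, ‖u‖ ^ 2 with hC
  have hF0 : 0 ≤ ∑ a ∈ F, ‖a‖ := Finset.sum_nonneg fun _ _ => norm_nonneg _
  have hU0 : 0 ≤ ∑ u ∈ U, ‖u‖ ^ 2 := Finset.sum_nonneg fun _ _ => sq_nonneg _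
  have hC0 : 0 < C := by linarith
  have hCF : ∀ a ∈ F, ‖a‖ < C := fun a ha => by
    have : ‖a‖ ≤ ∑ a ∈ F, ‖a‖ :=
      Finset.single_le_sum (f := fun a : M => ‖a‖) (fun _ _ => norm_nonneg _) ha
    linarith only [hU0, this]
  have hCU : ∀ u ∈ U, ‖u‖ ^ 2 < C := fun u hu => by
    have : ‖u‖ ^ 2 ≤ ∑ u ∈ U, ‖u‖ ^ 2 :=
      Finset.single_le_sum (f := fun u : M => ‖u‖ ^ 2) (fun _ _ => sq_nonneg _) hu
    linarith
  set ε₀ : ℝ := min 1 (ε / C) with hε₀
  have h0 : 0 < ε₀ := lt_min one_pos (by (clear * - hε; positivity))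
  have h01 : ε₀ ≤ 1 := min_le_left _ _
  have h02 : ε₀ * C ≤ ε := by
    have := min_le_right 1 (ε / C)
    calc ε₀ * C ≤ ε / C * C := mul_le_mul_of_nonneg_right this hC0.le
      _ = ε := by (clear * - hC0 hε; field_simp)
  obtain ⟨w, hw1, hwS, hw2, hw3⟩ := exists_w_FR hsep h β hβ hG S ε₀ h0
  obtain ⟨x, rfl, hx1⟩ := FR.exists_lift_one w hw1
  have c1 : ∀ᶠ i in (atTop : Filter ℕ), ∀ a ∈ F, ‖(x : ℕ → M) i * a - a * (x : ℕ → M) i‖ ≤ ε :=
    (Filter.eventually_all_finset F).2 fun a ha =>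
      (relSeq_comm x (hF a ha)).eventually (eventually_le_nhds hε)
  have c2 : ∀ᶠ i in (atTop : Filter ℕ), ∀ a ∈ F, ∀ g ∈ S,
      ‖(β g ((x : ℕ → M) i) - (x : ℕ → M) i) * a‖ ≤ ε := by
    refine (Filter.eventually_all_finset F).2 fun a ha =>
      (Filter.eventually_all_finset S).2 fun g hg => ?_
    have h1 : FR.mk I atTop (FR.actSeq β hβ atTop g x - x) =
        FR.actE β hβ (atTop : Filter ℕ) g (FR.mk I atTop x) - FR.mk I atTop x := by
      rw [map_sub, FR.actE_apply, FR.act_mk]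
    have h2 : ‖FR.mk I atTop (FR.actSeq β hβ atTop g x - x)‖ * ‖a‖ < ε := by
      rw [h1]
      calc _ ≤ ε₀ * ‖a‖ := mul_le_mul_of_nonneg_right (hwS g hg) (norm_nonneg _)
        _ < ε₀ * C := mul_lt_mul_of_pos_left (hCF a ha) h0
        _ ≤ ε := h02
    exact (FR.eventually_mul_lt _ (hF a ha) h2).mono fun i hi => hi.le
  have c3 : ∀ᶠ i in (atTop : Filter ℕ), ∀ u ∈ U, Small u (defectN ((x : ℕ → M) i)) ε := by
    refine (Filter.eventually_all_finset U).2 fun u hu => ?_
    have h1 : ‖u‖ ^ 2 * ε₀ ^ 2 < ε := by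
      have h2 : ε₀ ^ 2 ≤ ε₀ := by nlinarith only [h0, h01]
      calc ‖u‖ ^ 2 * ε₀ ^ 2 ≤ ‖u‖ ^ 2 * ε₀ := mul_le_mul_of_nonneg_left h2 (sq_nonneg _)
        _ < C * ε₀ := mul_lt_mul_of_pos_right (hCU u hu) h0
        _ ≤ ε := by rw [mul_comm]; exact h02
    have h2 : TwoNormLE (FR.mk I atTop (x * x)) ε₀ := by rw [map_mul]; exact hw2
    have h3 : TwoNormLE (FR.mk I atTop (star x * x + x * star x - 1)) ε₀ := by
      rw [map_sub, map_add, map_mul, map_mul, map_star, map_one]; exact hw3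
    refine (eventually_small (IsSelfAdjoint.of_nonneg (hU u hu).2) (hU u hu).1 (x * x)
      (star x * x + x * star x - 1) h2 h3 h1).mono fun i hi => ?_
    rw [defectN_eq]
    exact hi
  obtain ⟨i, h1, h2, h3⟩ := (c1.and (c2.and c3)).exists
  exact ⟨(x : ℕ → M) i, ⟨hx1 i, fun a ha => ⟨h1 a ha, fun g hg => h2 a ha g hg⟩⟩, h3⟩

end Vale.Agent.P095N
end

section

/-! Basic approximation lemmas in the unital framework. `cut σ` is `u ↦ min 1 (u / σ)`. -/

open scoped ComplexOrder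

namespace Vale.Agent.P133

universe u

variable {M : Type u} [CStarAlgebra M]

variable [PartialOrder M] [StarOrderedRing M]

omit [PartialOrder M] [StarOrderedRing M] in
theorem cfc_mem_ideal (A : CIdeal M) {f : ℝ → ℝ} (hf : Continuous f) (hf0 : f 0 = 0) {a : M}
    (ha : IsSelfAdjoint a) (haA : a ∈ A) : cfc f a ∈ A := K.cfc_mem_ideal A hf hf0 ha haA

end Vale.Agent.P133
end

section

/-! The relative comparison theorem. -/

set_option linter.unusedSectionVars false

namespace Vale.Agent.P095C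

open Vale.Agent Vale.Agent.P133 Vale.Agent.P095N Vale.Agent.P095

universe u

variable {M : Type u} [CStarAlgebra M] [PartialOrder M] [StarOrderedRing M]

theorem exists_unitI (I : CIdeal M) (F : Finset M) (hF : ∀ x ∈ F, x ∈ I) {ε : ℝ} (hε : 0 < ε) :
    ∃ g : M, g ∈ I ∧ 0 ≤ g ∧ ‖g‖ ≤ 1 ∧ ∀ a ∈ F, ‖a * g - a‖ ≤ ε ∧ ‖g * a - a‖ ≤ ε := by
  obtain ⟨u, hu, h⟩ := P133.exists_approx_unit I (c := fun a : F => (a : M))
    (fun i => hF _ i.2) hε
  refine ⟨u, hu.mem, hu.nonneg, ?_, fun a ha => ?_⟩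
  · exact (CStarAlgebra.norm_le_one_iff_of_nonneg u hu.nonneg).2 hu.le_one
  · obtain ⟨h1, h2⟩ := h ⟨a, ha⟩
    have e1 : a * u - a = - (a * (1 - u)) := by noncomm_ring
    have e2 : u * a - a = - ((1 - u) * a) := by noncomm_ring
    rw [e1, e2, norm_neg, norm_neg]
    exact ⟨h1.le, h2.le⟩

theorem cut_mem {I : CIdeal M} {h : M} (h0 : 0 ≤ h) (hI : h ∈ I) {ε : ℝ} (hε : 0 ≤ ε) :
    P135.cut h ε ∈ I := by
  unfold P135.cut
  refine P133.cfc_mem_ideal I (f := fun t : ℝ => max (t - ε) 0) (by fun_prop) ?_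
    h0.isSelfAdjoint hI
  simpa only [zero_sub, sup_eq_right, Left.neg_nonpos_iff] using hε

theorem norm_cut_sub_le {h : M} (h0 : 0 ≤ h) {ε : ℝ} (hε : 0 ≤ ε) : ‖P135.cut h ε - h‖ ≤ ε := by
  unfold P135.cut
  have e1 : cfc (fun t : ℝ => max (t - ε) 0) h - h =
      cfc (fun t : ℝ => max (t - ε) 0 - t) h := by
    rw [cfc_sub (fun t : ℝ => max (t - ε) 0) (fun t => t) h (by fun_prop) (by fun_prop),
      cfc_id' ℝ h]
  rw [e1]
  refine norm_cfc_le hε fun t ht => ?_
  have ht0 : 0 ≤ t := spectrum_nonneg_of_nonneg h0 ht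
  rw [Real.norm_eq_abs, abs_le]
  constructor
  · have := le_max_left (t - ε) 0
    linarith only [this]
  · have : max (t - ε) 0 ≤ t := max_le (by linarith) ht0
    linarith

theorem norm_cut_le_one {h : M} (h0 : 0 ≤ h) (h1 : ‖h‖ ≤ 1) {ε : ℝ} (hε : 0 ≤ ε) :
    ‖P135.cut h ε‖ ≤ 1 := by
  unfold P135.cut
  refine norm_cfc_le zero_le_one fun t ht => ?_
  have ht0 : 0 ≤ t := spectrum_nonneg_of_nonneg h0 ht
  have ht1 : t ≤ 1 := by
    have h2 : ‖t‖ ≤ ‖h‖ := by
      rcases subsingleton_or_nontrivial M with hs | hs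
      · exfalso
        have : spectrum ℝ h = ∅ := by
          rw [Subsingleton.elim h 1]
          ext x
          simp
        rw [this] at ht
        exact ht
      · exact spectrum.norm_le_norm_of_mem ht
    rw [Real.norm_of_nonneg ht0] at h2
    exact h2.trans h1
  rw [Real.norm_of_nonneg (le_max_right _ _)]
  exact max_le (by linarith) zero_le_one

theorem cut_nonneg' (h : M) (ε : ℝ) : 0 ≤ P135.cut h ε := by
  unfold P135.cut
  exact cfc_nonneg fun s _ => le_max_right _ _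

theorem cmpR_cut (hnuc : P083.IsNuclear M) {I : CIdeal M} (hS : SimpleI I) (hU : UPLocal I)
    {h : M} (h0 : 0 ≤ h) (hI : h ∈ I) (h1 : ‖h‖ ≤ 1) {e₀ : ℝ} (he₀ : 0 < e₀) :
    CmpR I (P135.cut h e₀) := by
  intro d hd hd0 hdne ε hε
  set u : M := P135.cut h e₀ with hu
  have hu0 : 0 ≤ u := cut_nonneg' h e₀
  have huI : u ∈ I := cut_mem h0 hI he₀.le
  have hds : star d = d := hd0.isSelfAdjoint.star_eq
  have hcI : star d * d ∈ I := I.mul_left' _ _ hd
  have hc0 : 0 ≤ star d * d := star_mul_self_nonneg d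
  have hcne : star d * d ≠ 0 := fun h => hdne (CStarRing.star_mul_self_eq_zero_iff d |>.1 h)
  obtain ⟨m, hm⟩ := cut_cuntz_of_simple hS hI h0 hcI hc0 hcne he₀
  obtain ⟨δ, hδ, hfree⟩ := free_trick_her hnuc hu0 (2 * m + 1) (ε := ε / 4) (by (clear * - hε; positivity))
  refine ⟨δ / 4, by (clear * - hδ; positivity), fun e he0 he1 hsm => ?_⟩
  obtain ⟨N, z, hz, hz1, hz2⟩ := exists_small_family_her hu0 he0 hδ hsm hδ
  have heu : u * e * u ∈ herC u := subset_closure ⟨e, rfl⟩
  have hus : star u = u := hu0.isSelfAdjoint.star_eq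
  have he'0 : 0 ≤ u * e * u := by
    have := star_left_conjugate_nonneg he0 u
    rwa [hus] at this
  have hu1 : ‖u‖ ≤ 1 := norm_cut_le_one h0 h1 he₀.le
  set e' : M := u * e * u with he'
  have he'1 : ‖e'‖ ≤ 1 := by
    calc ‖u * e * u‖ ≤ ‖u‖ * ‖e‖ * ‖u‖ :=
          (norm_mul_le _ _).trans (mul_le_mul_of_nonneg_right (norm_mul_le _ _) (norm_nonneg _))
      _ ≤ 1 * 1 * 1 := by (clear * - hu1 he1; gcongr)
      _ = 1 := by norm_num
  have he'I : e' ∈ I := I.mul_left' _ _ huI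
  obtain ⟨k, hk, hcu⟩ := hfree e' heu he'0 he'1 N z hz hz1 hz2
  have h2 : P135.CuntzLE (fun _ : Fin 1 => u) (fun _ : Fin m => star d * d) := by
    have := hm.reindex (Equiv.equivPUnit (Fin 1)) (Equiv.refl (Fin m))
    exact this
  have h3 := cuntz_mul h2 (2 * k)
  rw [mul_one] at h3
  have h4 := hcu.trans h3
  have h5 : 2 * k * m < (2 * m + 1) * k := by
    have : 2 * k * m = 2 * m * k := by ring
    rw [this]
    exact Nat.mul_lt_mul_of_pos_right (Nat.lt_succ_self _) hk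
  obtain ⟨x, hx⟩ := unperfR hU (cut_nonneg' e' (ε / 4)) hc0 (cut_mem he'0 he'I (by positivity))
    hcI h5 h4 (ε / 4) (by positivity)
  have hx1 := hx () ()
  rw [if_pos rfl] at hx1
  simp only [Finset.univ_unique, Finset.sum_singleton] at hx1
  set y : M := x () () with hy
  have hx2 : ‖y * (star d * d) * star y - P135.cut e' (ε / 4)‖ ≤ ε / 4 := hx1
  obtain ⟨g, hgI, hg0, hg1, hg⟩ := exists_unitI I {P135.cut e' (ε / 4)}
    (fun w hw => by
      rw [Finset.mem_singleton.1 hw]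
      exact cut_mem he'0 he'I (by (clear * - hε; positivity))) (ε := ε / 8) (by positivity)
  obtain ⟨hg2, hg3⟩ := hg _ (Finset.mem_singleton_self _)
  have hgs : star g = g := hg0.isSelfAdjoint.star_eq
  refine ⟨star y * g, I.mul_left' _ _ hgI, ?_⟩
  have e1 : star (d * (star y * g)) * (d * (star y * g)) - e' =
      g * (y * (star d * d) * star y - P135.cut e' (ε / 4)) * g +
      g * (P135.cut e' (ε / 4) * g - P135.cut e' (ε / 4)) +
      (g * P135.cut e' (ε / 4) - P135.cut e' (ε / 4)) + (P135.cut e' (ε / 4) - e') := by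
    rw [star_mul, star_mul, star_star, hgs]
    noncomm_ring
  rw [e1]
  have n1 : ‖g * (y * (star d * d) * star y - P135.cut e' (ε / 4)) * g‖ ≤ ε / 4 := by
    calc _ ≤ ‖g‖ * ‖y * (star d * d) * star y - P135.cut e' (ε / 4)‖ * ‖g‖ :=
          (norm_mul_le _ _).trans (mul_le_mul_of_nonneg_right (norm_mul_le _ _) (norm_nonneg _))
      _ ≤ 1 * (ε / 4) * 1 := by (clear * - hg1 hx1 hε; gcongr)
      _ = ε / 4 := by ring
  have n2 : ‖g * (P135.cut e' (ε / 4) * g - P135.cut e' (ε / 4))‖ ≤ ε / 8 := by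
    calc _ ≤ ‖g‖ * ‖P135.cut e' (ε / 4) * g - P135.cut e' (ε / 4)‖ := norm_mul_le _ _
      _ ≤ 1 * (ε / 8) := by (clear * - hg1 hg2; gcongr)
      _ = ε / 8 := by ring
  have n3 := norm_cut_sub_le he'0 (ε := ε / 4) (by positivity)
  refine (norm_add_le _ _).trans ?_
  refine (add_le_add ((norm_add_le _ _).trans (add_le_add (norm_add_le _ _) le_rfl)) le_rfl).trans ?_
  linarith only [hε, hg3, n1, n2, n3]

theorem cmpI (hnuc : P083.IsNuclear M) (I : CIdeal M) (hS : SimpleI I) (hU : UPLocal I) :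
    CmpI I := by
  intro X ε hX hε
  obtain ⟨h, hI, h0, h1, hh⟩ := exists_unitI I X hX (ε := ε / 2) (by positivity)
  set K : ℝ := ∑ x ∈ X, ‖x‖ with hK
  have hK0 : 0 ≤ K := Finset.sum_nonneg fun _ _ => norm_nonneg _
  set e₀ : ℝ := ε / 2 / (K + 1) with he₀
  have he₀0 : 0 < e₀ := by positivity
  refine ⟨P135.cut h e₀, cut_mem h0 hI he₀0.le, cut_nonneg' h e₀, norm_cut_le_one h0 h1 he₀0.le,
    cmpR_cut hnuc hS hU h0 hI h1 he₀0, fun x hx => ?_⟩
  have h2 := norm_cut_sub_le h0 he₀0.le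
  have h3 : ‖x‖ * e₀ ≤ ε / 2 := by
    have h4 : ‖x‖ ≤ K := Finset.single_le_sum (f := fun x : M => ‖x‖)
      (fun _ _ => norm_nonneg _) hx
    rw [he₀, mul_div_assoc', div_le_iff₀ (by positivity)]
    nlinarith only [hε, h4]
  constructor
  · have e1 : x * P135.cut h e₀ - x = x * (P135.cut h e₀ - h) + (x * h - x) := by noncomm_ring
    rw [e1]
    refine (norm_add_le _ _).trans ?_
    have n1 : ‖x * (P135.cut h e₀ - h)‖ ≤ ‖x‖ * e₀ :=
      (norm_mul_le _ _).trans (mul_le_mul_of_nonneg_left h2 (norm_nonneg _))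
    have n2 := (hh x hx).1
    linarith only [h3, n1, n2]
  · have e1 : P135.cut h e₀ * x - x = (P135.cut h e₀ - h) * x + (h * x - x) := by noncomm_ring
    rw [e1]
    refine (norm_add_le _ _).trans ?_
    have n1 : ‖(P135.cut h e₀ - h) * x‖ ≤ e₀ * ‖x‖ :=
      (norm_mul_le _ _).trans (mul_le_mul_of_nonneg_right h2 (norm_nonneg _))
    have n2 := (hh x hx).2
    linarith only [h3, n1, n2]

end Vale.Agent.P095C
end

section

/-! The local form of the fixed point algebra of the relative central sequence algebra has no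
characters. -/

set_option linter.unusedSectionVars false

open Filter Topology
open scoped CStarAlgebra ComplexOrder

namespace Vale.Agent.P095N

open Vale.Agent.P133

universe u w

variable {M : Type u} [CStarAlgebra M] [PartialOrder M] [StarOrderedRing M] {I : CIdeal M}

theorem cpapR_of_isNuclear (hN : P083.IsNuclear M) : P095M.CPAPR I := by
  intro F ε hε
  obtain ⟨n, φ, ψ, h⟩ := P095.cpap_of_isNuclear hN F ε hε
  exact ⟨n, φ, ψ, fun a ha _ => h a ha⟩

theorem exists_b0 (hne : ∃ b ∈ I, b ≠ 0) : ∃ b ∈ I, 0 ≤ b ∧ ‖b‖ = 1 := by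
  obtain ⟨b, hb, hb0⟩ := hne
  have h1 : 0 < ‖star b * b‖ := by
    rw [CStarRing.norm_star_mul_self]
    have := norm_pos_iff.2 hb0
    (clear * - hb0; positivity)
  refine ⟨(‖star b * b‖⁻¹ : ℝ) • (star b * b), I.smul_mem _ (I.left_mem _ hb),
    smul_nonneg (inv_nonneg.2 h1.le) (star_mul_self_nonneg b), ?_⟩
  rw [norm_smul, norm_inv, norm_norm, inv_mul_cancel₀ h1.ne']

theorem twoOrthR_of (hS : SimpleI I) (hsep : SepI I)
    (b₀ : M) (hb₀ : b₀ ∈ I) (hb0 : 0 ≤ b₀) (hb1 : ‖b₀‖ = 1) {ι : Type} {μ : Filter ι} [NeBot μ]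
    (h : IsEmpty (FR I μ →⋆ₐ[ℂ] ℂ)) : P095M.TwoOrthR I b₀ := by
  intro F δ hF hδ
  obtain ⟨t, ht, ht2⟩ := centOrthR_of_noChar hS hsep b₀ hb₀ hb0 hb1 h 2 F δ hF hδ
  exact ⟨t 0, t 1, ht 0, ht 1, ht2 0 1 (by decide)⟩

/-- The local output of the relative theory. -/
theorem localNoCharR_of (hS : SimpleI I) (hne : ∃ b ∈ I, b ≠ 0) (hsep : SepI I)
    (hN : P083.IsNuclear M) (hNC : NoCharLocI I) {G : Type w} [Group G]
    (β : G →* (M ≃⋆ₐ[ℂ] M)) (hβ : InvI I β) (hG : P095.IsAmenable G) : LocalNoCharR I β := by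
  have hF := isEmpty_char_FR hsep hNC
  obtain ⟨b, hb, hb0, hb1⟩ := exists_b0 hne
  have : Nontrivial M := ⟨⟨b, 0, fun h => by rw [h, norm_zero] at hb1; exact zero_ne_one hb1⟩⟩
  have h2 := twoOrthR_of hS hsep b hb hb0 hb1 hF
  have hSI : SIR I b := P095M.sir_of_cpap hS b hb hb1.le (cpapR_of_isNuclear hN)
    (P095M.centOrthR_of_two hS hb hb0 hb1 h2) (P095C.cmpI hN I hS (upLocal_of_isEmpty I hF))
  exact P095K.localNoCharR_of_eqSIR I β hβ (P095K.eq_siR hS ⟨hsep⟩ hβ hb hb1 h2 hSI hG)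
    (liftR hsep hF β hβ hG)

end Vale.Agent.P095N
end

section

/-! Properties of the ideal `A` in the unitization of `A`. -/

set_option linter.unusedSectionVars false

open Filter Topology

namespace Vale.Agent.P095M

open Vale.Agent.P133 (CIdeal)
open Vale.Agent.P095N (SimpleI InvI)

universe u v w

/-- A possibly nonunital C*-algebra is simple: it is nonzero and has no nontrivial closed
two-sided ideal. -/
structure IsSimpleN (A : Type u) [NonUnitalCStarAlgebra A] : Prop where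
  nonzero : ∃ a : A, a ≠ 0
  simple : ∀ I : TwoSidedIdeal A, IsClosed (I : Set A) → I = ⊥ ∨ I = ⊤

section
variable {A : Type u} [NonUnitalCStarAlgebra A]

theorem IsSimpleN.approx (h : IsSimpleN A) {a : A} (ha : a ≠ 0) (b : A) (ε : ℝ) (hε : 0 < ε) :
    ∃ (n : ℕ) (l r : Fin n → A), ‖∑ i, l i * a * r i - b‖ < ε := by
  set S : Set A := {x | ∃ (n : ℕ) (l r : Fin n → A), x = ∑ i, l i * a * r i} with hS
  have h0 : (0 : A) ∈ S := ⟨0, fun i => i.elim0, fun i => i.elim0, by simp⟩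
  have hadd : ∀ x ∈ S, ∀ y ∈ S, x + y ∈ S := by
    rintro x ⟨n, l, r, rfl⟩ y ⟨m, l', r', rfl⟩
    refine ⟨n + m, Fin.append l l', Fin.append r r', ?_⟩
    rw [Fin.sum_univ_add]
    simp only [Fin.append_left, Fin.append_right]
  have hneg : ∀ x ∈ S, -x ∈ S := by
    rintro x ⟨n, l, r, rfl⟩
    exact ⟨n, fun i => -l i, r, by simp only [neg_mul, Finset.sum_neg_distrib]⟩
  have hl : ∀ x : A, ∀ y ∈ S, x * y ∈ S := by
    rintro x y ⟨n, l, r, rfl⟩
    refine ⟨n, fun i => x * l i, r, ?_⟩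
    rw [Finset.mul_sum]
    exact Finset.sum_congr rfl fun i _ => by simp only [mul_assoc]
  have hr : ∀ x ∈ S, ∀ y : A, x * y ∈ S := by
    rintro x ⟨n, l, r, rfl⟩ y
    refine ⟨n, l, fun i => r i * y, ?_⟩
    rw [Finset.sum_mul]
    exact Finset.sum_congr rfl fun i _ => by simp only [mul_assoc]
  let I : TwoSidedIdeal A := TwoSidedIdeal.mk' (closure S)
    (subset_closure h0)
    (by
      intro x y hx hy
      exact map_mem_closure₂ continuous_add hx hy hadd)
    (by
      intro x hx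
      exact map_mem_closure continuous_neg hx hneg)
    (by
      intro x y hy
      exact map_mem_closure (f := fun y => x * y) (continuous_const.mul continuous_id) hy
        (hl x))
    (by
      intro x y hx
      exact map_mem_closure (f := fun x => x * y) (continuous_id.mul continuous_const) hx
        fun x hx => hr x hx y)
  have hI : (I : Set A) = closure S := TwoSidedIdeal.coe_mk' _ _ _ _ _ _
  have hne : star a * a * star a ≠ 0 := by
    intro h1
    have h2 : star (star a * a) * (star a * a) = 0 := by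
      rw [star_mul, star_star]
      calc star a * a * (star a * a) = star a * a * star a * a := by simp only [mul_assoc]
        _ = 0 := by rw [h1, zero_mul]
    rw [CStarRing.star_mul_self_eq_zero_iff, CStarRing.star_mul_self_eq_zero_iff] at h2
    exact ha h2
  have hmem : star a * a * star a ∈ I := by
    have h1 : star a * a * star a ∈ (I : Set A) := by
      rw [hI]
      exact subset_closure ⟨1, fun _ => star a, fun _ => star a, by simp only [Finset.univ_unique, Fin.default_eq_zero, Fin.isValue, Finset.sum_const, Finset.card_singleton, one_smul]⟩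
    exact h1
  rcases h.simple I (by rw [hI]; exact isClosed_closure) with h1 | h1
  · rw [h1, TwoSidedIdeal.mem_bot] at hmem
    exact absurd hmem hne
  · have h2 : b ∈ closure S := by
      rw [← hI]
      show b ∈ I
      rw [h1]
      exact trivial
    obtain ⟨x, ⟨n, l, r, rfl⟩, hd⟩ := Metric.mem_closure_iff.1 h2 ε hε
    refine ⟨n, l, r, ?_⟩
    rw [dist_eq_norm, norm_sub_rev] at hd
    exact hd

theorem simpleI_inr (h : IsSimpleN A) : SimpleI (inrIdeal A) := by
  intro a ha ha0 b hb ε hε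
  obtain ⟨a', rfl⟩ := mem_inrIdeal_iff.1 ha
  obtain ⟨b', rfl⟩ := mem_inrIdeal_iff.1 hb
  have ha' : a' ≠ 0 := by
    rintro rfl
    exact ha0 (Unitization.inr_zero ℂ)
  obtain ⟨n, l, r, hlr⟩ := h.approx ha' b' ε hε
  refine ⟨n, fun i => (l i : Unitization ℂ A), fun i => (r i : Unitization ℂ A),
    fun i => inr_mem _, fun i => inr_mem _, ?_⟩
  have h1 : ∑ i, (l i : Unitization ℂ A) * (a' : Unitization ℂ A) * (r i : Unitization ℂ A) -
      (b' : Unitization ℂ A) = ((∑ i, l i * a' * r i - b' : A) : Unitization ℂ A) := by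
    rw [Unitization.inr_sub, inr_sum]
    congr 1
    refine Finset.sum_congr rfl fun i _ => ?_
    rw [Unitization.inr_mul, Unitization.inr_mul]
  rw [h1, Unitization.norm_inr]
  exact hlr.le

end

end Vale.Agent.P095M
end

section

/-! Equivariant `𝒵`-stability of actions on not necessarily unital C*-algebras. -/

open Filter Topology
open scoped MultiplierAlgebra TensorProduct

namespace Vale.Agent.P095K

open Vale.Agent.P095 Vale.Agent.P095J Vale.Agent.P095N Vale.Agent.P095R Vale.Agent.P133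
  Vale.Agent.P095M Vale.Agent.P101

universe u v w

variable {A Z B : Type u} [NonUnitalCStarAlgebra A] [CStarAlgebra Z] [NonUnitalCStarAlgebra B]

/-- `𝒵`-stable algebras have central sequence algebras without characters. -/
theorem noCharLocI_of_zstable (hZ : IsJiangSuAlgebra Z) (hZ' : IsStronglySelfAbsorbing Z)
    (T : A →ₗ[ℂ] Z →ₗ[ℂ] B) (hB : IsTensorCompletionN T) (hAB : Nonempty (A ≃⋆ₐ[ℂ] B)) :
    NoCharLocI (inrIdeal A) := by
  obtain ⟨Φ⟩ := hAB
  refine noCharLocI_of_hom (noCharLocB_of_tensor hB hZ hZ')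
    ((Unitization.inrNonUnitalStarAlgHom ℂ A).comp (Φ.symm : B →⋆ₙₐ[ℂ] A)) fun x hx => ?_
  obtain ⟨a, rfl⟩ := mem_inrIdeal_iff.1 hx
  refine ⟨Φ a, ?_⟩
  show Unitization.inrNonUnitalStarAlgHom ℂ A (Φ.symm (Φ a)) = _
  rw [StarAlgEquiv.symm_apply_apply]
  rfl

theorem invI_unitAct {G : Type w} [Group G] (α : G →* (A ≃⋆ₐ[ℂ] A)) :
    InvI (inrIdeal A) (unitAct α) := by
  intro g b hb
  obtain ⟨a, rfl⟩ := mem_inrIdeal_iff.1 hb
  rw [unitAct_apply, unitAut_inr]
  exact inr_mem _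

/-- The last step. -/
theorem zstableN_of_localNoCharR [TopologicalSpace.SeparableSpace A] {G : Type w} [Group G]
    [Countable G] (α : G →* (A ≃⋆ₐ[ℂ] A)) (h : LocalNoCharR (inrIdeal A) (unitAct α)) :
    EquivariantlyZStableN α :=
  zstableN_of_local α (noCharLocalN_of_wst α (wstLocalN_of_localNoCharR (invI_unitAct α)
    (unitMult A) (fun a => (Unitization.inr a : Unitization ℂ A)) (fun a => inr_mem a)
    (fun a => unitMult_inr a) (fun g x => unitMult_act α g x) h))

theorem sepI_inrIdeal [TopologicalSpace.SeparableSpace A] : P095N.SepI (inrIdeal A) := by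
  refine ⟨fun n => ((TopologicalSpace.denseSeq A n : A) : Unitization ℂ A), fun n => inr_mem _,
    fun b hb ε hε => ?_⟩
  obtain ⟨a, rfl⟩ := mem_inrIdeal_iff.1 hb
  obtain ⟨n, hn⟩ := (TopologicalSpace.denseRange_denseSeq A).exists_dist_lt a hε
  refine ⟨n, ?_⟩
  rw [← Unitization.inr_sub, Unitization.norm_inr, ← dist_eq_norm]
  exact hn

/-- The main theorem, in terms of the ideal of the unitization. -/
theorem zstableN_of_ideal [TopologicalSpace.SeparableSpace A] (hne : ∃ a : A, a ≠ 0)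
    (hS : SimpleI (inrIdeal A)) (hN : IsNuclearN A) (hNC : NoCharLocI (inrIdeal A))
    {G : Type w} [Group G] [Countable G] (hG : IsAmenable G) (α : G →* (A ≃⋆ₐ[ℂ] A)) :
    EquivariantlyZStableN α := by
  let _ : PartialOrder (Unitization ℂ A) := CStarAlgebra.spectralOrder _
  have _ : StarOrderedRing (Unitization ℂ A) := CStarAlgebra.spectralOrderedRing _
  obtain ⟨a, ha⟩ := hne
  refine zstableN_of_localNoCharR α (localNoCharR_of hS ⟨a, inr_mem a, fun h => ha ?_⟩
    sepI_inrIdeal (isNuclear_unitization hN) hNC _ (invI_unitAct α) hG)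
  exact Unitization.inr_injective (R := ℂ) h

theorem isSimpleN_of_alg (h : IsSimpleAlg A) :
    IsSimpleN A := by
  refine ⟨h.nonzero, fun I hI => ?_⟩
  let _ : PartialOrder A := CStarAlgebra.spectralOrder A
  have _ : StarOrderedRing A := CStarAlgebra.spectralOrderedRing A
  have hsmul : ∀ (c : ℂ) (x : A), x ∈ I → c • x ∈ I := by
    intro c x hx
    have hU := CStarAlgebra.increasingApproximateUnit A
    have _ : NeBot (CStarAlgebra.approximateUnit A) := hU.neBot
    have h1 : Tendsto (fun e : A => c • (e * x)) (CStarAlgebra.approximateUnit A) (𝓝 (c • x)) :=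
      (hU.tendsto_mul_right x).const_smul c
    refine hI.mem_of_tendsto h1 (Eventually.of_forall fun e => ?_)
    show c • (e * x) ∈ I
    rw [← smul_mul_assoc]
    exact I.mul_mem_left _ _ hx
  let J : Submodule ℂ A :=
    { carrier := (I : Set A)
      add_mem' := fun hx hy => I.add_mem hx hy
      zero_mem' := I.zero_mem
      smul_mem' := fun c x hx => hsmul c x hx }
  rcases h.ideal J hI fun x hx a => ⟨I.mul_mem_left _ _ hx, I.mul_mem_right _ _ hx⟩ with hJ | hJ
  · left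
    refine SetLike.ext fun x => ?_
    rw [TwoSidedIdeal.mem_bot]
    have : x ∈ J ↔ x = 0 := by rw [hJ, Submodule.mem_bot]
    exact this
  · right
    refine SetLike.ext fun x => ?_
    have : x ∈ J ↔ True := by rw [hJ]; simp
    exact ⟨fun _ => trivial, fun _ => this.2 trivial⟩

/-- The main theorem. -/
theorem general_case [TopologicalSpace.SeparableSpace A] (hS : IsSimpleAlg A)
    (hA : IsNuclearAlg A) (hZ : IsJiangSuAlgebra Z) (hZ' : IsStronglySelfAbsorbing Z)
    (T : A →ₗ[ℂ] Z →ₗ[ℂ] B) (hB : IsTensorCompletionN T) (hAB : Nonempty (A ≃⋆ₐ[ℂ] B))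
    {G : Type w} [Group G] [Countable G] (hG : IsAmenable G) (α : G →* (A ≃⋆ₐ[ℂ] A)) :
    EquivariantlyZStableN α :=
  zstableN_of_ideal hS.nonzero (simpleI_inr (isSimpleN_of_alg hS)) hA
    (noCharLocI_of_zstable hZ hZ' T hB hAB) hG α

end Vale.Agent.P095K
end

section

/-! The general case, with the definitions of the final statement. -/

open scoped MultiplierAlgebra TensorProduct

namespace Vale.Agent.P095K

open Vale.Agent.P095 Vale.Agent.P095R Vale.Agent.P101

universe u w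

theorem isCocycleConj_of {A B : Type u} [NonUnitalCStarAlgebra A] [NonUnitalCStarAlgebra B]
    {G : Type w} [Group G] {α : G →* (A ≃⋆ₐ[ℂ] A)} {β : G →* (B ≃⋆ₐ[ℂ] B)}
    (h : CocycleConjugateN α β) : IsCocycleConj α β := by
  obtain ⟨Φ, u, hu, hc, hΦ⟩ := h.conj
  refine ⟨Φ, u, hu, fun g h b => ?_, hΦ⟩
  rw [hc g h, DoubleCentralizer.mul_fst]
  show (u g).fst ((multAut (β g) (u h)).fst (β g b)) = _
  rw [multAut_fst, StarAlgEquiv.symm_apply_apply]

theorem IsTensorProd.isTensorCompletionN {A Z B : Type u} [NonUnitalCStarAlgebra A]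
    [CStarAlgebra Z] [NonUnitalCStarAlgebra B] {T : A →ₗ[ℂ] Z →ₗ[ℂ] B} (h : IsTensorProd T) :
    IsTensorCompletionN T := ⟨h.map_mul, h.map_star, h.injective, h.dense⟩

theorem general_conj {A Z B : Type u} [NonUnitalCStarAlgebra A] [CStarAlgebra Z]
    [NonUnitalCStarAlgebra B] [TopologicalSpace.SeparableSpace A] (hS : IsSimpleAlg A)
    (hA : IsNuclearAlg A) (hZ : IsJiangSuAlgebra Z) (hZ' : IsStronglySelfAbsorbing Z)
    (T : A →ₗ[ℂ] Z →ₗ[ℂ] B) (hB : IsTensorProd T) (hAB : Nonempty (A ≃⋆ₐ[ℂ] B))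
    {G : Type w} [Group G] [Countable G] (hG : IsAmenable G) (α : G →* (A ≃⋆ₐ[ℂ] A))
    (β : G →* (B ≃⋆ₐ[ℂ] B)) (hβ : ∀ g a z, β g (T a z) = T (α g a) z) : IsCocycleConj α β :=
  isCocycleConj_of ((general_case hS hA hZ hZ' T hB.isTensorCompletionN hAB hG α).conj Z B T β hZ
    hB.isTensorCompletionN hβ)

end Vale.Agent.P095K
end

section

/-! The unital case from the general case. -/

namespace Vale.Agent.P095R.UConv

universe u w

open Vale.Agent.P101 Vale.Agent.P095

theorem unital_of_general {A Z B : Type u} [CStarAlgebra A] [CStarAlgebra Z] [CStarAlgebra B]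
    [TopologicalSpace.SeparableSpace A] [IsSimpleRing A] (hA : Vale.Agent.P083.IsNuclear A)
    (hZ : IsJiangSuAlgebra Z) (hZ' : IsStronglySelfAbsorbing Z)
    (i : A →⋆ₐ[ℂ] B) (j : Z →⋆ₐ[ℂ] B) (hB : IsTensorCompletion i j)
    (hAB : Nonempty (A ≃⋆ₐ[ℂ] B)) {G : Type w} [Group G] [Countable G] (hG : IsAmenable G)
    (α : G →* (A ≃⋆ₐ[ℂ] A)) (β : G →* (B ≃⋆ₐ[ℂ] B)) (hβ : IsTensorTrivial i j α β) :
    CocycleConjugate α β :=
  cocycleConjugate_of_N
    ((Vale.Agent.P095K.general_case (isSimpleAlg_of_isSimpleRing A)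
      (isNuclearAlg_of_isNuclear hA) hZ hZ' (bil i j) (isTensorCompletionN_bil hB) hAB hG α).conj
      Z B (bil i j) β hZ (isTensorCompletionN_bil hB) (fun g a z => by
        rw [bil_apply, bil_apply, map_mul, hβ.left, hβ.right]))

end Vale.Agent.P095R.UConv
end
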